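import Vale.Agent.P137.Cen.CenMx

/-!
P137, centred operator: the real centred maximal function of a smooth input.
-/

open MeasureTheory Metric Set Filter
open scoped ENNReal NNReal Gradient Topology

namespace Vale.Agent.P137.Cen

open Vale.Agent.P137.Unc

noncomputable section

variable {d : ℕ} {u : E d → ℝ}

/-- The real centred maximal function (used for smooth inputs only, where it is finite). -/
def cmax (u : E d → ℝ) (x : E d) : ℝ := sSup {a | ∃ r : ℝ, 0 < r ∧ a = ballAvg u x r}

lemma cmax_bddAbove (hu : Smooth u) (x : E d) :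
    BddAbove {a | ∃ r : ℝ, 0 < r ∧ a = ballAvg u x r} := by
  refine ⟨umax u x, ?_⟩
  rintro _ ⟨r, hr, rfl⟩
  exact le_umax hu hr (by simp [hr.le])

lemma le_cmax (hu : Smooth u) (x : E d) {r : ℝ} (hr : 0 < r) : ballAvg u x r ≤ cmax u x :=
  le_csSup (cmax_bddAbove hu x) ⟨r, hr, rfl⟩

lemma cmax_le {x : E d} {C : ℝ} (h : ∀ r : ℝ, 0 < r → ballAvg u x r ≤ C) : cmax u x ≤ C :=
  csSup_le ⟨_, 1, one_pos, rfl⟩ (by rintro _ ⟨r, hr, rfl⟩; exact h r hr)

lemma cmax_nonneg (hu : Smooth u) (x : E d) : 0 ≤ cmax u x :=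
  (ballAvg_nonneg hu x 1).trans (le_cmax hu x one_pos)

lemma cmax_le_umax (hu : Smooth u) (x : E d) : cmax u x ≤ umax u x :=
  cmax_le fun _ hr => le_umax hu hr (by simp [hr.le])

lemma cmx_eq_cmax (hu : Smooth u) (x : E d) : cmx u x = ENNReal.ofReal (cmax u x) := by
  refine le_antisymm (cmx_le fun r hr => ?_) ?_
  · rw [← ofReal_ballAvg hu x hr]
    exact ENNReal.ofReal_le_ofReal (le_cmax hu x hr)
  · have hfin : cmx u x ≠ ⊤ := ne_top_of_le_ne_top
      (by rw [mx_eq_umax hu]; exact ENNReal.ofReal_ne_top) (cmx_le_mx u x)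
    refine ENNReal.ofReal_le_of_le_toReal (cmax_le fun r hr => ?_)
    rw [← ENNReal.toReal_ofReal (ballAvg_nonneg hu x r), ofReal_ballAvg hu x hr]
    exact ENNReal.toReal_mono hfin (le_cmx u hr)

theorem locallyLipschitz_cmax (hu : Smooth u) : LocallyLipschitz (cmax u) := by
  have hV := unitVol_pos (d := d)
  intro x0
  obtain ⟨K, hK⟩ := hu.contDiff.locallyLipschitz.locallyLipschitzOn.exists_lipschitzOnWith_of_compact
    (isCompact_closedBall x0 4)
  set C : ℝ≥0 := max K (gnorm u / volume.real (ball (0 : E d) 1)).toNNReal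
  refine ⟨C, ball x0 1, ball_mem_nhds _ one_pos, LipschitzOnWith.of_le_add_mul C fun x hx y hy => ?_⟩
  refine cmax_le fun r hr => ?_
  refine le_trans ?_ (add_le_add_left (le_cmax hu y hr) _)
  rw [ballAvg_eq_nAvg u x hr, ballAvg_eq_nAvg u y hr, dist_eq_norm']
  suffices h : |nAvg u (x + (y - x)) r - nAvg u x r| ≤ C * ‖y - x‖ by
    rw [add_sub_cancel] at h
    have := abs_le.1 h; linarith
  rcases le_total 1 r with h1 | h1
  · refine (abs_nAvg_sub_le hu x (y - x) hr).trans ?_
    rw [mul_comm]
    refine mul_le_mul_of_nonneg_right ?_ (norm_nonneg _)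
    refine le_trans ?_ (NNReal.coe_le_coe.2 (le_max_right K _))
    rw [Real.coe_toNNReal', volume_real_ball x hr]
    refine le_max_of_le_left ?_
    refine div_le_div_of_nonneg_left (integral_nonneg fun _ => norm_nonneg _) hV ?_
    exact le_mul_of_one_le_left hV.le (one_le_pow₀ h1)
  · have hc : ∀ z : E d, Continuous fun w => u (z + r • w) := fun z =>
      hu.contDiff.continuous.comp (by fun_prop)
    rw [nAvg, nAvg, ← mul_sub, abs_mul, abs_of_pos (inv_pos.2 hV),
      ← integral_sub ((hc _).continuousOn.integrableOn_compact (isCompact_closedBall 0 1))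
        ((hc _).continuousOn.integrableOn_compact (isCompact_closedBall 0 1)),
      inv_mul_le_iff₀ hV]
    have hb : ∀ w ∈ closedBall (0 : E d) 1,
        ‖u (x + (y - x) + r • w) - u (x + r • w)‖ ≤ C * ‖y - x‖ := by
      intro w hw
      rw [mem_closedBall, dist_zero_right] at hw
      have hrw : ‖r • w‖ ≤ 1 := by
        rw [norm_smul, Real.norm_eq_abs, abs_of_pos hr]
        exact mul_le_one₀ h1 (norm_nonneg _) hw
      rw [mem_ball, dist_eq_norm] at hx hy
      have h1' : ‖x + r • w - x0‖ ≤ 4 := by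
        have := norm_add_le (x - x0) (r • w)
        rw [show x - x0 + r • w = x + r • w - x0 by abel] at this
        linarith
      have h2' : ‖x + (y - x) + r • w - x0‖ ≤ 4 := by
        have := norm_add_le (y - x0) (r • w)
        rw [show y - x0 + r • w = x + (y - x) + r • w - x0 by abel] at this
        linarith
      have := hK.dist_le_mul _ (by rwa [mem_closedBall, dist_eq_norm] : x + (y - x) + r • w ∈ _)
        _ (by rwa [mem_closedBall, dist_eq_norm] : x + r • w ∈ _)
      rw [dist_eq_norm, dist_eq_norm,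
        show x + (y - x) + r • w - (x + r • w) = y - x by abel] at this
      exact this.trans (mul_le_mul_of_nonneg_right (NNReal.coe_le_coe.2 (le_max_left K _))
        (norm_nonneg _))
    refine (norm_setIntegral_le_of_norm_le_const measure_closedBall_lt_top hb).trans_eq ?_
    rw [volume_closedBall_one]
    ring

end

end Vale.Agent.P137.Cen
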