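import Vale.Agent.P137.Unc.Max
import Vale.Agent.P137.Unc.KernelId

/-!
# P137, centred operator: derivatives of ball averages and the rotation identity

The average of `u` over the ball of centre `x` and radius `r` is differentiable in `(x, r)`, and
the field of an infinitesimal rotation has zero pairing with the gradient on every centred ball.
-/

open MeasureTheory Metric Set Filter Topology
open scoped ENNReal RealInnerProductSpace Gradient

namespace Vale.Agent.P137.Cen

open Vale.Agent.P137.Unc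

noncomputable section

variable {d : ℕ}

/-- The derivative of the normalised average in the centre and the radius. -/
theorem hasFDerivAt_nAvg {u : E d → ℝ} (hu : ContDiff ℝ 1 u) (x : E d) (r : ℝ) :
    ∃ L : E d × ℝ →L[ℝ] ℝ, HasFDerivAt (fun q : E d × ℝ => nAvg u q.1 q.2) L (x, r) ∧
      ∀ v s, L (v, s) = (volume.real (ball (0 : E d) 1))⁻¹ *
        ∫ w in closedBall (0 : E d) 1, fderiv ℝ u (x + r • w) (v + s • w) := by
  have hc := hu.continuous
  have hd1 : Continuous (fderiv ℝ u) := hu.continuous_fderiv one_ne_zero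
  set T : E d → (E d × ℝ →L[ℝ] E d) := fun w =>
    ContinuousLinearMap.fst ℝ (E d) ℝ + (ContinuousLinearMap.snd ℝ (E d) ℝ).smulRight w with hT
  set F' : E d × ℝ → E d → (E d × ℝ →L[ℝ] ℝ) := fun q w =>
    (fderiv ℝ u (q.1 + q.2 • w)).comp (T w) with hF'
  have hTc : Continuous T := by
    simp only [hT]
    exact continuous_const.add
      ((ContinuousLinearMap.smulRightL ℝ (E d × ℝ) (E d)
        (ContinuousLinearMap.snd ℝ (E d) ℝ)).continuous)
  have hF'c : Continuous fun p : (E d × ℝ) × E d => F' p.1 p.2 := by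
    simp only [hF']
    exact (hd1.comp (by fun_prop)).clm_comp (hTc.comp continuous_snd)
  obtain ⟨C, hC⟩ := ((isCompact_closedBall (x, r) 1).prod
    (isCompact_closedBall (0 : E d) 1)).exists_bound_of_continuousOn hF'c.continuousOn
  set μ := volume.restrict (closedBall (0 : E d) 1)
  have hi : Integrable (F' (x, r)) μ :=
    (hF'c.comp (Continuous.prodMk_right (x, r))).continuousOn.integrableOn_compact
      (isCompact_closedBall 0 1)
  have h := hasFDerivAt_integral_of_dominated_of_fderiv_le (μ := μ)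
    (F := fun (q : E d × ℝ) w => u (q.1 + q.2 • w)) (F' := F') (bound := fun _ => C)
    (closedBall_mem_nhds (x, r) one_pos)
    (Eventually.of_forall fun q => (hc.comp (by fun_prop :
      Continuous fun w : E d => q.1 + q.2 • w)).aestronglyMeasurable)
    ((hc.comp (by fun_prop : Continuous fun w : E d => x + r • w)).continuousOn.integrableOn_compact
      (isCompact_closedBall 0 1))
    hi.aestronglyMeasurable
    ((ae_restrict_mem measurableSet_closedBall).mono fun w hw q hq => hC (q, w) ⟨hq, hw⟩)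
    (integrableOn_const measure_closedBall_lt_top.ne)
    (Eventually.of_forall fun w q _ => by
      have h1 : HasFDerivAt (fun q : E d × ℝ => q.1 + q.2 • w) (T w) q := (T w).hasFDerivAt
      exact ((hu.differentiable one_ne_zero _).hasFDerivAt).comp q h1)
  refine ⟨(volume.real (ball (0 : E d) 1))⁻¹ • ∫ w, F' (x, r) w ∂μ,
    h.const_mul _, fun v s => ?_⟩
  rw [smul_apply, smul_eq_mul, ContinuousLinearMap.integral_apply hi]
  congr 1


/-- Integrals over a ball in normalised variables. -/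
theorem setIntegral_ball_scale (f : E d → ℝ) (x : E d) {r : ℝ} (hr : 0 < r) :
    ∫ y in ball x r, f y = r ^ d * ∫ w in closedBall (0 : E d) 1, f (x + r • w) := by
  rw [setIntegral_scale f x hr, setIntegral_closedBall_eq f x hr, ← mul_assoc,
    mul_inv_cancel₀ (by positivity), one_mul]

/-- The derivative of the average in the centre and the radius, over the ball itself. -/
theorem hasFDerivAt_ballAvg_c1 {u : E d → ℝ} (hu : ContDiff ℝ 1 u) (x : E d) {r : ℝ} (hr : 0 < r) :
    ∃ L : E d × ℝ →L[ℝ] ℝ, HasFDerivAt (fun q : E d × ℝ => ballAvg u q.1 q.2) L (x, r) ∧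
      ∀ v s, volume.real (ball x r) * L (v, s) =
        ∫ y in ball x r, ⟪∇ u y, v + (s / r) • (y - x)⟫ := by
  obtain ⟨L, hL, hLv⟩ := hasFDerivAt_nAvg hu x r
  refine ⟨L, hL.congr_of_eventuallyEq ?_, fun v s => ?_⟩
  · filter_upwards [(continuous_snd.tendsto (x, r)).eventually (lt_mem_nhds hr)] with q hq
    exact ballAvg_eq_nAvg u q.1 hq
  · rw [hLv, setIntegral_ball_scale _ x hr, volume_real_ball x hr]
    have hV := unitVol_pos (d := d)
    simp only [inner_gradient_eq, add_sub_cancel_left, smul_smul, div_mul_cancel₀ s hr.ne']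
    field_simp

/-- The reflection along a nonzero vector `c`. -/
def refl (c w : E d) : E d := w - (2 * ⟪c, w⟫ / ‖c‖ ^ 2) • c

theorem setIntegral_refl (f : E d → ℝ) {c : E d} (hc : c ≠ 0) :
    ∫ w in closedBall (0 : E d) 1, f (refl c w) = ∫ w in closedBall (0 : E d) 1, f w := by
  set R : E d ≃ₗᵢ[ℝ] E d := (ℝ ∙ c)ᗮ.reflection
  have e : ∀ w, R w = refl c w := fun w => by
    simp only [R, refl, Submodule.reflection_orthogonal_apply]
    rw [Submodule.reflection_singleton_apply]
    simp only [RCLike.ofReal_real_eq_id, id_eq, two_smul, neg_sub, ← add_smul]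
    congr 2
    ring
  have hs : R ⁻¹' closedBall (0 : E d) 1 = closedBall 0 1 := by
    rw [LinearIsometryEquiv.preimage_closedBall, map_zero]
  have := R.measurePreserving.setIntegral_preimage_emb R.toMeasurableEquiv.measurableEmbedding f
    (closedBall (0 : E d) 1)
  rw [hs] at this
  simpa only [e] using this

theorem refl_refl {c : E d} (hc : c ≠ 0) (w : E d) : refl c (refl c w) = w := by
  have := norm_ne_zero_iff.2 hc
  simp only [refl, inner_sub_right, real_inner_smul_right, real_inner_self_eq_norm_sq]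
  rw [sub_sub, ← add_smul, show 2 * ⟪c, w⟫ / ‖c‖ ^ 2 +
    2 * (⟪c, w⟫ - 2 * ⟪c, w⟫ / ‖c‖ ^ 2 * ‖c‖ ^ 2) / ‖c‖ ^ 2 = 0 by field_simp; ring,
    zero_smul, sub_zero]

/-- Infinitesimal rotations do not change the average: orthogonal generators. -/
theorem rotation_identity_orth {u : E d → ℝ} (hu : ContDiff ℝ 1 u) (x : E d) (r : ℝ)
    {a : E d} (ha : ‖a‖ = 1) {v : E d} (hv : ⟪a, v⟫ = 0) :
    ∫ w in closedBall (0 : E d) 1,
      fderiv ℝ u (x + r • w) (⟪v, r • w⟫ • a - ⟪a, r • w⟫ • v) = 0 := by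
  have hane : a ≠ 0 := fun h => by simp [h] at ha
  have hd1 : Continuous (fderiv ℝ u) := hu.continuous_fderiv one_ne_zero
  set N : ℝ → ℝ := fun θ => 1 + θ ^ 2 * ‖v‖ ^ 2
  have hN : ∀ θ, 0 < N θ := fun θ => by simp only [N]; positivity
  set k : ℝ → E d → ℝ := fun θ w => 2 * (⟪a, w⟫ + θ * ⟪v, w⟫) / N θ
  set k' : ℝ → E d → ℝ := fun θ w =>
    (2 * ⟪v, w⟫ * N θ - 2 * (⟪a, w⟫ + θ * ⟪v, w⟫) * (2 * θ * ‖v‖ ^ 2)) / N θ ^ 2
  have hk : Continuous fun p : ℝ × E d => k p.1 p.2 :=
    Continuous.div (by fun_prop) (by fun_prop) fun p => (hN p.1).ne'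
  have hk' : Continuous fun p : ℝ × E d => k' p.1 p.2 :=
    Continuous.div (by fun_prop) (by fun_prop) fun p => pow_ne_zero 2 (hN p.1).ne'
  have hnorm : ∀ θ : ℝ, ‖a + θ • v‖ ^ 2 = N θ := fun θ => by
    rw [norm_add_sq_real, real_inner_smul_right, hv, ha, norm_smul, mul_pow, Real.norm_eq_abs,
      sq_abs]
    ring
  have hne : ∀ θ : ℝ, a + θ • v ≠ 0 := fun θ h => by
    have := hnorm θ; rw [h, norm_zero] at this; linarith [hN θ]
  have hrefl : ∀ (θ : ℝ) (w : E d), refl (a + θ • v) w = w - k θ w • (a + θ • v) := fun θ w => by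
    simp only [refl, hnorm, inner_add_left, real_inner_smul_left, k]
  set F' : ℝ → E d → ℝ := fun θ w =>
    fderiv ℝ u (x + r • (w - k θ w • (a + θ • v)))
      (r • -(k θ w • v + k' θ w • (a + θ • v)))
  have hF'c : Continuous fun p : ℝ × E d => F' p.1 p.2 :=
    (hd1.comp (by fun_prop)).clm_apply (by fun_prop)
  obtain ⟨C, hC⟩ := ((isCompact_closedBall (0 : ℝ) 1).prod
    (isCompact_closedBall (0 : E d) 1)).exists_bound_of_continuousOn hF'c.continuousOn
  have hder : ∀ (θ : ℝ) (w : E d),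
      HasDerivAt (fun θ : ℝ => u (x + r • (w - k θ w • (a + θ • v)))) (F' θ w) θ := by
    intro θ w
    have h1 : HasDerivAt (fun θ : ℝ => a + θ • v) v θ := by
      simpa using ((hasDerivAt_id θ).smul_const v).const_add a
    have h2 : HasDerivAt (fun θ : ℝ => 2 * (⟪a, w⟫ + θ * ⟪v, w⟫)) (2 * ⟪v, w⟫) θ := by
      simpa using (((hasDerivAt_id θ).mul_const ⟪v, w⟫).const_add ⟪a, w⟫).const_mul 2
    have h3 : HasDerivAt N (2 * θ * ‖v‖ ^ 2) θ := by
      simp only [N]
      simpa using HasDerivAt.const_add (1 : ℝ) ((hasDerivAt_pow 2 θ).mul_const (‖v‖ ^ 2))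
    exact ((hu.differentiable one_ne_zero _).hasFDerivAt).comp_hasDerivAt θ
      ((((((h2.div h3 (hN θ).ne').smul h1)).const_sub w).const_smul r).const_add x)
  have h := (hasDerivAt_integral_of_dominated_loc_of_deriv_le
    (μ := volume.restrict (closedBall (0 : E d) 1))
    (F := fun θ w => u (x + r • (w - k θ w • (a + θ • v)))) (F' := F') (bound := fun _ => C)
    (closedBall_mem_nhds (0 : ℝ) one_pos)
    (Eventually.of_forall fun θ => (hu.continuous.comp (by fun_prop :
      Continuous fun w : E d => x + r • (w - k θ w • (a + θ • v)))).aestronglyMeasurable)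
    ((hu.continuous.comp (by fun_prop :
      Continuous fun w : E d => x + r • (w - k 0 w • (a + (0 : ℝ) • v)))).continuousOn.integrableOn_compact
      (isCompact_closedBall 0 1))
    ((hF'c.comp (Continuous.prodMk_right (0 : ℝ))).aestronglyMeasurable)
    ((ae_restrict_mem measurableSet_closedBall).mono fun w hw θ hθ => hC (θ, w) ⟨hθ, hw⟩)
    (integrableOn_const measure_closedBall_lt_top.ne)
    (Eventually.of_forall fun w θ _ => hder θ w)).2
  have hconst : (fun θ : ℝ => ∫ w in closedBall (0 : E d) 1,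
      u (x + r • (w - k θ w • (a + θ • v)))) = fun _ => ∫ w in closedBall (0 : E d) 1,
      u (x + r • w) := by
    funext θ
    simp only [← hrefl]
    exact setIntegral_refl (fun w => u (x + r • w)) (hne θ)
  rw [hconst] at h
  have h0 : ∫ w in closedBall (0 : E d) 1, F' 0 w = 0 := h.unique (hasDerivAt_const 0 _)
  rw [← setIntegral_refl (F' 0) hane] at h0
  have e : ∀ w, F' 0 (refl a w) =
      -2 * fderiv ℝ u (x + r • w) (⟪v, r • w⟫ • a - ⟪a, r • w⟫ • v) := by
    intro w
    have e1 : ⟪a, refl a w⟫ = -⟪a, w⟫ := by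
      simp only [refl, inner_sub_right, real_inner_smul_right, real_inner_self_eq_norm_sq, ha]
      ring
    have e2 : ⟪v, refl a w⟫ = ⟪v, w⟫ := by
      simp only [refl, inner_sub_right, real_inner_smul_right, real_inner_comm a v, hv]
      ring
    have e3 : refl a w - k 0 (refl a w) • (a + (0 : ℝ) • v) = w := by
      rw [← hrefl, zero_smul, add_zero, refl_refl hane]
    simp only [F']
    rw [e3]
    simp only [k, k', N, e1, e2, zero_smul, add_zero, zero_mul, mul_zero, sub_zero, ne_eq,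
      OfNat.ofNat_ne_zero, not_false_eq_true, zero_pow, div_one, one_pow, mul_one, map_smul,
      map_neg, map_add, map_sub, real_inner_smul_right, smul_eq_mul]
    ring
  simp only [e, integral_const_mul, mul_eq_zero, neg_eq_zero, OfNat.ofNat_ne_zero, false_or] at h0
  exact h0

/-- Infinitesimal rotations do not change the average. -/
theorem rotation_identity {u : E d → ℝ} (hu : ContDiff ℝ 1 u) (x : E d) {r : ℝ} (hr : 0 < r)
    {a : E d} (ha : ‖a‖ = 1) (v : E d) :
    ∫ y in ball x r, ⟪∇ u y, ⟪v, y - x⟫ • a - ⟪a, y - x⟫ • v⟫ = 0 := by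
  have hv : ⟪a, v - ⟪a, v⟫ • a⟫ = 0 := by
    rw [inner_sub_right, real_inner_smul_right, real_inner_self_eq_norm_sq, ha]; ring
  have h := rotation_identity_orth hu x r ha hv
  rw [setIntegral_ball_scale _ x hr]
  refine mul_eq_zero_of_right _ ?_
  rw [← h]
  refine setIntegral_congr_fun measurableSet_closedBall fun w _ => ?_
  simp only [add_sub_cancel_left, inner_gradient_eq]
  congr 1
  simp only [inner_sub_left, real_inner_smul_left, sub_smul, smul_sub, smul_smul]
  rw [mul_comm ⟪a, r • w⟫ ⟪a, v⟫]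
  abel

/-- The affine field of the pinned expansion: it vanishes at the pole `x + r • a`. -/
def pinV (x a v : E d) (r : ℝ) (y : E d) : E d :=
  r⁻¹ • (-⟪a, y - (x + r • a)⟫ • v + ⟪v, y - (x + r • a)⟫ • a - ⟪v, a⟫ • (y - (x + r • a)))

theorem norm_pinV_le {x a v : E d} {r : ℝ} (hr : 0 < r) (ha : ‖a‖ = 1) (y : E d) :
    ‖pinV x a v r y‖ ≤ 3 * ‖v‖ * ‖y - (x + r • a)‖ / r := by
  set w := y - (x + r • a)
  have h1 : ‖-⟪a, w⟫ • v‖ ≤ ‖v‖ * ‖w‖ := by
    rw [norm_smul, norm_neg, Real.norm_eq_abs, mul_comm]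
    have := abs_real_inner_le_norm a w
    rw [ha, one_mul] at this
    gcongr
  have h2 : ‖⟪v, w⟫ • a‖ ≤ ‖v‖ * ‖w‖ := by
    rw [norm_smul, Real.norm_eq_abs, ha, mul_one]; exact abs_real_inner_le_norm v w
  have h3 : ‖⟪v, a⟫ • w‖ ≤ ‖v‖ * ‖w‖ := by
    rw [norm_smul, Real.norm_eq_abs]
    have := abs_real_inner_le_norm v a
    rw [ha, mul_one] at this
    gcongr
  have h := norm_sub_le (-⟪a, w⟫ • v + ⟪v, w⟫ • a) (⟪v, a⟫ • w)
  have h' := norm_add_le (-⟪a, w⟫ • v) (⟪v, w⟫ • a)
  simp only [pinV, norm_smul r⁻¹, Real.norm_eq_abs, abs_of_pos (inv_pos.2 hr)]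
  rw [inv_mul_le_iff₀ hr, mul_div_cancel₀ _ hr.ne']
  linarith

/-- The pinned expansion at a radius where the average is stationary. -/
theorem pinned_identity {u : E d → ℝ} (hu : ContDiff ℝ 1 u) (x : E d) {r : ℝ} (hr : 0 < r)
    {a : E d} (ha : ‖a‖ = 1) (v : E d)
    (hst : ∫ y in ball x r, ⟪∇ u y, y - x⟫ = 0) :
    ∫ y in ball x r, ⟪∇ u y, v⟫ = ∫ y in ball x r, ⟪∇ u y, pinV x a v r y⟫ := by
  have hd1 : Continuous (fderiv ℝ u) := hu.continuous_fderiv one_ne_zero
  have hi : ∀ F : E d → E d, Continuous F → IntegrableOn (fun y => ⟪∇ u y, F y⟫) (ball x r) := by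
    intro F hF
    simp only [inner_gradient_eq]
    exact ((hd1.clm_apply hF).continuousOn.integrableOn_compact
      (isCompact_closedBall x r)).mono_set ball_subset_closedBall
  have hrot := rotation_identity hu x hr ha v
  have hA : IntegrableOn (fun y => ⟪∇ u y, ⟪v, y - x⟫ • a - ⟪a, y - x⟫ • v⟫) (ball x r) :=
    hi _ (by fun_prop)
  have hB : IntegrableOn (fun y => ⟪∇ u y, y - x⟫) (ball x r) := hi _ (by fun_prop)
  have e : ∀ y, ⟪∇ u y, pinV x a v r y⟫ = ⟪∇ u y, v⟫ +
      (r⁻¹ * ⟪∇ u y, ⟪v, y - x⟫ • a - ⟪a, y - x⟫ • v⟫ - r⁻¹ * ⟪v, a⟫ * ⟪∇ u y, y - x⟫) := by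
    intro y
    simp only [pinV, ← sub_sub y x (r • a), inner_sub_right, inner_add_right,
      real_inner_smul_right, real_inner_self_eq_norm_sq, ha]
    field_simp
    ring
  simp only [e]
  have hd : IntegrableOn (fun y => r⁻¹ * ⟪∇ u y, ⟪v, y - x⟫ • a - ⟪a, y - x⟫ • v⟫
      - r⁻¹ * ⟪v, a⟫ * ⟪∇ u y, y - x⟫) (ball x r) := (hA.const_mul _).sub (hB.const_mul _)
  rw [integral_add (hi _ continuous_const) hd, integral_sub (hA.const_mul _) (hB.const_mul _),
    integral_const_mul, integral_const_mul, hrot, hst]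
  ring

/-- At an interior maximiser in the radius the average is stationary and the gradient of the
supremum is the average of the gradient. -/
theorem envelope_interior {u U : E d → ℝ} (hu : ContDiff ℝ 1 u) {x : E d} {r : ℝ} (hr : 0 < r)
    (hU : DifferentiableAt ℝ U x) (heq : U x = ballAvg u x r)
    (hle : ∀ᶠ q : E d × ℝ in 𝓝 (x, r), ballAvg u q.1 q.2 ≤ U q.1) :
    (∀ v, volume.real (ball x r) * ⟪∇ U x, v⟫ = ∫ y in ball x r, ⟪∇ u y, v⟫) ∧
      ∫ y in ball x r, ⟪∇ u y, y - x⟫ = 0 := by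
  obtain ⟨L, hL, hLv⟩ := hasFDerivAt_ballAvg_c1 hu x hr
  have hmax : IsLocalMax (fun q : E d × ℝ => ballAvg u q.1 q.2 - U q.1) (x, r) := by
    filter_upwards [hle] with q hq
    simp only [heq]; linarith
  have h1 : HasFDerivAt (fun q : E d × ℝ => U q.1)
      ((fderiv ℝ U x).comp (ContinuousLinearMap.fst ℝ (E d) ℝ)) (x, r) :=
    hU.hasFDerivAt.comp (x, r) (ContinuousLinearMap.fst ℝ (E d) ℝ).hasFDerivAt
  have h0 := hmax.hasFDerivAt_eq_zero (hL.sub h1)
  have key : ∀ v s, L (v, s) = ⟪∇ U x, v⟫ := fun v s => by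
    have := DFunLike.congr_fun h0 (v, s)
    simp only [sub_apply, zero_apply, ContinuousLinearMap.comp_apply,
      ContinuousLinearMap.coe_fst', sub_eq_zero] at this
    rw [this, inner_gradient_eq]
  refine ⟨fun v => ?_, ?_⟩
  · have := hLv v 0
    rw [key] at this
    simpa using this
  · have := hLv 0 r
    rw [key] at this
    simpa [div_self hr.ne'] using this.symm

/-- At a maximiser on a moving endpoint the gradient of the supremum is the derivative along
that endpoint. -/
theorem envelope_endpoint {u U ρ : E d → ℝ} (hu : ContDiff ℝ 1 u) {x : E d} (hr : 0 < ρ x)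
    (hU : DifferentiableAt ℝ U x) (hρ : DifferentiableAt ℝ ρ x)
    (heq : U x = ballAvg u x (ρ x)) (hle : ∀ᶠ y in 𝓝 x, ballAvg u y (ρ y) ≤ U y) (v : E d) :
    volume.real (ball x (ρ x)) * ⟪∇ U x, v⟫ =
      ∫ y in ball x (ρ x), ⟪∇ u y, v + (fderiv ℝ ρ x v / ρ x) • (y - x)⟫ := by
  obtain ⟨L, hL, hLv⟩ := hasFDerivAt_ballAvg_c1 hu x hr
  have hmax : IsLocalMax (fun y => ballAvg u y (ρ y) - U y) x := by
    filter_upwards [hle] with y hy
    simp only [heq]; linarith
  have h1 : HasFDerivAt (fun y => ballAvg u y (ρ y))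
      (L.comp ((ContinuousLinearMap.id ℝ (E d)).prod (fderiv ℝ ρ x))) x :=
    HasFDerivAt.comp (g := fun q : E d × ℝ => ballAvg u q.1 q.2) (f := fun y => (y, ρ y)) x hL
      ((hasFDerivAt_id x).prodMk hρ.hasFDerivAt)
  have h0 := hmax.hasFDerivAt_eq_zero (h1.sub hU.hasFDerivAt)
  have := DFunLike.congr_fun h0 v
  simp only [sub_apply, zero_apply, ContinuousLinearMap.comp_apply,
    ContinuousLinearMap.prod_apply, ContinuousLinearMap.id_apply, sub_eq_zero] at this
  rw [inner_gradient_eq, ← this, hLv]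

/-- A skew field has zero pairing with the gradient on every centred ball. -/
theorem setIntegral_skew_c1 {u : E d → ℝ} (hu : ContDiff ℝ 1 u) (x : E d) {r : ℝ} (hr : 0 < r)
    (A : E d →L[ℝ] E d) (hA : ∀ v w : E d, ⟪A v, w⟫ = -⟪v, A w⟫) :
    ∫ y in ball x r, ⟪∇ u y, A (y - x)⟫ = 0 := by
  have hd1 : Continuous (fderiv ℝ u) := hu.continuous_fderiv one_ne_zero
  set b := EuclideanSpace.basisFun (Fin d) ℝ
  set F : Fin d → E d → ℝ := fun i y =>
    ⟪∇ u y, ⟪A (b i), y - x⟫ • b i - ⟪b i, y - x⟫ • A (b i)⟫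
  have hi : ∀ i, IntegrableOn (F i) (ball x r) := by
    intro i
    simp only [F, inner_gradient_eq]
    exact ((hd1.clm_apply (by fun_prop)).continuousOn.integrableOn_compact
      (isCompact_closedBall x r)).mono_set ball_subset_closedBall
  have e : ∀ w : E d, A w = -(2 : ℝ)⁻¹ • ∑ i, (⟪A (b i), w⟫ • b i - ⟪b i, w⟫ • A (b i)) := by
    intro w
    have h2 : ∑ i, ⟪b i, w⟫ • A (b i) = A w := by
      conv_rhs => rw [← b.sum_repr' w]
      rw [map_sum]
      exact Finset.sum_congr rfl fun i _ => (map_smul A _ _).symm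
    have h1 : ∑ i, ⟪A (b i), w⟫ • b i = -A w := by
      conv_rhs => rw [← b.sum_repr' (A w)]
      simp only [hA, neg_smul, Finset.sum_neg_distrib]
    rw [Finset.sum_sub_distrib, h1, h2]
    module
  calc ∫ y in ball x r, ⟪∇ u y, A (y - x)⟫
      = ∫ y in ball x r, -(2 : ℝ)⁻¹ * ∑ i, F i y := by
        refine setIntegral_congr_fun measurableSet_ball fun y _ => ?_
        simp only [F]
        rw [e (y - x), real_inner_smul_right, inner_sum]
    _ = -(2 : ℝ)⁻¹ * ∑ i, ∫ y in ball x r, F i y := by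
        rw [integral_const_mul, integral_finsetSum _ fun i _ => hi i]
    _ = 0 := by
        rw [Finset.sum_eq_zero fun i _ => rotation_identity hu x hr (b.orthonormal.1 i) (A (b i)),
          mul_zero]

end

end Vale.Agent.P137.Cen
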