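import Vale.Agent.P137.Cen.Pairs
import Vale.Agent.P137.Cen.CMax

/-!
# P137, centred operator: shared definitions

See notes/P137-helper9-centred-full.md (v3) for the proof and notes/P137-cen-interfaces.lean for
the statement of every block.
-/

open MeasureTheory Metric Set
open scoped ENNReal RealInnerProductSpace Gradient

namespace Vale.Agent.P137.Cen

open Vale.Agent.P137.Unc (E qdec ballAvg)

noncomputable section

attribute [local instance] Classical.propDecidable

variable {d : ℕ}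

/-! ## Constants -/

/-- Inside margin of a cube. -/
def Kd (d : ℕ) : ℝ := 100 * d

/-- Enlargement of cut items. -/
def Kp (d : ℕ) : ℝ := 64 * Kd d

/-- Admissibility constant of the clustering. -/
def L0 (d : ℕ) : ℝ := 100 * d * Kp d

/-- Goodness threshold. -/
def eta : ℝ := 1 / 200

/-- Upper slope of the radius range of a tree. -/
def theta (d : ℕ) : ℝ := 1 / (100 * d)

/-- Levels between a scale and its window. -/
def winOff (d : ℕ) : ℕ := Nat.clog 2 (10000 * d * d)

/-- Lower slope of the radius range of a tree. -/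
def theta' (d : ℕ) : ℝ := 1 / (4 * d * 2 ^ winOff d)

/-- Largest distance of a comparison level above a scale. -/
def C0 (d : ℕ) : ℕ := Nat.clog 2 (100 * 4 * d * 2 ^ winOff d) + 4

/-- Levels between a scale and the clustering window. -/
def Ls (d : ℕ) : ℕ := Nat.clog 2 (8 * d * (100 * d * (64 * 100 * d))) + C0 d + 4

/-- Levels between the bottom and the finest scale. -/
def botOff (d : ℕ) : ℕ := 2 * C0 d + 2 * Ls d + 40

/-- Slope of the cutoff. -/
def zCut (d : ℕ) : ℝ := 64 * d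

/-! ## Index arithmetic -/

/-- Index of the parent cube. -/
def par (k : Fin d → ℤ) : Fin d → ℤ := fun i => k i / 2

/-- Index of the ancestor `j` levels higher. -/
def anc (j : ℕ) (k : Fin d → ℤ) : Fin d → ℤ := fun i => k i / (2 : ℤ) ^ j

/-- A neighbour with offset at most four in every coordinate. -/
def nbr (k : Fin d → ℤ) (o : Fin d → Fin 9) : Fin d → ℤ := k + noff o

/-- A level and an index. -/
abbrev Cb (d : ℕ) : Type := ℤ × (Fin d → ℤ)

/-! ## Goodness -/

/-- The integral does not vanish and dominates the oscillation and the pair deficits. -/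
def Good (g : E d → E d) (t : E d) (n : ℤ) (k : Fin d → ℤ) : Prop :=
  qint g t n k ≠ 0 ∧ qPsi g t n k + qDst g t n k ≤ ENNReal.ofReal eta * ‖qint g t n k‖ₑ

/-- Direction of a vector. -/
def dirv (a : E d) : E d := ‖a‖⁻¹ • a

/-- `a` keeps the direction `e`. -/
def DirOK (e a : E d) : Prop := ‖a‖ - ⟪e, a⟫ ≤ eta * ‖a‖

/-! ## A configuration -/

/-- A vector field, a tree grid and three levels: bottom, finest scale, top. -/
structure Cfg (d : ℕ) where
  /-- the field -/
  g : E d → E d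
  /-- shift of the tree grid -/
  t : E d
  /-- bottom level -/
  Mb : ℤ
  /-- finest scale -/
  M : ℤ
  /-- top level -/
  N0 : ℤ

namespace Cfg

variable (c : Cfg d)

/-- Standing hypotheses. -/
structure Ok : Prop where
  integrable : Integrable c.g
  supp : ∃ ρ : ℝ, ∀ y, ρ < ‖y‖ → c.g y = 0
  hMb : c.Mb + (botOff d : ℤ) ≤ c.M
  hM : c.M ≤ c.N0

/-- Root of a cube, by the depth below the top level. -/
def rootAux : ℕ → (Fin d → ℤ) → Cb d
  | 0, k => (c.N0, k)
  | m + 1, k =>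
    if Good c.g c.t (c.N0 - m) (par k) ∧
        DirOK (dirv (qint c.g c.t (rootAux m (par k)).1 (rootAux m (par k)).2))
          (qint c.g c.t (c.N0 - (m + 1 : ℕ)) k)
    then rootAux m (par k) else (c.N0 - (m + 1 : ℕ), k)

/-- Root of a cube of level at most `N0`. -/
def root (n : ℤ) (k : Fin d → ℤ) : Cb d := c.rootAux (c.N0 - n).toNat k

/-- A good cube which is its own root. -/
def IsRoot (n : ℤ) (k : Fin d → ℤ) : Prop := Good c.g c.t n k ∧ c.root n k = (n, k)

/-- A child of a cube of the tree of `R` which is not in the tree. -/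
def IsStop (R : Cb d) (n : ℤ) (k : Fin d → ℤ) : Prop :=
  n < R.1 ∧ Good c.g c.t (n + 1) (par k) ∧ c.root (n + 1) (par k) = R ∧
    ¬(Good c.g c.t n k ∧ c.root n k = R)

/-- Weight of a tree. -/
def rootW (R : Cb d) : ℝ≥0∞ :=
  ‖qint c.g c.t R.1 R.2‖ₑ +
    ∑ n ∈ Finset.Ico c.Mb R.1, ∑' k : Fin d → ℤ,
      if c.IsStop R n k then ‖qint c.g c.t n k‖ₑ else 0

/-- Weight of a cube as an item: bad cubes, roots below the top, cubes of the bottom level. -/
def iw (n : ℤ) (k : Fin d → ℤ) : ℝ≥0∞ :=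
  ((if ¬ Good c.g c.t n k then
      ‖qint c.g c.t n k‖ₑ + qPsi c.g c.t n k + qDst c.g c.t n k else 0)
    + (if n < c.N0 ∧ c.IsRoot n k then c.rootW (n, k) else 0))
    + (if n = c.Mb then ∫⁻ y in qcube c.t n k, ‖c.g y‖ₑ else 0)

/-- Total of all items and of the trees at the top. -/
def totW : ℝ≥0∞ :=
  (∑ n ∈ Finset.Icc c.Mb c.N0, ∑' k : Fin d → ℤ, c.iw n k)
    + ∑' k : Fin d → ℤ, if c.IsRoot c.N0 k then c.rootW (c.N0, k) else 0

/-! ### Expansion at a ball -/

/-- The cube is deep inside the ball. -/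
def inside (x : E d) (r : ℝ) (n : ℤ) (k : Fin d → ℤ) : Prop :=
  ‖x - qctr c.t n k‖ + Kd d * (2 : ℝ) ^ n ≤ r

/-- A maximal inside cube whose tree reaches the level `n'`. -/
def NU (x : E d) (r : ℝ) (n' n : ℤ) (k : Fin d → ℤ) : Prop :=
  c.inside x r n k ∧ ¬ c.inside x r (n + 1) (par k) ∧ Good c.g c.t n k ∧ n' ≤ (c.root n k).1

/-- Total of the maximal inside cubes of the trees which reach the level `n'`. -/
def nu (x : E d) (r : ℝ) (n' : ℤ) : ℝ≥0∞ :=
  ∑ n ∈ Finset.Ico c.Mb n', ∑' k : Fin d → ℤ,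
    if c.NU x r n' n k then ‖qint c.g c.t n k‖ₑ else 0

/-- Their total, weighted by the distance of the centre from `p`. -/
def wtp (x : E d) (r : ℝ) (n' : ℤ) (p : E d) : ℝ≥0∞ :=
  ∑ n ∈ Finset.Ico c.Mb n', ∑' k : Fin d → ℤ,
    if c.NU x r n' n k then
      ‖qint c.g c.t n k‖ₑ * ENNReal.ofReal (‖qctr c.t n k - p‖ / r) else 0

/-- The cube is cut by the sphere. -/
def cutK (x : E d) (r : ℝ) (n : ℤ) (k : Fin d → ℤ) : Prop :=
  |‖x - qctr c.t n k‖ - r| ≤ Kp d * (2 : ℝ) ^ n

/-- Weight of the cut items. -/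
def cutS (x : E d) (r : ℝ) (n' : ℤ) : ℝ≥0∞ :=
  ∑ n ∈ Finset.Icc c.Mb n', ∑' k : Fin d → ℤ, if c.cutK x r n k then c.iw n k else 0

/-- Weight of the cut items, weighted by the distance from `p`. -/
def cutG (x : E d) (r : ℝ) (n' : ℤ) (p : E d) : ℝ≥0∞ :=
  ∑ n ∈ Finset.Icc c.Mb n', ∑' k : Fin d → ℤ,
    if c.cutK x r n k then
      c.iw n k * ENNReal.ofReal ((‖qctr c.t n k - p‖ + (2 : ℝ) ^ n) / r) else 0

/-- The cost at a stationary radius, for the best point of the sphere. -/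
def cost (x : E d) (r : ℝ) (n' : ℤ) : ℝ≥0∞ :=
  ⨅ p ∈ sphere x r, c.wtp x r n' p + c.cutG x r n' p

/-- The cut items are not negligible. -/
def Loud (κ : ℝ) (x : E d) (r : ℝ) (n' : ℤ) : Prop :=
  ENNReal.ofReal κ * c.nu x r n' < c.cutS x r n'

/-- Largest cost at scale `n` among the pairs radius, comparison level. -/
def scaleCost (κ : ℝ) (n : ℤ) (x : E d) : ℝ≥0∞ :=
  ⨆ (r : ℝ) (_ : r ∈ Icc ((2 : ℝ) ^ n) ((2 : ℝ) ^ (n + 1)))
    (n' : ℤ) (_ : n' ∈ Icc n (min c.N0 (n + (C0 d : ℤ))) ∧ 2 * r ≤ (2 : ℝ) ^ n'),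
    if c.Loud κ x r n' then c.cost x r n' else 0

/-! ### Trees -/

/-- The marks of a tree: its stops of level at least `M` and its cubes of level `M`. -/
def IsMark (R Q : Cb d) : Prop :=
  (c.M ≤ Q.1 ∧ c.IsStop R Q.1 Q.2) ∨
    (Q.1 = c.M ∧ Good c.g c.t Q.1 Q.2 ∧ c.root Q.1 Q.2 = R)

/-- Size of the marks seen from a point. -/
def lam0 (R : Cb d) (x : E d) : ℝ :=
  sInf ((fun Q : Cb d => (2 : ℝ) ^ Q.1 + infDist x (qcube c.t Q.1 Q.2)) '' {Q | c.IsMark R Q})

/-- Distance from the outside of a tree. -/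
def dOut (R : Cb d) (x : E d) : ℝ := infDist x (qcube c.t R.1 R.2)ᶜ

/-- Cutoff of a tree. -/
def zeta (R : Cb d) (x : E d) : ℝ := max 0 (min 1 (zCut d * c.dOut R x / c.lam0 R x - 1))

/-- Smallest radius of a tree. -/
def rlo (R : Cb d) (x : E d) : ℝ := theta' d * c.lam0 R x

/-- Largest radius of a tree. -/
def rhi (R : Cb d) (x : E d) : ℝ := max (c.rlo R x) (theta d * c.dOut R x)

/-- Maximal function of a tree. -/
def UR (u : E d → ℝ) (R : Cb d) (x : E d) : ℝ :=
  sSup ((fun r => ballAvg u x r) '' Icc (c.rlo R x) (c.rhi R x))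

/-- Direction of a tree. -/
def edir (R : Cb d) : E d := dirv (qint c.g c.t R.1 R.2)

end Cfg

/-! ## Averages over shifts -/

/-- Average over the shifts of mesh `2 ^ Mb` in one period of level `Mb + m`. -/
def avgShift (Mb : ℤ) (m : ℕ) (F : E d → ℝ≥0∞) : ℝ≥0∞ :=
  (∑ s : Fin d → Fin (2 ^ m), F (qlat 0 Mb s)) / ((2 ^ m) ^ d : ℕ)

/-! ## The centred maximal function of a smooth input -/

/-- Points with an optimal radius of scale `2 ^ n`. -/
def optC (u : E d → ℝ) (n : ℤ) : Set (E d) :=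
  {x | ∃ r ∈ Icc ((2 : ℝ) ^ n) ((2 : ℝ) ^ (n + 1)), ballAvg u x r = cmax u x}

/-- The part of a gradient which is not along `e`. -/
def lossV (Cl : ℝ) (e G : E d) : ℝ≥0∞ := ENNReal.ofReal (‖G‖ - Cl * ⟪e, G⟫)

end

end Vale.Agent.P137.Cen
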