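import Vale.Agent.P137.Cen.Limit
import Vale.Agent.P137.Cen.Defs

/-!
P137, centred operator: the bounds needed by the limit argument, from the local bound at small radii.
-/

open MeasureTheory Metric Set Filter
open scoped ENNReal RealInnerProductSpace Gradient Topology

namespace Vale.Agent.P137.Cen

open Vale.Agent.P137.Unc (E Smooth ballAvg gnorm volume_real_ball unitVol_pos norm_le_sqrt_mul)

noncomputable section

variable {d : ℕ}

/-- The lattice of mesh `a`. -/
def latPt (a : ℝ) (k : Fin d → ℤ) : E d := WithLp.toLp 2 fun i => a * (k i : ℝ)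

lemma lat_cover {a : ℝ} (ha : 0 < a) (x : E d) :
    ∃ k : Fin d → ℤ, ‖x - latPt a k‖ ≤ Real.sqrt d * a := by
  refine ⟨fun i => ⌊x i / a⌋, norm_le_sqrt_mul ha.le fun i => ?_⟩
  simp only [PiLp.sub_apply, latPt]
  have h1 := Int.floor_le (x i / a)
  have h2 := Int.lt_floor_add_one (x i / a)
  rw [le_div_iff₀ ha] at h1
  rw [div_lt_iff₀ ha] at h2
  rw [abs_le]
  constructor <;> linarith

/-- At most boundedly many balls of the lattice meet a point. -/
lemma lat_sum_le {a ρ : ℝ} (ha : 0 < a) (y : E d) :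
    ∑' k : Fin d → ℤ, (ball (latPt a k) ρ).indicator (fun _ => (1 : ℝ≥0∞)) y
      ≤ ((2 * ⌈ρ / a⌉ + 2).toNat : ℝ≥0∞) ^ d := by
  classical
  set m : ℤ := ⌈ρ / a⌉
  set S : Finset (Fin d → ℤ) := Fintype.piFinset fun i => Finset.Icc (⌊y i / a⌋ - m) (⌊y i / a⌋ + m + 1)
  have hzero : ∀ k ∉ S, (ball (latPt a k) ρ).indicator (fun _ => (1 : ℝ≥0∞)) y = 0 := by
    refine fun k hk => indicator_of_notMem (fun hy => hk (Fintype.mem_piFinset.2 fun i => ?_)) _
    rw [mem_ball_iff_norm] at hy
    have hi : |y i - a * (k i : ℝ)| ≤ ρ := by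
      have := (PiLp.norm_apply_le (y - latPt a k) i).trans hy.le
      simpa [latPt] using this
    have hm : |y i / a - (k i : ℝ)| ≤ (m : ℝ) := by
      refine le_trans ?_ (Int.le_ceil (ρ / a))
      rw [le_div_iff₀ ha]
      calc |y i / a - (k i : ℝ)| * a = |(y i / a - (k i : ℝ)) * a| := by rw [abs_mul, abs_of_pos ha]
        _ = |y i - a * (k i : ℝ)| := by congr 1; field_simp
        _ ≤ ρ := hi
    rw [abs_le] at hm
    have h1 := Int.floor_le (y i / a)
    have h2 := Int.lt_floor_add_one (y i / a)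
    rw [Finset.mem_Icc]
    constructor
    · have : ((⌊y i / a⌋ - m : ℤ) : ℝ) ≤ (k i : ℝ) := by push_cast; linarith
      exact_mod_cast this
    · have : (k i : ℝ) ≤ ((⌊y i / a⌋ + m + 1 : ℤ) : ℝ) := by push_cast; linarith
      exact_mod_cast this
  rw [tsum_eq_sum hzero]
  refine (Finset.sum_le_card_nsmul S _ (1 : ℝ≥0∞) fun k _ => ?_).trans (le_of_eq ?_)
  · by_cases hk : y ∈ ball (latPt a k) ρ <;> simp [hk]
  rw [nsmul_one, Fintype.card_piFinset]
  have hc : ∀ i, (Finset.Icc (⌊y i / a⌋ - m) (⌊y i / a⌋ + m + 1)).card = (2 * m + 2).toNat :=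
    fun i => by rw [Int.card_Icc]; congr 1; ring
  simp [hc]

/-- The global and the local bound from the bound at small radii. -/
theorem cenBound_of_local (_hd : 2 ≤ d) (C : ℝ≥0∞) (hC : C ≠ ⊤) (R : ℝ) (hR : 0 < R)
    (hloc : ∀ (u : E d → ℝ), Smooth u → ∀ (z : E d) (N : ℤ),
      ∫⁻ x in ball z ((2 : ℝ) ^ N) ∩ ({x | cmax u x = u x} ∪ ⋃ n ∈ Iic N, optC u n),
          ‖∇ (cmax u) x‖ₑ ≤ C * ∫⁻ x in ball z (R * (2 : ℝ) ^ N), ‖∇ u x‖ₑ)
    (hlip : ∀ u : E d → ℝ, Smooth u → LocallyLipschitz (cmax u))
    (hcases : ∀ u : E d → ℝ, Smooth u → ∀ x, cmax u x = u x ∨ ∃ n, x ∈ optC u n)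
    (hmeas : ∀ u : E d → ℝ, Smooth u → ∀ n, MeasurableSet (optC u n))
    (hstat : ∀ u : E d → ℝ, Smooth u → ∀ x, DifferentiableAt ℝ (cmax u) x → ∀ r : ℝ, 0 < r →
      ballAvg u x r = cmax u x →
        volume.real (ball x r) • ∇ (cmax u) x = ∫ y in ball x r, ∇ u y) :
    CenBound d (cmax (d := d)) := by
  refine ⟨⟨C, hC, fun u hu => ?_⟩, ?_⟩
  · set A : ℕ → Set (E d) := fun j =>
      ball 0 ((2 : ℝ) ^ (j : ℤ)) ∩ ({x | cmax u x = u x} ∪ ⋃ n ∈ Iic (j : ℤ), optC u n)
    have hmono : Monotone A := fun i j hij => by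
      refine inter_subset_inter (ball_subset_ball (zpow_le_zpow_right₀ one_le_two (by exact_mod_cast hij)))
        (union_subset_union_right _ (biUnion_mono (Iic_subset_Iic.2 (by exact_mod_cast hij))
          fun _ _ => le_rfl))
    have huniv : ⋃ j, A j = univ := by
      refine eq_univ_of_forall fun x => ?_
      obtain ⟨j0, hj0⟩ := pow_unbounded_of_one_lt ‖x‖ one_lt_two
      rcases hcases u hu x with h | ⟨n, hn⟩
      · exact mem_iUnion.2 ⟨j0, by simpa using hj0, Or.inl h⟩
      · refine mem_iUnion.2 ⟨max j0 n.toNat, ?_, Or.inr (mem_biUnion (x := n) ?_ hn)⟩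
        · rw [mem_ball_zero_iff, zpow_natCast]
          exact hj0.trans_le (pow_le_pow_right₀ one_le_two (le_max_left _ _))
        · rw [mem_Iic]
          exact (Int.self_le_toNat n).trans (by exact_mod_cast le_max_right _ _)
    rw [← setLIntegral_univ, ← huniv, setLIntegral_iUnion_of_directed _ hmono.directed_le]
    exact iSup_le fun j => (hloc u hu 0 j).trans
      (mul_le_mul_right (setLIntegral_le_lintegral _ _) C)
  · have hs : (0 : ℝ) < Real.sqrt d + 1 := by positivity
    set m : ℝ≥0∞ := ((2 * ⌈R * (Real.sqrt d + 1)⌉ + 2).toNat : ℝ≥0∞) ^ d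
    refine ⟨C * m, ENNReal.mul_ne_top hC (ENNReal.pow_ne_top (ENNReal.natCast_ne_top _)), fun δ hδ => ?_⟩
    obtain ⟨j, hj⟩ := exists_pow_lt_of_lt_one (show (0 : ℝ) < δ / (R + 2) by positivity)
      (show (1 / 2 : ℝ) < 1 by norm_num)
    set N : ℤ := -(j : ℤ)
    set t : ℝ := (2 : ℝ) ^ N with ht
    have htpos : 0 < t := zpow_pos two_pos N
    have htδ : (R + 2) * t < δ := by
      rw [lt_div_iff₀ (by positivity)] at hj
      rw [ht, zpow_neg, zpow_natCast, ← inv_pow, ← one_div, mul_comm]
      exact hj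
    have hV : 0 < volume.real (ball (0 : E d) t) :=
      ENNReal.toReal_pos (measure_ball_pos volume _ htpos).ne' measure_ball_lt_top.ne
    refine ⟨ENNReal.ofReal (volume.real (ball (0 : E d) t))⁻¹, ENNReal.ofReal_ne_top, fun u hu O hO => ?_⟩
    set Sm : Set (E d) := {x | cmax u x = u x} ∪ ⋃ n ∈ Iic N, optC u n
    have hSm : MeasurableSet Sm := (measurableSet_eq_fun (hlip u hu).continuous.measurable
      hu.contDiff.continuous.measurable).union
      (MeasurableSet.biUnion (Iic N).to_countable fun n _ => hmeas u hu n)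
    rw [← lintegral_inter_add_diff _ _ hSm]
    refine add_le_add ?_ ?_
    · set a : ℝ := t / (Real.sqrt d + 1)
      have ha : 0 < a := div_pos htpos hs
      set J : Set (Fin d → ℤ) := {k | (O ∩ ball (latPt a k) t).Nonempty}
      have hcov : O ∩ Sm ⊆ ⋃ k ∈ J, ball (latPt a k) t ∩ Sm := fun x hx => by
        obtain ⟨k, hk⟩ := lat_cover ha x
        have hxk : x ∈ ball (latPt a k) t := by
          rw [mem_ball_iff_norm]
          refine hk.trans_lt ?_
          rw [mul_div_assoc', div_lt_iff₀ hs]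
          linarith
        exact mem_biUnion (show k ∈ J from ⟨x, hx.1, hxk⟩) ⟨hxk, hx.2⟩
      have hpt : ∀ y, ∑' k : J, (ball (latPt a k) (R * t)).indicator (fun _ => (1 : ℝ≥0∞)) y
          ≤ m * (thickening δ O).indicator (fun _ => (1 : ℝ≥0∞)) y := fun y => by
        by_cases hy : y ∈ thickening δ O
        · rw [indicator_of_mem hy, mul_one]
          refine le_trans (ENNReal.tsum_comp_le_tsum_of_injective Subtype.val_injective
            fun k : Fin d → ℤ => (ball (latPt a k) (R * t)).indicator (fun _ => (1 : ℝ≥0∞)) y)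
            ((lat_sum_le ha y).trans_eq ?_)
          simp only [m, a]
          congr 5
          field_simp
        · refine le_trans (le_of_eq (ENNReal.tsum_eq_zero.2 fun k => indicator_of_notMem (fun hk => hy ?_) _))
            zero_le
          obtain ⟨z, hzO, hz⟩ := k.2
          rw [mem_ball, dist_comm] at hz
          rw [mem_ball] at hk
          refine mem_thickening_iff.2 ⟨z, hzO, ?_⟩
          linarith [dist_triangle y (latPt a k) z]
      calc ∫⁻ x in O ∩ Sm, ‖∇ (cmax u) x‖ₑ
          ≤ ∫⁻ x in ⋃ k : J, ball (latPt a k) t ∩ Sm, ‖∇ (cmax u) x‖ₑ := by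
            refine lintegral_mono_set ?_
            rwa [biUnion_eq_iUnion] at hcov
        _ ≤ ∑' k : J, ∫⁻ x in ball (latPt a k) t ∩ Sm, ‖∇ (cmax u) x‖ₑ := lintegral_iUnion_le _ _
        _ ≤ ∑' k : J, C * ∫⁻ x in ball (latPt a k) (R * t), ‖∇ u x‖ₑ :=
            ENNReal.tsum_le_tsum fun k => hloc u hu _ N
        _ = C * ∫⁻ y, (∑' k : J, (ball (latPt a k) (R * t)).indicator (fun _ => (1 : ℝ≥0∞)) y)
              * ‖∇ u y‖ₑ := by
            rw [ENNReal.tsum_mul_left]
            congr 1
            rw [lintegral_congr fun y => (ENNReal.tsum_mul_right).symm]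
            have hmk : ∀ k : J, AEMeasurable (fun y => (ball (latPt a k) (R * t)).indicator
                (fun _ => (1 : ℝ≥0∞)) y * ‖∇ u y‖ₑ) volume := fun k =>
              ((measurable_const.indicator measurableSet_ball).mul
                (Vale.Agent.P137.Unc.measurable_gradient' u).enorm).aemeasurable
            rw [lintegral_tsum hmk]
            refine tsum_congr fun k => ?_
            rw [← lintegral_indicator measurableSet_ball]
            exact lintegral_congr fun y => by by_cases h : y ∈ ball (latPt a k) (R * t) <;> simp [h]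
        _ ≤ C * ∫⁻ y, m * (thickening δ O).indicator (fun y => ‖∇ u y‖ₑ) y := by
            refine mul_le_mul_right (lintegral_mono fun y => ?_) C
            refine (mul_le_mul_left (hpt y) _).trans_eq ?_
            by_cases h : y ∈ thickening δ O <;> simp [h]
        _ = _ := by
            rw [lintegral_const_mul' _ _ (ENNReal.pow_ne_top (ENNReal.natCast_ne_top _)),
              lintegral_indicator isOpen_thickening.measurableSet, mul_assoc]
    · refine le_trans ?_ (mul_le_mul_right (measure_mono (diff_subset (t := Sm))) _)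
      rw [← setLIntegral_const]
      refine lintegral_mono_ae ?_
      filter_upwards [ae_restrict_mem (hO.diff hSm)] with x hxS
      by_cases hx : DifferentiableAt ℝ (cmax u) x
      swap
      · simp [gradient, fderiv_zero_of_not_differentiableAt hx]
      rcases hcases u hu x with h | ⟨n, r, hr, hA⟩
      · exact absurd (Or.inl h) hxS.2
      have hn : N < n := lt_of_not_ge fun hn => hxS.2 (Or.inr (mem_biUnion (x := n) hn ⟨r, hr, hA⟩))
      have hrt : t ≤ r := (zpow_le_zpow_right₀ one_le_two hn.le).trans hr.1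
      have hr0 : 0 < r := htpos.trans_le hrt
      have e := congrArg (fun v : E d => ‖v‖) (hstat u hu x hx r hr0 hA)
      simp only [norm_smul, Real.norm_eq_abs, abs_of_nonneg measureReal_nonneg] at e
      have hle : volume.real (ball x r) * ‖∇ (cmax u) x‖ ≤ gnorm u :=
        e.le.trans ((norm_integral_le_integral_norm _).trans (setIntegral_le_integral
          hu.integrable_grad.norm (Eventually.of_forall fun y => norm_nonneg _)))
      have hvol : volume.real (ball (0 : E d) t) ≤ volume.real (ball x r) := by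
        have hV1 := unitVol_pos (d := d)
        rw [volume_real_ball x hr0, volume_real_ball 0 htpos]
        gcongr
      rw [← ofReal_norm, ← ofReal_integral_norm_eq_lintegral_enorm hu.integrable_grad,
        ← ENNReal.ofReal_mul (inv_nonneg.2 hV.le)]
      refine ENNReal.ofReal_le_ofReal ?_
      rw [le_inv_mul_iff₀ hV]
      exact (mul_le_mul_of_nonneg_right hvol (norm_nonneg _)).trans hle

end

end Vale.Agent.P137.Cen
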