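import Vale.Agent.P137.Unc.MaxLimit

/-!
P137, centred operator: the extended-valued centred maximal function and the convergence of the
maximal functions along an approximation.
-/

open MeasureTheory Metric Set Filter
open scoped ENNReal Gradient Topology

namespace Vale.Agent.P137.Cen

open Vale.Agent.P137.Unc

noncomputable section

variable {d : ℕ}

/-- The centred maximal function, extended-valued. -/
def cmx (h : E d → ℝ) (x : E d) : ℝ≥0∞ :=
  ⨆ (r : ℝ) (_ : 0 < r), (∫⁻ y in ball x r, ‖h y‖ₑ) / volume (ball x r)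

lemma cmx_le {h : E d → ℝ} {x : E d} {b : ℝ≥0∞}
    (H : ∀ r, 0 < r → (∫⁻ y in ball x r, ‖h y‖ₑ) / volume (ball x r) ≤ b) : cmx h x ≤ b :=
  iSup_le fun r => iSup_le fun hr => H r hr

lemma le_cmx (h : E d → ℝ) {x : E d} {r : ℝ} (hr : 0 < r) :
    (∫⁻ y in ball x r, ‖h y‖ₑ) / volume (ball x r) ≤ cmx h x :=
  le_iSup_of_le r (le_iSup_of_le hr le_rfl)

lemma cmx_le_mx (h : E d → ℝ) (x : E d) : cmx h x ≤ mx h x :=
  cmx_le fun _ hr => le_mx h hr (mem_ball_self hr)

lemma cmx_abs (f : E d → ℝ) : cmx (fun y => |f y|) = cmx f := by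
  funext x
  simp only [cmx, Real.enorm_abs]

lemma measurable_cmx (h : E d → ℝ) : Measurable (cmx h) := by
  refine LowerSemicontinuous.measurable (lowerSemicontinuous_iff_isOpen_preimage.2 fun b =>
    isOpen_iff_mem_nhds.2 fun x (hx : b < cmx h x) => ?_)
  simp only [cmx, lt_iSup_iff] at hx
  obtain ⟨r, hr, hb⟩ := hx
  have hmono : Monotone fun j : ℕ => ball x (r - 1 / ((j : ℝ) + 1)) := fun i j hij =>
    ball_subset_ball (sub_le_sub_left (one_div_le_one_div_of_le (by positivity)
      (by exact_mod_cast Nat.add_le_add_right hij 1)) r)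
  have hU : ⋃ j : ℕ, ball x (r - 1 / ((j : ℝ) + 1)) = ball x r := by
    refine subset_antisymm (iUnion_subset fun j =>
      ball_subset_ball (sub_le_self r (by positivity))) fun y hy => ?_
    rw [mem_ball] at hy
    obtain ⟨j, hj⟩ := exists_nat_one_div_lt (sub_pos.2 hy)
    exact mem_iUnion.2 ⟨j, by rw [mem_ball]; linarith⟩
  rw [← hU, setLIntegral_iUnion_of_directed _ hmono.directed_le, ENNReal.iSup_div, hU,
    lt_iSup_iff] at hb
  obtain ⟨j, hj⟩ := hb
  have hρ : (0 : ℝ) < 1 / ((j : ℝ) + 1) := by positivity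
  refine Filter.mem_of_superset (ball_mem_nhds x hρ) fun y hy => ?_
  refine lt_of_lt_of_le hj (le_trans ?_ (le_cmx h hr))
  refine ENNReal.div_le_div (lintegral_mono_set fun z hz => ?_) (le_of_eq ?_)
  · rw [mem_ball] at hz hy ⊢
    linarith [dist_triangle_right z y x]
  · rw [Measure.addHaar_ball_center volume y r, Measure.addHaar_ball_center volume x r]

lemma cmx_le_add {a b : E d → ℝ} (hb : AEStronglyMeasurable b volume) (x : E d) :
    cmx a x ≤ cmx b x + cmx (fun y => a y - b y) x := by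
  refine cmx_le fun r hr => ?_
  refine le_trans ?_ (add_le_add (le_cmx b hr) (le_cmx (fun y => a y - b y) hr))
  rw [ENNReal.div_add_div_same, ← lintegral_add_left' hb.restrict.enorm]
  gcongr with y
  calc ‖a y‖ₑ = ‖b y + (a y - b y)‖ₑ := by rw [add_sub_cancel]
    _ ≤ _ := enorm_add_le _ _

/-- The centred maximal functions of the approximations converge in `L¹` on sets of finite
measure. -/
theorem tendsto_cmx {u : ℕ → E d → ℝ} {F : E d → ℝ} {v : E d → E d} (hu : ∀ n, Smooth (u n))
    (hF : Integrable F) (hv : Integrable v)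
    (hlu : Tendsto (fun n => ∫ x, |u n x - F x|) atTop (𝓝 0))
    (hlg : Tendsto (fun n => ∫ x, ‖∇ (u n) x - v x‖) atTop (𝓝 0)) {S : Set (E d)}
    (hS : volume S ≠ ⊤) :
    Tendsto (fun n => ∫⁻ x in S, cmx (fun y => u n y - F y) x) atTop (𝓝 0) :=
  tendsto_of_tendsto_of_tendsto_of_le_of_le tendsto_const_nhds (tendsto_mx hu hF hv hlu hlg hS)
    (fun _ => zero_le) fun _ => lintegral_mono fun x => cmx_le_mx _ x

end

end Vale.Agent.P137.Cen
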