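import Vale.Agent.P137.Cen.PairBound
import Vale.Agent.P137.Cen.Defs

/-!
# P137, centred operator: the collision terms of all levels, averaged over the shifts
-/

open MeasureTheory Metric Set Filter
open scoped ENNReal RealInnerProductSpace Topology

namespace Vale.Agent.P137.Cen

open Unc

noncomputable section

attribute [local instance] Classical.propDecidable

variable {d : ℕ} {ι : Type} [Fintype ι]

/-! ## Geometric sums over blocks -/

theorem tsum_nat_div (q : ℕ) [NeZero q] (f : ℕ → ℝ≥0∞) :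
    ∑' l : ℕ, f (l / q) = q * ∑' a, f a := by
  rw [← (Nat.divModEquiv q).symm.tsum_eq (fun l => f (l / q)), ENNReal.tsum_prod',
    ← ENNReal.tsum_mul_left]
  refine tsum_congr fun a => ?_
  have h : ∀ b : Fin q, f ((Nat.divModEquiv q).symm (a, b) / q) = f a := fun b => by
    congr 1
    simp only [Nat.divModEquiv_symm_apply]
    rw [add_comm, Nat.add_mul_div_right _ _ (NeZero.pos q), Nat.div_eq_of_lt b.isLt, zero_add]
  simp only [h]
  rw [tsum_fintype, Finset.sum_const, Finset.card_univ, Fintype.card_fin, nsmul_eq_mul]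

theorem tsum_half_div_ne_top (q : ℕ) [NeZero q] :
    ∑' l : ℕ, (2⁻¹ : ℝ≥0∞) ^ (l / q) ≠ ⊤ := by
  rw [tsum_nat_div q fun a => (2⁻¹ : ℝ≥0∞) ^ a, ENNReal.tsum_geometric,
    ENNReal.one_sub_inv_two, inv_inv]
  exact ENNReal.mul_ne_top (ENNReal.natCast_ne_top q) (by norm_num)

theorem tsum_mul_th_ne_top : ∑' l : ℕ, (l : ℝ≥0∞) * th l ≠ ⊤ := by
  have hle : ∀ l : ℕ, (l : ℝ≥0∞) * th l ≤ 128 * ENNReal.ofReal ((3 / 4) ^ (l / 64)) := by
    intro l
    set a := l / 64 with ha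
    have h1 : (a : ℝ) + 1 ≤ 2 * (3 / 2) ^ a := by
      have := one_add_mul_le_pow (show (-2 : ℝ) ≤ 1 / 2 by norm_num) a
      rw [show (1 : ℝ) + 1 / 2 = 3 / 2 by norm_num] at this
      linarith
    have h2 : (l : ℝ) ≤ 64 * ((a : ℝ) + 1) := by
      have : l ≤ 64 * (a + 1) := by omega
      exact_mod_cast this
    have e : ((l : ℝ≥0∞)) * th l = ENNReal.ofReal ((l : ℝ) * (1 / 2) ^ a) := by
      rw [ENNReal.ofReal_mul (Nat.cast_nonneg l), ENNReal.ofReal_natCast, th, ← ha,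
        ENNReal.ofReal_pow (by norm_num), one_div, ENNReal.ofReal_inv_of_pos two_pos,
        ENNReal.ofReal_ofNat]
    rw [e, show (128 : ℝ≥0∞) = ENNReal.ofReal 128 by simp, ← ENNReal.ofReal_mul (by norm_num)]
    refine ENNReal.ofReal_le_ofReal ?_
    calc (l : ℝ) * (1 / 2) ^ a ≤ 64 * (2 * (3 / 2) ^ a) * (1 / 2) ^ a := by
          gcongr
          linarith
      _ = _ := by
          rw [show (3 / 4 : ℝ) = 3 / 2 * (1 / 2) by norm_num, mul_pow]; ring
  refine ne_top_of_le_ne_top ?_ (ENNReal.tsum_le_tsum hle)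
  rw [ENNReal.tsum_mul_left, tsum_nat_div 64 fun a => ENNReal.ofReal ((3 / 4) ^ a)]
  refine ENNReal.mul_ne_top (by norm_num) (ENNReal.mul_ne_top (by norm_num) ?_)
  rw [← ENNReal.ofReal_tsum_of_nonneg (fun _ => by positivity)
    (summable_geometric_of_lt_one (by norm_num) (by norm_num))]
  exact ENNReal.ofReal_ne_top

/-! ## Shifts near a boundary -/

/-- Shifts in one coordinate with a residue in a given set. -/
theorem residue_count (m h : ℕ) (hh : h ≤ m) (q0 : ℤ) (R : Finset ℤ) :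
    (Finset.univ.filter fun s : Fin (2 ^ m) => (q0 - ((s : ℕ) : ℤ)) % 2 ^ h ∈ R).card
      ≤ R.card * 2 ^ (m - h) := by
  rw [← Finset.card_range (2 ^ (m - h)), ← Finset.card_product]
  refine Finset.card_le_card_of_injOn
    (fun s => ((q0 - ((s : ℕ) : ℤ)) % 2 ^ h, (s : ℕ) / 2 ^ h)) (fun s hs => ?_) fun s _ s' _ e => ?_
  · simp only [Finset.coe_filter, Finset.mem_univ, true_and, mem_ofPred_eq] at hs
    simp only [Finset.coe_product, mem_prod, Finset.mem_coe]
    refine ⟨hs, Finset.mem_range.2 ?_⟩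
    refine Nat.div_lt_of_lt_mul ?_
    rw [← pow_add, Nat.add_sub_cancel' hh]
    exact s.isLt
  · simp only [Prod.mk.injEq] at e
    obtain ⟨e1, e2⟩ := e
    have h1 : ((s' : ℕ) : ℤ) % ((2 ^ h : ℕ) : ℤ) = ((s : ℕ) : ℤ) % ((2 ^ h : ℕ) : ℤ) := by
      push_cast
      have := Int.emod_eq_emod_iff_emod_sub_eq_zero.1 e1
      rw [sub_sub_sub_cancel_left] at this
      exact Int.emod_eq_emod_iff_emod_sub_eq_zero.2 this
    have h2 : (s' : ℕ) % 2 ^ h = (s : ℕ) % 2 ^ h := by exact_mod_cast h1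
    refine Fin.ext ?_
    rw [← Nat.div_add_mod (s : ℕ) (2 ^ h), ← Nat.div_add_mod (s' : ℕ) (2 ^ h), e2, h2]

/-- A coordinate near the boundary of its interval has one of few residues. -/
theorem near_residue {Mb : ℤ} {h e : ℕ} (he : e ≤ h) {y : ℝ} {s : ℕ}
    (hn : ¬((2 : ℝ) ^ Mb * s + (2 : ℝ) ^ (Mb + h) * (⌊(y - (2 : ℝ) ^ Mb * s) / (2 : ℝ) ^ (Mb + h)⌋ : ℤ)
        + (2 : ℝ) ^ (Mb + h) / 2 ^ e ≤ y ∧
      y < (2 : ℝ) ^ Mb * s + (2 : ℝ) ^ (Mb + h) * (⌊(y - (2 : ℝ) ^ Mb * s) / (2 : ℝ) ^ (Mb + h)⌋ : ℤ)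
        + (2 : ℝ) ^ (Mb + h) - (2 : ℝ) ^ (Mb + h) / 2 ^ e)) :
    (⌊y / (2 : ℝ) ^ Mb⌋ - (s : ℤ)) % 2 ^ h
      ∈ Finset.Ico (0 : ℤ) (2 ^ (h - e)) ∪ Finset.Ico ((2 : ℤ) ^ h - 2 ^ (h - e)) (2 ^ h) := by
  set u : ℝ := (2 : ℝ) ^ Mb with hu
  have hu0 : 0 < u := zpow_pos two_pos _
  set v : ℤ := ⌊y / u⌋ - (s : ℤ) with hv
  set r : ℤ := v % 2 ^ h with hr
  set w : ℤ := v / 2 ^ h with hw
  have hp : (0 : ℤ) < 2 ^ h := by positivity
  have hr0 : 0 ≤ r := Int.emod_nonneg _ hp.ne'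
  have hr1 : r < 2 ^ h := Int.emod_lt_of_pos _ hp
  have hvw : v = 2 ^ h * w + r := (Int.mul_ediv_add_emod v _).symm
  have eh : (2 : ℝ) ^ (Mb + (h : ℤ)) = u * 2 ^ h := by
    rw [zpow_add₀ two_ne_zero, zpow_natCast]
  have ee : (2 : ℝ) ^ h / 2 ^ e = ((2 ^ (h - e) : ℤ) : ℝ) := by
    push_cast
    rw [eq_comm, eq_div_iff (by positivity), ← pow_add, Nat.sub_add_cancel he]
  -- y lies in [u (⌊y/u⌋), u (⌊y/u⌋ + 1))
  have y1 : u * (⌊y / u⌋ : ℝ) ≤ y := by
    have := Int.floor_le (y / u); rw [le_div_iff₀ hu0] at this; linarith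
  have y2 : y < u * ((⌊y / u⌋ : ℝ) + 1) := by
    have := Int.lt_floor_add_one (y / u); rw [div_lt_iff₀ hu0] at this; linarith
  have hfl : (⌊y / u⌋ : ℝ) = (2 : ℝ) ^ h * w + r + s := by
    have : ⌊y / u⌋ = 2 ^ h * w + r + (s : ℤ) := by linarith [hvw, hv]
    rw [this]; push_cast; ring
  have rr0 : (0 : ℝ) ≤ r := by exact_mod_cast hr0
  have rr1 : (r : ℝ) + 1 ≤ 2 ^ h := by exact_mod_cast hr1
  rw [hfl] at y1 y2
  have hwq : ⌊(y - u * s) / (2 : ℝ) ^ (Mb + (h : ℤ))⌋ = w := by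
    rw [Int.floor_eq_iff, le_div_iff₀ (by positivity), div_lt_iff₀ (by positivity), eh]
    constructor <;> nlinarith
  rw [hwq, eh, mul_div_assoc, ee] at hn
  simp only [Finset.mem_union, Finset.mem_Ico]
  by_contra hc
  push Not at hc
  have c1 : (2 : ℤ) ^ (h - e) ≤ r := hc.1 hr0
  have c2 : r + 1 ≤ (2 : ℤ) ^ h - 2 ^ (h - e) := by
    by_contra h'
    have := hc.2 (by omega)
    omega
  have r1 : (((2 : ℤ) ^ (h - e) : ℤ) : ℝ) ≤ r := by exact_mod_cast c1
  have r2 : (r : ℝ) + 1 ≤ ((2 : ℝ) ^ h - (((2 : ℤ) ^ (h - e) : ℤ) : ℝ)) := by exact_mod_cast c2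
  refine hn ⟨?_, ?_⟩ <;> nlinarith

namespace Sys

variable {S : Sys d ι} {t : E d}

omit [Fintype ι] in
/-- Few shifts put an item near the boundary of its cube. -/
theorem near_count {Mb : ℤ} {m : ℕ} {h l : ℕ} (hl : l ≤ h) (hh : h ≤ m) (i : ι) :
    ((Finset.univ.filter fun s : Fin d → Fin (2 ^ m) =>
        ¬ S.inner' (qlat 0 Mb s) (Mb + h) l i).card : ℝ≥0∞)
      ≤ 2 * d * (2⁻¹ : ℝ≥0∞) ^ (l / 8) * ((2 ^ m) ^ d : ℕ) := by
  set e := l / 8 with he
  have heh : e ≤ h := by omega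
  set R : Finset ℤ := Finset.Ico (0 : ℤ) (2 ^ (h - e))
    ∪ Finset.Ico ((2 : ℤ) ^ h - 2 ^ (h - e)) (2 ^ h)
  set Bq : Fin d → Finset (Fin (2 ^ m)) := fun q => Finset.univ.filter fun s : Fin (2 ^ m) =>
    (⌊S.pos i q / (2 : ℝ) ^ Mb⌋ - ((s : ℕ) : ℤ)) % 2 ^ h ∈ R
  have hR : R.card ≤ 2 * 2 ^ (h - e) := by
    refine (Finset.card_union_le _ _).trans (le_of_eq ?_)
    have e2 : ((2 : ℤ) ^ (h - e)).toNat = 2 ^ (h - e) := by
      rw [show (2 : ℤ) ^ (h - e) = ((2 ^ (h - e) : ℕ) : ℤ) by push_cast; rfl, Int.toNat_natCast]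
    rw [Int.card_Ico, Int.card_Ico, sub_zero, sub_sub_cancel, e2]
    ring
  have hB : ∀ q, (Bq q).card * 2 ^ e ≤ 2 * 2 ^ m := fun q => by
    calc (Bq q).card * 2 ^ e ≤ R.card * 2 ^ (m - h) * 2 ^ e :=
          Nat.mul_le_mul_right _ (residue_count m h hh _ R)
      _ ≤ 2 * 2 ^ (h - e) * 2 ^ (m - h) * 2 ^ e := by gcongr
      _ = 2 * 2 ^ (h - e + (m - h) + e) := by rw [pow_add, pow_add]; ring
      _ = _ := by congr 2; omega
  have hsub : (Finset.univ.filter fun s : Fin d → Fin (2 ^ m) =>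
      ¬ S.inner' (qlat 0 Mb s) (Mb + h) l i)
      ⊆ Finset.univ.biUnion fun q => Fintype.piFinset (Function.update (fun _ => Finset.univ) q (Bq q)) := by
    intro s hs
    simp only [Finset.mem_filter, Finset.mem_univ, true_and, inner', not_forall] at hs
    obtain ⟨q, hq⟩ := hs
    simp only [Finset.mem_biUnion, Finset.mem_univ, true_and, Fintype.mem_piFinset]
    refine ⟨q, fun q' => ?_⟩
    by_cases hqq : q' = q
    · subst hqq
      rw [Function.update_self]
      simp only [Bq, Finset.mem_filter, Finset.mem_univ, true_and]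
      exact near_residue heh (by simpa [qcorn, qidx, qlat, qvec, ← he] using hq)
    · rw [Function.update_of_ne hqq]; exact Finset.mem_univ _
  have hcard : (Finset.univ.filter fun s : Fin d → Fin (2 ^ m) =>
      ¬ S.inner' (qlat 0 Mb s) (Mb + h) l i).card * 2 ^ e ≤ 2 * d * (2 ^ m) ^ d := by
    refine (Nat.mul_le_mul_right _ ((Finset.card_le_card hsub).trans Finset.card_biUnion_le)).trans ?_
    rw [Finset.sum_mul]
    refine (Finset.sum_le_card_nsmul _ _ (2 * (2 ^ m) ^ d) fun q _ => ?_).trans (le_of_eq ?_)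
    · rw [Fintype.card_piFinset, ← Finset.mul_prod_erase Finset.univ _ (Finset.mem_univ q),
        Function.update_self, Finset.prod_congr rfl fun q' hq' => by
          rw [Function.update_of_ne (Finset.ne_of_mem_erase hq'), Finset.card_univ, Fintype.card_fin],
        Finset.prod_const, Finset.card_erase_of_mem (Finset.mem_univ q), Finset.card_univ,
        Fintype.card_fin]
      have hd : 0 < d := Fin.pos q
      calc (Bq q).card * (2 ^ m) ^ (d - 1) * 2 ^ e = (Bq q).card * 2 ^ e * (2 ^ m) ^ (d - 1) := by ring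
        _ ≤ 2 * 2 ^ m * (2 ^ m) ^ (d - 1) := Nat.mul_le_mul_right _ (hB q)
        _ = _ := by rw [mul_assoc, ← pow_succ', Nat.sub_add_cancel hd]
    · rw [Finset.card_univ, Fintype.card_fin, smul_eq_mul]; ring
  rw [← ENNReal.inv_pow, mul_right_comm, ← div_eq_mul_inv,
    ENNReal.le_div_iff_mul_le (Or.inl (by simp)) (Or.inl (ENNReal.pow_ne_top (by norm_num)))]
  exact_mod_cast hcard

/-! ## One cube -/

theorem sum_layer_eq {Mb n : ℤ} (hlev : ∀ i, Mb ≤ S.lev i) (k : Fin d → ℤ) (x : E d) (ρ : ℝ) :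
    S.cutw t (n - 1) k x ρ
      = ∑ l ∈ Finset.range (n - Mb).toNat, S.cutOn (S.layer t (n - 1) k l) x ρ := by
  have hmaps : ∀ i ∈ S.below t (n - 1) k,
      (n - 1 - S.lev i).toNat ∈ Finset.range (n - Mb).toNat := fun i hi => by
    have := (mem_below.1 hi).2; have := hlev i
    rw [Finset.mem_range]; omega
  rw [cutw, ← Finset.sum_fiberwise_of_maps_to hmaps]
  refine Finset.sum_congr rfl fun l _ => Finset.sum_congr ?_ fun i _ => rfl
  ext i
  simp only [layer, Finset.mem_filter]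
  constructor
  · rintro ⟨hi, e⟩; have := (mem_below.1 hi).2; exact ⟨hi, by omega⟩
  · rintro ⟨hi, e⟩; exact ⟨hi, by omega⟩

theorem sum_Ico_layer_le (n : ℤ) (k : Fin d → ℤ) (x : E d) (ρ : ℝ) (l D : ℕ) :
    ∑ j ∈ Finset.Ico l D, S.cutOn (S.layer t (n - 1) k j) x ρ
      ≤ S.cutOn (S.deep t (n - 1) k l) x ρ := by
  have hsub : ∀ j ∈ Finset.Ico l D, S.layer t (n - 1) k j ⊆ S.deep t (n - 1) k l := fun j hj i hi => by
    simp only [layer, Finset.mem_filter] at hi
    simp only [deep, Finset.mem_filter]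
    exact ⟨hi.1, by have := (Finset.mem_Ico.1 hj).1; omega⟩
  have hdis : (Finset.Ico l D : Set ℕ).PairwiseDisjoint fun j => S.layer t (n - 1) k j := by
    intro j _ j' _ hjj
    simp only [Function.onFun, Finset.disjoint_left, layer, Finset.mem_filter]
    intro i h1 h2
    exact hjj (by omega)
  simp only [cutOn]
  rw [← Finset.sum_biUnion hdis]
  exact Finset.sum_le_sum_of_subset (Finset.biUnion_subset.2 hsub)

/-- Weight with coefficient `u` of depth `l`, near part and descendant errors with coefficient `v`. -/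
def depthW (S : Sys d ι) (t : E d) (u v : ℕ → ℝ≥0∞) (m : ℤ) (k : Fin d → ℤ) (l : ℕ) : ℝ≥0∞ :=
  S.nearW t m k l + u l * S.layerW t m k l + v l * S.errW t m k (l / 2)

/-- The collision term of a cube is a sum over depths. -/
theorem csum_le_depths [NeZero d] {C : ℝ≥0∞} {K0 : ℝ}
    (hC : ∀ (n : ℤ) (k : Fin d → ℤ) (b c : Fin d → Fin 2) (l : ℕ) (a : E d), b ≠ c → S.K ≤ K0 →
      ∃ M : E d → ℝ≥0∞, Measurable M ∧
        (∀ z : E d, ∀ j ∈ S.adm t n k a, ∀ ρ : ℝ,
          min (S.cutOn (S.layer t (n - 1) (kid k b) l) (a + (2 : ℝ) ^ j • z) ρ)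
              (S.cutOn (S.deep t (n - 1) (kid k c) l) (a + (2 : ℝ) ^ j • z) ρ) ≤ M z) ∧
        nrm2 M ≤ S.nearW t (n - 1) (kid k b) l
          + C * th l * (S.layerW t (n - 1) (kid k b) l + S.errW t (n - 1) (kid k c) (l / 2)))
    (hK : S.K ≤ K0) {Mb : ℤ} (hlev : ∀ i, Mb ≤ S.lev i) (l0 : ℕ) (n : ℤ) (k : Fin d → ℤ) :
    S.csum t n k ≤ 2 * (Fintype.card (Fin d → Fin 2) : ℝ≥0∞) *
      ∑ l ∈ Finset.range (n - Mb).toNat, ∑ b, S.depthW t
        (fun l => if l < l0 then 1 else C * th l) (fun l => if l < l0 then 0 else C * th l)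
        (n - 1) (kid k b) l := by
  set u : ℕ → ℝ≥0∞ := fun l => if l < l0 then 1 else C * th l with hu
  set v : ℕ → ℝ≥0∞ := fun l => if l < l0 then 0 else C * th l with hv
  set P : (Fin d → Fin 2) → ℕ → ℝ≥0∞ := fun b l =>
    S.nearW t (n - 1) (kid k b) l + u l * S.layerW t (n - 1) (kid k b) l
  set Q : (Fin d → Fin 2) → ℕ → ℝ≥0∞ := fun c l => v l * S.errW t (n - 1) (kid k c) (l / 2)
  refine iSup_le fun a => ?_
  have hex : ∀ (b c : Fin d → Fin 2) (l : ℕ), ∃ M : E d → ℝ≥0∞, Measurable M ∧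
      (b ≠ c → ∀ z : E d, ∀ j ∈ S.adm t n k a, ∀ ρ : ℝ,
          min (S.cutOn (S.layer t (n - 1) (kid k b) l) (a + (2 : ℝ) ^ j • z) ρ)
              (S.cutOn (S.deep t (n - 1) (kid k c) l) (a + (2 : ℝ) ^ j • z) ρ) ≤ M z) ∧
      nrm2 M ≤ P b l + Q c l := by
    intro b c l
    rcases eq_or_ne b c with hbc | hbc
    · exact ⟨fun _ => 0, measurable_const, fun h => absurd hbc h, (nrm2_const_le _).trans zero_le⟩
    by_cases hl : l < l0
    · refine ⟨fun _ => S.layerW t (n - 1) (kid k b) l, measurable_const,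
        fun _ z j _ ρ => (min_le_left _ _).trans (cutOn_le_weight _ _ _), (nrm2_const_le _).trans ?_⟩
      simp only [P, hu, if_pos hl, one_mul]
      exact le_add_right le_add_self
    · obtain ⟨M, h1, h2, h3⟩ := hC n k b c l a hbc hK
      refine ⟨M, h1, fun _ => h2, h3.trans (le_of_eq ?_)⟩
      simp only [P, Q, hu, hv, if_neg hl]
      ring
  choose M hMm hMle hMn using hex
  set G : (Fin d → Fin 2) → (Fin d → Fin 2) → E d → ℝ≥0∞ := fun b c z =>
    ∑ l ∈ Finset.range (n - Mb).toNat, (M b c l z + M c b l z)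
  have hGm : ∀ b c, Measurable (G b c) := fun b c =>
    Finset.measurable_sum _ fun l _ => (hMm b c l).add (hMm c b l)
  have hpt : ∀ z, S.coll t n k a z ≤ ∑ b, ∑ c ∈ Finset.univ.erase b, G b c z := by
    intro z
    refine iSup₂_le fun j hj => iSup_le fun ρ => (offMax_le_pairs _).trans ?_
    refine Finset.sum_le_sum fun b _ => Finset.sum_le_sum fun c hc => ?_
    have hcb : c ≠ b := Finset.ne_of_mem_erase hc
    rw [sum_layer_eq hlev, sum_layer_eq hlev]
    refine (min_sum_le _ _ _).trans (Finset.sum_le_sum fun l _ => add_le_add ?_ ?_)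
    · exact (min_le_min_left _ (sum_Ico_layer_le n _ _ _ _ _)).trans
        (hMle b c l hcb.symm z j hj ρ)
    · exact (min_le_min_left _ (sum_Ico_layer_le n _ _ _ _ _)).trans (hMle c b l hcb z j hj ρ)
  refine (nrm2_mono hpt).trans ?_
  refine (nrm2_sum_le _ fun b => Finset.measurable_sum _ fun c _ => hGm b c).trans ?_
  calc ∑ b, nrm2 (fun z => ∑ c ∈ Finset.univ.erase b, G b c z)
      ≤ ∑ b, ∑ c ∈ Finset.univ.erase b,
          ∑ l ∈ Finset.range (n - Mb).toNat, ((P b l + Q c l) + (P c l + Q b l)) := by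
        refine Finset.sum_le_sum fun b _ => (nrm2_sum_le _ fun c => hGm b c).trans
          (Finset.sum_le_sum fun c _ => ?_)
        refine (nrm2_sum_le _ fun l => (hMm b c l).add (hMm c b l)).trans
          (Finset.sum_le_sum fun l _ => ?_)
        exact (nrm2_add_le (hMm b c l) (hMm c b l)).trans (add_le_add (hMn b c l) (hMn c b l))
    _ ≤ ∑ b : Fin d → Fin 2, ∑ c : Fin d → Fin 2,
          ∑ l ∈ Finset.range (n - Mb).toNat, ((P b l + Q b l) + (P c l + Q c l)) := by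
        refine Finset.sum_le_sum fun b _ => (Finset.sum_le_sum_of_subset (Finset.erase_subset _ _)).trans
          (le_of_eq ?_)
        exact Finset.sum_congr rfl fun c _ => Finset.sum_congr rfl fun l _ => by ring
    _ = _ := by
        simp only [Finset.sum_add_distrib, Finset.sum_const, Finset.card_univ, nsmul_eq_mul,
          ← Finset.mul_sum]
        simp only [depthW, P, Q, Finset.sum_add_distrib]
        rw [Finset.sum_comm (s := Finset.range (n - Mb).toNat),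
          Finset.sum_comm (s := Finset.range (n - Mb).toNat),
          Finset.sum_comm (s := Finset.range (n - Mb).toNat)]
        ring

/-! ## One grid -/

/-- All collision terms of one grid. -/
def totC (S : Sys d ι) (t : E d) (Mb : ℤ) : ℝ≥0∞ :=
  ∑ n ∈ Finset.Ioc Mb S.top, ∑' k, S.csum t n k

theorem totC_ne_top [NeZero d] (hw : ∀ i, S.wt i ≠ ⊤) (Mb : ℤ) : S.totC t Mb ≠ ⊤ := by
  refine ENNReal.sum_ne_top.2 fun n _ => ne_top_of_le_ne_top
    (ENNReal.sum_ne_top.2 fun i (_ : i ∈ Finset.univ.filter fun i => S.lev i ≤ n - 1) => hw i) ?_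
  refine (ENNReal.tsum_le_tsum fun k => ?_).trans
    ((tsum_kid (f := fun k => ∑ i ∈ S.below t (n - 1) k, S.wt i)).le.trans
      (S.tsum_sum_items t (n - 1) _ _ fun k i => by simp [mem_below]).le)
  refine iSup_le fun a => (nrm2_mono fun z => ?_).trans (nrm2_const_le _)
  refine iSup₂_le fun j _ => iSup_le fun ρ =>
    (iInf_le _ (fun _ => 0)).trans ((Finset.sum_le_sum_of_subset (Finset.erase_subset _ _)).trans ?_)
  exact Finset.sum_le_sum fun b _ => Finset.sum_le_sum fun i _ => by split_ifs <;> simp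

theorem csum_eq_zero [NeZero d] (hL : 1 ≤ S.L0) {Mb n : ℤ} (hlev : ∀ i, Mb ≤ S.lev i)
    (hn : n ∉ Finset.Ioc Mb S.top) (k : Fin d → ℤ) : S.csum t n k = 0 := by
  refine le_antisymm (iSup_le fun a => (nrm2_mono fun z => ?_).trans (nrm2_const_le 0)) zero_le
  refine iSup₂_le fun j hj => iSup_le fun ρ => ?_
  have hn' : n ≤ Mb := by
    by_contra hlt
    obtain ⟨h1, h2⟩ := hj
    have hd : (1 : ℝ) ≤ Real.sqrt d :=
      Real.one_le_sqrt.2 (by exact_mod_cast (NeZero.pos d : 0 < d))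
    have h3 : (2 : ℝ) ^ n ≤ 2 ^ j := by
      refine le_trans ?_ h2
      calc (2 : ℝ) ^ n = 1 * (1 * 2 ^ n) := by ring
        _ ≤ S.L0 * (Real.sqrt d * 2 ^ n + ‖a - qctr t n k‖) :=
          mul_le_mul hL ((mul_le_mul_of_nonneg_right hd (by positivity)).trans
            (le_add_of_nonneg_right (norm_nonneg _))) (by positivity) (by linarith)
    have : n ≤ j := (zpow_le_zpow_iff_right₀ (one_lt_two (α := ℝ))).1 h3
    exact hn (Finset.mem_Ioc.2 ⟨by omega, by omega⟩)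
  refine (iInf_le _ (fun _ => 0)).trans (le_of_eq (Finset.sum_eq_zero fun b _ =>
    Finset.sum_eq_zero fun i hi => ?_))
  have := (mem_below.1 hi).2; have := hlev i
  omega

theorem tsum_layerW (n : ℤ) (l : ℕ) :
    ∑' k, S.layerW t (n - 1) k l
      = ∑ i ∈ Finset.univ.filter (fun i => S.lev i = n - 1 - l), S.wt i :=
  S.tsum_sum_items t (n - 1) _ _ fun k i => by
    simp only [layer, Finset.mem_filter, mem_below, Finset.mem_univ, true_and]
    exact ⟨fun h => ⟨h.1.1, h.2⟩, fun h => ⟨⟨h.1, by omega⟩, h.2⟩⟩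

theorem tsum_nearW (n : ℤ) (l : ℕ) :
    ∑' k, S.nearW t (n - 1) k l
      = ∑ i ∈ Finset.univ.filter
          (fun i => S.lev i = n - 1 - l ∧ ¬ S.inner' t (n - 1) l i), S.wt i :=
  S.tsum_sum_items t (n - 1) _ _ fun k i => by
    simp only [layer, Finset.mem_filter, mem_below, Finset.mem_univ, true_and]
    exact ⟨fun h => ⟨h.1.1.1, h.1.2, h.2⟩, fun h => ⟨⟨⟨h.1, by omega⟩, h.2.1⟩, h.2.2⟩⟩

omit [Fintype ι] in
theorem sum_shifted_le (S : Sys d ι) (J : Finset ℤ) (l : ℕ) (i : ι) (w : ℝ≥0∞) :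
    ∑ n ∈ J, (if S.lev i = n - 1 - l then w else 0) ≤ w := by
  have e : ∀ n : ℤ, (S.lev i = n - 1 - l) ↔ n = S.lev i + l + 1 := fun n => by omega
  simp only [e, Finset.sum_ite_eq']
  split_ifs <;> simp

/-- All levels of the descendant errors at depth `l`. -/
theorem sum_errW_le [NeZero d] (hL : 0 ≤ S.L0) (Mb : ℤ) (l : ℕ) :
    ∑ n ∈ (Finset.Ioc Mb S.top).filter (fun n => l < (n - Mb).toNat),
        ∑' k, S.errW t (n - 1) k (l / 2)
      ≤ l * (2 * ∑ i, S.wt i + S.totC t Mb) := by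
  set J := (Finset.Ioc Mb S.top).filter (fun n => l < (n - Mb).toNat)
  set Φ : ℤ → ℝ≥0∞ := fun q => ∑' k, S.loss t q k + ∑' k, S.csum t q k + ∑' k, S.leafW t q k
  have hΦ : ∑ q ∈ Finset.Ioc Mb S.top, Φ q ≤ 2 * ∑ i, S.wt i + S.totC t Mb := by
    have hlf : ∑ q ∈ Finset.Ioc Mb S.top, ∑' k, S.leafW t q k ≤ ∑ i, S.wt i := by
      calc ∑ q ∈ Finset.Ioc Mb S.top, ∑' k, S.leafW t q k
          = ∑ q ∈ Finset.Ioc Mb S.top, ∑ i, if S.lev i = q then S.wt i else 0 :=
            Finset.sum_congr rfl fun q _ => by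
              rw [← Finset.sum_filter]
              exact S.tsum_sum_items t q _ _ fun k i => by simp [mem_leaves]
        _ ≤ _ := by
            rw [Finset.sum_comm]
            exact Finset.sum_le_sum fun i _ => by
              simp only [Finset.sum_ite_eq]; split_ifs <;> simp
    have hlo : ∑ q ∈ Finset.Ioc Mb S.top, ∑' k, S.loss t q k ≤ ∑ i, S.wt i :=
      (ENNReal.sum_le_tsum _).trans (loss_total hL)
    simp only [Φ, Finset.sum_add_distrib]
    rw [two_mul, totC, add_right_comm _ (∑ i, S.wt i)]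
    exact add_le_add (add_le_add hlo le_rfl) hlf
  have herr : ∀ n : ℤ, ∑' k, S.errW t (n - 1) k (l / 2)
      = ∑ g ∈ Finset.range (l / 2), Φ (n - 1 - g) := fun n => by
    simp only [errW]
    rw [Summable.tsum_finsetSum fun _ _ => ENNReal.summable]
    refine Finset.sum_congr rfl fun g _ => ?_
    rw [tsum_descs g (fun kk => S.loss t (n - 1 - g) kk + S.csum t (n - 1 - g) kk
      + S.leafW t (n - 1 - g) kk), ENNReal.tsum_add, ENNReal.tsum_add]
  simp only [herr]
  rw [Finset.sum_comm]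
  refine (Finset.sum_le_card_nsmul _ _ (2 * ∑ i, S.wt i + S.totC t Mb) fun g hg => ?_).trans ?_
  · refine le_trans ?_ hΦ
    rw [← Finset.sum_image (f := Φ) (g := fun n : ℤ => n - 1 - g) (fun a _ b _ e => by simpa using e)]
    refine Finset.sum_le_sum_of_subset fun q hq => ?_
    obtain ⟨n, hn, rfl⟩ := Finset.mem_image.1 hq
    simp only [J, Finset.mem_filter, Finset.mem_Ioc] at hn
    have := Finset.mem_range.1 hg
    exact Finset.mem_Ioc.2 ⟨by omega, by omega⟩
  · rw [Finset.card_range, nsmul_eq_mul]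
    gcongr
    omega

/-- The collision terms of one grid by depths. -/
theorem totC_le_depths [NeZero d] {C : ℝ≥0∞} {K0 : ℝ}
    (hC : ∀ (n : ℤ) (k : Fin d → ℤ) (b c : Fin d → Fin 2) (l : ℕ) (a : E d), b ≠ c → S.K ≤ K0 →
      ∃ M : E d → ℝ≥0∞, Measurable M ∧
        (∀ z : E d, ∀ j ∈ S.adm t n k a, ∀ ρ : ℝ,
          min (S.cutOn (S.layer t (n - 1) (kid k b) l) (a + (2 : ℝ) ^ j • z) ρ)
              (S.cutOn (S.deep t (n - 1) (kid k c) l) (a + (2 : ℝ) ^ j • z) ρ) ≤ M z) ∧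
        nrm2 M ≤ S.nearW t (n - 1) (kid k b) l
          + C * th l * (S.layerW t (n - 1) (kid k b) l + S.errW t (n - 1) (kid k c) (l / 2)))
    (hK : S.K ≤ K0) (hL : 0 ≤ S.L0) {Mb : ℤ} (hlev : ∀ i, Mb ≤ S.lev i) (l0 : ℕ) :
    S.totC t Mb ≤ 2 * (Fintype.card (Fin d → Fin 2) : ℝ≥0∞) *
      ((∑ l ∈ Finset.range (S.top - Mb).toNat,
          ∑ n ∈ (Finset.Ioc Mb S.top).filter (fun n => l < (n - Mb).toNat), ∑ i,
            if S.lev i = n - 1 - l ∧ ¬ S.inner' t (n - 1) l i then S.wt i else 0)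
        + (l0 + C * ∑' l, th l) * ∑ i, S.wt i
        + (C * ∑' q : ℕ, ((q + l0 : ℕ) : ℝ≥0∞) * th (q + l0))
            * (2 * ∑ i, S.wt i + S.totC t Mb)) := by
  set u : ℕ → ℝ≥0∞ := fun l => if l < l0 then 1 else C * th l with hu
  set v : ℕ → ℝ≥0∞ := fun l => if l < l0 then 0 else C * th l with hv
  set D := (S.top - Mb).toNat with hD
  set W := ∑ i, S.wt i
  set N : ℝ≥0∞ := (Fintype.card (Fin d → Fin 2) : ℝ≥0∞)
  have h1 : ∀ n, ∑' k, S.csum t n k
      ≤ 2 * N * ∑ l ∈ Finset.range (n - Mb).toNat, ∑' k, S.depthW t u v (n - 1) k l := fun n => by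
    refine (ENNReal.tsum_le_tsum fun k => csum_le_depths hC hK hlev l0 n k).trans (le_of_eq ?_)
    rw [ENNReal.tsum_mul_left, Summable.tsum_finsetSum fun _ _ => ENNReal.summable]
    exact congrArg _ (Finset.sum_congr rfl fun l _ =>
      tsum_kid (f := fun k => S.depthW t u v (n - 1) k l))
  refine (Finset.sum_le_sum fun n _ => h1 n).trans ?_
  rw [← Finset.mul_sum]
  refine mul_le_mul_of_nonneg_left ?_ zero_le
  rw [Finset.sum_comm' (t' := Finset.range D)
    (s' := fun l => (Finset.Ioc Mb S.top).filter fun n => l < (n - Mb).toNat) fun n l => by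
      simp only [Finset.mem_range, Finset.mem_Ioc, Finset.mem_filter]
      constructor
      · rintro ⟨h, h'⟩; exact ⟨⟨h, h'⟩, by omega⟩
      · rintro ⟨⟨h, h'⟩, -⟩; exact ⟨h, h'⟩]
  simp only [depthW, ENNReal.tsum_add, ENNReal.tsum_mul_left, Finset.sum_add_distrib,
    ← Finset.mul_sum]
  refine add_le_add (add_le_add (le_of_eq ?_) ?_) ?_
  · refine Finset.sum_congr rfl fun l _ => Finset.sum_congr rfl fun n _ => ?_
    rw [tsum_nearW, Finset.sum_filter]
  · refine (Finset.sum_le_sum fun l _ => mul_le_mul_of_nonneg_left (b := ∑ n ∈ _, _) (c := W)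
      ?_ zero_le).trans ?_
    · calc ∑ n ∈ (Finset.Ioc Mb S.top).filter (fun n => l < (n - Mb).toNat),
            ∑' k, S.layerW t (n - 1) k l
          = ∑ n ∈ (Finset.Ioc Mb S.top).filter (fun n => l < (n - Mb).toNat),
              ∑ i, if S.lev i = n - 1 - l then S.wt i else 0 :=
            Finset.sum_congr rfl fun n _ => by rw [tsum_layerW, Finset.sum_filter]
        _ ≤ W := by
            rw [Finset.sum_comm]
            exact Finset.sum_le_sum fun i _ => sum_shifted_le S _ _ i _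
    · rw [← Finset.sum_mul]
      refine mul_le_mul_of_nonneg_right ?_ zero_le
      calc ∑ l ∈ Finset.range D, u l
          ≤ ∑ l ∈ Finset.range D, ((if l < l0 then 1 else 0) + C * th l) :=
            Finset.sum_le_sum fun l _ => by simp only [hu]; split_ifs <;> simp
        _ ≤ _ := by
            rw [Finset.sum_add_distrib, ← Finset.mul_sum]
            refine add_le_add ?_ (mul_le_mul_of_nonneg_left (ENNReal.sum_le_tsum _) zero_le)
            rw [← Finset.sum_filter, Finset.sum_const, nsmul_eq_mul, mul_one]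
            gcongr
            exact (Finset.card_le_card (fun l hl => Finset.mem_range.2 (Finset.mem_filter.1 hl).2)).trans
              (Finset.card_range l0).le
  · refine (Finset.sum_le_sum fun l _ => mul_le_mul_of_nonneg_left
      (sum_errW_le hL Mb l) zero_le).trans ?_
    simp only [← mul_assoc]
    rw [← Finset.sum_mul]
    refine mul_le_mul_of_nonneg_right ?_ zero_le
    calc ∑ l ∈ Finset.range D, v l * (l : ℝ≥0∞)
        = ∑ l ∈ (Finset.range D).filter (fun l => ¬ l < l0), C * ((l : ℝ≥0∞) * th l) := by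
          rw [Finset.sum_filter]
          exact Finset.sum_congr rfl fun l _ => by
            simp only [hv]; split_ifs <;> ring
      _ ≤ ∑ l ∈ Finset.Ico l0 D, C * ((l : ℝ≥0∞) * th l) :=
          Finset.sum_le_sum_of_subset fun l hl => by
            simp only [Finset.mem_filter, Finset.mem_range, not_lt] at hl
            exact Finset.mem_Ico.2 ⟨hl.2, hl.1⟩
      _ ≤ _ := by
          rw [← Finset.mul_sum, Finset.sum_Ico_eq_sum_range]
          refine mul_le_mul_of_nonneg_left (le_trans (le_of_eq ?_) (ENNReal.sum_le_tsum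
            (Finset.range (D - l0)))) zero_le
          exact Finset.sum_congr rfl fun q _ => by rw [add_comm l0 q]

/-- The near parts, summed over the shifts. -/
theorem sum_near_le {Mb : ℤ} {m : ℕ} (hlev : ∀ i, Mb ≤ S.lev i) (htop : S.top ≤ Mb + m) (l : ℕ) :
    ∑ s : Fin d → Fin (2 ^ m),
        ∑ n ∈ (Finset.Ioc Mb S.top).filter (fun n => l < (n - Mb).toNat), ∑ i,
          (if S.lev i = n - 1 - l ∧ ¬ S.inner' (qlat 0 Mb s) (n - 1) l i then S.wt i else 0)
      ≤ 2 * d * (2⁻¹ : ℝ≥0∞) ^ (l / 8) * ((2 ^ m) ^ d : ℕ) * ∑ i, S.wt i := by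
  rw [Finset.sum_comm]
  simp only [Finset.sum_comm (s := (Finset.univ : Finset (Fin d → Fin (2 ^ m))))]
  rw [Finset.sum_comm, Finset.mul_sum]
  refine Finset.sum_le_sum fun i _ => le_trans (Finset.sum_le_sum fun n hn => ?_)
    (sum_shifted_le S ((Finset.Ioc Mb S.top).filter fun n => l < (n - Mb).toNat) l i
      (2 * d * (2⁻¹ : ℝ≥0∞) ^ (l / 8) * ((2 ^ m) ^ d : ℕ) * S.wt i))
  simp only [Finset.mem_filter, Finset.mem_Ioc] at hn
  by_cases he : S.lev i = n - 1 - l
  · have hli := hlev i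
    obtain ⟨h, hh⟩ : ∃ h : ℕ, n - 1 = Mb + h := ⟨(n - 1 - Mb).toNat, by omega⟩
    simp only [he, true_and, if_pos]
    rw [← Finset.sum_filter, Finset.sum_const, nsmul_eq_mul, hh]
    exact mul_le_mul_of_nonneg_right (near_count (by omega) (by omega) i) zero_le
  · simp [he]

end Sys

/-- Clustering: the collision terms of all levels, averaged over the shifts. -/
theorem clustering_general (d : ℕ) [NeZero d] (K0 : ℝ) : ∃ C : ℝ≥0∞, C ≠ ⊤ ∧
    ∀ (ι : Type) [Fintype ι] (S : Sys d ι) (Mb : ℤ) (m : ℕ),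
      S.K ≤ K0 → 1 ≤ S.L0 → (∀ i, Mb ≤ S.lev i) → (∀ i, S.wt i ≠ ⊤) → S.top ≤ Mb + m →
      avgShift Mb m (fun t => ∑' n : ℤ, ∑' k, S.csum t n k) ≤ C * ∑ i, S.wt i := by
  obtain ⟨Cp, hCp, hpair⟩ := Sys.pair_bound d K0
  set N : ℝ≥0∞ := (Fintype.card (Fin d → Fin 2) : ℝ≥0∞)
  have hN : N ≠ ⊤ := ENNReal.natCast_ne_top _
  have hlim : Tendsto (fun l0 : ℕ => 2 * N * (Cp * ∑' q : ℕ, ((q + l0 : ℕ) : ℝ≥0∞) * th (q + l0)))
      atTop (𝓝 0) := by
    have h0 := ENNReal.tendsto_sum_nat_add (fun l : ℕ => (l : ℝ≥0∞) * th l) tsum_mul_th_ne_top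
    have h1 := ENNReal.Tendsto.const_mul (ENNReal.Tendsto.const_mul h0 (Or.inr hCp))
      (Or.inr (ENNReal.mul_ne_top (by norm_num : (2 : ℝ≥0∞) ≠ ⊤) hN))
    simpa using h1
  obtain ⟨l0, hl0⟩ := (hlim.eventually (ge_mem_nhds (ENNReal.inv_pos.2 (by norm_num :
    (2 : ℝ≥0∞) ≠ ⊤)))).exists
  set A : ℝ≥0∞ := 2 * N * (2 * d * (∑' l : ℕ, (2⁻¹ : ℝ≥0∞) ^ (l / 8)) + (l0 + Cp * ∑' l, th l)) + 1
  have hA : A ≠ ⊤ := by
    refine ENNReal.add_ne_top.2 ⟨ENNReal.mul_ne_top (ENNReal.mul_ne_top (by norm_num) hN)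
      (ENNReal.add_ne_top.2 ⟨ENNReal.mul_ne_top (by simp [ENNReal.mul_eq_top])
        (tsum_half_div_ne_top 8), ENNReal.add_ne_top.2 ⟨ENNReal.natCast_ne_top _,
          ENNReal.mul_ne_top hCp (tsum_half_div_ne_top 64)⟩⟩), ENNReal.one_ne_top⟩
  refine ⟨2 * A, ENNReal.mul_ne_top (by norm_num) hA, fun ι _ S Mb m hK hL hlev hw htop => ?_⟩
  set W := ∑ i, S.wt i
  have hP : ((2 ^ m) ^ d : ℕ) ≠ 0 := by positivity
  set P : ℝ≥0∞ := (((2 ^ m) ^ d : ℕ) : ℝ≥0∞) with hPdef
  set X : ℝ≥0∞ := ∑ s : Fin d → Fin (2 ^ m), S.totC (qlat 0 Mb s) Mb with hX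
  have hXt : X ≠ ⊤ := ENNReal.sum_ne_top.2 fun s _ => Sys.totC_ne_top hw Mb
  have havg : avgShift Mb m (fun t => ∑' n : ℤ, ∑' k, S.csum t n k) = X / P := by
    rw [avgShift, hX]
    congr 1
    refine Finset.sum_congr rfl fun s _ => tsum_eq_sum fun n hn => ?_
    simp [Sys.csum_eq_zero hL hlev hn]
  set T : ℝ≥0∞ := ∑' l : ℕ, (2⁻¹ : ℝ≥0∞) ^ (l / 8)
  have hkey : X ≤ A * P * W + 2⁻¹ * X := by
    calc X ≤ ∑ s : Fin d → Fin (2 ^ m), 2 * N *
          ((∑ l ∈ Finset.range (S.top - Mb).toNat,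
              ∑ n ∈ (Finset.Ioc Mb S.top).filter (fun n => l < (n - Mb).toNat), ∑ i,
                if S.lev i = n - 1 - l ∧ ¬ S.inner' (qlat 0 Mb s) (n - 1) l i then S.wt i else 0)
            + (l0 + Cp * ∑' l, th l) * W
            + (Cp * ∑' q : ℕ, ((q + l0 : ℕ) : ℝ≥0∞) * th (q + l0))
                * (2 * W + S.totC (qlat 0 Mb s) Mb)) :=
          Finset.sum_le_sum fun s _ => Sys.totC_le_depths
            (fun n k b c l a hbc hK => hpair ι S _ n k b c l a hbc hK hL hw)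
            hK (zero_le_one.trans hL) hlev l0
      _ ≤ 2 * N * (2 * d * T * P * W + P * ((l0 + Cp * ∑' l, th l) * W))
            + 2⁻¹ * (P * (2 * W) + X) := by
          simp only [← Finset.mul_sum, Finset.sum_add_distrib, Finset.sum_const, Finset.card_univ,
            Fintype.card_fun, Fintype.card_fin, nsmul_eq_mul, ← hPdef]
          rw [mul_add (2 * N) _ ((Cp * _) * _), ← mul_assoc (2 * N) (Cp * _) _]
          refine add_le_add (mul_le_mul_of_nonneg_left (add_le_add ?_ (mul_left_comm _ P W).le) zero_le)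
            (mul_le_mul hl0 (by rw [hX, mul_left_comm P 2 W]) zero_le zero_le)
          rw [Finset.sum_comm]
          refine (Finset.sum_le_sum fun l _ => Sys.sum_near_le hlev htop l).trans ?_
          rw [← Finset.sum_mul, ← Finset.sum_mul, ← Finset.mul_sum]
          gcongr
          exact ENNReal.sum_le_tsum _
      _ = A * P * W + 2⁻¹ * X := by
          have e : (2⁻¹ : ℝ≥0∞) * (P * (2 * W)) = P * W := by
            rw [mul_left_comm, ← mul_assoc (2⁻¹ : ℝ≥0∞),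
              ENNReal.inv_mul_cancel (by norm_num) (by norm_num), one_mul]
          rw [mul_add (2⁻¹ : ℝ≥0∞), e]
          simp only [A]
          ring
  have hhalf : 2⁻¹ * X ≤ A * P * W := by
    refine ENNReal.le_of_add_le_add_right (ENNReal.mul_ne_top (by norm_num) hXt) (le_trans ?_ hkey)
    rw [← add_mul, ENNReal.inv_two_add_inv_two, one_mul]
  rw [havg, ENNReal.div_le_iff (by exact_mod_cast hP) (ENNReal.natCast_ne_top _)]
  calc X = 2 * (2⁻¹ * X) := by
        rw [← mul_assoc, ENNReal.mul_inv_cancel (by norm_num) (by norm_num), one_mul]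
    _ ≤ 2 * (A * P * W) := mul_le_mul_of_nonneg_left hhalf zero_le
    _ = _ := by ring

theorem clustering (hd : 2 ≤ d) : ∃ C : ℝ≥0∞, C ≠ ⊤ ∧
    ∀ (ι : Type) [Fintype ι] (S : Sys d ι) (Mb : ℤ) (m : ℕ),
      S.K = Kp d → S.L0 = L0 d → (∀ i, Mb ≤ S.lev i ∧ S.lev i ≤ S.top) → (∀ i, S.wt i ≠ ⊤) →
      S.top ≤ Mb + m →
      avgShift Mb m (fun t => ∑' n : ℤ, ∑' k, S.csum t n k) ≤ C * ∑ i, S.wt i := by
  have : NeZero d := ⟨by omega⟩
  obtain ⟨C, hC, h⟩ := clustering_general d (Kp d)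
  refine ⟨C, hC, fun ι _ S Mb m hK hL hlev hw htop => h ι S Mb m hK.le ?_ (fun i => (hlev i).1) hw htop⟩
  have h2 : (2 : ℝ) ≤ d := by exact_mod_cast hd
  have h3 : (1 : ℝ) ≤ Kp d := by unfold Kp Kd; linarith
  rw [hL, L0]
  nlinarith

end

end Vale.Agent.P137.Cen
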