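import Vale.Agent.P137.Cen.TreeFacts

/-!
# P137, centred operator: candidate trees at a point and a scale, and the endpoint sums
-/

open MeasureTheory Metric Set Filter
open scoped ENNReal NNReal RealInnerProductSpace Gradient Topology

namespace Vale.Agent.P137.Cen

open Vale.Agent.P137.Unc (E ballAvg Smooth)

noncomputable section

attribute [local instance] Classical.propDecidable

variable {d : ℕ}

/-- Enclosing radius of the balls which cut an item, in units of the scale. -/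
def Rcut (d : ℕ) : ℝ := 2 + Kp d * 2 ^ C0 d

/-- Index radius of the candidates. -/
def Bcand (d : ℕ) : ℕ := ⌈Rcut d⌉₊ + 6

/-- Offsets of the candidates. -/
def candOff (d : ℕ) : Finset (ℕ × (Fin d → ℤ)) :=
  Finset.range (C0 d + 1) ×ˢ Fintype.piFinset fun _ => Finset.Icc (-(Bcand d : ℤ)) (Bcand d : ℤ)

namespace Cfg

variable {c : Cfg d}

/-- The roots of the comparison cubes near a point. -/
def cand (c : Cfg d) (y : E d) (n : ℤ) : Finset (Cb d) :=
  (candOff d).image fun p => c.root (n + p.1) (qidx c.t (n + p.1) y + p.2)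

theorem card_cand_le (c : Cfg d) (y : E d) (n : ℤ) :
    (c.cand y n).card ≤ (candOff d).card := Finset.card_image_le

theorem Rcut_ge (d : ℕ) : 2 ≤ Rcut d := by
  have : (0 : ℝ) ≤ Kp d * 2 ^ C0 d := by unfold Kp Kd; positivity
  unfold Rcut; linarith

/-- The tree of an admissible radius is a candidate at every point near the centre. -/
theorem mem_cand (hd : 1 ≤ d) {R : Cb d} (hR : c.Tree R) {x y : E d} (hz : 0 < c.zeta R x)
    {r : ℝ} (hr : r ∈ Icc (c.rlo R x) (c.rhi R x)) {n : ℤ} (hn : (2 : ℝ) ^ n ≤ r)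
    (hn' : r ≤ (2 : ℝ) ^ (n + 1)) (hy : ‖x - y‖ ≤ Rcut d * (2 : ℝ) ^ n) :
    R ∈ c.cand y n := by
  obtain ⟨h1, -, -, -, -, k0, -, hroot, ⟨o, ho⟩, -⟩ := comparator hd hR hz hr hn hn'
  set n' := min (n + (C0 d : ℤ)) R.1 with hn'def
  have hle : n' ≤ n + (C0 d : ℤ) := min_le_left _ _
  have hp : (0 : ℝ) < 2 ^ n' := zpow_pos two_pos n'
  have hb : ∀ i, |qidx c.t n' x i - qidx c.t n' y i| ≤ (⌈Rcut d⌉₊ : ℤ) + 1 := fun i => by
    have hi : |(x - y) i| ≤ Rcut d * (2 : ℝ) ^ n' := by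
      refine le_trans (by simpa using PiLp.norm_apply_le (x - y) i) (hy.trans ?_)
      exact mul_le_mul_of_nonneg_left (zpow_le_zpow_right₀ one_le_two h1.le)
        (zero_le_two.trans (Rcut_ge d))
    simp only [PiLp.sub_apply] at hi
    simp only [qidx]
    set a := (x i - c.t i) / (2 : ℝ) ^ n'
    set b := (y i - c.t i) / (2 : ℝ) ^ n'
    have hab : |a - b| ≤ (⌈Rcut d⌉₊ : ℕ) := by
      refine le_trans ?_ (Nat.le_ceil _)
      rw [show a - b = (x i - y i) / (2 : ℝ) ^ n' by simp only [a, b]; ring, abs_div,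
        abs_of_pos hp, div_le_iff₀ hp]
      exact hi
    obtain ⟨u1, u2⟩ := abs_le.1 hab
    have f1 := Int.floor_le a
    have f2 := Int.lt_floor_add_one a
    have f3 := Int.floor_le b
    have f4 := Int.lt_floor_add_one b
    have q1 : ((⌊a⌋ - ⌊b⌋ : ℤ) : ℝ) < (((⌈Rcut d⌉₊ : ℤ) + 1 + 1 : ℤ) : ℝ) := by
      push_cast; linarith
    have q2 : ((-((⌈Rcut d⌉₊ : ℤ) + 1 + 1) : ℤ) : ℝ) < ((⌊a⌋ - ⌊b⌋ : ℤ) : ℝ) := by
      push_cast; linarith
    have q1' := Int.cast_lt.1 q1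
    have q2' := Int.cast_lt.1 q2
    exact abs_le.2 ⟨by omega, by omega⟩
  refine Finset.mem_image.2 ⟨((n' - n).toNat, k0 - qidx c.t n' y), ?_, ?_⟩
  · refine Finset.mem_product.2 ⟨Finset.mem_range.2 (by omega), Fintype.mem_piFinset.2 fun i => ?_⟩
    have := abs_le.1 (hb i)
    have hoi := (o i).isLt
    have hk : k0 i = qidx c.t n' x i + (((o i : ℕ) : ℤ) - 4) := congrFun ho i
    simp only [Pi.sub_apply, Finset.mem_Icc, Bcand]
    push_cast
    omega
  · simp only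
    rw [show n + ((n' - n).toNat : ℤ) = n' by omega, add_sub_cancel, hroot]

end Cfg

/-- A geometric sum over scales. -/
theorem sum_geom_scales (C : ℕ) (l a b : ℤ) :
    ∑ n ∈ Finset.Icc a b, (if l ≤ n + (C : ℤ) then ENNReal.ofReal ((2 : ℝ) ^ (l - n)) else 0)
      ≤ ENNReal.ofReal ((2 : ℝ) ^ (C + 1)) := by
  rw [← Finset.sum_filter]
  set N := ((Finset.Icc a b).filter fun n => l ≤ n + (C : ℤ))
  have hsub : N ⊆ (Finset.range (b - (l - C) + 1).toNat).image fun j : ℕ => l - C + j := fun n hn => by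
    simp only [N, Finset.mem_filter, Finset.mem_Icc] at hn
    refine Finset.mem_image.2 ⟨(n - (l - C)).toNat, Finset.mem_range.2 (by omega), by omega⟩
  refine (Finset.sum_le_sum_of_subset hsub).trans ?_
  rw [Finset.sum_image (fun i _ j _ h => by simpa using h)]
  rw [← ENNReal.ofReal_sum_of_nonneg fun j _ => zpow_nonneg zero_le_two _]
  refine ENNReal.ofReal_le_ofReal ?_
  set J := (b - (l - C) + 1).toNat
  have e : ∀ j : ℕ, (2 : ℝ) ^ (l - (l - C + j)) = 2 ^ C * (1 / 2) ^ j := fun j => by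
    rw [show l - (l - C + j) = (C : ℤ) + -(j : ℤ) by ring, zpow_add₀ two_ne_zero, zpow_natCast,
      zpow_neg, zpow_natCast, one_div, inv_pow]
  simp only [e]
  rw [← Finset.mul_sum, pow_succ]
  exact mul_le_mul_of_nonneg_left (sum_geometric_two_le J) (by positivity)

/-- The endpoint radii of all trees cut items only on thin sets. -/
theorem edge_total (hd : 2 ≤ d) : ∃ C : ℝ≥0∞, C ≠ ⊤ ∧
    ∀ (c : Cfg d) (P : Set (Cb d)) (ρ : Cb d → E d → ℝ),
      (∀ R ∈ P, c.Tree R) →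
      (∀ R ∈ P, ∀ x, ρ R x ∈ Icc (c.rlo R x) (c.rhi R x)) →
      (∀ R ∈ P, ∀ x x', |ρ R x - ρ R x'| ≤ ‖x - x'‖ / 2) →
      ∑' R : Cb d, (if R ∈ P then
          ∫⁻ x, ∑ n ∈ Finset.Icc (c.M - (C0 d : ℤ)) c.N0,
            (if 0 < c.zeta R x ∧ (2 : ℝ) ^ n ≤ ρ R x ∧ ρ R x < (2 : ℝ) ^ (n + 1) then
              ENNReal.ofReal ((((2 : ℝ) ^ n) ^ d)⁻¹) * c.cutS x (ρ R x) (min (n + (C0 d : ℤ)) R.1)
            else 0) else 0)
        ≤ C * c.totW := by
  have hd1 : 1 ≤ d := le_trans one_le_two hd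
  obtain ⟨Cm, hCm0, hCm⟩ := edge_measure d hd1 (R0 := Rcut d) (one_le_two.trans (Cfg.Rcut_ge d))
  set A : ℝ≥0∞ := ((candOff d).card : ℝ≥0∞) * ENNReal.ofReal (Cm * Kp d)
    * ENNReal.ofReal ((2 : ℝ) ^ (C0 d + 1)) with hA
  refine ⟨A, ENNReal.mul_ne_top (ENNReal.mul_ne_top (ENNReal.natCast_ne_top _)
    ENNReal.ofReal_ne_top) ENNReal.ofReal_ne_top, fun c P ρ hT hρ hlip => ?_⟩
  have hK : 0 < Kp d := by
    have : (0 : ℝ) < d := by exact_mod_cast (show 0 < d by omega)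
    unfold Kp Kd; positivity
  set S : Cb d → ℤ → ℤ → (Fin d → ℤ) → Set (E d) := fun R n l k =>
    {x | ‖x - qctr c.t l k‖ ≤ Rcut d * (2 : ℝ) ^ n ∧ (2 : ℝ) ^ n ≤ ρ R x ∧
      |‖x - qctr c.t l k‖ - ρ R x| ≤ Kp d * (2 : ℝ) ^ l}
  set Sm : Cb d → ℤ → ℤ → (Fin d → ℤ) → ℝ≥0∞ := fun R n l k =>
    if R ∈ c.cand (qctr c.t l k) n ∧ R ∈ P ∧ l ≤ n + (C0 d : ℤ) then
      ENNReal.ofReal ((((2 : ℝ) ^ n) ^ d)⁻¹) * (volume (S R n l k) * c.iw l k) else 0
  have hmeasS : ∀ R n l k, R ∈ P → MeasurableSet (S R n l k) := fun R n l k hR => by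
    have hc : Continuous (ρ R) := by
      refine (LipschitzWith.of_dist_le_mul (K := (1 : ℝ≥0)) fun x x' => ?_).continuous
      rw [Real.dist_eq, dist_eq_norm, NNReal.coe_one, one_mul]
      refine (hlip R hR x x').trans ?_
      linarith [norm_nonneg (x - x')]
    have h1 : Continuous fun x : E d => ‖x - qctr c.t l k‖ := by fun_prop
    exact (measurableSet_le h1.measurable measurable_const).inter
      ((measurableSet_le measurable_const hc.measurable).inter
        (measurableSet_le (h1.sub hc).abs.measurable measurable_const))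
  set Is := Finset.Icc c.Mb c.N0
  set Ns := Finset.Icc (c.M - (C0 d : ℤ)) c.N0
  have hterm : ∀ R : Cb d, (if R ∈ P then
          ∫⁻ x, ∑ n ∈ Ns,
            (if 0 < c.zeta R x ∧ (2 : ℝ) ^ n ≤ ρ R x ∧ ρ R x < (2 : ℝ) ^ (n + 1) then
              ENNReal.ofReal ((((2 : ℝ) ^ n) ^ d)⁻¹) * c.cutS x (ρ R x) (min (n + (C0 d : ℤ)) R.1)
            else 0) else 0)
      ≤ ∑ n ∈ Ns, ∑ l ∈ Is, ∑' k, Sm R n l k := by
    intro R
    by_cases hR : R ∈ P
    swap
    · rw [if_neg hR]; exact zero_le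
    rw [if_pos hR]
    set J : ℤ → ℤ → (Fin d → ℤ) → E d → ℝ≥0∞ := fun n l k => (S R n l k).indicator fun _ =>
      if R ∈ c.cand (qctr c.t l k) n ∧ R ∈ P ∧ l ≤ n + (C0 d : ℤ) then
        ENNReal.ofReal ((((2 : ℝ) ^ n) ^ d)⁻¹) * c.iw l k else 0
    have hJm : ∀ n l k, Measurable (J n l k) := fun n l k =>
      measurable_const.indicator (hmeasS R n l k hR)
    have hpt : ∀ x, ∑ n ∈ Ns,
        (if 0 < c.zeta R x ∧ (2 : ℝ) ^ n ≤ ρ R x ∧ ρ R x < (2 : ℝ) ^ (n + 1) then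
          ENNReal.ofReal ((((2 : ℝ) ^ n) ^ d)⁻¹) * c.cutS x (ρ R x) (min (n + (C0 d : ℤ)) R.1)
        else 0) ≤ ∑ n ∈ Ns, ∑ l ∈ Is, ∑' k, J n l k x := by
      intro x
      refine Finset.sum_le_sum fun n _ => ?_
      split_ifs with h
      swap
      · exact zero_le
      obtain ⟨hz, hlo, hhi⟩ := h
      rw [Cfg.cutS, Finset.mul_sum]
      have hsub : Finset.Icc c.Mb (min (n + (C0 d : ℤ)) R.1) ⊆ Is := fun l hl => by
        have := (hT R hR).hi
        simp only [Finset.mem_Icc, Is] at hl ⊢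
        omega
      refine le_trans (Finset.sum_le_sum fun l hl => ?_) (Finset.sum_le_sum_of_subset hsub)
      rw [← ENNReal.tsum_mul_left]
      refine ENNReal.tsum_le_tsum fun k => ?_
      split_ifs with hcut
      swap
      · rw [mul_zero]; exact zero_le
      have hln : l ≤ n + (C0 d : ℤ) := by
        have := (Finset.mem_Icc.1 hl).2; omega
      have hdist : ‖x - qctr c.t l k‖ ≤ Rcut d * (2 : ℝ) ^ n := by
        have h1 := (abs_le.1 hcut).2
        have h2 : (2 : ℝ) ^ l ≤ 2 ^ n * 2 ^ C0 d := by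
          rw [← zpow_natCast, ← zpow_add₀ two_ne_zero]
          exact zpow_le_zpow_right₀ one_le_two hln
        have h3 : (2 : ℝ) ^ (n + 1) = 2 * 2 ^ n := by rw [zpow_add_one₀ two_ne_zero]; ring
        have h4 := mul_le_mul_of_nonneg_left h2 hK.le
        unfold Rcut
        linarith
      have hmem : x ∈ S R n l k := ⟨hdist, hlo, hcut⟩
      have hcand : R ∈ c.cand (qctr c.t l k) n :=
        Cfg.mem_cand hd1 (hT R hR) hz (hρ R hR x) hlo hhi.le hdist
      simp only [J]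
      rw [indicator_of_mem hmem, if_pos ⟨hcand, hR, hln⟩]
    refine (lintegral_mono hpt).trans (le_of_eq ?_)
    rw [lintegral_finsetSum _ fun n _ => Finset.measurable_sum _ fun l _ =>
      Measurable.tsum (hJm n l)]
    refine Finset.sum_congr rfl fun n _ => ?_
    rw [lintegral_finsetSum _ fun l _ => Measurable.tsum (hJm n l)]
    refine Finset.sum_congr rfl fun l _ => ?_
    rw [lintegral_tsum fun k => (hJm n l k).aemeasurable]
    refine tsum_congr fun k => ?_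
    simp only [J, Sm]
    rw [lintegral_indicator_const (hmeasS R n l k hR)]
    split_ifs
    · rw [mul_comm (volume _), mul_assoc]
    · rw [zero_mul]
  refine (ENNReal.tsum_le_tsum hterm).trans ?_
  rw [Summable.tsum_finsetSum fun _ _ => ENNReal.summable]
  have hnl : ∀ n l : ℤ, ∀ k, ∑' R : Cb d, Sm R n l k
      ≤ ((candOff d).card : ℝ≥0∞) * ENNReal.ofReal (Cm * Kp d)
        * (if l ≤ n + (C0 d : ℤ) then ENNReal.ofReal ((2 : ℝ) ^ (l - n)) else 0) * c.iw l k := by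
    intro n l k
    rw [tsum_eq_sum (s := c.cand (qctr c.t l k) n) fun R hR => if_neg fun h => hR h.1]
    by_cases hln : l ≤ n + (C0 d : ℤ)
    swap
    · rw [Finset.sum_eq_zero fun R _ => if_neg fun h => hln h.2.2]; exact zero_le
    rw [if_pos hln]
    refine (Finset.sum_le_card_nsmul _ _
      (ENNReal.ofReal (Cm * Kp d) * ENNReal.ofReal ((2 : ℝ) ^ (l - n)) * c.iw l k) fun R _ => ?_).trans ?_
    · show (if R ∈ c.cand (qctr c.t l k) n ∧ R ∈ P ∧ l ≤ n + (C0 d : ℤ) then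
        ENNReal.ofReal ((((2 : ℝ) ^ n) ^ d)⁻¹) * (volume (S R n l k) * c.iw l k) else 0) ≤ _
      split_ifs with h
      swap
      · exact zero_le
      rw [← mul_assoc]
      refine mul_le_mul' ?_ le_rfl
      refine (mul_le_mul' le_rfl (hCm (qctr c.t l k) (ρ R) ((2 : ℝ) ^ n) (Kp d * (2 : ℝ) ^ l)
        (zpow_pos two_pos n) (mul_pos hK (zpow_pos two_pos l)) (hlip R h.2.1))).trans (le_of_eq ?_)
      rw [← ENNReal.ofReal_mul (by positivity), ← ENNReal.ofReal_mul (by positivity)]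
      congr 1
      rw [zpow_sub₀ two_ne_zero]
      field_simp
    · rw [nsmul_eq_mul]
      calc ((c.cand (qctr c.t l k) n).card : ℝ≥0∞) * _
          ≤ ((candOff d).card : ℝ≥0∞) * _ := by
            gcongr; exact Cfg.card_cand_le c _ _
        _ = _ := by ring
  calc ∑ n ∈ Ns, ∑' R : Cb d, ∑ l ∈ Is, ∑' k, Sm R n l k
      = ∑ n ∈ Ns, ∑ l ∈ Is, ∑' k, ∑' R : Cb d, Sm R n l k := by
        refine Finset.sum_congr rfl fun n _ => ?_
        rw [Summable.tsum_finsetSum fun _ _ => ENNReal.summable]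
        exact Finset.sum_congr rfl fun l _ => ENNReal.tsum_comm
    _ ≤ ∑ n ∈ Ns, ∑ l ∈ Is, ∑' k, ((candOff d).card : ℝ≥0∞) * ENNReal.ofReal (Cm * Kp d)
        * (if l ≤ n + (C0 d : ℤ) then ENNReal.ofReal ((2 : ℝ) ^ (l - n)) else 0) * c.iw l k :=
        Finset.sum_le_sum fun n _ => Finset.sum_le_sum fun l _ =>
          ENNReal.tsum_le_tsum fun k => hnl n l k
    _ = ∑ l ∈ Is, (((candOff d).card : ℝ≥0∞) * ENNReal.ofReal (Cm * Kp d)
        * ∑ n ∈ Ns, (if l ≤ n + (C0 d : ℤ) then ENNReal.ofReal ((2 : ℝ) ^ (l - n)) else 0))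
          * ∑' k, c.iw l k := by
        rw [Finset.sum_comm]
        refine Finset.sum_congr rfl fun l _ => ?_
        simp only [ENNReal.tsum_mul_left]
        rw [Finset.mul_sum, Finset.sum_mul]
    _ ≤ ∑ l ∈ Is, A * ∑' k, c.iw l k := by
        refine Finset.sum_le_sum fun l _ => mul_le_mul' ?_ le_rfl
        exact mul_le_mul' le_rfl (sum_geom_scales _ _ _ _)
    _ ≤ A * c.totW := by
        rw [← Finset.mul_sum]
        exact mul_le_mul' le_rfl le_self_add

end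

end Vale.Agent.P137.Cen
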