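import Vale.Agent.P137.Cen.TreeBand

/-!
# P137, centred operator: the identity of all trees

Sum over trees of the integral of the cutoff against the directional derivative of the maximal
function of the tree, bounded by the total weight of items and roots.
-/

open MeasureTheory Metric Set Filter
open scoped ENNReal NNReal RealInnerProductSpace Gradient Topology

namespace Vale.Agent.P137.Cen

open Vale.Agent.P137.Unc (E qdec ballAvg Smooth inner_grad)

noncomputable section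

attribute [local instance] Classical.propDecidable

variable {d : ℕ}

namespace Cfg

variable {c : Cfg d}

/-- Items at the ancestors of a cell. -/
def itm (c : Cfg d) (Q : Cb d) : ℝ≥0∞ :=
  ∑ j ∈ Finset.range (aId d + 3),
    if Q.1 + (j : ℤ) ≤ c.N0 then c.iw (Q.1 + j) (anc j Q.2) else 0

/-- Items charged by a cell. -/
def jW (c : Cfg d) (Q : Cb d) : ℝ≥0∞ :=
  c.itm Q + ∑ o : Fin d → Fin 9, c.iw Q.1 (nbr Q.2 o)

theorem iw_le_itm {Q : Cb d} {j : ℕ} (hj : j < aId d + 3) (h : Q.1 + (j : ℤ) ≤ c.N0) :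
    c.iw (Q.1 + j) (anc j Q.2) ≤ c.itm Q := by
  refine le_trans (le_of_eq ?_) (Finset.single_le_sum
    (f := fun j : ℕ => if Q.1 + (j : ℤ) ≤ c.N0 then c.iw (Q.1 + j) (anc j Q.2) else 0)
    (fun _ _ => zero_le) (Finset.mem_range.2 hj))
  rw [if_pos h]

/-- A cell is coherent with its tree or is charged to an item; the tree is near the cell. -/
theorem cell_class (hd : 1 ≤ d) (hc : c.Ok) {R Q : Cb d} (hR : c.Tree R) (hQ : Q ∈ c.cells R) :
    (cW c.g c.t Q.1 Q.2 ≤ 4 * ENNReal.ofReal ⟪c.edir R, qint c.g c.t Q.1 Q.2⟫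
          + 2 ^ (aId d + 4) * c.itm Q ∧
      ENNReal.ofReal (-⟪c.edir R, qint c.g c.t Q.1 Q.2⟫) ≤ 2 ^ (aId d + 4) * c.itm Q) ∧
    ∃ (j : Fin (aId d + 3)) (o : Fin d → Fin 9),
      c.root (Q.1 + (j : ℕ)) (nbr (anc j Q.2) o) = R := by
  set p := Q.1
  set k := Q.2
  set e := c.edir R
  set I := qint c.g c.t p k
  obtain ⟨hpMb, hpR, hpN⟩ := cell_level hd hc hR hQ
  have hp : (0 : ℝ) < 2 ^ p := zpow_pos two_pos p
  have hd1 : (1 : ℝ) ≤ d := by exact_mod_cast hd
  obtain ⟨-, hlam⟩ := lam0_cell hd hR hQ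
  obtain ⟨Qs, hQs, hl⟩ := exists_lam0 hR (qctr c.t p k)
  obtain ⟨hQM, hQR, hQa, hQg⟩ := mark_spec hR hQs
  have hd0 := infDist_nonneg (x := qctr c.t p k) (s := qcube c.t Qs.1 Qs.2)
  obtain ⟨y, hy, hdy⟩ := (infDist_lt_iff (x := qctr c.t p k)
    (show (qcube c.t Qs.1 Qs.2).Nonempty from ⟨_, qctr_mem c.t Qs.1 Qs.2⟩)).1
    (lt_add_of_pos_right (infDist (qctr c.t p k) (qcube c.t Qs.1 Qs.2)) hp)
  have hbig : c.lam0 R (qctr c.t p k) + 2 ^ p ≤ (2 : ℝ) ^ (p + ((aId d + 2 : ℕ) : ℤ)) := by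
    rw [two_zpow_add, pow_add]
    have h3 : (2 : ℝ) * d + 1 ≤ 2 * 2 ^ aId d := by
      nlinarith [aId_ge d, mul_le_mul_of_nonneg_left hd1 (by linarith : (0 : ℝ) ≤ d)]
    have := mul_le_mul_of_nonneg_left h3 hp.le
    linarith
  set n' := min (p + ((aId d + 2 : ℕ) : ℤ)) R.1
  have hpn : p ≤ n' := le_min (by omega) hpR.le
  have hn'R : n' ≤ R.1 := min_le_right _ _
  have hn'N : n' ≤ c.N0 := hn'R.trans hR.hi
  set j := (n' - p).toNat
  have hj : p + (j : ℤ) = n' := by omega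
  have hj' : j < aId d + 3 := by
    have := min_le_left (p + ((aId d + 2 : ℕ) : ℤ)) R.1
    omega
  -- the comparison cube
  obtain ⟨P0, o, hP0g, hP0r, hanc⟩ : ∃ P0 o, Good c.g c.t n' P0 ∧ c.root n' P0 = R ∧
      anc j k = nbr P0 o := by
    have hyk : qidx c.t n' (qctr c.t p k) = anc j k := by
      rw [← hj, qidx_add, qidx_qctr]
    rcases min_choice (p + ((aId d + 2 : ℕ) : ℤ)) R.1 with h | h
    · have hn'' : n' = p + ((aId d + 2 : ℕ) : ℤ) := h
      have hlt : Qs.1 < n' := (zpow_lt_zpow_iff_right₀ (one_lt_two (α := ℝ))).1 (by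
        rw [hn'']; linarith)
      obtain ⟨hg', hr'⟩ := hQg n' hlt hn'R
      have hyn : qidx c.t n' y = anc (n' - Qs.1).toNat Qs.2 := by
        have := qidx_add c.t Qs.1 (n' - Qs.1).toNat y
        rwa [show Qs.1 + ((n' - Qs.1).toNat : ℤ) = n' by omega, mem_qcube_iff.1 hy] at this
      obtain ⟨o, ho⟩ := exists_nbr c.t n' y (qctr c.t p k) (by
        rw [norm_sub_rev, ← dist_eq_norm, hn'']
        have := zpow_pos (two_pos (α := ℝ)) Qs.1
        linarith [zpow_pos (two_pos (α := ℝ)) (p + ((aId d + 2 : ℕ) : ℤ))])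
      exact ⟨_, o, hg', hr', by rw [← hyk, ho, hyn]⟩
    · have hn'' : n' = R.1 := h
      obtain ⟨o, ho⟩ := exists_nbr_self R.2
      refine ⟨R.2, o, by rw [hn'']; exact hR.root.1, by rw [hn'']; exact hR.root.2, ?_⟩
      rw [ho, show j = (R.1 - p).toNat by omega]
      exact hQ.2.1
  refine ⟨?_, ⟨j, hj'⟩, orev o, by
    show c.root (p + (j : ℤ)) (nbr (anc j k) (orev o)) = R
    rw [hj, hanc, nbr_nbr_orev, hP0r]⟩
  have hbad : cW c.g c.t p k ≤ 2 ^ (aId d + 4) * c.itm Q →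
      cW c.g c.t p k ≤ 4 * ENNReal.ofReal ⟪e, I⟫ + 2 ^ (aId d + 4) * c.itm Q ∧
        ENNReal.ofReal (-⟪e, I⟫) ≤ 2 ^ (aId d + 4) * c.itm Q := fun h => by
    refine ⟨h.trans le_add_self, le_trans ?_ (le_self_add.trans h)⟩
    rw [← ofReal_norm]
    refine ENNReal.ofReal_le_ofReal ((neg_le_abs _).trans ((abs_real_inner_le_norm _ _).trans ?_))
    rw [norm_edir hR, one_mul]
  by_cases hg : Good c.g c.t p k
  swap
  · refine hbad (le_trans ?_ (le_mul_of_one_le_left zero_le (one_le_pow₀ one_le_two)))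
    refine le_trans ?_ (iw_le_itm (j := 0) (by omega) (by simpa using hpN))
    simp only [Nat.cast_zero, add_zero, anc_zero]
    refine le_trans ?_ le_self_add
    rw [if_pos hg]
    exact le_add_right le_self_add
  have hW2 : cW c.g c.t p k ≤ 2 * ‖I‖ₑ := by
    rw [cW, two_mul]
    gcongr
    refine (le_self_add.trans hg.2).trans (mul_le_of_le_one_left zero_le ?_)
    rw [← ENNReal.ofReal_one]
    exact ENNReal.ofReal_le_ofReal (by unfold eta; norm_num)
  rcases le_or_gt n' (c.root p k).1 with hr | hr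
  · have hco := c.coherent hn'N hpn hP0g hanc rfl hg hr
    rw [hP0r] at hco
    have hI0 : 0 ≤ ⟪e, I⟫ := le_trans (by positivity) hco
    refine ⟨le_trans ?_ le_self_add, ?_⟩
    · refine hW2.trans ?_
      rw [← ofReal_norm, two_mul, ← ENNReal.ofReal_add (norm_nonneg _) (norm_nonneg _),
        show (4 : ℝ≥0∞) = ENNReal.ofReal 4 by simp, ← ENNReal.ofReal_mul (by norm_num)]
      exact ENNReal.ofReal_le_ofReal (by linarith [norm_nonneg I])
    · rw [ENNReal.ofReal_of_nonpos (by linarith)]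
      exact zero_le
  · obtain ⟨hr1, hr2, hr3, hr4, -⟩ := c.root_spec hpN hg
    set r := (c.root p k).1
    set i := (r - p).toNat
    have hi : p + (i : ℤ) = r := by omega
    have hij : i < j := by omega
    refine hbad (hW2.trans ?_)
    have hroot : cW c.g c.t r (c.root p k).2 ≤ 2 * c.iw r (c.root p k).2 := by
      have h1 : ‖qint c.g c.t r (c.root p k).2‖ₑ ≤ c.iw r (c.root p k).2 := by
        refine le_trans ?_ le_self_add
        refine le_trans ?_ le_add_self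
        rw [if_pos ⟨by omega, hr4⟩]
        exact le_self_add
      refine le_trans ?_ (mul_le_mul_right h1 _)
      rw [cW, two_mul]
      gcongr
      refine (le_self_add.trans hr4.1.2).trans (mul_le_of_le_one_left zero_le ?_)
      rw [← ENNReal.ofReal_one]
      exact ENNReal.ofReal_le_ofReal (by unfold eta; norm_num)
    have h2 := enorm_qint_desc_le hc.integrable c.t p k i
    rw [hi, hr3] at h2
    have h3 := iw_le_itm (c := c) (Q := Q) (j := i) (by omega) (by omega)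
    rw [show Q.1 + (i : ℤ) = r from hi, show anc i Q.2 = (c.root p k).2 from hr3] at h3
    calc 2 * ‖I‖ₑ ≤ 2 * (2 ^ i * (2 * c.itm Q)) := by
          gcongr 2 * ?_
          exact h2.trans (mul_le_mul_right (hroot.trans (mul_le_mul_right h3 _)) _)
      _ = 2 ^ (i + 2) * c.itm Q := by rw [pow_add]; ring
      _ ≤ _ := mul_le_mul_left (pow_le_pow_right₀ one_le_two (by omega)) _

/-- The weights of the cells of one tree. -/
theorem sum_cW_le (hd : 1 ≤ d) (hc : c.Ok) {R : Cb d} (hR : c.Tree R) :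
    ∑' Q : c.cells R, cW c.g c.t Q.1.1 Q.1.2 ≤
      4 * ‖qint c.g c.t R.1 R.2‖ₑ + 5 * 2 ^ (aId d + 4) * ∑' Q : c.cells R, c.itm Q.1 := by
  set e := c.edir R
  have hg := hc.integrable
  have hsum : HasSum (fun Q : c.cells R => ⟪e, qint c.g c.t Q.1.1 Q.1.2⟫)
      ‖qint c.g c.t R.1 R.2‖ := by
    have h := hasSum_cells hd hR (F := fun y => ⟪e, c.g y⟫) (hg.integrableOn.const_inner e)
    have e1 : ∀ n k, ∫ y in qcube c.t n k, ⟪e, c.g y⟫ = ⟪e, qint c.g c.t n k⟫ :=
      fun n k => integral_inner hg.integrableOn e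
    simp only [e1] at h
    convert h using 1
    simp only [e, Cfg.edir, dirv, real_inner_smul_left, real_inner_self_eq_norm_sq]
    have := hR.root.1.1
    field_simp
  calc ∑' Q : c.cells R, cW c.g c.t Q.1.1 Q.1.2
      ≤ ∑' Q : c.cells R, (4 * ENNReal.ofReal ⟪e, qint c.g c.t Q.1.1 Q.1.2⟫
          + 2 ^ (aId d + 4) * c.itm Q.1) :=
        ENNReal.tsum_le_tsum fun Q => (cell_class hd hc hR Q.2).1.1
    _ = 4 * (∑' Q : c.cells R, ENNReal.ofReal ⟪e, qint c.g c.t Q.1.1 Q.1.2⟫)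
          + 2 ^ (aId d + 4) * ∑' Q : c.cells R, c.itm Q.1 := by
        rw [ENNReal.tsum_add, ENNReal.tsum_mul_left, ENNReal.tsum_mul_left]
    _ ≤ 4 * (‖qint c.g c.t R.1 R.2‖ₑ + 2 ^ (aId d + 4) * ∑' Q : c.cells R, c.itm Q.1)
          + 2 ^ (aId d + 4) * ∑' Q : c.cells R, c.itm Q.1 := by
        refine add_le_add (mul_le_mul_right ?_ _) le_rfl
        rw [← ENNReal.tsum_mul_left, ← ofReal_norm]
        exact (tsum_ofReal_pos_le hsum).trans
          (add_le_add le_rfl (ENNReal.tsum_le_tsum fun Q => (cell_class hd hc hR Q.2).1.2))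
    _ = _ := by ring

theorem tsum_shift (f : Cb d → ℝ≥0∞) (z : ℤ) :
    ∑' n : ℤ, ∑' k : Fin d → ℤ, f (n + z, k) = ∑' Q : Cb d, f Q := by
  rw [ENNReal.tsum_prod']
  exact (Equiv.addRight z).tsum_eq fun n => ∑' k : Fin d → ℤ, f (n, k)

/-- The cells around the neighbours of the cells are cells, with bounded multiplicity. -/
theorem sum_vC_le (R : Cb d) (o : Fin d → Fin 9) :
    ∑' Q : c.cells R, c.vC R Q.1.1 (nbr Q.1.2 o) ≤
      (2 * ((2 ^ 1) ^ d : ℕ) + 2) * ∑' Q : c.cells R, cW c.g c.t Q.1.1 Q.1.2 := by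
  have hw : ∑' Q : c.cells R, cW c.g c.t Q.1.1 Q.1.2 = ∑' Q : Cb d, c.wC R Q :=
    tsum_subtype (c.cells R) fun Q => cW c.g c.t Q.1 Q.2
  calc ∑' Q : c.cells R, c.vC R Q.1.1 (nbr Q.1.2 o)
      ≤ ∑' Q : Cb d, c.vC R Q.1 (nbr Q.2 o) := by
        rw [tsum_subtype (c.cells R) fun Q => c.vC R Q.1 (nbr Q.2 o)]
        exact ENNReal.tsum_le_tsum fun Q => indicator_le_self _ _ Q
    _ = ∑' n : ℤ, ∑' k : Fin d → ℤ, c.vC R n k := by
        rw [ENNReal.tsum_prod']
        exact tsum_congr fun n => tsum_comp_nbr (fun k => c.vC R n k) o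
    _ = ∑' n : ℤ, (2 * ∑' k : Fin d → ℤ, c.wC R (n + 1, anc 1 k)
          + ∑' k : Fin d → ℤ, c.wC R (n, k) + ∑' k : Fin d → ℤ, c.wC R (n - 1, k)) := by
        refine tsum_congr fun n => ?_
        simp only [vC]
        rw [ENNReal.tsum_add, ENNReal.tsum_add, ENNReal.tsum_mul_left,
          Sys.tsum_kid (f := fun k => c.wC R (n - 1, k))]
        simp only [anc_one]
    _ = _ := by
        rw [ENNReal.tsum_add, ENNReal.tsum_add, ENNReal.tsum_mul_left]
        rw [tsum_congr fun n : ℤ => tsum_comp_anc (fun k => c.wC R (n + 1, k)) 1,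
          ENNReal.tsum_mul_left, tsum_shift (c.wC R) 1, ← ENNReal.tsum_prod',
          show (∑' n : ℤ, ∑' k : Fin d → ℤ, c.wC R (n - 1, k)) = ∑' Q, c.wC R Q from
            tsum_shift (c.wC R) (-1), hw]
        ring

/-- The constant of one tree. -/
def treeC (d : ℕ) (Cb : ℝ≥0∞) : ℝ≥0∞ :=
  (2 + Cb * (2 * (9 ^ d : ℕ) * (2 * ((2 ^ 1) ^ d : ℕ) + 2))) * (4 + 5 * 2 ^ (aId d + 4)) + Cb

/-- One tree. -/
theorem one_tree (hd : 2 ≤ d) {Cp Cq : ℝ≥0∞}
    (hcube : ∀ (g : E d → E d) (u : E d → ℝ) (t : E d) (n : ℤ) (k : Fin d → ℤ),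
      Smooth u → Integrable g → (∀ y ∈ qcube t n k, g y = ∇ u y) →
      ∫⁻ y in qcube t n k, ‖u y - (volume.real (qcube t n k))⁻¹ * ∫ z in qcube t n k, u z‖ₑ
        ≤ Cp * ENNReal.ofReal ((2 : ℝ) ^ n) * (‖qint g t n k‖ₑ + qPsi g t n k))
    (hpair : ∀ (g : E d → E d) (u : E d → ℝ) (t : E d) (n : ℤ) (k k' : Fin d → ℤ) (i : Fin d),
      Smooth u → Integrable g → (k' = Function.update k i (k i + 1)) →
      (∀ y ∈ qcube t n k ∪ qcube t n k', g y = ∇ u y) →
      ‖(∫ z in qcube t n k', u z) - ∫ z in qcube t n k, u z‖ₑ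
        ≤ Cq * ENNReal.ofReal ((2 : ℝ) ^ n) *
          ((‖qint g t n k‖ₑ + qPsi g t n k) + (‖qint g t n k'‖ₑ + qPsi g t n k')))
    (hc : c.Ok) {u : E d → ℝ} (hu : Smooth u) {R : Cb d} (hR : c.Tree R)
    (hgu : ∀ y ∈ qcube c.t R.1 R.2, c.g y = ∇ u y) :
    ‖∫ x, c.zeta R x * ⟪c.edir R, ∇ (c.UR u R) x⟫‖ₑ ≤ treeC d (bandC d Cp Cq) *
      (‖qint c.g c.t R.1 R.2‖ₑ + ∑' Q : c.cells R, c.jW Q.1) := by
  have hd1 : 1 ≤ d := by omega
  set e := c.edir R
  set ζ := c.zeta R
  set U := c.UR u R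
  obtain ⟨KU, hKU⟩ := lipschitz_UR hu hd1 hR
  have hζL := lipschitz_zeta hd1 hR
  have hζc : HasCompactSupport ζ := by
    refine HasCompactSupport.intro (isCompact_closedBall (qctr c.t R.1 R.2)
      (Real.sqrt d * (2 : ℝ) ^ R.1 / 2)) fun x hx => zeta_eq_zero_of_notMem hd1 hR fun h => hx ?_
    exact poin_qcube_subset_closedBall c.t R.1 R.2 h
  set D := fun x => fderiv ℝ ζ x e
  have hDm : Measurable D := measurable_fderiv_apply_const ℝ ζ e
  have hDc : HasCompactSupport D := hζc.fderiv_apply ℝ e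
  obtain ⟨KD, hKD⟩ : ∃ K, ∀ x, ‖D x‖ ≤ K := ⟨_, fun x =>
    ((fderiv ℝ ζ x).le_opNorm e).trans (mul_le_mul_of_nonneg_right
      (norm_fderiv_le_of_lipschitz ℝ hζL) (norm_nonneg _))⟩
  have hint : ∀ f : E d → ℝ, Continuous f → Integrable fun x => f x * D x := fun f hf => by
    have h1 : IntegrableOn f (tsupport D) := hf.continuousOn.integrableOn_compact hDc
    have h2 : IntegrableOn (fun x => f x * D x) (tsupport D) :=
      h1.mul_bdd hDm.aestronglyMeasurable (Eventually.of_forall hKD)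
    exact (integrableOn_iff_integrable_of_support_subset fun x hx => subset_tsupport D
      (show D x ≠ 0 from right_ne_zero_of_mul hx)).1 h2
  have hI : ∀ f : E d → ℝ, LocallyLipschitz f →
      ∫ x, ζ x * ⟪e, ∇ f x⟫ = -∫ x, f x * D x := fun f hf => by
    rw [integral_mul_fderiv_lip hf hζL hζc e, neg_neg]
    refine integral_congr_ae (Eventually.of_forall fun x => ?_)
    simp only
    rw [real_inner_comm (∇ f x) e, inner_grad, mul_comm]
  have hu' : Continuous u := hu.contDiff.continuous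
  have hmain : ∫ x, ζ x * ⟪e, ∇ U x⟫
      = (∫ x in qcube c.t R.1 R.2, ζ x * ⟪e, c.g x⟫) - ∫ x, (U x - u x) * D x := by
    have h1 : ∫ x in qcube c.t R.1 R.2, ζ x * ⟪e, c.g x⟫ = ∫ x, ζ x * ⟪e, ∇ u x⟫ := by
      rw [setIntegral_congr_fun (measurableSet_qcube _ _ _)
        (g := fun x => ζ x * ⟪e, ∇ u x⟫) fun x hx => by simp only; rw [hgu x hx]]
      refine setIntegral_eq_integral_of_forall_compl_eq_zero fun x hx => ?_
      rw [show ζ x = 0 from zeta_eq_zero_of_notMem hd1 hR hx, zero_mul]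
    rw [h1, hI U hKU.locallyLipschitz, hI u hu.contDiff.locallyLipschitz,
      integral_congr_ae (Eventually.of_forall fun x => sub_mul (U x) (u x) (D x)),
      integral_sub (hint U hKU.continuous) (hint u hu')]
    ring
  have hzg : IntegrableOn (fun x => ζ x * ⟪e, c.g x⟫) (qcube c.t R.1 R.2) :=
    ((hc.integrable.const_inner e).bdd_mul (continuous_zeta hR).aestronglyMeasurable
      (Eventually.of_forall fun x => by
        rw [Real.norm_eq_abs, abs_of_nonneg (zeta_nonneg c R x)]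
        exact zeta_le_one c R x)).integrableOn
  have hband : ‖∫ x, (U x - u x) * D x‖ₑ
      ≤ ∑' Q : c.cells R, ∫⁻ x in qcube c.t Q.1.1 Q.1.2, ‖(U x - u x) * D x‖ₑ := by
    rw [← setLIntegral_cells hd1 hR]
    refine (le_of_eq (congrArg _ (setIntegral_eq_integral_of_forall_compl_eq_zero
      fun x hx => ?_).symm)).trans (enorm_integral_le_lintegral_enorm _)
    rw [show D x = 0 by simp [D, ζ, fderiv_zeta_eq_zero_of_notMem hd1 hR hx], mul_zero]
  set B := bandC d Cp Cq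
  set A : ℝ≥0∞ := 2 * ((2 ^ 1) ^ d : ℕ) + 2
  set W := ∑' Q : c.cells R, cW c.g c.t Q.1.1 Q.1.2
  set J := ∑' Q : c.cells R, c.jW Q.1
  calc ‖∫ x, ζ x * ⟪e, ∇ U x⟫‖ₑ
      ≤ ‖∫ x in qcube c.t R.1 R.2, ζ x * ⟪e, c.g x⟫‖ₑ + ‖∫ x, (U x - u x) * D x‖ₑ := by
        rw [hmain]; exact enorm_sub_le
    _ ≤ ∑' Q : c.cells R, 2 * cW c.g c.t Q.1.1 Q.1.2
        + ∑' Q : c.cells R, B * ∑ o : Fin d → Fin 9,
            (c.iw Q.1.1 (nbr Q.1.2 o) + 2 * c.vC R Q.1.1 (nbr Q.1.2 o)) := by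
        refine add_le_add ((enorm_setIntegral_cells_le hd1 hR hzg).trans
          (ENNReal.tsum_le_tsum fun Q => enorm_main_cell_le hd1 hc.integrable hR Q.2))
          (hband.trans (ENNReal.tsum_le_tsum fun Q =>
            lintegral_band_le hd hcube hpair hu hc.integrable hR hgu Q.2))
    _ ≤ 2 * W + B * (J + 2 * ∑ _o : Fin d → Fin 9, A * W) := by
        rw [ENNReal.tsum_mul_left, ENNReal.tsum_mul_left]
        refine add_le_add le_rfl (mul_le_mul_right ?_ _)
        simp only [Finset.sum_add_distrib, ← Finset.mul_sum]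
        rw [ENNReal.tsum_add, ENNReal.tsum_mul_left]
        refine add_le_add (ENNReal.tsum_le_tsum fun Q => le_add_self) (mul_le_mul_right ?_ _)
        rw [Summable.tsum_finsetSum fun _ _ => ENNReal.summable, Finset.mul_sum]
        exact Finset.sum_le_sum fun o _ => sum_vC_le R o
    _ = (2 + B * (2 * (9 ^ d : ℕ) * A)) * W + B * J := by
        simp
        ring
    _ ≤ (2 + B * (2 * (9 ^ d : ℕ) * A))
          * ((4 + 5 * 2 ^ (aId d + 4)) * (‖qint c.g c.t R.1 R.2‖ₑ + J))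
          + B * (‖qint c.g c.t R.1 R.2‖ₑ + J) := by
        refine add_le_add (mul_le_mul_right ((sum_cW_le hd1 hc hR).trans ?_) _)
          (mul_le_mul_right le_add_self _)
        rw [add_mul]
        refine add_le_add (mul_le_mul_right le_self_add _) (mul_le_mul_right ?_ _)
        exact le_add_left (ENNReal.tsum_le_tsum fun Q => le_self_add)
    _ = _ := by rw [treeC]; ring

theorem sum_levels_anc_le (j : ℕ) :
    ∑ p ∈ Finset.Icc c.Mb c.N0, ∑' k : Fin d → ℤ,
        (if p + (j : ℤ) ≤ c.N0 then c.iw (p + j) (anc j k) else 0)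
      ≤ ((2 ^ j) ^ d : ℕ) * ∑ n ∈ Finset.Icc c.Mb c.N0, ∑' k : Fin d → ℤ, c.iw n k := by
  set f : ℤ → ℝ≥0∞ := fun n =>
    if n ∈ Finset.Icc c.Mb c.N0 then ∑' k : Fin d → ℤ, c.iw n k else 0
  calc ∑ p ∈ Finset.Icc c.Mb c.N0, ∑' k : Fin d → ℤ,
        (if p + (j : ℤ) ≤ c.N0 then c.iw (p + j) (anc j k) else 0)
      ≤ ∑ p ∈ Finset.Icc c.Mb c.N0, ((2 ^ j) ^ d : ℕ) * f (p + j) := by
        refine Finset.sum_le_sum fun p hp => ?_
        rw [Finset.mem_Icc] at hp
        by_cases h : p + (j : ℤ) ≤ c.N0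
        · have hm : p + (j : ℤ) ∈ Finset.Icc c.Mb c.N0 := Finset.mem_Icc.2 ⟨by omega, h⟩
          simp only [if_pos h, f, if_pos hm]
          rw [tsum_comp_anc (fun k => c.iw (p + j) k)]
        · simp [h]
    _ ≤ ((2 ^ j) ^ d : ℕ) * ∑' n : ℤ, f (n + j) := by
        rw [← Finset.mul_sum]
        exact mul_le_mul_right (ENNReal.sum_le_tsum _) _
    _ = _ := by
        congr 1
        rw [show (∑' n : ℤ, f (n + j)) = ∑' n, f n from (Equiv.addRight (j : ℤ)).tsum_eq f,
          tsum_eq_sum (s := Finset.Icc c.Mb c.N0) fun n hn => if_neg hn]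
        exact Finset.sum_congr rfl fun n hn => if_pos hn

end Cfg

/-- The identity of all trees. -/
theorem tree_identity (hd : 2 ≤ d) : ∃ C : ℝ≥0∞, C ≠ ⊤ ∧
    ∀ (c : Cfg d) (u : E d → ℝ) (P : Set (Cb d)), c.Ok → Smooth u →
      (∀ R ∈ P, c.M ≤ R.1 ∧ R.1 ≤ c.N0 ∧ c.IsRoot R.1 R.2 ∧
        ∀ y ∈ qcube c.t R.1 R.2, c.g y = ∇ u y) →
      ∑' R : Cb d, (if R ∈ P then
          ‖∫ x, c.zeta R x * ⟪c.edir R, ∇ (c.UR u R) x⟫‖ₑ else 0)
        ≤ C * c.totW := by
  obtain ⟨Cp, hCp, hcube⟩ := poincare_cube hd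
  obtain ⟨Cq, hCq, hpair⟩ := poincare_pair hd
  set T := Cfg.treeC d (Cfg.bandC d Cp Cq)
  set N : ℝ≥0∞ := ((aId d + 3 : ℕ) : ℝ≥0∞) * (9 ^ d : ℕ)
  set S : ℝ≥0∞ := (∑ j ∈ Finset.range (aId d + 3), (((2 ^ j) ^ d : ℕ) : ℝ≥0∞)) + (9 ^ d : ℕ)
  refine ⟨T * (1 + N * S), ?_, fun c u P hc hu hP => ?_⟩
  · have hB : Cfg.bandC d Cp Cq ≠ ⊤ := by
      simp [Cfg.bandC, ENNReal.mul_eq_top, ENNReal.add_eq_top, hCp, hCq]
    simp [T, Cfg.treeC, N, S, ENNReal.mul_eq_top, ENNReal.add_eq_top, hB, ENNReal.sum_eq_top,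
      ENNReal.pow_eq_top_iff]
  have hd1 : 1 ≤ d := by omega
  have hT : ∀ R ∈ P, c.Tree R := fun R h => ⟨(hP R h).2.2.1, (hP R h).1, (hP R h).2.1⟩
  set Jb : Cb d → ℝ≥0∞ := fun Q => if Q.1 ∈ Finset.Icc c.Mb c.N0 then c.jW Q else 0
  set rt : Fin (aId d + 3) × (Fin d → Fin 9) → Cb d → Cb d := fun jo Q =>
    c.root (Q.1 + (jo.1 : ℕ)) (nbr (anc jo.1 Q.2) jo.2)
  have step1 : ∑' R : Cb d, (if R ∈ P then
          ‖∫ x, c.zeta R x * ⟪c.edir R, ∇ (c.UR u R) x⟫‖ₑ else 0)
      ≤ T * ((∑' R : Cb d, if R ∈ P then ‖qint c.g c.t R.1 R.2‖ₑ else 0)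
          + ∑' R : Cb d, if R ∈ P then ∑' Q : c.cells R, c.jW Q.1 else 0) := by
    rw [← ENNReal.tsum_add, ← ENNReal.tsum_mul_left]
    refine ENNReal.tsum_le_tsum fun R => ?_
    by_cases h : R ∈ P
    · simp only [if_pos h]
      exact Cfg.one_tree hd hcube hpair hc hu (hT R h) (hP R h).2.2.2
    · simp [h]
  have step2 : (∑' R : Cb d, if R ∈ P then ∑' Q : c.cells R, c.jW Q.1 else 0)
      ≤ N * ∑' Q : Cb d, Jb Q := by
    calc (∑' R : Cb d, if R ∈ P then ∑' Q : c.cells R, c.jW Q.1 else 0)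
        ≤ ∑' R : Cb d, ∑' Q : Cb d, ∑ jo, (if R = rt jo Q then Jb Q else 0) := by
          refine ENNReal.tsum_le_tsum fun R => ?_
          by_cases h : R ∈ P
          swap
          · simp [h]
          rw [if_pos h, tsum_subtype (c.cells R) c.jW]
          refine ENNReal.tsum_le_tsum fun Q => ?_
          by_cases hQ : Q ∈ c.cells R
          swap
          · simp [hQ]
          obtain ⟨-, j, o, hjo⟩ := Cfg.cell_class hd1 hc (hT R h) hQ
          obtain ⟨h1, -, h2⟩ := Cfg.cell_level hd1 hc (hT R h) hQ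
          rw [indicator_of_mem hQ]
          refine le_trans (le_of_eq ?_) (Finset.single_le_sum
            (f := fun jo => if R = rt jo Q then Jb Q else 0) (fun _ _ => zero_le)
            (Finset.mem_univ (j, o)))
          rw [if_pos (show R = rt (j, o) Q from hjo.symm)]
          simp [Jb, h1, h2]
      _ = ∑' Q : Cb d, ∑ jo, ∑' R : Cb d, (if R = rt jo Q then Jb Q else 0) := by
          rw [ENNReal.tsum_comm]
          exact tsum_congr fun Q => Summable.tsum_finsetSum fun _ _ => ENNReal.summable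
      _ = ∑' Q : Cb d, ∑ _jo : Fin (aId d + 3) × (Fin d → Fin 9), Jb Q :=
          tsum_congr fun Q => Finset.sum_congr rfl fun jo _ => tsum_ite_eq (rt jo Q) _
      _ = N * ∑' Q : Cb d, Jb Q := by
          rw [← ENNReal.tsum_mul_left]
          exact tsum_congr fun Q => by simp [N]
  set L := ∑ n ∈ Finset.Icc c.Mb c.N0, ∑' k : Fin d → ℤ, c.iw n k
  have step3 : ∑' Q : Cb d, Jb Q ≤ S * L := by
    calc ∑' Q : Cb d, Jb Q = ∑ p ∈ Finset.Icc c.Mb c.N0, ∑' k : Fin d → ℤ, c.jW (p, k) := by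
          rw [ENNReal.tsum_prod', tsum_eq_sum (s := Finset.Icc c.Mb c.N0) fun n hn =>
            (tsum_congr fun k => if_neg hn).trans tsum_zero]
          exact Finset.sum_congr rfl fun n hn => tsum_congr fun k => if_pos hn
      _ = (∑ j ∈ Finset.range (aId d + 3), ∑ p ∈ Finset.Icc c.Mb c.N0, ∑' k : Fin d → ℤ,
            (if p + (j : ℤ) ≤ c.N0 then c.iw (p + j) (anc j k) else 0))
          + ∑ o : Fin d → Fin 9, L := by
          simp only [Cfg.jW, Cfg.itm, ENNReal.tsum_add, Finset.sum_add_distrib,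
            Summable.tsum_finsetSum fun _ _ => ENNReal.summable]
          congr 1
          · exact Finset.sum_comm
          · rw [Finset.sum_comm]
            exact Finset.sum_congr rfl fun o _ => Finset.sum_congr rfl fun n _ =>
              tsum_comp_nbr (fun k => c.iw n k) o
      _ ≤ (∑ j ∈ Finset.range (aId d + 3), ((2 ^ j) ^ d : ℕ) * L) + ∑ o : Fin d → Fin 9, L :=
          add_le_add (Finset.sum_le_sum fun j _ => Cfg.sum_levels_anc_le j) le_rfl
      _ = S * L := by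
          simp [S, add_mul, Finset.sum_mul]
  have step4 : (∑' R : Cb d, if R ∈ P then ‖qint c.g c.t R.1 R.2‖ₑ else 0) ≤ c.totW := by
    calc (∑' R : Cb d, if R ∈ P then ‖qint c.g c.t R.1 R.2‖ₑ else 0)
        ≤ ∑' R : Cb d, ((if R.1 ∈ Finset.Icc c.Mb c.N0 then c.iw R.1 R.2 else 0)
            + if R.1 = c.N0 then
                (if c.IsRoot c.N0 R.2 then c.rootW (c.N0, R.2) else 0) else 0) := by
          refine ENNReal.tsum_le_tsum fun R => ?_
          by_cases h : R ∈ P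
          swap
          · simp [h]
          rw [if_pos h]
          obtain ⟨h1, h2, h3, -⟩ := hP R h
          rcases lt_or_eq_of_le h2 with hlt | heq
          · refine le_trans ?_ le_self_add
            have := hc.hMb
            rw [if_pos (Finset.mem_Icc.2 ⟨by omega, h2⟩)]
            refine le_trans ?_ le_self_add
            refine le_trans ?_ le_add_self
            rw [if_pos ⟨hlt, h3⟩]
            exact le_self_add
          · refine le_trans ?_ le_add_self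
            rw [if_pos heq, if_pos (heq ▸ h3), ← heq]
            exact le_self_add
      _ = c.totW := by
          rw [ENNReal.tsum_add, ENNReal.tsum_prod', ENNReal.tsum_prod', Cfg.totW]
          congr 1
          · rw [tsum_eq_sum (s := Finset.Icc c.Mb c.N0) fun n hn => by simp [hn]]
            exact Finset.sum_congr rfl fun n hn => tsum_congr fun k => if_pos hn
          · rw [tsum_eq_single c.N0 fun n hn => by simp [hn]]
            exact tsum_congr fun k => if_pos rfl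
  have hL : L ≤ c.totW := le_self_add
  calc _ ≤ T * (c.totW + N * (S * c.totW)) := step1.trans (mul_le_mul_right
        (add_le_add step4 (step2.trans (mul_le_mul_right (step3.trans (mul_le_mul_right hL _)) _))) _)
    _ = T * (1 + N * S) * c.totW := by ring

end

end Vale.Agent.P137.Cen
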