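import Vale.Agent.P137.Cen.CoreLoss
import Vale.Agent.P137.Cen.TreeIdentity

/-!
# P137, centred operator: one grid pays for the points in the middle of its windows
-/

open MeasureTheory Metric Set Filter
open scoped ENNReal NNReal RealInnerProductSpace Gradient Topology

namespace Vale.Agent.P137.Cen

open Vale.Agent.P137.Unc (E ballAvg nAvg Smooth)

noncomputable section

attribute [local instance] Classical.propDecidable

variable {d : ℕ}

/-- The radius of the ball of the local bound, in units of `2 ^ N`. -/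
def Rloc (d : ℕ) : ℝ := 2 * d * 2 ^ winOff d + 4

/-- The points whose finest optimal scale from `M` on is `n`. -/
def scaleAt (u : E d → ℝ) (M n : ℤ) : Set (E d) := optC u n \ ⋃ m ∈ Ico M n, optC u m

theorem measurableSet_scaleAt {u : E d → ℝ} (hu : Smooth u) (hd : 1 ≤ d) (M n : ℤ) :
    MeasurableSet (scaleAt u M n) :=
  (measurableSet_optC hu hd n).diff
    (MeasurableSet.biUnion (Ico M n).to_countable fun _ _ => measurableSet_optC hu hd _)

theorem optC_subset_scaleAt {u : E d → ℝ} {M N : ℤ} {x : E d} {n : ℤ} (h1 : M ≤ n) (h2 : n ≤ N)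
    (h : x ∈ optC u n) : ∃ m ∈ Finset.Icc M N, x ∈ scaleAt u M m := by
  obtain ⟨m, ⟨hm1, hm2, hm⟩, hmin⟩ := Int.exists_least_of_bdd
    (P := fun m => M ≤ m ∧ m ≤ N ∧ x ∈ optC u m) ⟨M, fun z hz => hz.1⟩ ⟨n, h1, h2, h⟩
  refine ⟨m, Finset.mem_Icc.2 ⟨hm1, hm2⟩, hm, ?_⟩
  simp only [mem_iUnion, mem_Ico, not_exists]
  rintro m' ⟨a, b⟩ h'
  exact absurd (hmin m' ⟨a, by omega, h'⟩) (by omega)

theorem scaleAt_unique {u : E d → ℝ} {M m m' : ℤ} {x : E d} (hm : M ≤ m) (hm' : M ≤ m')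
    (h : x ∈ scaleAt u M m) (h' : x ∈ scaleAt u M m') : m = m' := by
  rcases lt_trichotomy m m' with hlt | heq | hlt
  · exact absurd (mem_biUnion (x := m) (show m ∈ Ico M m' from ⟨hm, hlt⟩) h.1) h'.2
  · exact heq
  · exact absurd (mem_biUnion (x := m') (show m' ∈ Ico M m from ⟨hm', hlt⟩) h'.1) h.2

theorem measurableSet_qidx_eq (t : E d) (n : ℤ) (s : Set (Fin d → ℤ)) :
    MeasurableSet {x | qidx t n x ∈ s} := by
  have hm : Measurable fun x : E d => qidx t n x := measurable_pi_lambda _ fun i =>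
    Int.measurable_floor.comp (Continuous.measurable (by fun_prop))
  exact hm (s.to_countable.measurableSet)

theorem ae_differentiableAt_cmax {u : E d → ℝ} (hu : Smooth u) :
    ∀ᵐ x : E d, DifferentiableAt ℝ (cmax u) x := by
  have h : ∀ j : ℕ, ∀ᵐ x : E d, x ∈ ball (0 : E d) j → DifferentiableAt ℝ (cmax u) x := fun j => by
    obtain ⟨K, hK⟩ := (locallyLipschitz_cmax hu).locallyLipschitzOn.exists_lipschitzOnWith_of_compact
      (isCompact_closedBall (0 : E d) (j : ℝ))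
    filter_upwards [(hK.mono ball_subset_closedBall).ae_differentiableWithinAt_of_mem] with x hx hm
    exact (hx hm).differentiableAt (isOpen_ball.mem_nhds hm)
  rw [← ae_all_iff] at h
  filter_upwards [h] with x hx
  obtain ⟨j, hj⟩ := exists_nat_gt ‖x‖
  exact hx j (mem_ball_zero_iff.2 hj)

namespace Cfg

variable {c : Cfg d}

/-- Where the radius range of the tree of the window contains an optimal radius. -/
theorem cover_point (hd : 1 ≤ d) (u : E d → ℝ) (hu : Smooth u) {x : E d} {n : ℤ} {r : ℝ}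
    (hr : r ∈ Icc ((2 : ℝ) ^ n) ((2 : ℝ) ^ (n + 1))) (hopt : ballAvg u x r = cmax u x)
    (hM : c.M ≤ n) (hN : n + (winOff d : ℤ) ≤ c.N0)
    (hdeep : deep c.t (n + (winOff d : ℤ)) x)
    (hgood : Good c.g c.t (n + (winOff d : ℤ)) (qidx c.t (n + (winOff d : ℤ)) x)) :
    let R := c.root (n + (winOff d : ℤ)) (qidx c.t (n + (winOff d : ℤ)) x)
    c.Tree R ∧ x ∈ qcube c.t R.1 R.2 ∧ c.zeta R x = 1 ∧ c.UR u R x = cmax u x := by
  intro R
  set m := n + (winOff d : ℤ) with hm
  obtain ⟨h1, h2, ha, hroot, -⟩ := c.root_spec hN hgood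
  have hRdef : c.root m (qidx c.t m x) = R := rfl
  rw [hRdef] at h1 h2 ha hroot
  have hMm : c.M ≤ m := by omega
  have hR : c.Tree R := ⟨hroot, hMm.trans h1, h2⟩
  have hsub : qcube c.t m (qidx c.t m x) ⊆ qcube c.t R.1 R.2 := by
    have := qcube_subset_anc c.t m (R.1 - m).toNat (qidx c.t m x)
    rwa [show m + ((R.1 - m).toNat : ℤ) = R.1 by omega, ha] at this
  have hxR : x ∈ qcube c.t R.1 R.2 := hsub (mem_qcube_iff.2 rfl)
  have hd1 : (1 : ℝ) ≤ d := by exact_mod_cast hd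
  have hp : (0 : ℝ) < 2 ^ n := zpow_pos two_pos n
  have hw := winOff_ge d
  have em : (2 : ℝ) ^ m = 2 ^ n * 2 ^ winOff d := by
    rw [hm, zpow_add₀ two_ne_zero, zpow_natCast]
  have hdo : (2 : ℝ) ^ m / 8 ≤ c.dOut R x := by
    have hne : ((qcube c.t R.1 R.2)ᶜ).Nonempty := by
      refine ⟨qctr c.t R.1 (fun i => R.2 i + 1), fun h => ?_⟩
      rw [mem_qcube_iff, qidx_qctr] at h
      have := congrFun h ⟨0, hd⟩
      omega
    rw [dOut, le_infDist hne]
    intro y hy
    by_contra hlt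
    rw [not_le] at hlt
    exact hy (hsub (ball_subset_of_deep hdeep (by rwa [mem_ball, dist_comm])))
  have hlam : c.lam0 R x ≤ (2 : ℝ) ^ m := by
    obtain ⟨Q, hQ, hxQ⟩ := mark_cover hR hxR
    refine (lam0_le hR hQ x).trans ?_
    rw [infDist_zero_of_mem hxQ, add_zero]
    refine zpow_le_zpow_right₀ one_le_two (le_of_not_gt fun hlt => ?_)
    rcases hQ with ⟨-, hs, -, -, hout⟩ | ⟨hQM, -, -⟩
    · refine hout ?_
      have := c.root_anc hN hgood (Q.1 - m).toNat (by rw [hRdef]; omega)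
      rw [show m + ((Q.1 - m).toNat : ℤ) = Q.1 by omega] at this
      have hk : Q.2 = anc (Q.1 - m).toNat (qidx c.t m x) := by
        rw [← qidx_add, show m + ((Q.1 - m).toNat : ℤ) = Q.1 by omega]
        exact (mem_qcube_iff.1 hxQ).symm
      rw [hk]
      exact this
    · omega
  have hl0 := lam0_pos hR x
  have hzeta : c.zeta R x = 1 := by
    have h2 : 2 ≤ zCut d * c.dOut R x / c.lam0 R x := by
      rw [le_div_iff₀ hl0]
      have : 64 * ((2 : ℝ) ^ m / 8) ≤ zCut d * c.dOut R x :=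
        mul_le_mul (by unfold zCut; linarith) hdo (by positivity) (by unfold zCut; positivity)
      linarith [zpow_pos (two_pos (α := ℝ)) m]
    unfold zeta
    rw [min_eq_left (by linarith), max_eq_right zero_le_one]
  refine ⟨hR, hxR, hzeta, le_antisymm (UR_le_cmax hu hd hR x) ?_⟩
  rw [← hopt]
  refine le_UR hu hd hR ⟨?_, ?_⟩
  · refine le_trans (mul_le_mul_of_nonneg_left hlam (theta'_pos hd).le) ?_
    have : theta' d * (2 : ℝ) ^ m = 2 ^ n / (4 * d) := by
      rw [em]; unfold theta'; field_simp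
    rw [this]
    refine le_trans ?_ hr.1
    rw [div_le_iff₀ (by positivity)]
    nlinarith
  · rw [rhi_eq_of_zeta_pos hd hR (by rw [hzeta]; exact one_pos)]
    have h1 : theta d * ((2 : ℝ) ^ m / 8) ≤ theta d * c.dOut R x :=
      mul_le_mul_of_nonneg_left hdo (theta_pos hd).le
    refine hr.2.trans (le_trans ?_ h1)
    rw [zpow_add_one₀ two_ne_zero, em]
    unfold theta
    rw [← sub_nonneg]
    have e : 1 / (100 * (d : ℝ)) * (2 ^ n * 2 ^ winOff d / 8) - 2 ^ n * 2
        = 2 ^ n * (2 ^ winOff d - 1600 * d) / (800 * d) := by field_simp; ring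
    rw [e]
    have : 0 ≤ (2 : ℝ) ^ winOff d - 1600 * d := by nlinarith
    positivity

/-- A bad window pays for the gradient at scale `2 ^ n`. -/
theorem bad_point (hd : 2 ≤ d) : ∃ κ : ℝ, ∃ C : ℝ≥0∞, 0 < κ ∧ C ≠ ⊤ ∧
    ∀ (c : Cfg d) (u : E d → ℝ) (x : E d) (n : ℤ),
      c.Ok → Smooth u → c.M ≤ n → n + (winOff d : ℤ) ≤ c.N0 →
      deep c.t (n + (winOff d : ℤ)) x →
      ¬ Good c.g c.t (n + (winOff d : ℤ)) (qidx c.t (n + (winOff d : ℤ)) x) →
      (∀ y ∈ ball x ((2 : ℝ) ^ (n + 1)), c.g y = ∇ u y) →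
      DifferentiableAt ℝ (cmax u) x → x ∈ optC u n →
      ENNReal.ofReal (((2 : ℝ) ^ n) ^ d) * ‖∇ (cmax u) x‖ₑ ≤ C * c.scaleCost κ n x := by
  have hd1 : 1 ≤ d := le_trans one_le_two hd
  obtain ⟨Cl, κ, C, -, hκ, hC, hP⟩ := point_loss hd
  set ω := volume (ball (0 : E d) 1)
  have hω0 : ω ≠ 0 := (measure_ball_pos volume _ one_pos).ne'
  have hωt : ω ≠ ⊤ := measure_ball_lt_top.ne
  refine ⟨κ, C / ω, hκ, ENNReal.div_ne_top hC hω0, ?_⟩
  intro c u x n hok hu hM hN hdeep hbad hgu hdiff hx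
  obtain ⟨r, hr, hopt⟩ := hx
  set m := n + (winOff d : ℤ) with hm
  have hr0 : 0 < r := lt_of_lt_of_le (zpow_pos two_pos n) hr.1
  obtain ⟨hG, hstat⟩ := grad_cmax_stat hu hd1 hdiff hr0 hopt
  have hw := winOff_ge d
  have hd' : (2 : ℝ) ≤ d := by exact_mod_cast hd
  have hp : (0 : ℝ) < 2 ^ n := zpow_pos two_pos n
  have em : (2 : ℝ) ^ m = 2 ^ n * 2 ^ winOff d := by
    rw [hm, zpow_add₀ two_ne_zero, zpow_natCast]
  have e1 : (2 : ℝ) ^ (n + 1) = 2 * 2 ^ n := by rw [zpow_add_one₀ two_ne_zero]; ring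
  have hw16 : (16 : ℝ) ≤ 2 ^ winOff d := by nlinarith
  have h2r : 2 * r ≤ (2 : ℝ) ^ m := by
    rw [em]; nlinarith [hr.2]
  have hle : (2 : ℝ) ^ m ≤ (2 : ℝ) ^ (C0 d + 1) * r := by
    rw [em]
    calc (2 : ℝ) ^ n * 2 ^ winOff d ≤ r * 2 ^ (C0 d + 1) :=
          mul_le_mul hr.1 (pow_le_pow_right₀ one_le_two (by have := winOff_le_C0 d hd1; omega))
            (by positivity) hr0.le
      _ = _ := mul_comm _ _
  have hMb : c.Mb < m := by
    have := hok.hMb
    have : 0 < botOff d := by unfold botOff; omega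
    omega
  have hball : ball x r ⊆ ball x ((2 : ℝ) ^ m / 8) := ball_subset_ball (by
    rw [em]; nlinarith [hr.2])
  obtain ⟨hP1, -⟩ := hP c u x 0 (∇ (cmax u) x) r m hok hu hr0 hMb hN h2r hle
    (fun y hy => hgu y (ball_subset_ball hr.2 hy)) hG hstat
  have hmain := hP1 fun l k _ hl hNU => by
    obtain ⟨hin, -, hgood, hlev⟩ := hNU
    have hc : qctr c.t l k ∈ qcube c.t m (qidx c.t m x) :=
      ball_subset_of_deep hdeep (hball (qcube_subset_of_inside hd1 hin
        (mem_qcube_iff.2 (qidx_qctr c.t l k))))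
    have ha : anc (m - l).toNat k = qidx c.t m x := by
      have := qidx_add c.t l (m - l).toNat (qctr c.t l k)
      rw [show l + ((m - l).toNat : ℤ) = m by omega, qidx_qctr, mem_qcube_iff.1 hc] at this
      exact this.symm
    have := c.root_anc (show l ≤ c.N0 by omega) hgood (m - l).toNat (by omega)
    rw [show l + ((m - l).toNat : ℤ) = m by omega, ha] at this
    exact hbad this.1
  have hsc : (if c.Loud κ x r m then c.cost x r m else 0) ≤ c.scaleCost κ n x := by
    unfold scaleCost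
    exact le_iSup_of_le r (le_iSup_of_le hr (le_iSup_of_le m
      (le_iSup_of_le ⟨⟨by omega, le_min hN (by have := winOff_le_C0 d hd1; omega)⟩, h2r⟩ le_rfl)))
  rw [mul_comm (C / ω), ← mul_div_assoc, ENNReal.le_div_iff_mul_le (Or.inl hω0) (Or.inl hωt)]
  calc ENNReal.ofReal (((2 : ℝ) ^ n) ^ d) * ‖∇ (cmax u) x‖ₑ * ω
      ≤ volume (ball x r) * ‖∇ (cmax u) x‖ₑ := by
        rw [mul_right_comm]; exact mul_le_mul' (volume_ball_lb x hr.1) le_rfl
    _ ≤ C * if c.Loud κ x r m then c.cost x r m else 0 := hmain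
    _ ≤ c.scaleCost κ n x * C := by rw [mul_comm _ C]; exact mul_le_mul' le_rfl hsc

/-- The gradient of a tree is paid by its loss and its flux. -/
theorem zeta_grad_le (hd : 1 ≤ d) {u : E d → ℝ} (hu : Smooth u) {R : Cb d} (hR : c.Tree R)
    {Cl : ℝ} (hCl : 0 ≤ Cl) :
    ∫⁻ x, ENNReal.ofReal (c.zeta R x) * ‖∇ (c.UR u R) x‖ₑ
      ≤ (∫⁻ x in {x | 0 < c.zeta R x}, lossV Cl (c.edir R) (∇ (c.UR u R) x))
        + ENNReal.ofReal Cl * ‖∫ x, c.zeta R x * ⟪c.edir R, ∇ (c.UR u R) x⟫‖ₑ := by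
  obtain ⟨K, hK⟩ := lipschitz_UR hu hd hR
  set G : E d → E d := fun x => ∇ (c.UR u R) x
  have hGm : Measurable G := Unc.measurable_gradient' _
  have hGb : ∀ x, ‖G x‖ ≤ K := fun x =>
    le_of_eq_of_le (LinearIsometryEquiv.norm_map _ _) (norm_fderiv_le_of_lipschitz ℝ hK)
  have he : ‖c.edir R‖ = 1 := norm_edir hR
  have hz := continuous_zeta hR
  have hsupp : HasCompactSupport (c.zeta R) := by
    refine HasCompactSupport.intro (isCompact_closedBall (qctr c.t R.1 R.2)
      (Real.sqrt d * (2 : ℝ) ^ R.1 / 2)) fun x hx => ?_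
    by_contra h
    exact hx (mem_closedBall_iff_norm.2 (norm_sub_qctr_le
      (mem_of_zeta_pos hd hR (lt_of_le_of_ne (zeta_nonneg c R x) (Ne.symm h)))))
  have hzi : Integrable (c.zeta R) := hz.integrable_of_hasCompactSupport hsupp
  have i1 : Integrable fun x => c.zeta R x * ‖G x‖ :=
    hzi.mul_bdd hGm.norm.aestronglyMeasurable (c := (K : ℝ))
      (Eventually.of_forall fun x => by rw [norm_norm]; exact hGb x)
  have i2 : Integrable fun x => c.zeta R x * ⟪c.edir R, G x⟫ :=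
    hzi.mul_bdd (hGm.const_inner).aestronglyMeasurable (c := (K : ℝ))
      (Eventually.of_forall fun x => by
        refine (norm_inner_le_norm _ _).trans ?_
        rw [he, one_mul]; exact hGb x)
  have i3 : Integrable fun x => max (c.zeta R x * ‖G x‖ - Cl * (c.zeta R x * ⟪c.edir R, G x⟫)) 0 :=
    (i1.sub (i2.const_mul Cl)).pos_part
  have hle : ∫ x, c.zeta R x * ‖G x‖ ≤
      (∫ x, max (c.zeta R x * ‖G x‖ - Cl * (c.zeta R x * ⟪c.edir R, G x⟫)) 0)
        + Cl * ∫ x, c.zeta R x * ⟪c.edir R, G x⟫ := by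
    rw [← integral_const_mul, ← integral_add i3 (i2.const_mul Cl)]
    refine integral_mono i1 (i3.add (i2.const_mul Cl)) fun x => ?_
    have := le_max_left (c.zeta R x * ‖G x‖ - Cl * (c.zeta R x * ⟪c.edir R, G x⟫)) 0
    linarith
  calc ∫⁻ x, ENNReal.ofReal (c.zeta R x) * ‖G x‖ₑ
      = ENNReal.ofReal (∫ x, c.zeta R x * ‖G x‖) := by
        rw [ofReal_integral_eq_lintegral_ofReal i1
          (Eventually.of_forall fun x => mul_nonneg (zeta_nonneg c R x) (norm_nonneg _))]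
        refine lintegral_congr fun x => ?_
        rw [ENNReal.ofReal_mul (zeta_nonneg c R x), ofReal_norm]
    _ ≤ ENNReal.ofReal (∫ x, max (c.zeta R x * ‖G x‖ - Cl * (c.zeta R x * ⟪c.edir R, G x⟫)) 0)
          + ENNReal.ofReal (Cl * ∫ x, c.zeta R x * ⟪c.edir R, G x⟫) :=
        (ENNReal.ofReal_le_ofReal hle).trans ENNReal.ofReal_add_le
    _ ≤ _ := by
        refine add_le_add ?_ ?_
        · rw [ofReal_integral_eq_lintegral_ofReal i3 (Eventually.of_forall fun x => le_max_right _ _),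
            ← lintegral_indicator (measurableSet_lt measurable_const hz.measurable)]
          refine lintegral_mono fun x => ?_
          by_cases h : 0 < c.zeta R x
          · rw [indicator_of_mem (show x ∈ {x | 0 < c.zeta R x} from h), lossV]
            rw [ENNReal.ofReal_max, ENNReal.ofReal_zero, max_eq_left zero_le]
            rcases le_total (‖G x‖ - Cl * ⟪c.edir R, G x⟫) 0 with h0 | h0
            · refine le_trans (le_of_eq (ENNReal.ofReal_of_nonpos ?_)) zero_le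
              nlinarith
            · refine ENNReal.ofReal_le_ofReal ?_
              nlinarith [zeta_le_one c R x]
          · rw [indicator_of_notMem (show x ∉ {x | 0 < c.zeta R x} from h)]
            rw [le_antisymm (not_lt.1 h) (zeta_nonneg c R x)]
            simp
        · rw [ENNReal.ofReal_mul hCl]
          refine mul_le_mul' le_rfl ?_
          rw [← ofReal_norm]
          exact ENNReal.ofReal_le_ofReal (le_abs_self _)

end Cfg

open Cfg in
/-- One grid pays for the points in the middle of their windows. -/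
theorem cover_shift (hd : 2 ≤ d) : ∃ C : ℝ≥0∞, C ≠ ⊤ ∧
    ∀ (c : Cfg d) (u : E d → ℝ) (z : E d) (N : ℤ), c.Ok → Smooth u →
      c.N0 = N + (winOff d : ℤ) → c.M ≤ N → c.Mb + (botOff d : ℤ) + C0 d ≤ c.M →
      (∀ y ∈ ball z (Rloc d * (2 : ℝ) ^ N), c.g y = ∇ u y) →
      ∑ n ∈ Finset.Icc c.M N, ∫⁻ x in (ball z ((2 : ℝ) ^ N) ∩ scaleAt u c.M n) ∩
          {x | deep c.t (n + (winOff d : ℤ)) x}, ‖∇ (cmax u) x‖ₑ
        ≤ C * c.totW := by
  have hd1 : 1 ≤ d := le_trans one_le_two hd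
  obtain ⟨κ, C1, hκ, hC1, hbadp⟩ := Cfg.bad_point hd
  obtain ⟨Cs, hCs, hseg⟩ := segment_bound hd hκ
  obtain ⟨Cl, C2, hCl, hC2, hloss⟩ := loss_total_trees hd
  obtain ⟨C3, hC3, hid⟩ := tree_identity hd
  set B := C1 + 1
  have hB : B ≠ ⊤ := ENNReal.add_ne_top.2 ⟨hC1, ENNReal.one_ne_top⟩
  have hB0 : B ≠ 0 := by simp [B]
  refine ⟨B * Cs + (C2 + ENNReal.ofReal Cl * C3), ENNReal.add_ne_top.2
    ⟨ENNReal.mul_ne_top hB hCs, ENNReal.add_ne_top.2
      ⟨hC2, ENNReal.mul_ne_top ENNReal.ofReal_ne_top hC3⟩⟩, ?_⟩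
  intro c u z N hok hu hN0 hMN hbot hgu
  set G : E d → ℝ≥0∞ := fun x => ‖∇ (cmax u) x‖ₑ
  have hGm : Measurable G := (Unc.measurable_gradient' _).enorm
  set w : ℤ := (winOff d : ℤ) with hwdef
  set A : ℤ → Set (E d) := fun n =>
    (ball z ((2 : ℝ) ^ N) ∩ scaleAt u c.M n) ∩ {x | deep c.t (n + w) x}
  set Gd : ℤ → Set (E d) := fun n =>
    {x | qidx c.t (n + w) x ∈ {k | Good c.g c.t (n + w) k}}
  have hGdm : ∀ n, MeasurableSet (Gd n) := fun n => measurableSet_qidx_eq _ _ _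
  have hAm : ∀ n, MeasurableSet (A n) := fun n =>
    ((measurableSet_ball).inter (measurableSet_scaleAt hu hd1 _ _)).inter (measurableSet_deep _ _)
  have hR2 : (2 : ℝ) ≤ Rloc d := by
    have : (0 : ℝ) ≤ 2 * d * 2 ^ winOff d := by positivity
    unfold Rloc; linarith
  -- bad windows
  set D : Set (E d) := {x | DifferentiableAt ℝ (cmax u) x}
  have hDm : MeasurableSet D := measurableSet_of_differentiableAt ℝ _
  have hDae : ∀ᵐ x ∂volume, x ∈ D := ae_differentiableAt_cmax hu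
  set F : ℤ → E d → ℝ≥0∞ := fun n x => ENNReal.ofReal (((2 : ℝ) ^ n) ^ d) * B⁻¹ *
    (if n ∈ Finset.Icc c.M N then ((A n \ Gd n) ∩ D).indicator G x else 0) with hFdef
  have hFm : ∀ n, Measurable (F n) := fun n => by
    simp only [hFdef]
    by_cases hn : n ∈ Finset.Icc c.M N
    · simp only [if_pos hn]
      exact ((hGm.indicator (((hAm n).diff (hGdm n)).inter hDm))).const_mul _
    · simp only [if_neg hn]; exact measurable_const
  have hF : ∀ n x, F n x ≤ c.scaleCost κ n x := fun n x => by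
    simp only [hFdef]
    split_ifs with hn
    swap
    · rw [mul_zero]; exact zero_le
    by_cases hx : x ∈ (A n \ Gd n) ∩ D
    swap
    · rw [indicator_of_notMem hx, mul_zero]; exact zero_le
    rw [indicator_of_mem hx]
    obtain ⟨⟨⟨⟨hball, hsc⟩, hdeep⟩, hbad⟩, hdiff⟩ := hx
    rw [Finset.mem_Icc] at hn
    have h := hbadp c u x n hok hu hn.1 (by omega) hdeep hbad (fun y hy => hgu y (by
      rw [mem_ball] at hy hball ⊢
      have h2 : (2 : ℝ) ^ (n + 1) ≤ 2 * (2 : ℝ) ^ N := by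
        rw [zpow_add_one₀ two_ne_zero, mul_comm]
        exact mul_le_mul_of_nonneg_left (zpow_le_zpow_right₀ one_le_two hn.2) zero_le_two
      have h3 : 0 ≤ (2 : ℝ) ^ N := zpow_nonneg zero_le_two N
      have h4 : (4 : ℝ) ≤ Rloc d := by
        have : (0 : ℝ) ≤ 2 * d * 2 ^ winOff d := by positivity
        unfold Rloc; linarith
      nlinarith [dist_triangle y x z])) hdiff hsc.1
    calc ENNReal.ofReal (((2 : ℝ) ^ n) ^ d) * B⁻¹ * G x
        = B⁻¹ * (ENNReal.ofReal (((2 : ℝ) ^ n) ^ d) * G x) := by ring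
      _ ≤ B⁻¹ * (B * c.scaleCost κ n x) :=
          mul_le_mul' le_rfl (h.trans (mul_le_mul' le_self_add le_rfl))
      _ = _ := by rw [← mul_assoc, ENNReal.inv_mul_cancel hB0 hB, one_mul]
  have hbadtot : ∑ n ∈ Finset.Icc c.M N, ∫⁻ x in A n \ Gd n, G x ≤ B * Cs * c.totW := by
    rw [mul_assoc]
    refine le_trans ?_ (mul_le_mul' le_rfl (hseg c F hok hFm hF))
    rw [Finset.mul_sum]
    refine le_trans (Finset.sum_le_sum fun n hn => ?_) (Finset.sum_le_sum_of_subset
      (Finset.Icc_subset_Icc_right (by omega)))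
    refine le_of_eq ?_
    simp only [hFdef, if_pos hn]
    rw [lintegral_const_mul _ (hGm.indicator (((hAm n).diff (hGdm n)).inter hDm)),
      lintegral_indicator (((hAm n).diff (hGdm n)).inter hDm)]
    have he : ∫⁻ x in (A n \ Gd n) ∩ D, G x = ∫⁻ x in A n \ Gd n, G x := by
      refine setLIntegral_congr ?_
      filter_upwards [hDae] with x hx
      exact propext (and_iff_left hx)
    rw [he]
    calc ∫⁻ x in A n \ Gd n, G x
        = (ENNReal.ofReal ((((2 : ℝ) ^ n) ^ d)⁻¹) * ENNReal.ofReal (((2 : ℝ) ^ n) ^ d)) * (B * B⁻¹)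
            * ∫⁻ x in A n \ Gd n, G x := by
          rw [ofReal_inv_mul_scale, ENNReal.mul_inv_cancel hB0 hB, one_mul, one_mul]
      _ = _ := by ring
  -- good windows
  set P : Set (Cb d) := {R | c.Tree R ∧ qcube c.t R.1 R.2 ⊆ ball z (Rloc d * (2 : ℝ) ^ N)}
  have hPspec : ∀ R ∈ P, c.Tree R ∧ ∀ y ∈ qcube c.t R.1 R.2, c.g y = ∇ u y := fun R hR =>
    ⟨hR.1, fun y hy => hgu y (hR.2 hy)⟩
  set W : Cb d → E d → ℝ≥0∞ := fun R x => if R ∈ P then
    ENNReal.ofReal (c.zeta R x) * ‖∇ (c.UR u R) x‖ₑ else 0 with hW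
  have hWm : ∀ R, Measurable (W R) := fun R => by
    simp only [hW]
    by_cases hR : R ∈ P
    · simp only [if_pos hR]
      exact (continuous_zeta hR.1).measurable.ennreal_ofReal.mul (Unc.measurable_gradient' _).enorm
    · simp only [if_neg hR]; exact measurable_const
  have hURae : ∀ᵐ x : E d, ∀ R : Cb d, R ∈ P → DifferentiableAt ℝ (c.UR u R) x := by
    rw [ae_all_iff]
    intro R
    by_cases hR : R ∈ P
    · obtain ⟨K, hK⟩ := lipschitz_UR hu hd1 hR.1
      filter_upwards [hK.ae_differentiableAt] with x hx _ using hx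
    · exact Eventually.of_forall fun x h => absurd h hR
  have hgood : ∀ᵐ x : E d, ∑ n ∈ Finset.Icc c.M N, (A n ∩ Gd n).indicator G x ≤ ∑' R, W R x := by
    filter_upwards [hDae, hURae] with x hxD hxU
    by_cases hex : ∃ n ∈ Finset.Icc c.M N, x ∈ A n ∩ Gd n
    swap
    · rw [Finset.sum_eq_zero fun n hn => indicator_of_notMem (fun h => hex ⟨n, hn, h⟩) _]
      exact zero_le
    obtain ⟨n, hn, hxn⟩ := hex
    rw [Finset.sum_eq_single_of_mem n hn fun m hm hne => indicator_of_notMem (fun h =>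
      hne (scaleAt_unique (Finset.mem_Icc.1 hm).1 (Finset.mem_Icc.1 hn).1 h.1.1.2 hxn.1.1.2)) _,
      indicator_of_mem hxn]
    obtain ⟨⟨⟨hball, hsc⟩, hdeep⟩, hgd⟩ := hxn
    rw [Finset.mem_Icc] at hn
    obtain ⟨r, hr, hopt⟩ := hsc.1
    obtain ⟨hT, hxR, hz1, heq⟩ := cover_point hd1 u hu hr hopt hn.1 (by omega) hdeep hgd
    set R := c.root (n + w) (qidx c.t (n + w) x)
    have hRP : R ∈ P := by
      refine ⟨hT, fun y hy => ?_⟩
      have h1 := norm_sub_qctr_le hy
      have h2 := norm_sub_qctr_le hxR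
      have h3 : (2 : ℝ) ^ R.1 ≤ 2 ^ winOff d * 2 ^ N := by
        rw [← zpow_natCast, ← zpow_add₀ two_ne_zero]
        refine zpow_le_zpow_right₀ one_le_two ?_
        have := hT.hi
        omega
      have h4 : Real.sqrt d ≤ d := by
        rw [Real.sqrt_le_iff]
        refine ⟨Nat.cast_nonneg d, ?_⟩
        have : (1 : ℝ) ≤ d := by exact_mod_cast hd1
        nlinarith
      have h5 := norm_sub_le_norm_sub_add_norm_sub y (qctr c.t R.1 R.2) x
      rw [norm_sub_rev (qctr c.t R.1 R.2) x] at h5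
      have h6 : Real.sqrt d * (2 : ℝ) ^ R.1 ≤ d * (2 ^ winOff d * 2 ^ N) :=
        mul_le_mul h4 h3 (zpow_nonneg zero_le_two _) (Nat.cast_nonneg d)
      have h7 : (0 : ℝ) < 2 ^ N := zpow_pos two_pos N
      have h8 : 0 ≤ (d : ℝ) * (2 ^ winOff d * 2 ^ N) := by positivity
      rw [mem_ball] at hball ⊢
      rw [← dist_eq_norm] at h5
      unfold Rloc
      have := dist_triangle y x z
      linarith
    refine le_trans (le_of_eq ?_) (ENNReal.le_tsum R)
    simp only [hW, if_pos hRP, hz1, ENNReal.ofReal_one, one_mul, G]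
    congr 1
    have hmax : IsLocalMax (fun y => c.UR u R y - cmax u y) x := Eventually.of_forall fun y => by
      simp only [heq, sub_self]
      linarith [UR_le_cmax hu hd1 hT y]
    have h0 := hmax.fderiv_eq_zero
    have hxR' : DifferentiableAt ℝ (c.UR u R) x := hxU R hRP
    rw [fderiv_fun_sub hxR' hxD, sub_eq_zero] at h0
    simp only [gradient, h0]
  have hgoodtot : ∑ n ∈ Finset.Icc c.M N, ∫⁻ x in A n ∩ Gd n, G x
      ≤ (C2 + ENNReal.ofReal Cl * C3) * c.totW := by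
    have e : ∑ n ∈ Finset.Icc c.M N, ∫⁻ x in A n ∩ Gd n, G x
        = ∫⁻ x, ∑ n ∈ Finset.Icc c.M N, (A n ∩ Gd n).indicator G x := by
      rw [lintegral_finsetSum _ fun n _ => hGm.indicator ((hAm n).inter (hGdm n))]
      exact Finset.sum_congr rfl fun n _ => (lintegral_indicator ((hAm n).inter (hGdm n)) _).symm
    rw [e]
    refine (lintegral_mono_ae hgood).trans ?_
    rw [lintegral_tsum fun R => (hWm R).aemeasurable]
    have hR : ∀ R, ∫⁻ x, W R x ≤
        (if R ∈ P then ∫⁻ x in {x | 0 < c.zeta R x}, lossV Cl (c.edir R) (∇ (c.UR u R) x) else 0)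
        + ENNReal.ofReal Cl *
          (if R ∈ P then ‖∫ x, c.zeta R x * ⟪c.edir R, ∇ (c.UR u R) x⟫‖ₑ else 0) := fun R => by
      simp only [hW]
      by_cases hR : R ∈ P
      · simp only [if_pos hR]
        exact zeta_grad_le hd1 hu hR.1 hCl.le
      · simp [if_neg hR]
    refine (ENNReal.tsum_le_tsum hR).trans ?_
    rw [ENNReal.tsum_add, ENNReal.tsum_mul_left, add_mul, mul_assoc]
    refine add_le_add (le_trans (le_of_eq (tsum_congr fun R => ?_))
      (hloss c u P hok hbot hu hPspec)) (mul_le_mul' le_rfl (le_trans (le_of_eq (tsum_congr fun R => ?_))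
        (hid c u P hok hu fun R hR => ⟨hR.1.lo, hR.1.hi, hR.1.root, (hPspec R hR).2⟩)))
    · by_cases hRP : R ∈ P <;> simp only [hRP, ↓reduceIte]
    · by_cases hRP : R ∈ P <;> simp only [hRP, ↓reduceIte]
  calc ∑ n ∈ Finset.Icc c.M N, ∫⁻ x in A n, G x
      = ∑ n ∈ Finset.Icc c.M N, ((∫⁻ x in A n ∩ Gd n, G x) + ∫⁻ x in A n \ Gd n, G x) :=
        Finset.sum_congr rfl fun n _ => (lintegral_inter_add_sdiff _ _ (hGdm n)).symm
    _ ≤ (C2 + ENNReal.ofReal Cl * C3) * c.totW + B * Cs * c.totW := by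
        rw [Finset.sum_add_distrib]; exact add_le_add hgoodtot hbadtot
    _ = _ := by ring

end

end Vale.Agent.P137.Cen
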