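import Vale.Agent.P137.Cen.Defs

/-!
# P137, centred operator: geometry of the grids and of the cut sets used by the core bound
-/

open MeasureTheory Metric Set
open scoped ENNReal RealInnerProductSpace Pointwise

namespace Vale.Agent.P137.Cen

open Vale.Agent.P137.Unc (E)

noncomputable section

attribute [local instance] Classical.propDecidable

variable {d : ℕ}

/-! ## Indices -/

theorem qidx_add (t : E d) (n : ℤ) (j : ℕ) (y : E d) :
    qidx t (n + j) y = anc j (qidx t n y) := by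
  funext i
  simp only [qidx, anc]
  have e : (y i - t i) / (2 : ℝ) ^ (n + j) = (y i - t i) / (2 : ℝ) ^ n / ((2 ^ j : ℕ) : ℝ) := by
    rw [div_div, zpow_add₀ two_ne_zero, zpow_natCast]
    push_cast
    rfl
  rw [e, Int.floor_div_natCast]
  norm_num

theorem qidx_qctr (t : E d) (n : ℤ) (k : Fin d → ℤ) : qidx t n (qctr t n k) = k := by
  have h : (0 : ℝ) < 2 ^ n := zpow_pos two_pos n
  funext i
  simp only [qidx, qctr, add_sub_cancel_left]
  rw [mul_div_cancel_left₀ _ h.ne', Int.floor_eq_iff]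
  constructor <;> linarith

theorem anc_zero (k : Fin d → ℤ) : anc 0 k = k := by
  funext i; simp [anc]

theorem anc_one (k : Fin d → ℤ) : anc 1 k = par k := by
  funext i; simp [anc, par]

theorem anc_add (a b : ℕ) (k : Fin d → ℤ) : anc a (anc b k) = anc (a + b) k := by
  funext i
  simp only [anc]
  rw [Int.ediv_ediv_of_nonneg (by positivity), ← pow_add, add_comm b a]

theorem qcube_subset_anc (t : E d) (n : ℤ) (j : ℕ) (k : Fin d → ℤ) :
    qcube t n k ⊆ qcube t (n + j) (anc j k) := fun y hy => by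
  rw [mem_qcube_iff] at hy ⊢
  rw [qidx_add, hy]

theorem qidx_par (t : E d) (n : ℤ) (y : E d) : qidx t (n + 1) y = par (qidx t n y) := by
  have := qidx_add t n 1 y
  rwa [anc_one, Nat.cast_one] at this

/-- A cube deep inside a ball lies in it. -/
theorem qcube_subset_of_inside {c : Cfg d} {x : E d} {r : ℝ} {n : ℤ} {k : Fin d → ℤ}
    (hd : 1 ≤ d) (h : c.inside x r n k) : qcube c.t n k ⊆ ball x r := by
  intro y hy
  have h1 := norm_sub_qctr_le hy
  have h2 : Real.sqrt d ≤ d := by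
    rw [Real.sqrt_le_iff]
    exact ⟨Nat.cast_nonneg d, by
      have : (1 : ℝ) ≤ d := by exact_mod_cast hd
      nlinarith⟩
  have hp : (0 : ℝ) < 2 ^ n := zpow_pos two_pos n
  have hd' : (1 : ℝ) ≤ d := by exact_mod_cast hd
  rw [mem_ball, dist_eq_norm]
  have h3 := norm_sub_le_norm_sub_add_norm_sub y (qctr c.t n k) x
  rw [norm_sub_rev (qctr c.t n k) x] at h3
  simp only [Cfg.inside, Kd] at h
  nlinarith [mul_le_mul_of_nonneg_right h2 hp.le, mul_pos (zero_lt_one.trans_le hd') hp]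

/-- Cubes of one level near a point are neighbours of each other. -/
theorem exists_nbr (t : E d) (n : ℤ) (y y' : E d) (h : ‖y - y'‖ ≤ 3 * (2 : ℝ) ^ n) :
    ∃ o : Fin d → Fin 9, qidx t n y' = nbr (qidx t n y) o := by
  have hp : (0 : ℝ) < 2 ^ n := zpow_pos two_pos n
  have h1 : ∀ i, |qidx t n y' i - qidx t n y i| ≤ 4 := fun i => by
    have hi : |(y - y') i| ≤ 3 * (2 : ℝ) ^ n := by
      refine le_trans ?_ h
      simpa using PiLp.norm_apply_le (y - y') i
    simp only [PiLp.sub_apply] at hi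
    simp only [qidx]
    set a := (y i - t i) / (2 : ℝ) ^ n
    set b := (y' i - t i) / (2 : ℝ) ^ n
    have hab : |b - a| ≤ 3 := by
      rw [show b - a = -((y i - y' i) / (2 : ℝ) ^ n) by simp only [a, b]; ring, abs_neg, abs_div,
        abs_of_pos hp, div_le_iff₀ hp]
      exact hi
    obtain ⟨u1, u2⟩ := abs_le.1 hab
    have f1 := Int.floor_le a
    have f2 := Int.lt_floor_add_one a
    have f3 := Int.floor_le b
    have f4 := Int.lt_floor_add_one b
    have q1 : ((⌊b⌋ - ⌊a⌋ : ℤ) : ℝ) < ((4 : ℤ) : ℝ) + 1 := by push_cast; linarith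
    have q2 : ((-4 : ℤ) : ℝ) - 1 < ((⌊b⌋ - ⌊a⌋ : ℤ) : ℝ) := by push_cast; linarith
    have q3 : ⌊b⌋ - ⌊a⌋ < 5 := by exact_mod_cast (by push_cast at q1 ⊢; linarith :
      ((⌊b⌋ - ⌊a⌋ : ℤ) : ℝ) < ((5 : ℤ) : ℝ))
    have q4 : -5 < ⌊b⌋ - ⌊a⌋ := by exact_mod_cast (by push_cast at q2 ⊢; linarith :
      ((-5 : ℤ) : ℝ) < ((⌊b⌋ - ⌊a⌋ : ℤ) : ℝ))
    exact abs_le.2 ⟨by omega, by omega⟩
  refine ⟨fun i => ⟨(qidx t n y' i - qidx t n y i + 4).toNat, ?_⟩, funext fun i => ?_⟩
  · have := abs_le.1 (h1 i); omega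
  · have := abs_le.1 (h1 i)
    simp only [nbr, noff, Pi.add_apply]
    omega

/-! ## Margins -/

/-- The point is in the middle part of its cube. -/
def deep (t : E d) (n : ℤ) (x : E d) : Prop :=
  ∀ i, Int.fract ((x i - t i) / (2 : ℝ) ^ n) ∈ Icc (1 / 8 : ℝ) (7 / 8)

theorem measurableSet_deep (t : E d) (n : ℤ) : MeasurableSet {x | deep t n x} := by
  simp only [deep, Set.ofPred_forall]
  refine MeasurableSet.iInter fun i => ?_
  have hc : Continuous fun x : E d => (x i - t i) / (2 : ℝ) ^ n := by fun_prop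
  exact (measurable_fract.comp hc.measurable) measurableSet_Icc

theorem ball_subset_of_deep {t : E d} {n : ℤ} {x : E d} (h : deep t n x) :
    ball x ((2 : ℝ) ^ n / 8) ⊆ qcube t n (qidx t n x) := by
  intro y hy i
  rw [mem_ball, dist_eq_norm] at hy
  have hp : (0 : ℝ) < 2 ^ n := zpow_pos two_pos n
  have hi : |(y - x) i| < (2 : ℝ) ^ n / 8 :=
    lt_of_le_of_lt (by simpa using PiLp.norm_apply_le (y - x) i) hy
  simp only [PiLp.sub_apply] at hi
  obtain ⟨h1, h2⟩ := h i
  have e := Int.floor_add_fract ((x i - t i) / (2 : ℝ) ^ n)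
  have e' : x i - t i = ((⌊(x i - t i) / (2 : ℝ) ^ n⌋ : ℝ)
      + Int.fract ((x i - t i) / (2 : ℝ) ^ n)) * (2 : ℝ) ^ n := by
    rw [e, div_mul_cancel₀ _ hp.ne']
  obtain ⟨a1, a2⟩ := abs_lt.1 hi
  simp only [qcorn, qidx]
  constructor <;> nlinarith

/-- A fixed share of the shifts puts a point in the middle part of its cube. -/
theorem card_deep (Mb n : ℤ) (m : ℕ) (h1 : Mb + 4 ≤ n) (h2 : n ≤ Mb + m) (x : E d) :
    ((2 ^ m) ^ d : ℕ) ≤ 4 ^ d *
      (Finset.univ.filter fun s : Fin d → Fin (2 ^ m) => deep (qlat 0 Mb s) n x).card := by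
  obtain ⟨p, hp⟩ : ∃ p : ℕ, n = Mb + (p + 4 : ℕ) := ⟨(n - Mb - 4).toNat, by omega⟩
  obtain ⟨q, hq⟩ : ∃ q : ℕ, m = (p + 4) + q := ⟨m - (p + 4), by omega⟩
  set P : ℕ := 2 ^ (p + 4) with hP
  have hP16 : 16 ≤ P := by
    calc 16 = 2 ^ 4 := by norm_num
      _ ≤ _ := Nat.pow_le_pow_right (by norm_num) (by omega)
  have hPp : (0 : ℝ) < P := by exact_mod_cast (show 0 < P by omega)
  have hb : (0 : ℝ) < 2 ^ Mb := zpow_pos two_pos Mb
  have hm : 2 ^ m = 2 ^ q * P := by rw [hq, hP, ← pow_add, add_comm]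
  have hone : ∀ i, ∃ F : Finset (Fin (2 ^ m)), 2 ^ m ≤ 4 * F.card ∧
      ∀ s ∈ F, Int.fract ((x i - (2 : ℝ) ^ Mb * ((s : ℕ) : ℝ)) / (2 : ℝ) ^ n)
        ∈ Icc (1 / 8 : ℝ) (7 / 8) := by
    intro i
    set a : ℝ := x i / (2 : ℝ) ^ Mb
    set s0 : ℤ := ⌈a - 7 * (P : ℝ) / 8⌉
    have hs0 := Int.le_ceil (a - 7 * (P : ℝ) / 8)
    have hs0' := Int.ceil_lt_add_one (a - 7 * (P : ℝ) / 8)
    let val : Fin (2 ^ q) × Fin (P / 4) → ℕ := fun jl =>
      (jl.1 : ℕ) * P + ((s0 + ((jl.2 : ℕ) : ℤ)) % (P : ℤ)).toNat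
    have hval : ∀ jl, val jl < 2 ^ m := fun jl => by
      have := Int.emod_lt_of_pos (s0 + ((jl.2 : ℕ) : ℤ)) (by omega : (0 : ℤ) < (P : ℤ))
      have h0 := Int.emod_nonneg (s0 + ((jl.2 : ℕ) : ℤ)) (by omega : (P : ℤ) ≠ 0)
      have h3 : ((jl.1 : ℕ) + 1) * P ≤ 2 ^ q * P := Nat.mul_le_mul_right P jl.1.isLt
      rw [hm]
      simp only [val]
      rw [add_mul, one_mul] at h3
      omega
    let f : Fin (2 ^ q) × Fin (P / 4) → Fin (2 ^ m) := fun jl => ⟨val jl, hval jl⟩
    have hinj : Function.Injective f := by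
      rintro ⟨j, l⟩ ⟨j', l'⟩ hjl
      have e : (j : ℕ) * P + ((s0 + ((l : ℕ) : ℤ)) % (P : ℤ)).toNat
          = (j' : ℕ) * P + ((s0 + ((l' : ℕ) : ℤ)) % (P : ℤ)).toNat := congrArg Fin.val hjl
      have b1 := Int.emod_lt_of_pos (s0 + ((l : ℕ) : ℤ)) (by omega : (0 : ℤ) < (P : ℤ))
      have b2 := Int.emod_lt_of_pos (s0 + ((l' : ℕ) : ℤ)) (by omega : (0 : ℤ) < (P : ℤ))
      have b3 := Int.emod_nonneg (s0 + ((l : ℕ) : ℤ)) (by omega : (P : ℤ) ≠ 0)
      have b4 := Int.emod_nonneg (s0 + ((l' : ℕ) : ℤ)) (by omega : (P : ℤ) ≠ 0)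
      have hjj : (j : ℕ) = j' := by
        have := congrArg (fun z => z / P) e
        simp only [Nat.mul_comm _ P, Nat.mul_add_div (show 0 < P by omega),
          Nat.div_eq_of_lt (show ((s0 + ((l : ℕ) : ℤ)) % (P : ℤ)).toNat < P by omega),
          Nat.div_eq_of_lt (show ((s0 + ((l' : ℕ) : ℤ)) % (P : ℤ)).toNat < P by omega),
          add_zero] at this
        exact this
      rw [hjj] at e
      have hmod : (s0 + ((l : ℕ) : ℤ)) % (P : ℤ) = (s0 + ((l' : ℕ) : ℤ)) % (P : ℤ) := by omega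
      rw [Int.emod_eq_emod_iff_emod_sub_eq_zero, ← Int.dvd_iff_emod_eq_zero] at hmod
      have hl : (l : ℕ) = l' := by
        have h4 := Int.eq_zero_of_abs_lt_dvd hmod (by
          have := l.isLt; have := l'.isLt
          rw [abs_lt]; constructor <;> omega)
        omega
      exact Prod.ext (Fin.ext hjj) (Fin.ext hl)
    refine ⟨Finset.univ.image f, ?_, ?_⟩
    · rw [Finset.card_image_of_injective _ hinj]
      simp only [Finset.card_univ, Fintype.card_prod, Fintype.card_fin]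
      rw [hm]
      have : P / 4 * 4 = P := Nat.div_mul_cancel (by
        rw [hP]; exact Dvd.intro (2 ^ (p + 2)) (by rw [show p + 4 = (p + 2) + 2 by ring, pow_add]; ring))
      calc 2 ^ q * P = 2 ^ q * (P / 4 * 4) := by rw [this]
        _ ≤ _ := le_of_eq (by ring)
    · intro s hs
      obtain ⟨⟨j, l⟩, -, rfl⟩ := Finset.mem_image.1 hs
      have b3 := Int.emod_nonneg (s0 + ((l : ℕ) : ℤ)) (by omega : (P : ℤ) ≠ 0)
      set w : ℤ := (s0 + ((l : ℕ) : ℤ)) / (P : ℤ)
      have hs' : ((((f (j, l)) : Fin (2 ^ m)) : ℕ) : ℤ)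
          = s0 + ((l : ℕ) : ℤ) + (((j : ℕ) : ℤ) - w) * P := by
        simp only [f, val, w]
        push_cast
        rw [Int.toNat_of_nonneg b3, Int.emod_def]
        ring
      have hs'' : ((((f (j, l)) : Fin (2 ^ m)) : ℕ) : ℝ)
          = (s0 : ℝ) + ((l : ℕ) : ℝ) + ((((j : ℕ) : ℤ) - w : ℤ) : ℝ) * P := by exact_mod_cast hs'
      rw [hs'']
      have hn : (2 : ℝ) ^ n = 2 ^ Mb * P := by
        rw [hp, zpow_add₀ two_ne_zero, zpow_natCast, hP]; push_cast; rfl
      have e : (x i - 2 ^ Mb * ((s0 : ℝ) + ((l : ℕ) : ℝ) + ((((j : ℕ) : ℤ) - w : ℤ) : ℝ) * P))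
            / (2 : ℝ) ^ n
          = (a - s0 - ((l : ℕ) : ℝ)) / P + ((-(((j : ℕ) : ℤ) - w) : ℤ) : ℝ) := by
        rw [hn, show x i = a * 2 ^ Mb by simp only [a]; rw [div_mul_cancel₀ _ hb.ne']]
        push_cast
        field_simp
        ring
      rw [e, Int.fract_add_intCast]
      have hl : ((l : ℕ) : ℝ) + 1 ≤ (P : ℝ) / 4 := by
        have h5 : ((l : ℕ) + 1) * 4 ≤ P := by
          have := l.isLt
          have := Nat.div_mul_le_self P 4
          omega
        have h6 : (((l : ℕ) : ℝ) + 1) * 4 ≤ P := by exact_mod_cast h5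
        linarith
      have hl0 : (0 : ℝ) ≤ ((l : ℕ) : ℝ) := Nat.cast_nonneg _
      have hP' : (16 : ℝ) ≤ P := by exact_mod_cast hP16
      have c1 : (1 / 8 : ℝ) ≤ (a - s0 - ((l : ℕ) : ℝ)) / P := by
        rw [le_div_iff₀ hPp]; linarith
      have c2 : (a - s0 - ((l : ℕ) : ℝ)) / P ≤ 7 / 8 := by
        rw [div_le_iff₀ hPp]; linarith
      rw [Int.fract_eq_self.2 ⟨by linarith, by linarith⟩]
      exact ⟨c1, c2⟩
  choose F hF hF' using hone
  have hsub : Fintype.piFinset F ⊆
      Finset.univ.filter fun s : Fin d → Fin (2 ^ m) => deep (qlat 0 Mb s) n x := fun s hs => by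
    refine Finset.mem_filter.2 ⟨Finset.mem_univ _, fun i => ?_⟩
    have := hF' i (s i) (Fintype.mem_piFinset.1 hs i)
    simpa [qlat] using this
  refine le_trans ?_ (Nat.mul_le_mul_left _ (Finset.card_le_card hsub))
  rw [Fintype.card_piFinset]
  calc ((2 ^ m) ^ d : ℕ) = ∏ _i : Fin d, 2 ^ m := by simp
    _ ≤ ∏ i, 4 * (F i).card := Finset.prod_le_prod' fun i _ => hF i
    _ = _ := by rw [Finset.prod_mul_distrib]; simp

/-! ## Spheres of variable radius -/

/-- Points cut by the sphere of a slowly varying radius of size `2 ^ n` fill a thin set. -/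
theorem edge_measure (d : ℕ) (hd : 1 ≤ d) {R0 : ℝ} (hR0 : 1 ≤ R0) : ∃ C : ℝ, 0 ≤ C ∧
    ∀ (y : E d) (ρ : E d → ℝ) (s a : ℝ), 0 < s → 0 < a →
      (∀ x x', |ρ x - ρ x'| ≤ ‖x - x'‖ / 2) →
      volume {x | ‖x - y‖ ≤ R0 * s ∧ s ≤ ρ x ∧ |‖x - y‖ - ρ x| ≤ a}
        ≤ ENNReal.ofReal (C * (a / s) * s ^ d) := by
  set V := volume.real (closedBall (0 : E d) 1)
  have hV : 0 ≤ V := measureReal_nonneg
  refine ⟨64 * (2 * R0) ^ d * V, by positivity, fun y ρ s a hs ha hρ => ?_⟩
  set A := {x | ‖x - y‖ ≤ R0 * s ∧ s ≤ ρ x ∧ |‖x - y‖ - ρ x| ≤ a}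
  have hball : ∀ R : ℝ, 0 ≤ R → volume (closedBall y R) = ENNReal.ofReal (R ^ d * V) := fun R hR => by
    rw [Measure.addHaar_closedBall' volume y hR, finrank_euclideanSpace_fin,
      ENNReal.ofReal_mul (by positivity)]
    congr 1
    simp only [V, measureReal_def]
    rw [ENNReal.ofReal_toReal measure_closedBall_lt_top.ne]
  have hsub : A ⊆ closedBall y (R0 * s) := fun x hx => by
    rw [mem_closedBall, dist_eq_norm]; exact hx.1
  rcases le_or_gt s (32 * a) with hbig | hsmall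
  · refine (measure_mono hsub).trans ?_
    rw [hball _ (by positivity)]
    refine ENNReal.ofReal_le_ofReal ?_
    have h1 : (1 : ℝ) ≤ 64 * (a / s) := by
      rw [mul_div_assoc', le_div_iff₀ hs]; linarith
    calc (R0 * s) ^ d * V = 1 * (R0 ^ d * V * s ^ d) := by ring
      _ ≤ 64 * (a / s) * ((2 * R0) ^ d * V * s ^ d) := by
          refine mul_le_mul h1 ?_ (by positivity) (by positivity)
          gcongr
          linarith
      _ = _ := by ring
  set h : ℝ := 16 * a / s with hh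
  have hh0 : 0 < h := by positivity
  set J : ℕ := ⌊1 / h⌋₊
  have hh2 : h ≤ 1 / 2 := by
    rw [hh, div_le_iff₀ hs]; linarith
  have hJ : 1 / h / 2 ≤ J := by
    have := Nat.lt_floor_add_one (1 / h)
    have h2 : (2 : ℝ) ≤ 1 / h := by rw [le_div_iff₀ hh0]; linarith
    simp only [J]
    linarith
  set f : ℕ → E d → E d := fun j x => y + (1 + j * h) • (x - y) with hf
  have hsep : ∀ i j : ℕ, i < j → j ≤ J → Disjoint (f i '' A) (f j '' A) := by
    intro i j hij hjJ
    refine Set.disjoint_left.2 ?_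
    rintro _ ⟨x, hx, rfl⟩ ⟨x', hx', hxx⟩
    simp only [hf, add_left_cancel_iff] at hxx
    set b : ℝ := 1 + i * h
    set b' : ℝ := 1 + j * h
    have hb : 1 ≤ b := by simp only [b]; linarith [mul_nonneg (Nat.cast_nonneg (α := ℝ) i) hh0.le]
    have hij' : (i : ℝ) + 1 ≤ j := by exact_mod_cast hij
    have hbb : b + h ≤ b' := by
      simp only [b, b']
      nlinarith [mul_le_mul_of_nonneg_right hij' hh0.le]
    have hb'2 : b' ≤ 2 := by
      have h1 : (j : ℝ) ≤ 1 / h :=
        le_trans (by exact_mod_cast hjJ) (Nat.floor_le (by positivity))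
      rw [le_div_iff₀ hh0] at h1
      simp only [b']; linarith
    have hn : b' * ‖x' - y‖ = b * ‖x - y‖ := by
      have := congrArg norm hxx
      rwa [norm_smul, norm_smul, Real.norm_of_nonneg (by linarith), Real.norm_of_nonneg (by linarith)]
        at this
    have hdd : ‖x - x'‖ = (b' / b - 1) * ‖x' - y‖ := by
      have e : x - y = (b' / b) • (x' - y) := by
        rw [div_eq_inv_mul, mul_smul, hxx, inv_smul_smul₀ (by linarith)]
      have : x - x' = (b' / b - 1) • (x' - y) := by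
        rw [sub_smul, one_smul, ← e]; abel
      rw [this, norm_smul, Real.norm_of_nonneg]
      rw [sub_nonneg, one_le_div (by linarith)]
      linarith
    obtain ⟨-, hs', hc'⟩ := hx'
    obtain ⟨-, -, hc⟩ := hx
    have hlip := abs_le.1 (hρ x x')
    obtain ⟨c1, c2⟩ := abs_le.1 hc
    obtain ⟨c3, c4⟩ := abs_le.1 hc'
    have hD : ‖x - y‖ = (b' / b) * ‖x' - y‖ := by
      rw [div_mul_eq_mul_div, hn, mul_div_cancel_left₀ _ (by linarith)]
    have hq : h / 2 ≤ b' / b - 1 := by
      rw [le_sub_iff_add_le, le_div_iff₀ (by linarith)]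
      nlinarith
    have hD' : s - a ≤ ‖x' - y‖ := by linarith
    have key : (b' / b - 1) * ‖x' - y‖ ≤ 4 * a := by
      rw [hdd] at hlip
      nlinarith [hlip.1, hlip.2]
    have : h / 2 * (s - a) ≤ 4 * a :=
      le_trans (mul_le_mul hq hD' (by linarith) (by linarith)) key
    have e2 : h / 2 * (s - a) = 8 * a - 8 * a * (a / s) := by
      rw [hh]; field_simp; ring
    have e3 : a / s < 1 / 32 := by rw [div_lt_iff₀ hs]; linarith
    nlinarith
  have himg : ∀ j ≤ J, f j '' A ⊆ closedBall y (2 * R0 * s) := by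
    rintro j hjJ _ ⟨x, hx, rfl⟩
    simp only [hf, mem_closedBall, dist_eq_norm, add_sub_cancel_left, norm_smul]
    have h1 : (j : ℝ) * h ≤ 1 := by
      have := le_trans (show (j : ℝ) ≤ J by exact_mod_cast hjJ) (Nat.floor_le (by positivity))
      rwa [le_div_iff₀ hh0] at this
    rw [Real.norm_of_nonneg (by positivity)]
    nlinarith [hx.1, norm_nonneg (x - y), mul_nonneg (Nat.cast_nonneg (α := ℝ) j) hh0.le]
  have hvol : ∀ j : ℕ, volume A ≤ volume (f j '' A) := fun j => by
    have e : f j '' A = (fun x => y + x) '' ((1 + j * h : ℝ) • ((fun x => -y + x) '' A)) := by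
      rw [← Set.image_smul, Set.image_image, Set.image_image]
      refine Set.image_congr' fun x => ?_
      simp only [hf, neg_add_eq_sub]
    rw [e, Set.image_add_left, measure_preimage_add, Measure.addHaar_smul, Set.image_add_left,
      measure_preimage_add, abs_of_nonneg (by positivity)]
    calc volume A = 1 * volume A := (one_mul _).symm
      _ ≤ _ := by
        gcongr
        rw [← ENNReal.ofReal_one]
        exact ENNReal.ofReal_le_ofReal (one_le_pow₀ (by
          linarith [mul_nonneg (Nat.cast_nonneg (α := ℝ) j) hh0.le]))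
  have hclosed : IsClosed A := by
    have hc : Continuous ρ := by
      refine (LipschitzWith.of_dist_le_mul (K := ⟨1 / 2, by norm_num⟩) fun x x' => ?_).continuous
      rw [Real.dist_eq, dist_eq_norm]
      refine (hρ x x').trans (le_of_eq ?_)
      show ‖x - x'‖ / 2 = (1 / 2 : ℝ) * ‖x - x'‖
      ring
    have h1 : Continuous fun x : E d => ‖x - y‖ := by fun_prop
    exact (isClosed_le h1 continuous_const).inter
      ((isClosed_le continuous_const hc).inter (isClosed_le (h1.sub hc).abs continuous_const))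
  have hmeas : ∀ j : ℕ, MeasurableSet (f j '' A) := fun j => by
    refine (IsCompact.measurableSet ?_)
    refine ((isCompact_closedBall y (R0 * s)).of_isClosed_subset hclosed hsub).image ?_
    exact continuous_const.add ((continuous_id.sub continuous_const).const_smul (1 + j * h))
  have hsum : (J : ℝ≥0∞) * volume A ≤ volume (closedBall y (2 * R0 * s)) := by
    calc (J : ℝ≥0∞) * volume A = ∑ _j ∈ Finset.range J, volume A := by simp
      _ ≤ ∑ j ∈ Finset.range J, volume (f j '' A) := Finset.sum_le_sum fun j _ => hvol j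
      _ = volume (⋃ j ∈ Finset.range J, f j '' A) := by
          refine (measure_biUnion_finset ?_ fun j _ => hmeas j).symm
          intro i hi j hj hne
          simp only [Finset.coe_range, mem_Iio] at hi hj
          rcases lt_or_gt_of_ne hne with h' | h'
          · exact hsep i j h' hj.le
          · exact (hsep j i h' hi.le).symm
      _ ≤ _ := measure_mono (iUnion₂_subset fun j hj => himg j (Finset.mem_range.1 hj).le)
  rw [hball _ (by positivity)] at hsum
  have hJ0 : (0 : ℝ) < J := lt_of_lt_of_le (by positivity) hJ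
  have : volume A ≤ ENNReal.ofReal ((2 * R0 * s) ^ d * V / J) := by
    rw [ENNReal.ofReal_div_of_pos hJ0, ENNReal.ofReal_natCast,
      ENNReal.le_div_iff_mul_le (Or.inl (by exact_mod_cast hJ0.ne'))
        (Or.inl (ENNReal.natCast_ne_top J)), mul_comm]
    exact hsum
  refine this.trans (ENNReal.ofReal_le_ofReal ?_)
  rw [div_le_iff₀ hJ0]
  have e : 1 / h / 2 = s / (32 * a) := by rw [hh]; field_simp; ring
  rw [e] at hJ
  calc (2 * R0 * s) ^ d * V = 64 * (2 * R0) ^ d * V * (a / s) * s ^ d * (s / (64 * a)) := by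
        field_simp
        ring
    _ ≤ _ := by
        refine mul_le_mul_of_nonneg_left (le_trans ?_ hJ) (by positivity)
        gcongr
        linarith

end

end Vale.Agent.P137.Cen
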