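import Vale.Agent.P137.Cen.Trees
import Vale.Agent.P137.Cen.Calculus

/-!
# P137, centred operator: expansion of a ball average over maximal inside cubes (step C)

The integral of the field against an affine map over a ball is the sum over the maximal inside
cubes of the trees which reach the comparison level, up to the cut items.
-/

open MeasureTheory Metric Set
open scoped ENNReal NNReal RealInnerProductSpace Gradient

namespace Vale.Agent.P137.Cen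

open Vale.Agent.P137.Unc (E qdec ballAvg Smooth)

noncomputable section

attribute [local instance] Classical.propDecidable

variable {d : ℕ}

/-! ## Geometry of the cubes -/

theorem ex_sqrt_dim_le (d : ℕ) : Real.sqrt d ≤ d := by
  rw [Real.sqrt_le_iff]
  refine ⟨Nat.cast_nonneg d, ?_⟩
  rcases Nat.eq_zero_or_pos d with h | h
  · simp [h]
  · exact le_self_pow₀ (by exact_mod_cast h) two_ne_zero

theorem ex_kid_par (k : Fin d → ℤ) : ∃ b : Fin d → Fin 2, kid (par k) b = k :=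
  ⟨fun i => ⟨(k i % 2).toNat, by omega⟩, funext fun i => by simp only [kid, par]; omega⟩

theorem ex_qidx_succ (t : E d) (n : ℤ) (y : E d) : qidx t (n + 1) y = par (qidx t n y) := by
  funext i
  simp only [par]
  rw [qidx_pred, add_sub_cancel_right]

theorem ex_anc_succ (j : ℕ) (k : Fin d → ℤ) : anc (j + 1) k = par (anc j k) := by
  funext i
  simp only [anc, par, pow_succ]
  rw [Int.ediv_ediv_of_nonneg (by positivity)]

theorem ex_anc_zero (k : Fin d → ℤ) : anc 0 k = k := by funext i; simp [anc]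

theorem ex_norm_par (t : E d) (n : ℤ) (k : Fin d → ℤ) :
    ‖qctr t (n + 1) (par k) - qctr t n k‖ ≤ Real.sqrt d * (2 : ℝ) ^ n / 2 := by
  obtain ⟨b, hb⟩ := ex_kid_par k
  have h := norm_qctr_kid_le t (n + 1) (par k) b
  rw [hb, add_sub_cancel_right, zpow_add_one₀ two_ne_zero] at h
  linarith

theorem ex_norm_anc (t : E d) (n : ℤ) (k : Fin d → ℤ) (j : ℕ) :
    ‖qctr t (n + j) (anc j k) - qctr t n k‖ ≤
      Real.sqrt d * ((2 : ℝ) ^ (n + j) - (2 : ℝ) ^ n) / 2 := by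
  induction j with
  | zero => simp [ex_anc_zero]
  | succ j ih =>
    rw [ex_anc_succ, Nat.cast_succ, ← add_assoc]
    refine (norm_sub_le_norm_sub_add_norm_sub _ (qctr t (n + j) (anc j k)) _).trans
      ((add_le_add (ex_norm_par t _ _) ih).trans_eq ?_)
    rw [zpow_add_one₀ two_ne_zero]
    ring

theorem ex_finite_near (t x : E d) (n : ℤ) (R : ℝ) :
    {k : Fin d → ℤ | ‖x - qctr t n k‖ ≤ R}.Finite := by
  refine Set.Finite.subset (Fintype.piFinset fun i => Finset.Icc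
    ⌊(x i - t i - R) / (2 : ℝ) ^ n - 1 / 2⌋ ⌈(x i - t i + R) / (2 : ℝ) ^ n - 1 / 2⌉).finite_toSet
    fun k hk => ?_
  rw [Finset.mem_coe, Fintype.mem_piFinset]
  intro i
  have hL : (0 : ℝ) < 2 ^ n := zpow_pos two_pos n
  have h := abs_le.1 (((Real.norm_eq_abs _).symm.le.trans (PiLp.norm_apply_le (x - qctr t n k) i)).trans hk)
  simp only [PiLp.sub_apply, qctr] at h
  rw [Finset.mem_Icc]
  constructor
  · refine Int.cast_le (R := ℝ) |>.1 ((Int.floor_le _).trans ?_)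
    rw [sub_le_iff_le_add, div_le_iff₀ hL]
    linarith [h.1, h.2]
  · refine Int.cast_le (R := ℝ) |>.1 (le_trans ?_ (Int.le_ceil _))
    rw [le_sub_iff_add_le, le_div_iff₀ hL]
    linarith [h.1, h.2]

namespace Cfg

variable (c : Cfg d) (x : E d) (r : ℝ)

/-- The cubes near the point. -/
def exNear (n : ℤ) (R : ℝ) : Finset (Fin d → ℤ) := (ex_finite_near c.t x n R).toFinset

/-- The maximal inside cubes of levels in `[Mb, n')`. -/
def exMem (n' : ℤ) : Finset (Cb d) :=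
  (Finset.Ico c.Mb n').biUnion fun n =>
    ((c.exNear x n r).filter fun k => c.inside x r n k ∧ ¬ c.inside x r (n + 1) (par k)).image
      fun k => (n, k)

variable {c x r}

theorem inside.norm_le {n : ℤ} {k : Fin d → ℤ} (h : c.inside x r n k) :
    ‖x - qctr c.t n k‖ ≤ r := by
  have : 0 ≤ Kd d * (2 : ℝ) ^ n := mul_nonneg (by simp only [Kd]; positivity) (zpow_pos two_pos n).le
  simp only [inside] at h
  linarith

theorem mem_exMem {n' n : ℤ} {k : Fin d → ℤ} :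
    (n, k) ∈ c.exMem x r n' ↔ (c.Mb ≤ n ∧ n < n') ∧ c.inside x r n k ∧
      ¬ c.inside x r (n + 1) (par k) := by
  simp only [exMem, Finset.mem_biUnion, Finset.mem_image, Finset.mem_filter, exNear,
    Set.Finite.mem_toFinset, Finset.mem_Ico, Prod.mk.injEq]
  constructor
  · rintro ⟨m, hm, k', ⟨-, h1, h2⟩, rfl, rfl⟩
    exact ⟨hm, h1, h2⟩
  · rintro ⟨hn, h1, h2⟩
    exact ⟨n, hn, k, ⟨h1.norm_le, h1, h2⟩, rfl, rfl⟩

theorem inside_kid {n : ℤ} {k : Fin d → ℤ} (h : c.inside x r (n + 1) (par k)) :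
    c.inside x r n k := by
  simp only [inside] at h ⊢
  rw [zpow_add_one₀ two_ne_zero] at h
  have h1 := ex_norm_par c.t n k
  have h2 := norm_sub_le_norm_sub_add_norm_sub x (qctr c.t (n + 1) (par k)) (qctr c.t n k)
  have h3 := mul_le_mul_of_nonneg_right (ex_sqrt_dim_le d) (zpow_pos two_pos n).le (α := ℝ)
  have h4 : (0 : ℝ) ≤ (d : ℝ) * 2 ^ n := by positivity
  simp only [Kd] at h ⊢
  nlinarith

theorem inside_anc {n : ℤ} {k : Fin d → ℤ} {j : ℕ} (h : c.inside x r (n + j) (anc j k)) :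
    c.inside x r n k := by
  induction j with
  | zero => simpa [ex_anc_zero] using h
  | succ j ih =>
    refine ih (inside_kid ?_)
    rwa [← ex_anc_succ, add_assoc, ← Nat.cast_succ]

theorem inside_mono_level {y : E d} {n m : ℤ} (hnm : n ≤ m)
    (h : c.inside x r m (qidx c.t m y)) : c.inside x r n (qidx c.t n y) := by
  refine Int.leInductionDown (m := m) (motive := fun i _ => c.inside x r i (qidx c.t i y)) h
    (fun i _ ih => ?_) n hnm
  refine inside_kid ?_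
  rw [← ex_qidx_succ, sub_add_cancel]
  exact ih

theorem qcube_subset_ball (hd : 1 ≤ d) {n : ℤ} {k : Fin d → ℤ} (h : c.inside x r n k) :
    qcube c.t n k ⊆ ball x r := by
  intro y hy
  rw [mem_ball, dist_eq_norm, norm_sub_rev]
  have h1 := norm_sub_qctr_le hy
  rw [norm_sub_rev] at h1
  have h2 := norm_sub_le_norm_sub_add_norm_sub x (qctr c.t n k) y
  have hl : (0 : ℝ) < 2 ^ n := zpow_pos two_pos n
  have h3 := mul_le_mul_of_nonneg_right (ex_sqrt_dim_le d) hl.le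
  have h4 : (0 : ℝ) < (d : ℝ) * 2 ^ n := mul_pos (by exact_mod_cast hd) hl
  simp only [inside, Kd] at h
  linarith

theorem not_inside_top (hd : 1 ≤ d) (hr : 0 < r) {n' : ℤ} (hn : 2 * r ≤ (2 : ℝ) ^ n')
    (k : Fin d → ℤ) : ¬ c.inside x r n' k := by
  intro h
  have hd' : (1 : ℝ) ≤ d := by exact_mod_cast hd
  simp only [inside, Kd] at h
  nlinarith [norm_nonneg (x - qctr c.t n' k)]

/-- A maximal inside cube is cut, with the enlargement of items. -/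
theorem cutK_of_max {n : ℤ} {k : Fin d → ℤ} (h1 : c.inside x r n k)
    (h2 : ¬ c.inside x r (n + 1) (par k)) : c.cutK x r n k := by
  simp only [inside, not_le] at h1 h2
  simp only [cutK, Kp]
  rw [zpow_add_one₀ two_ne_zero] at h2
  have h3 := ex_norm_par c.t n k
  have h4 := norm_sub_le_norm_sub_add_norm_sub x (qctr c.t n k) (qctr c.t (n + 1) (par k))
  rw [norm_sub_rev (qctr c.t n k)] at h4
  have h5 := mul_le_mul_of_nonneg_right (ex_sqrt_dim_le d) (zpow_pos two_pos n).le (α := ℝ)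
  have h6 : (0 : ℝ) ≤ (d : ℝ) * 2 ^ n := by positivity
  simp only [Kd] at h1 h2 ⊢
  rw [abs_le]
  constructor <;> nlinarith

/-- A cube with a maximal inside descendant is cut, with the enlargement of items. -/
theorem cutK_of_anc {n : ℤ} {k : Fin d → ℤ} {j : ℕ} (h1 : c.inside x r n k)
    (h2 : ¬ c.inside x r (n + 1) (par k)) : c.cutK x r (n + j) (anc j k) := by
  cases j with
  | zero => simpa [ex_anc_zero] using cutK_of_max h1 h2
  | succ j =>
    have hn : ¬ c.inside x r (n + (j + 1 : ℕ)) (anc (j + 1) k) := by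
      intro h
      apply h2
      have : anc (j + 1) k = anc j (par k) := by
        funext i
        simp only [anc, par, pow_succ']
        rw [Int.ediv_ediv_of_nonneg (by positivity)]
      rw [this, Nat.cast_succ, ← add_assoc, add_right_comm] at h
      exact inside_anc h
    have h3 := ex_norm_anc c.t n k (j + 1)
    have h4 := norm_sub_le_norm_sub_add_norm_sub x (qctr c.t n k)
      (qctr c.t (n + (j + 1 : ℕ)) (anc (j + 1) k))
    rw [norm_sub_rev (qctr c.t n k)] at h4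
    have h7 := h1.norm_le
    have hl : (0 : ℝ) < 2 ^ n := zpow_pos two_pos n
    have hL : (0 : ℝ) < 2 ^ (n + (j + 1 : ℕ)) := zpow_pos two_pos _
    have h5 := mul_le_mul_of_nonneg_right (ex_sqrt_dim_le d) hL.le
    have h6 : (0 : ℝ) ≤ Real.sqrt d * 2 ^ n := by positivity
    have h8 : (0 : ℝ) ≤ (d : ℝ) * 2 ^ (n + (j + 1 : ℕ)) := by positivity
    simp only [inside, not_le, cutK, Kp, Kd] at hn ⊢
    rw [abs_le]
    constructor <;> nlinarith

theorem disjoint_exMem {n' : ℤ} :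
    (c.exMem x r n' : Set (Cb d)).Pairwise fun Q Q' =>
      Disjoint (qcube c.t Q.1 Q.2) (qcube c.t Q'.1 Q'.2) := by
  rintro ⟨n, k⟩ hQ ⟨m, l⟩ hQ' hne
  rw [Set.disjoint_left]
  intro y hy hy'
  rw [mem_qcube_iff] at hy hy'
  simp only at hy hy'
  obtain ⟨-, h1, h2⟩ := mem_exMem.1 hQ
  obtain ⟨-, h1', h2'⟩ := mem_exMem.1 hQ'
  rcases lt_trichotomy n m with h | h | h
  · apply h2
    rw [← hy, ← ex_qidx_succ]
    exact inside_mono_level (by omega) (hy'.symm ▸ h1')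
  · subst h
    exact hne (by rw [← hy, ← hy'])
  · apply h2'
    rw [← hy', ← ex_qidx_succ]
    exact inside_mono_level (by omega) (hy.symm ▸ h1)

theorem ball_eq_exMem (hd : 1 ≤ d) (hr : 0 < r) {n' : ℤ} (hn : c.Mb < n')
    (h2r : 2 * r ≤ (2 : ℝ) ^ n') :
    ball x r = (⋃ Q ∈ c.exMem x r n', qcube c.t Q.1 Q.2) ∪
      ⋃ k ∈ (c.exNear x c.Mb (r + Real.sqrt d * (2 : ℝ) ^ c.Mb / 2)).filter
        (fun k => ¬ c.inside x r c.Mb k), (qcube c.t c.Mb k ∩ ball x r) := by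
  apply subset_antisymm
  · intro y hy
    by_cases h : c.inside x r c.Mb (qidx c.t c.Mb y)
    · left
      obtain ⟨m, hm, hm', h1, h2⟩ : ∃ m, c.Mb ≤ m ∧ m < n' ∧ c.inside x r m (qidx c.t m y) ∧
          ¬ c.inside x r (m + 1) (qidx c.t (m + 1) y) := by
        by_contra hne
        push Not at hne
        have : ∀ m, c.Mb ≤ m → m ≤ n' → c.inside x r m (qidx c.t m y) := fun m hm =>
          Int.leInduction (motive := fun i _ => i ≤ n' → c.inside x r i (qidx c.t i y))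
            (fun _ => h) (fun i hi ih hi' => hne i hi (by omega) (ih (by omega))) m hm
        exact not_inside_top hd hr h2r _ (this n' hn.le le_rfl)
      rw [ex_qidx_succ] at h2
      exact mem_biUnion (mem_exMem.2 ⟨⟨hm, hm'⟩, h1, h2⟩ : (m, qidx c.t m y) ∈ c.exMem x r n')
        (mem_qcube_iff.2 rfl)
    · right
      have hyc : y ∈ qcube c.t c.Mb (qidx c.t c.Mb y) := mem_qcube_iff.2 rfl
      refine mem_biUnion (x := qidx c.t c.Mb y) ?_ ⟨hyc, hy⟩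
      rw [Finset.mem_coe, Finset.mem_filter, exNear, Set.Finite.mem_toFinset]
      refine ⟨?_, h⟩
      rw [mem_ofPred_eq]
      rw [mem_ball, dist_eq_norm, norm_sub_rev] at hy
      linarith [norm_sub_qctr_le hyc,
        norm_sub_le_norm_sub_add_norm_sub x y (qctr c.t c.Mb (qidx c.t c.Mb y))]
  · refine union_subset (iUnion₂_subset fun Q hQ => qcube_subset_ball hd (mem_exMem.1 hQ).2.1)
      (iUnion₂_subset fun k _ => inter_subset_right)

/-- A sum over `NU` cubes is a sum over the maximal inside cubes. -/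
theorem sum_NU_eq {M : Type*} [AddCommMonoid M] [TopologicalSpace M] {n' : ℤ}
    (f : ℤ → (Fin d → ℤ) → M) :
    ∑ n ∈ Finset.Ico c.Mb n', ∑' k : Fin d → ℤ, (if c.NU x r n' n k then f n k else 0) =
      ∑ Q ∈ (c.exMem x r n').filter (fun Q => c.NU x r n' Q.1 Q.2), f Q.1 Q.2 := by
  rw [Finset.sum_finset_product ((c.exMem x r n').filter (fun Q => c.NU x r n' Q.1 Q.2))
    (Finset.Ico c.Mb n') (fun n => (c.exNear x n r).filter fun k => c.NU x r n' n k)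
    (fun p => ?_)]
  · refine Finset.sum_congr rfl fun n _ => ?_
    rw [tsum_eq_sum (s := (c.exNear x n r).filter fun k => c.NU x r n' n k) fun k hk => ?_]
    · exact Finset.sum_congr rfl fun k hk => if_pos (Finset.mem_filter.1 hk).2
    · refine if_neg fun h => hk ?_
      rw [Finset.mem_filter, exNear, Set.Finite.mem_toFinset]
      exact ⟨h.1.norm_le, h⟩
  · obtain ⟨n, k⟩ := p
    simp only [Finset.mem_filter, mem_exMem, Finset.mem_Ico, exNear, Set.Finite.mem_toFinset,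
      mem_ofPred_eq]
    exact ⟨fun h => ⟨h.1.1, h.1.2.1.norm_le, h.2⟩, fun h => ⟨⟨h.1, h.2.2.1, h.2.2.2.1⟩, h.2.2⟩⟩

end Cfg

theorem ex_sum_le_levels (S : Finset (Cb d)) (I : Finset ℤ) (P : ℤ → (Fin d → ℤ) → Prop)
    (f : ℤ → (Fin d → ℤ) → ℝ≥0∞) (h : ∀ Q ∈ S, Q.1 ∈ I ∧ P Q.1 Q.2) :
    ∑ Q ∈ S, f Q.1 Q.2 ≤ ∑ n ∈ I, ∑' k : Fin d → ℤ, if P n k then f n k else 0 := by
  calc ∑ Q ∈ S, f Q.1 Q.2 = ∑ Q ∈ S, if P Q.1 Q.2 then f Q.1 Q.2 else 0 :=
        Finset.sum_congr rfl fun Q hQ => (if_pos (h Q hQ).2).symm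
    _ ≤ ∑ Q ∈ I ×ˢ S.image Prod.snd, if P Q.1 Q.2 then f Q.1 Q.2 else 0 := by
        refine Finset.sum_le_sum_of_subset fun Q hQ => ?_
        exact Finset.mem_product.2 ⟨(h Q hQ).1, Finset.mem_image_of_mem _ hQ⟩
    _ = ∑ n ∈ I, ∑ k ∈ S.image Prod.snd, if P n k then f n k else 0 := Finset.sum_product _ _ _
    _ ≤ _ := Finset.sum_le_sum fun n _ => ENNReal.sum_le_tsum _

/-! ## Affine maps on one cube -/

theorem ex_setIntegral_affine {g : E d → E d} (hg : Integrable g) (t x a : E d)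
    (A : E d →L[ℝ] E d) (n : ℤ) (k : Fin d → ℤ) :
    ‖(∫ y in qcube t n k, ⟪g y, a + A (y - x)⟫) -
        ⟪qint g t n k, a + A (qctr t n k - x)⟫‖ₑ ≤
      ENNReal.ofReal (‖A‖ * (Real.sqrt d * (2 : ℝ) ^ n)) *
        (‖qint g t n k‖ₑ + qPsi g t n k) := by
  have h := enorm_moment_le (t := t) hg A.lipschitz n k
  rw [coe_nnnorm] at h
  refine le_trans (le_of_eq ?_) h
  congr 1
  have hi := integrable_inner_lip hg A.lipschitz (qctr t n k) n k (t := t)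
  have hc : IntegrableOn (fun y => ⟪g y, a + A (qctr t n k - x)⟫) (qcube t n k) :=
    hg.integrableOn.inner_const _
  rw [show ⟪qint g t n k, a + A (qctr t n k - x)⟫ =
      ∫ y in qcube t n k, ⟪g y, a + A (qctr t n k - x)⟫ by
    rw [qint, real_inner_comm, ← integral_inner hg.integrableOn]
    exact integral_congr_ae (Filter.Eventually.of_forall fun y => real_inner_comm _ _),
    sub_eq_iff_eq_add, ← integral_add hi hc]
  refine integral_congr_ae (Filter.Eventually.of_forall fun y => ?_)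
  simp only [← inner_add_right, map_sub]
  congr 1
  abel

theorem ex_good_psi {g : E d → E d} {t : E d} {n : ℤ} {k : Fin d → ℤ} (h : Good g t n k) :
    ‖qint g t n k‖ₑ + qPsi g t n k ≤ 2 * ‖qint g t n k‖ₑ := by
  rw [two_mul]
  refine add_le_add le_rfl ((le_add_right le_rfl).trans (h.2.trans ?_))
  calc ENNReal.ofReal eta * ‖qint g t n k‖ₑ ≤ 1 * ‖qint g t n k‖ₑ := by
        refine mul_le_mul_left ?_ _
        rw [← ENNReal.ofReal_one]
        exact ENNReal.ofReal_le_ofReal (by norm_num [eta])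
    _ = _ := one_mul _

theorem ex_enorm_inner_le (v w : E d) : ‖⟪v, w⟫‖ₑ ≤ ‖v‖ₑ * ‖w‖ₑ := by
  rw [← ofReal_norm, ← ofReal_norm, ← ofReal_norm, ← ENNReal.ofReal_mul (norm_nonneg _)]
  exact ENNReal.ofReal_le_ofReal ((Real.norm_eq_abs _).le.trans (abs_real_inner_le_norm v w))

theorem ex_enorm_affine_le (x a y z : E d) (A : E d →L[ℝ] E d) {B : ℝ} (h : ‖y - z‖ ≤ B) :
    ‖a + A (y - x)‖ₑ ≤ ‖a + A (z - x)‖ₑ + ENNReal.ofReal (‖A‖ * B) := by
  have e : a + A (y - x) = (a + A (z - x)) + A (y - z) := by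
    simp only [map_sub]; abel
  rw [e]
  refine (enorm_add_le _ _).trans (add_le_add le_rfl ?_)
  rw [← ofReal_norm]
  exact ENNReal.ofReal_le_ofReal ((A.le_opNorm _).trans
    (mul_le_mul_of_nonneg_left h (norm_nonneg _)))

theorem ex_mul_two (a : ℝ) : ENNReal.ofReal a * 2 = ENNReal.ofReal (a * 2) := by
  rw [ENNReal.ofReal_mul' zero_le_two, ENNReal.ofReal_ofNat]

theorem ex_two_mul (a : ℝ) : 2 * ENNReal.ofReal a = ENNReal.ofReal (2 * a) := by
  rw [ENNReal.ofReal_mul zero_le_two, ENNReal.ofReal_ofNat]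

/-- `1 ≤ 8 d` and `√d ≤ 8 d` as extended constants. -/
theorem ex_const_le (hd : 1 ≤ d) {a : ℝ} (ha : a ≤ 8 * d) :
    ENNReal.ofReal a ≤ ENNReal.ofReal (8 * d) ∧ (1 : ℝ≥0∞) ≤ ENNReal.ofReal (8 * d) := by
  refine ⟨ENNReal.ofReal_le_ofReal ha, ?_⟩
  rw [← ENNReal.ofReal_one]
  refine ENNReal.ofReal_le_ofReal ?_
  have : (1 : ℝ) ≤ d := by exact_mod_cast hd
  linarith

theorem ex_le_iw_bad {c : Cfg d} {n : ℤ} {k : Fin d → ℤ} (h : ¬ Good c.g c.t n k) :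
    ‖qint c.g c.t n k‖ₑ + qPsi c.g c.t n k ≤ c.iw n k := by
  unfold Cfg.iw
  rw [if_pos h]
  exact le_add_right (le_add_right (le_add_right le_rfl))

theorem ex_le_iw_bottom (c : Cfg d) (k : Fin d → ℤ) :
    ∫⁻ y in qcube c.t c.Mb k, ‖c.g y‖ₑ ≤ c.iw c.Mb k := by
  unfold Cfg.iw
  rw [if_pos rfl]
  exact le_add_self

theorem ex_le_iw_root {c : Cfg d} {n : ℤ} {k : Fin d → ℤ} (hn : n < c.N0) (h : c.IsRoot n k) :
    c.rootW (n, k) ≤ c.iw n k := by
  unfold Cfg.iw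
  rw [if_pos (⟨hn, h⟩ : n < c.N0 ∧ c.IsRoot n k)]
  exact le_add_right le_add_self

/-- Weight of a cut cube in the expansion of the affine map `a + A (· - x)`. -/
def exW (c : Cfg d) (x a : E d) (A : E d →L[ℝ] E d) (n : ℤ) (k : Fin d → ℤ) : ℝ≥0∞ :=
  c.iw n k * (‖a + A (qctr c.t n k - x)‖ₑ + ENNReal.ofReal (‖A‖ * (2 : ℝ) ^ n))

/-- A bad maximal inside cube costs its item. -/
theorem ex_bad_bound (hd : 1 ≤ d) (c : Cfg d) (hg : Integrable c.g) (x a : E d)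
    (A : E d →L[ℝ] E d) {n : ℤ} {k : Fin d → ℤ} (h : ¬ Good c.g c.t n k) :
    ‖∫ y in qcube c.t n k, ⟪c.g y, a + A (y - x)⟫‖ₑ ≤
      ENNReal.ofReal (8 * d) * exW c x a A n k := by
  set J := ∫ y in qcube c.t n k, ⟪c.g y, a + A (y - x)⟫
  set b := ⟪qint c.g c.t n k, a + A (qctr c.t n k - x)⟫
  have hl : (0 : ℝ) < 2 ^ n := zpow_pos two_pos n
  have h1 : ‖J‖ₑ ≤ ‖J - b‖ₑ + ‖b‖ₑ :=
    le_trans (le_of_eq (by rw [sub_add_cancel])) (enorm_add_le _ _)
  refine h1.trans ((add_le_add (ex_setIntegral_affine hg _ x a A n k)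
    (ex_enorm_inner_le _ _)).trans ?_)
  have hI : ‖qint c.g c.t n k‖ₑ ≤ c.iw n k := le_trans (le_add_right le_rfl) (ex_le_iw_bad h)
  obtain ⟨-, h8⟩ := ex_const_le hd (le_refl (8 * (d : ℝ)))
  have hA : ENNReal.ofReal (‖A‖ * (Real.sqrt d * (2 : ℝ) ^ n)) ≤
      ENNReal.ofReal (8 * d) * ENNReal.ofReal (‖A‖ * (2 : ℝ) ^ n) := by
    rw [← ENNReal.ofReal_mul (by positivity)]
    refine ENNReal.ofReal_le_ofReal ?_
    have := ex_sqrt_dim_le d
    have : Real.sqrt d ≤ 8 * d := by linarith [(Nat.cast_nonneg d : (0 : ℝ) ≤ d)]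
    calc ‖A‖ * (Real.sqrt d * (2 : ℝ) ^ n) = Real.sqrt d * (‖A‖ * 2 ^ n) := by ring
      _ ≤ _ := mul_le_mul_of_nonneg_right this (by positivity)
  calc _ ≤ ENNReal.ofReal (8 * d) * ENNReal.ofReal (‖A‖ * (2 : ℝ) ^ n) * c.iw n k
        + c.iw n k * (ENNReal.ofReal (8 * d) * ‖a + A (qctr c.t n k - x)‖ₑ) :=
        add_le_add (mul_le_mul' hA (ex_le_iw_bad h))
          (mul_le_mul' hI (le_mul_of_one_le_left' h8))
    _ = _ := by simp only [exW]; ring

/-- The maximal inside cubes of one small tree cost its root as an item. -/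
theorem ex_root_bound (hd : 1 ≤ d) (c : Cfg d) (hg : Integrable c.g) (x a : E d)
    (A : E d →L[ℝ] E d) {r : ℝ} {n' : ℤ} (hn' : n' ≤ c.N0) {R : Cb d} (F : Finset (Cb d))
    (hF : ∀ Q ∈ F, Q ∈ c.exMem x r n' ∧ Good c.g c.t Q.1 Q.2 ∧ c.root Q.1 Q.2 = R)
    (hR : R.1 < n') (hRr : c.IsRoot R.1 R.2) :
    ∑ Q ∈ F, ‖∫ y in qcube c.t Q.1 Q.2, ⟪c.g y, a + A (y - x)⟫‖ₑ ≤
      ENNReal.ofReal (8 * d) * exW c x a A R.1 R.2 := by
  set Φ := ‖a + A (qctr c.t R.1 R.2 - x)‖ₑ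
  set L := (2 : ℝ) ^ R.1
  have hsum : ∑ Q ∈ F, ‖qint c.g c.t Q.1 Q.2‖ₑ ≤ 2 * c.iw R.1 R.2 := by
    refine (Cfg.front c hg (R := R) (P := R) (by omega) hRr.1 hRr.2 F (fun Q hQ => ?_)
      (fun Q hQ Q' hQ' hne => Cfg.disjoint_exMem (hF Q hQ).1 (hF Q' hQ').1 hne)).trans ?_
    · obtain ⟨hQm, hQg, hQR⟩ := hF Q hQ
      obtain ⟨⟨h1, h2⟩, -⟩ := Cfg.mem_exMem.1 hQm
      obtain ⟨s1, -, s3, -⟩ := Cfg.root_spec c (by omega : Q.1 ≤ c.N0) hQg
      rw [hQR] at s1 s3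
      exact ⟨h1, s1, s3, hQg, hQR⟩
    · refine le_trans ?_ (mul_le_mul_right (ex_le_iw_root (by omega) hRr) 2)
      unfold Cfg.rootW
      rw [mul_add]
      gcongr with m _ k
      split_ifs with h1 h2 <;> simp_all
  have hQ : ∀ Q ∈ F, ‖∫ y in qcube c.t Q.1 Q.2, ⟪c.g y, a + A (y - x)⟫‖ₑ ≤
      (Φ + ENNReal.ofReal (3 * Real.sqrt d * ‖A‖ * L)) * ‖qint c.g c.t Q.1 Q.2‖ₑ := by
    intro Q hQ
    obtain ⟨hQm, hQg, hQR⟩ := hF Q hQ
    obtain ⟨⟨-, h2⟩, -⟩ := Cfg.mem_exMem.1 hQm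
    obtain ⟨s1, -, s3, -⟩ := Cfg.root_spec c (by omega : Q.1 ≤ c.N0) hQg
    rw [hQR] at s1 s3
    have hlL : (2 : ℝ) ^ Q.1 ≤ L := zpow_le_zpow_right₀ one_le_two s1
    have hcc : ‖qctr c.t Q.1 Q.2 - qctr c.t R.1 R.2‖ ≤ Real.sqrt d * L := by
      rw [norm_sub_rev]
      have h := ex_norm_anc c.t Q.1 Q.2 (R.1 - Q.1).toNat
      rw [s3, show Q.1 + ((R.1 - Q.1).toNat : ℤ) = R.1 by omega] at h
      refine h.trans ?_
      have : 0 ≤ Real.sqrt d * (2 : ℝ) ^ Q.1 := by positivity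
      have : 0 ≤ Real.sqrt d * L := by positivity
      simp only [L] at *
      nlinarith
    set J := ∫ y in qcube c.t Q.1 Q.2, ⟪c.g y, a + A (y - x)⟫
    set b := ⟪qint c.g c.t Q.1 Q.2, a + A (qctr c.t Q.1 Q.2 - x)⟫
    have h1 : ‖J‖ₑ ≤ ‖J - b‖ₑ + ‖b‖ₑ :=
      le_trans (le_of_eq (by rw [sub_add_cancel])) (enorm_add_le _ _)
    refine h1.trans ((add_le_add ((ex_setIntegral_affine hg _ x a A Q.1 Q.2).trans
      (mul_le_mul_right (ex_good_psi hQg) _)) ((ex_enorm_inner_le _ _).trans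
      (mul_le_mul_right (ex_enorm_affine_le x a _ _ A hcc) _))).trans ?_)
    rw [mul_comm (‖qint c.g c.t Q.1 Q.2‖ₑ) (_ + _), ← mul_assoc, ← add_mul]
    refine mul_le_mul_left ?_ _
    rw [ex_mul_two, add_left_comm,
      ← ENNReal.ofReal_add (by positivity) (by positivity)]
    refine add_le_add le_rfl (ENNReal.ofReal_le_ofReal ?_)
    have := mul_le_mul_of_nonneg_left hlL (mul_nonneg (Real.sqrt_nonneg d) (norm_nonneg A))
    linarith
  refine (Finset.sum_le_sum hQ).trans ?_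
  rw [← Finset.mul_sum]
  refine (mul_le_mul_right hsum _).trans ?_
  have h2 : (2 : ℝ≥0∞) ≤ ENNReal.ofReal (8 * d) := by
    rw [← ENNReal.ofReal_ofNat 2]
    refine ENNReal.ofReal_le_ofReal ?_
    have : (1 : ℝ) ≤ d := by exact_mod_cast hd
    linarith
  calc (Φ + ENNReal.ofReal (3 * Real.sqrt d * ‖A‖ * L)) * (2 * c.iw R.1 R.2)
      = c.iw R.1 R.2 * (2 * Φ + 2 * ENNReal.ofReal (3 * Real.sqrt d * ‖A‖ * L)) := by ring
    _ ≤ c.iw R.1 R.2 * (ENNReal.ofReal (8 * d) * Φ +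
          ENNReal.ofReal (8 * d) * ENNReal.ofReal (‖A‖ * L)) := by
        refine mul_le_mul_right (add_le_add (mul_le_mul_left h2 _) ?_) _
        rw [ex_two_mul, ← ENNReal.ofReal_mul (by positivity)]
        refine ENNReal.ofReal_le_ofReal ?_
        have h6 : 6 * Real.sqrt d ≤ 8 * d := by
          linarith [ex_sqrt_dim_le d, (Nat.cast_nonneg d : (0 : ℝ) ≤ d)]
        calc 2 * (3 * Real.sqrt d * ‖A‖ * L) = 6 * Real.sqrt d * (‖A‖ * L) := by ring
          _ ≤ _ := mul_le_mul_of_nonneg_right h6 (by positivity)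
    _ = _ := by simp only [exW, Φ, L]; ring

/-- A cube of the bottom level meeting the ball costs its item. -/
theorem ex_bottom_bound (hd : 1 ≤ d) (c : Cfg d) (x a : E d) (A : E d →L[ℝ] E d) (r : ℝ)
    (k : Fin d → ℤ) :
    ‖∫ y in qcube c.t c.Mb k ∩ ball x r, ⟪c.g y, a + A (y - x)⟫‖ₑ ≤
      ENNReal.ofReal (8 * d) * exW c x a A c.Mb k := by
  set Ψ := ‖a + A (qctr c.t c.Mb k - x)‖ₑ +
    ENNReal.ofReal (‖A‖ * (Real.sqrt d * (2 : ℝ) ^ c.Mb / 2))
  refine (enorm_integral_le_lintegral_enorm _).trans ?_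
  refine (lintegral_mono_set inter_subset_left).trans ?_
  refine (setLIntegral_mono' (g := fun y => Ψ * ‖c.g y‖ₑ) (measurableSet_qcube _ _ _)
    fun y hy => ?_).trans ?_
  · refine (ex_enorm_inner_le _ _).trans ?_
    rw [mul_comm]
    exact mul_le_mul_left (ex_enorm_affine_le x a y _ A (norm_sub_qctr_le hy)) _
  · rw [lintegral_const_mul' _ _ (ENNReal.add_ne_top.2 ⟨enorm_ne_top, ENNReal.ofReal_ne_top⟩)]
    refine (mul_le_mul_right (ex_le_iw_bottom c k) _).trans ?_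
    simp only [exW, Ψ]
    rw [← mul_assoc, mul_comm (ENNReal.ofReal (8 * d)) (c.iw c.Mb k), mul_assoc,
      mul_comm (_ + _) (c.iw c.Mb k), mul_add (ENNReal.ofReal (8 * d))]
    refine mul_le_mul_right (add_le_add ?_ ?_) _
    · exact le_mul_of_one_le_left' (ex_const_le hd (le_refl (8 * (d : ℝ)))).2
    · rw [← ENNReal.ofReal_mul (by positivity)]
      refine ENNReal.ofReal_le_ofReal ?_
      have h6 : Real.sqrt d / 2 ≤ 8 * d := by
        linarith [ex_sqrt_dim_le d, (Nat.cast_nonneg d : (0 : ℝ) ≤ d)]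
      calc ‖A‖ * (Real.sqrt d * (2 : ℝ) ^ c.Mb / 2) = Real.sqrt d / 2 * (‖A‖ * 2 ^ c.Mb) := by ring
        _ ≤ _ := mul_le_mul_of_nonneg_right h6 (by positivity)

/-- Step C1: the affine expansion over the maximal inside cubes. -/
theorem expand (hd : 2 ≤ d) : ∃ C : ℝ≥0∞, C ≠ ⊤ ∧
    ∀ (c : Cfg d) (x : E d) (r : ℝ) (n' : ℤ) (a : E d) (A : E d →L[ℝ] E d),
      c.Ok → 0 < r → c.Mb < n' → n' ≤ c.N0 → 2 * r ≤ (2 : ℝ) ^ n' →
      ‖(∫ y in ball x r, ⟪c.g y, a + A (y - x)⟫) -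
          ∑ n ∈ Finset.Ico c.Mb n', ∑' k : Fin d → ℤ,
            (if c.NU x r n' n k then ⟪qint c.g c.t n k, a + A (qctr c.t n k - x)⟫ else (0 : ℝ))‖ₑ
        ≤ C * (∑ n ∈ Finset.Icc c.Mb n', ∑' k : Fin d → ℤ,
            if c.cutK x r n k then
              c.iw n k * (‖a + A (qctr c.t n k - x)‖ₑ + ENNReal.ofReal (‖A‖ * (2 : ℝ) ^ n)) else 0)
          + ∑ n ∈ Finset.Ico c.Mb n', ∑' k : Fin d → ℤ,
            if c.NU x r n' n k then
              ENNReal.ofReal (8 * d * ‖A‖ * (2 : ℝ) ^ n) * ‖qint c.g c.t n k‖ₑ else 0 := by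
  have hd1 : 1 ≤ d := by omega
  refine ⟨ENNReal.ofReal (8 * d) + ENNReal.ofReal (8 * d) + ENNReal.ofReal (8 * d),
    ENNReal.add_ne_top.2 ⟨ENNReal.add_ne_top.2 ⟨ENNReal.ofReal_ne_top, ENNReal.ofReal_ne_top⟩,
      ENNReal.ofReal_ne_top⟩,
    fun c x r n' a A hok hr hMb hn' h2r => ?_⟩
  have hg := hok.integrable
  have hf : IntegrableOn (fun y => ⟪c.g y, a + A (y - x)⟫) (ball x r) := by
    refine Integrable.mono' (hg.norm.integrableOn.mul_const (‖a‖ + ‖A‖ * r))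
      (hg.aestronglyMeasurable.inner (by fun_prop : Continuous fun y : E d =>
        a + A (y - x)).aestronglyMeasurable).restrict
      (ae_restrict_of_forall_mem measurableSet_ball fun y hy => ?_)
    rw [Real.norm_eq_abs]
    refine (abs_real_inner_le_norm _ _).trans (mul_le_mul_of_nonneg_left ?_ (norm_nonneg _))
    refine (norm_add_le _ _).trans (add_le_add le_rfl ((A.le_opNorm _).trans ?_))
    rw [mem_ball, dist_eq_norm] at hy
    exact mul_le_mul_of_nonneg_left hy.le (norm_nonneg _)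
  set T := c.exMem x r n'
  set Res := (c.exNear x c.Mb (r + Real.sqrt d * (2 : ℝ) ^ c.Mb / 2)).filter
    (fun k => ¬ c.inside x r c.Mb k)
  set J : Cb d → ℝ := fun Q => ∫ y in qcube c.t Q.1 Q.2, ⟪c.g y, a + A (y - x)⟫
  set b : Cb d → ℝ := fun Q => ⟪qint c.g c.t Q.1 Q.2, a + A (qctr c.t Q.1 Q.2 - x)⟫
  set ρ : (Fin d → ℤ) → ℝ := fun k =>
    ∫ y in qcube c.t c.Mb k ∩ ball x r, ⟪c.g y, a + A (y - x)⟫
  have hTsub : (⋃ Q ∈ T, qcube c.t Q.1 Q.2) ⊆ ball x r :=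
    iUnion₂_subset fun Q hQ => Cfg.qcube_subset_ball hd1 (Cfg.mem_exMem.1 hQ).2.1
  have hRsub : (⋃ k ∈ Res, qcube c.t c.Mb k ∩ ball x r) ⊆ ball x r :=
    iUnion₂_subset fun k _ => inter_subset_right
  have hdisj : Disjoint (⋃ Q ∈ T, qcube c.t Q.1 Q.2)
      (⋃ k ∈ Res, qcube c.t c.Mb k ∩ ball x r) := by
    rw [Set.disjoint_left]
    intro y hy hy'
    simp only [mem_iUnion, mem_inter_iff] at hy hy'
    obtain ⟨⟨n, k⟩, hQ, hy⟩ := hy
    obtain ⟨k', hk', hy', -⟩ := hy'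
    obtain ⟨⟨hn, -⟩, hin, -⟩ := Cfg.mem_exMem.1 hQ
    rw [mem_qcube_iff] at hy hy'
    simp only at hy
    refine (Finset.mem_filter.1 hk').2 ?_
    rw [← hy']
    exact Cfg.inside_mono_level hn (hy.symm ▸ hin)
  have hint : ∫ y in ball x r, ⟪c.g y, a + A (y - x)⟫ = ∑ Q ∈ T, J Q + ∑ k ∈ Res, ρ k := by
    conv_lhs => rw [Cfg.ball_eq_exMem hd1 hr hMb h2r]
    rw [setIntegral_union hdisj (Finset.measurableSet_biUnion _ fun k _ =>
        (measurableSet_qcube _ _ _).inter measurableSet_ball)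
        (hf.mono_set hTsub) (hf.mono_set hRsub),
      integral_biUnion_finset T (fun Q _ => measurableSet_qcube _ _ _) Cfg.disjoint_exMem
        (fun Q hQ => hf.mono_set (Cfg.qcube_subset_ball hd1 (Cfg.mem_exMem.1 hQ).2.1)),
      integral_biUnion_finset Res (fun k _ => (measurableSet_qcube _ _ _).inter measurableSet_ball)
        (fun k _ k' _ hkk => (disjoint_qcube c.t c.Mb hkk).mono inter_subset_left inter_subset_left)
        (fun k _ => hf.mono_set inter_subset_right)]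
  set p : Cb d → Prop := fun Q => c.NU x r n' Q.1 Q.2
  rw [hint, Cfg.sum_NU_eq (fun n k => ⟪qint c.g c.t n k, a + A (qctr c.t n k - x)⟫),
    Cfg.sum_NU_eq (fun n k =>
      ENNReal.ofReal (8 * d * ‖A‖ * (2 : ℝ) ^ n) * ‖qint c.g c.t n k‖ₑ)]
  have e : ∑ Q ∈ T, J Q + ∑ k ∈ Res, ρ k - ∑ Q ∈ T.filter p, b Q =
      (∑ Q ∈ T.filter p, (J Q - b Q)) + (∑ Q ∈ T.filter (fun Q => ¬ p Q), J Q +
        ∑ k ∈ Res, ρ k) := by
    rw [Finset.sum_sub_distrib, ← Finset.sum_filter_add_sum_filter_not T p J]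
    ring
  rw [e, add_comm (_ * _) _]
  refine (enorm_add_le _ _).trans (add_le_add ?_ ?_)
  · refine (enorm_sum_le _ _).trans (Finset.sum_le_sum fun Q hQ => ?_)
    refine (ex_setIntegral_affine hg _ x a A Q.1 Q.2).trans
      ((mul_le_mul_right (ex_good_psi (Finset.mem_filter.1 hQ).2.2.2.1) _).trans ?_)
    rw [← mul_assoc]
    refine mul_le_mul_left ?_ _
    rw [ex_mul_two]
    refine ENNReal.ofReal_le_ofReal ?_
    have h6 : 2 * Real.sqrt d ≤ 8 * d := by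
      linarith [ex_sqrt_dim_le d, (Nat.cast_nonneg d : (0 : ℝ) ≤ d)]
    calc ‖A‖ * (Real.sqrt d * (2 : ℝ) ^ Q.1) * 2 = 2 * Real.sqrt d * (‖A‖ * 2 ^ Q.1) := by ring
      _ ≤ 8 * d * (‖A‖ * 2 ^ Q.1) := mul_le_mul_of_nonneg_right h6 (by positivity)
      _ = _ := by ring
  · set cutW := ∑ n ∈ Finset.Icc c.Mb n', ∑' k : Fin d → ℤ,
      if c.cutK x r n k then exW c x a A n k else 0 with hcutW
    change _ ≤ _ * cutW
    refine (enorm_add_le _ _).trans ?_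
    rw [add_mul]
    refine add_le_add ?_ ?_
    · refine (enorm_sum_le _ _).trans ?_
      rw [← Finset.sum_filter_add_sum_filter_not (T.filter fun Q => ¬ p Q)
        (fun Q => Good c.g c.t Q.1 Q.2), add_mul]
      refine add_le_add ?_ ?_
      · set S := (T.filter fun Q => ¬ p Q).filter fun Q => Good c.g c.t Q.1 Q.2
        have hS : ∀ Q ∈ S, Q ∈ T ∧ Good c.g c.t Q.1 Q.2 ∧ (c.root Q.1 Q.2).1 < n' := by
          intro Q hQ
          simp only [S, Finset.mem_filter] at hQ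
          obtain ⟨⟨hQT, hnp⟩, hgood⟩ := hQ
          obtain ⟨-, hin, hout⟩ := Cfg.mem_exMem.1 hQT
          exact ⟨hQT, hgood, not_le.1 fun h => hnp ⟨hin, hout, hgood, h⟩⟩
        rw [← Finset.sum_fiberwise_of_maps_to (t := S.image fun Q => c.root Q.1 Q.2)
          (fun Q hQ => Finset.mem_image_of_mem _ hQ)]
        refine (Finset.sum_le_sum fun R hR => ?_).trans (b := ∑ R ∈ S.image fun Q =>
          c.root Q.1 Q.2, ENNReal.ofReal (8 * d) * exW c x a A R.1 R.2) ?_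
        · obtain ⟨Q, hQ, rfl⟩ := Finset.mem_image.1 hR
          obtain ⟨hQT, hgood, hlt⟩ := hS Q hQ
          obtain ⟨⟨-, h2⟩, -⟩ := Cfg.mem_exMem.1 hQT
          obtain ⟨-, -, -, s4, -⟩ := Cfg.root_spec c (by omega : Q.1 ≤ c.N0) hgood
          refine ex_root_bound (r := r) hd1 c hg x a A hn' _ (fun Q' hQ' => ?_) hlt s4
          obtain ⟨hQ'S, hQ'R⟩ := Finset.mem_filter.1 hQ'
          exact ⟨(hS Q' hQ'S).1, (hS Q' hQ'S).2.1, hQ'R⟩
        · rw [← Finset.mul_sum]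
          refine mul_le_mul_right (ex_sum_le_levels _ _ (fun n k => c.cutK x r n k)
            (fun n k => exW c x a A n k) fun R hR => ?_) _
          obtain ⟨Q, hQ, rfl⟩ := Finset.mem_image.1 hR
          obtain ⟨hQT, hgood, hlt⟩ := hS Q hQ
          obtain ⟨⟨h1, h2⟩, hin, hout⟩ := Cfg.mem_exMem.1 hQT
          obtain ⟨s1, -, s3, -⟩ := Cfg.root_spec c (by omega : Q.1 ≤ c.N0) hgood
          refine ⟨Finset.mem_Icc.2 ⟨h1.trans s1, hlt.le⟩, ?_⟩
          have := Cfg.cutK_of_anc (j := ((c.root Q.1 Q.2).1 - Q.1).toNat) hin hout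
          rwa [s3, show Q.1 + (((c.root Q.1 Q.2).1 - Q.1).toNat : ℤ) = (c.root Q.1 Q.2).1 by
            omega] at this
      · refine (Finset.sum_le_sum fun Q hQ =>
          ex_bad_bound hd1 c hg x a A (Finset.mem_filter.1 hQ).2).trans ?_
        rw [← Finset.mul_sum]
        refine mul_le_mul_right (ex_sum_le_levels _ _ (fun n k => c.cutK x r n k)
          (fun n k => exW c x a A n k) fun Q hQ => ?_) _
        obtain ⟨⟨h1, h2⟩, hin, hout⟩ :=
          Cfg.mem_exMem.1 (Finset.mem_filter.1 (Finset.mem_filter.1 hQ).1).1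
        exact ⟨Finset.mem_Icc.2 ⟨h1, h2.le⟩, Cfg.cutK_of_max hin hout⟩
    · refine (enorm_sum_le _ _).trans
        ((Finset.sum_le_sum fun k _ => ex_bottom_bound hd1 c x a A r k).trans ?_)
      rw [← Finset.mul_sum]
      refine mul_le_mul_right ?_ _
      refine le_trans ?_ (ex_sum_le_levels (Res.image fun k => (c.Mb, k)) _
        (fun n k => c.cutK x r n k) (fun n k => exW c x a A n k) fun Q hQ => ?_)
      · rw [Finset.sum_image fun _ _ _ _ h => (Prod.mk.inj h).2]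
      · obtain ⟨k, hk, rfl⟩ := Finset.mem_image.1 hQ
        refine ⟨Finset.mem_Icc.2 ⟨le_rfl, hMb.le⟩, ?_⟩
        simp only [Res, Finset.mem_filter, Cfg.exNear, Set.Finite.mem_toFinset, mem_ofPred_eq,
          Cfg.inside, not_le] at hk
        simp only [Cfg.cutK, Kp]
        have h6 := mul_le_mul_of_nonneg_right (ex_sqrt_dim_le d) (zpow_pos two_pos c.Mb).le (α := ℝ)
        have h7 : (0 : ℝ) ≤ (d : ℝ) * 2 ^ c.Mb := by positivity
        simp only [Kd] at hk ⊢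
        rw [abs_le]
        constructor <;> linarith [hk.1, hk.2]

/-! ## The two losses -/

theorem ex_volume_ball (x : E d) {r : ℝ} (hr : 0 < r) :
    0 < volume.real (ball x r) ∧ volume (ball x r) = ENNReal.ofReal (volume.real (ball x r)) :=
  ⟨ENNReal.toReal_pos (measure_ball_pos volume x hr).ne' measure_ball_lt_top.ne,
    (ENNReal.ofReal_toReal measure_ball_lt_top.ne).symm⟩

/-- The total of `NU` as a finite sum. -/
theorem ex_nu_eq (c : Cfg d) (x : E d) (r : ℝ) (n' : ℤ) :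
    c.nu x r n' = ENNReal.ofReal
      (∑ Q ∈ (c.exMem x r n').filter (fun Q => c.NU x r n' Q.1 Q.2),
        ‖qint c.g c.t Q.1 Q.2‖) := by
  rw [Cfg.nu, Cfg.sum_NU_eq (fun n k => ‖qint c.g c.t n k‖ₑ),
    ENNReal.ofReal_sum_of_nonneg fun Q _ => norm_nonneg _]
  exact Finset.sum_congr rfl fun Q _ => (ofReal_norm _).symm

theorem ex_inner_setIntegral {g : E d → E d} (hg : Integrable g) (s : Set (E d)) (v : E d) :
    ⟪∫ y in s, g y, v⟫ = ∫ y in s, ⟪g y, v⟫ := by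
  rw [real_inner_comm, ← integral_inner hg.integrableOn]
  exact integral_congr_ae (Filter.Eventually.of_forall fun y => real_inner_comm _ _)

/-- The expansion against a constant vector. -/
theorem ex_const (hd : 2 ≤ d) : ∃ C : ℝ, 0 ≤ C ∧
    ∀ (c : Cfg d) (x : E d) (r : ℝ) (n' : ℤ) (v : E d),
      c.Ok → 0 < r → c.Mb < n' → n' ≤ c.N0 → 2 * r ≤ (2 : ℝ) ^ n' → c.cutS x r n' ≠ ⊤ →
      |⟪∫ y in ball x r, c.g y, v⟫ -
          ∑ Q ∈ (c.exMem x r n').filter (fun Q => c.NU x r n' Q.1 Q.2),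
            ⟪qint c.g c.t Q.1 Q.2, v⟫|
        ≤ C * (c.cutS x r n').toReal * ‖v‖ := by
  obtain ⟨C, hC, h⟩ := expand hd
  refine ⟨C.toReal, ENNReal.toReal_nonneg, fun c x r n' v hok hr hMb hn' h2r hfin => ?_⟩
  have h1 := h c x r n' v 0 hok hr hMb hn' h2r
  simp only [zero_apply, add_zero, norm_zero, zero_mul, mul_zero, ENNReal.ofReal_zero, ite_self,
    tsum_zero, Finset.sum_const_zero] at h1
  rw [Cfg.sum_NU_eq (fun n k => ⟪qint c.g c.t n k, v⟫),
    ← ex_inner_setIntegral hok.integrable] at h1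
  have hw : (∑ n ∈ Finset.Icc c.Mb n', ∑' k : Fin d → ℤ,
      if c.cutK x r n k then c.iw n k * ‖v‖ₑ else 0) = c.cutS x r n' * ‖v‖ₑ := by
    simp only [Cfg.cutS, Finset.sum_mul, ← ENNReal.tsum_mul_right, ite_mul, zero_mul]
  rw [hw] at h1
  have := ENNReal.toReal_mono (ENNReal.mul_ne_top hC (ENNReal.mul_ne_top hfin enorm_ne_top)) h1
  rw [ENNReal.toReal_mul, ENNReal.toReal_mul, toReal_enorm, toReal_enorm, Real.norm_eq_abs,
    ← mul_assoc] at this
  exact this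

/-- The expansion at a stationary radius, pinned at a point of the sphere. -/
theorem ex_pinned (hd : 2 ≤ d) : ∃ C : ℝ≥0∞, C ≠ ⊤ ∧
    ∀ (c : Cfg d) (u : E d → ℝ) (x v : E d) (r : ℝ) (n' : ℤ),
      c.Ok → Smooth u → 0 < r → c.Mb < n' → n' ≤ c.N0 → 2 * r ≤ (2 : ℝ) ^ n' →
      (∀ y ∈ ball x r, c.g y = ∇ u y) → (∫ y in ball x r, ⟪∇ u y, y - x⟫) = 0 → ‖v‖ ≤ 1 →
      ‖⟪∫ y in ball x r, ∇ u y, v⟫‖ₑ ≤ C * c.cost x r n' := by
  obtain ⟨C, hC, h⟩ := expand hd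
  refine ⟨3 * (C + 2), ENNReal.mul_ne_top (by simp) (ENNReal.add_ne_top.2 ⟨hC, by simp⟩),
    fun c u x v r n' hok hu hr hMb hn' h2r hgu hst hv => ?_⟩
  have hd' : (2 : ℝ) ≤ d := by exact_mod_cast hd
  rw [← ENNReal.div_le_iff' (by simp) (ENNReal.mul_ne_top (by simp)
    (ENNReal.add_ne_top.2 ⟨hC, by simp⟩))]
  refine le_iInf₂ fun p hp => ?_
  rw [ENNReal.div_le_iff' (by simp) (ENNReal.mul_ne_top (by simp)
    (ENNReal.add_ne_top.2 ⟨hC, by simp⟩))]
  set a := r⁻¹ • (p - x)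
  have hpx : ‖p - x‖ = r := mem_sphere_iff_norm.1 hp
  have ha : ‖a‖ = 1 := by
    rw [norm_smul, hpx, Real.norm_eq_abs, abs_of_pos (inv_pos.2 hr), inv_mul_cancel₀ hr.ne']
  have hpa : x + r • a = p := by
    rw [smul_inv_smul₀ hr.ne', add_sub_cancel]
  set A : E d →L[ℝ] E d := r⁻¹ • (-(innerSL ℝ a).smulRight v + (innerSL ℝ v).smulRight a -
    ⟪v, a⟫ • ContinuousLinearMap.id ℝ (E d)) with hA
  set a0 := pinV x a v r x
  have hφ : ∀ y, a0 + A (y - x) = pinV x a v r y := fun y => by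
    simp only [a0, hA, pinV, hpa, neg_apply, add_apply, sub_apply, smul_apply,
      ContinuousLinearMap.smulRight_apply, innerSL_apply_apply, ContinuousLinearMap.id_apply,
      inner_sub_right]
    module
  have hB : ∀ y, ‖pinV x a v r y‖ ≤ 3 * (‖y - p‖ / r) := fun y => by
    have := norm_pinV_le (x := x) (v := v) hr ha y
    rw [hpa] at this
    refine this.trans ?_
    rw [← mul_div_assoc]
    have := mul_le_mul_of_nonneg_right hv (norm_nonneg (y - p))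
    gcongr
    linarith
  have hAn : ‖A‖ ≤ 3 / r := by
    refine A.opNorm_le_bound (by positivity) fun w => ?_
    have e : pinV x a v r (p + w) = A w := by
      simp only [hA, pinV, hpa, add_sub_cancel_left, neg_apply, add_apply, sub_apply, smul_apply,
        ContinuousLinearMap.smulRight_apply, innerSL_apply_apply, ContinuousLinearMap.id_apply,
        neg_smul]
    have := hB (p + w)
    rw [e, add_sub_cancel_left] at this
    exact this.trans_eq (by ring)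
  have hmain : ⟪∫ y in ball x r, ∇ u y, v⟫ = ∫ y in ball x r, ⟪c.g y, a0 + A (y - x)⟫ := by
    rw [ex_inner_setIntegral hu.integrable_grad, pinned_identity hu.contDiff x hr ha v hst]
    exact setIntegral_congr_fun measurableSet_ball fun y hy => by rw [hgu y hy, hφ]
  rw [hmain]
  set S := (c.exMem x r n').filter (fun Q => c.NU x r n' Q.1 Q.2)
  have h1 := h c x r n' a0 A hok hr hMb hn' h2r
  rw [Cfg.sum_NU_eq (fun n k => ⟪qint c.g c.t n k, a0 + A (qctr c.t n k - x)⟫),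
    Cfg.sum_NU_eq (fun n k => ENNReal.ofReal (8 * d * ‖A‖ * (2 : ℝ) ^ n) * ‖qint c.g c.t n k‖ₑ)]
    at h1
  have hw : c.wtp x r n' p =
      ∑ Q ∈ S, ‖qint c.g c.t Q.1 Q.2‖ₑ * ENNReal.ofReal (‖qctr c.t Q.1 Q.2 - p‖ / r) :=
    Cfg.sum_NU_eq (fun n k => ‖qint c.g c.t n k‖ₑ * ENNReal.ofReal (‖qctr c.t n k - p‖ / r))
  have h3 : ∀ t : ℝ, ENNReal.ofReal (3 * t) = 3 * ENNReal.ofReal t := fun t => by
    rw [ENNReal.ofReal_mul (by norm_num), ENNReal.ofReal_ofNat]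
  have hmainNU : ‖∑ Q ∈ S, ⟪qint c.g c.t Q.1 Q.2, a0 + A (qctr c.t Q.1 Q.2 - x)⟫‖ₑ
      ≤ 3 * c.wtp x r n' p := by
    rw [hw, Finset.mul_sum]
    refine (enorm_sum_le _ _).trans (Finset.sum_le_sum fun Q _ => ?_)
    refine (ex_enorm_inner_le _ _).trans ?_
    rw [mul_left_comm, ← h3, hφ, ← ofReal_norm (pinV x a v r _)]
    exact mul_le_mul_right (ENNReal.ofReal_le_ofReal (hB _)) _
  have herrNU : (∑ Q ∈ S, ENNReal.ofReal (8 * d * ‖A‖ * (2 : ℝ) ^ Q.1) *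
      ‖qint c.g c.t Q.1 Q.2‖ₑ) ≤ 3 * c.wtp x r n' p := by
    rw [hw, Finset.mul_sum]
    refine Finset.sum_le_sum fun Q hQ => ?_
    rw [mul_left_comm, ← h3, mul_comm]
    refine mul_le_mul_right (ENNReal.ofReal_le_ofReal ?_) _
    have hin : c.inside x r Q.1 Q.2 := (Finset.mem_filter.1 hQ).2.1
    simp only [Cfg.inside, Kd] at hin
    have h4 := norm_sub_le_norm_sub_add_norm_sub x (qctr c.t Q.1 Q.2) p
    rw [norm_sub_rev x p, hpx] at h4
    have hl : (0 : ℝ) < 2 ^ Q.1 := zpow_pos two_pos _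
    calc 8 * d * ‖A‖ * (2 : ℝ) ^ Q.1 ≤ 8 * d * (3 / r) * (2 : ℝ) ^ Q.1 := by gcongr
      _ = 3 * (8 * d * (2 : ℝ) ^ Q.1 / r) := by ring
      _ ≤ _ := by
        refine mul_le_mul_of_nonneg_left (div_le_div_of_nonneg_right ?_ hr.le) (by norm_num)
        have : (0 : ℝ) ≤ (d : ℝ) * 2 ^ Q.1 := by positivity
        linarith
  have hcut : (∑ n ∈ Finset.Icc c.Mb n', ∑' k : Fin d → ℤ,
      if c.cutK x r n k then c.iw n k * (‖a0 + A (qctr c.t n k - x)‖ₑ +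
        ENNReal.ofReal (‖A‖ * (2 : ℝ) ^ n)) else 0) ≤ 3 * c.cutG x r n' p := by
    rw [Cfg.cutG, Finset.mul_sum]
    refine Finset.sum_le_sum fun n _ => ?_
    rw [← ENNReal.tsum_mul_left]
    refine ENNReal.tsum_le_tsum fun k => ?_
    split_ifs with hk
    · rw [mul_left_comm, ← h3, hφ, ← ofReal_norm,
        ← ENNReal.ofReal_add (norm_nonneg _) (by positivity)]
      refine mul_le_mul_right (ENNReal.ofReal_le_ofReal ?_) _
      have := mul_le_mul_of_nonneg_right hAn (zpow_pos two_pos n).le (α := ℝ)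
      rw [add_div, mul_add]
      exact add_le_add (hB _) (this.trans_eq (by ring))
    · simp
  set J := ∫ y in ball x r, ⟪c.g y, a0 + A (y - x)⟫
  set N := ∑ Q ∈ S, ⟪qint c.g c.t Q.1 Q.2, a0 + A (qctr c.t Q.1 Q.2 - x)⟫
  calc ‖J‖ₑ ≤ ‖J - N‖ₑ + ‖N‖ₑ := le_trans (le_of_eq (by rw [sub_add_cancel])) (enorm_add_le _ _)
    _ ≤ (C * (3 * c.cutG x r n' p) + 3 * c.wtp x r n' p) + 3 * c.wtp x r n' p :=
        add_le_add (h1.trans (add_le_add (mul_le_mul_right hcut _) herrNU)) hmainNU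
    _ = 3 * (C * c.cutG x r n' p + 2 * c.wtp x r n' p) := by ring
    _ ≤ 3 * ((C + 2) * c.cutG x r n' p + (C + 2) * c.wtp x r n' p) :=
        mul_le_mul_right (add_le_add (mul_le_mul_left le_self_add _)
          (mul_le_mul_left le_add_self _)) _
    _ = _ := by ring

theorem ex_dirv_inner (J : E d) : ⟪J, dirv J⟫ = ‖J‖ ∧ ‖dirv J‖ ≤ 1 := by
  rcases eq_or_ne J 0 with rfl | h
  · simp [dirv]
  · have h0 := norm_ne_zero_iff.2 h
    refine ⟨?_, le_of_eq ?_⟩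
    · rw [dirv, real_inner_smul_right, real_inner_self_eq_norm_sq]; field_simp
    · rw [dirv, norm_smul, norm_inv, norm_norm, inv_mul_cancel₀ h0]

/-- Without a loud cut the `NU` cubes carry the integral. -/
theorem ex_quiet (hd : 2 ≤ d) : ∃ κ : ℝ, 0 < κ ∧
    ∀ (c : Cfg d) (x : E d) (r : ℝ) (n' : ℤ) (v : E d),
      c.Ok → 0 < r → c.Mb < n' → n' ≤ c.N0 → 2 * r ≤ (2 : ℝ) ^ n' → ¬ c.Loud κ x r n' → ‖v‖ ≤ 1 →
      |⟪∫ y in ball x r, c.g y, v⟫ -
          ∑ Q ∈ (c.exMem x r n').filter (fun Q => c.NU x r n' Q.1 Q.2),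
            ⟪qint c.g c.t Q.1 Q.2, v⟫|
        ≤ 1 / 8 * ∑ Q ∈ (c.exMem x r n').filter (fun Q => c.NU x r n' Q.1 Q.2),
          ‖qint c.g c.t Q.1 Q.2‖ := by
  obtain ⟨C1, hC1, h1⟩ := ex_const hd
  refine ⟨1 / (8 * (C1 + 1)), by positivity, fun c x r n' v hok hr hMb hn' h2r hL hv => ?_⟩
  set κ : ℝ := 1 / (8 * (C1 + 1)) with hκd
  set ν := ∑ Q ∈ (c.exMem x r n').filter (fun Q => c.NU x r n' Q.1 Q.2),
    ‖qint c.g c.t Q.1 Q.2‖
  have hκ : 0 ≤ κ := div_nonneg zero_le_one (mul_nonneg (by norm_num) (by linarith))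
  have hκC : C1 * κ ≤ 1 / 8 := by
    rw [hκd, mul_one_div, div_le_iff₀ (by linarith)]; linarith
  have hν : 0 ≤ ν := Finset.sum_nonneg fun Q _ => norm_nonneg _
  have hS : c.cutS x r n' ≤ ENNReal.ofReal (κ * ν) := by
    rw [ENNReal.ofReal_mul hκ, ← ex_nu_eq]; exact not_lt.1 hL
  have h := h1 c x r n' v hok hr hMb hn' h2r (ne_top_of_le_ne_top ENNReal.ofReal_ne_top hS)
  have hS' : (c.cutS x r n').toReal ≤ κ * ν := ENNReal.toReal_le_of_le_ofReal (mul_nonneg hκ hν) hS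
  have h' : C1 * (c.cutS x r n').toReal * ‖v‖ ≤ C1 * (κ * ν) * 1 :=
    mul_le_mul (mul_le_mul_of_nonneg_left hS' hC1) hv (norm_nonneg _)
      (mul_nonneg hC1 (mul_nonneg hκ hν))
  have h'' : C1 * κ * ν ≤ 1 / 8 * ν := mul_le_mul_of_nonneg_right hκC hν
  linarith

theorem ex_NU_up (c : Cfg d) (S : Finset (Cb d)) {v : E d} (hv : ‖v‖ ≤ 1) :
    ∑ Q ∈ S, ⟪qint c.g c.t Q.1 Q.2, v⟫ ≤ ∑ Q ∈ S, ‖qint c.g c.t Q.1 Q.2‖ :=
  Finset.sum_le_sum fun _ _ => (real_inner_le_norm _ _).trans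
    (mul_le_of_le_one_right (norm_nonneg _) hv)

theorem ex_NU_low {c : Cfg d} {x e : E d} {r : ℝ} {n' : ℤ}
    (hdir : ∀ n k, c.Mb ≤ n → n < n' → c.NU x r n' n k →
      (3 / 4 : ℝ) * ‖qint c.g c.t n k‖ ≤ ⟪e, qint c.g c.t n k⟫) :
    3 / 4 * ∑ Q ∈ (c.exMem x r n').filter (fun Q => c.NU x r n' Q.1 Q.2),
        ‖qint c.g c.t Q.1 Q.2‖ ≤
      ∑ Q ∈ (c.exMem x r n').filter (fun Q => c.NU x r n' Q.1 Q.2),
        ⟪qint c.g c.t Q.1 Q.2, e⟫ := by
  rw [Finset.mul_sum]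
  refine Finset.sum_le_sum fun Q hQ => ?_
  obtain ⟨hQ, hN⟩ := Finset.mem_filter.1 hQ
  rw [real_inner_comm]
  exact hdir Q.1 Q.2 (Cfg.mem_exMem.1 hQ).1.1 (Cfg.mem_exMem.1 hQ).1.2 hN

/-- Step C3 at a stationary radius. -/
theorem point_loss (hd : 2 ≤ d) : ∃ Cl κ : ℝ, ∃ C : ℝ≥0∞, 0 < Cl ∧ 0 < κ ∧ C ≠ ⊤ ∧
    ∀ (c : Cfg d) (u : E d → ℝ) (x e G : E d) (r : ℝ) (n' : ℤ),
      c.Ok → Smooth u → 0 < r → c.Mb < n' → n' ≤ c.N0 → 2 * r ≤ (2 : ℝ) ^ n' →
      (2 : ℝ) ^ n' ≤ (2 : ℝ) ^ (C0 d + 1) * r → (∀ y ∈ ball x r, c.g y = ∇ u y) →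
      volume.real (ball x r) • G = ∫ y in ball x r, ∇ u y →
      (∫ y in ball x r, ⟪∇ u y, y - x⟫) = 0 →
      ((∀ n k, c.Mb ≤ n → n < n' → c.NU x r n' n k → False) →
          volume (ball x r) * ‖G‖ₑ ≤ C * if c.Loud κ x r n' then c.cost x r n' else 0) ∧
      (‖e‖ = 1 →
        (∀ n k, c.Mb ≤ n → n < n' → c.NU x r n' n k →
          (3 / 4 : ℝ) * ‖qint c.g c.t n k‖ ≤ ⟪e, qint c.g c.t n k⟫) →
        volume (ball x r) * lossV Cl e G ≤ C * if c.Loud κ x r n' then c.cost x r n' else 0) := by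
  obtain ⟨κ, hκ, hq⟩ := ex_quiet hd
  obtain ⟨C, hC, h2⟩ := ex_pinned hd
  refine ⟨4, κ, 5 * C, by norm_num, hκ, ENNReal.mul_ne_top (by simp) hC,
    fun c u x e G r n' hok hu hr hMb hn' h2r _ hgu hG hst => ?_⟩
  obtain ⟨hV, hVe⟩ := ex_volume_ball x hr
  set J := ∫ y in ball x r, ∇ u y with hJ
  obtain ⟨hJd, hdn⟩ := ex_dirv_inner J
  have hJg : ∫ y in ball x r, c.g y = J := setIntegral_congr_fun measurableSet_ball hgu
  have hJn : ‖J‖ = volume.real (ball x r) * ‖G‖ := by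
    rw [← hG, norm_smul, Real.norm_eq_abs, abs_of_pos hV]
  have hvol : volume (ball x r) * ‖G‖ₑ = ENNReal.ofReal ‖J‖ := by
    rw [hJn, ENNReal.ofReal_mul hV.le, hVe, ofReal_norm]
  have hcost : volume (ball x r) * ‖G‖ₑ ≤ C * c.cost x r n' := by
    refine le_trans (le_of_eq ?_) (h2 c u x (dirv J) r n' hok hu hr hMb hn' h2r hgu hst hdn)
    rw [hvol, ← hJ, hJd, enorm_norm, ofReal_norm]
  refine ⟨fun hno => ?_, fun he hdir => ?_⟩
  · by_cases hL : c.Loud κ x r n'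
    · rw [if_pos hL]
      exact hcost.trans (mul_le_mul_left (le_mul_of_one_le_left' (by norm_num)) _)
    · rw [if_neg hL, mul_zero, hvol]
      have h0 : (c.exMem x r n').filter (fun Q => c.NU x r n' Q.1 Q.2) = ∅ :=
        Finset.filter_eq_empty_iff.2 fun Q hQ hN =>
          hno Q.1 Q.2 (Cfg.mem_exMem.1 hQ).1.1 (Cfg.mem_exMem.1 hQ).1.2 hN
      have h := hq c x r n' (dirv J) hok hr hMb hn' h2r hL hdn
      rw [h0, hJg, hJd, Finset.sum_empty, Finset.sum_empty, mul_zero, sub_zero, abs_norm] at h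
      rw [ENNReal.ofReal_of_nonpos h]
  · by_cases hL : c.Loud κ x r n'
    · rw [if_pos hL]
      calc volume (ball x r) * lossV 4 e G ≤ volume (ball x r) * (5 * ‖G‖ₑ) := by
            refine mul_le_mul_right ?_ _
            rw [lossV, ← ofReal_norm, show (5 : ℝ≥0∞) = ENNReal.ofReal 5 by simp,
              ← ENNReal.ofReal_mul (by norm_num)]
            refine ENNReal.ofReal_le_ofReal ?_
            have := (abs_le.1 (abs_real_inner_le_norm e G)).1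
            rw [he] at this
            linarith
        _ = 5 * (volume (ball x r) * ‖G‖ₑ) := by ring
        _ ≤ 5 * (C * c.cost x r n') := mul_le_mul_right hcost _
        _ = _ := (mul_assoc _ _ _).symm
    · rw [if_neg hL, mul_zero]
      have hup := (abs_le.1 (hq c x r n' (dirv J) hok hr hMb hn' h2r hL hdn)).2
      have hlow := (abs_le.1 (hq c x r n' e hok hr hMb hn' h2r hL he.le)).1
      have hsum1 := ex_NU_up c ((c.exMem x r n').filter (fun Q => c.NU x r n' Q.1 Q.2)) hdn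
      have hsum2 := ex_NU_low hdir
      have hν : 0 ≤ ∑ Q ∈ (c.exMem x r n').filter (fun Q => c.NU x r n' Q.1 Q.2),
          ‖qint c.g c.t Q.1 Q.2‖ := Finset.sum_nonneg fun Q _ => norm_nonneg _
      rw [hJg, hJd] at hup
      rw [hJg] at hlow
      have hkey : ‖J‖ - 4 * ⟪J, e⟫ ≤ 0 := by linarith
      have hJe : ⟪J, e⟫ = volume.real (ball x r) * ⟪e, G⟫ := by
        rw [← hG, real_inner_smul_left, real_inner_comm]
      rw [hJn, hJe, show volume.real (ball x r) * ‖G‖ - 4 * (volume.real (ball x r) * ⟪e, G⟫) =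
        volume.real (ball x r) * (‖G‖ - 4 * ⟪e, G⟫) by ring] at hkey
      simp [lossV, ENNReal.ofReal_of_nonpos (nonpos_of_mul_nonpos_right hkey hV)]

/-- The first moment on a ball is carried by the `NU` cubes and the cut items. -/
theorem ex_edge_moment (hd : 2 ≤ d) : ∃ C : ℝ, 0 ≤ C ∧
    ∀ (c : Cfg d) (x : E d) (r : ℝ) (n' : ℤ),
      c.Ok → 0 < r → c.Mb < n' → n' ≤ c.N0 → 2 * r ≤ (2 : ℝ) ^ n' →
      (2 : ℝ) ^ n' ≤ (2 : ℝ) ^ (C0 d + 1) * r → c.cutS x r n' ≠ ⊤ →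
      |r⁻¹ * ∫ y in ball x r, ⟪c.g y, y - x⟫| ≤ C * (c.cutS x r n').toReal +
        ∑ Q ∈ (c.exMem x r n').filter (fun Q => c.NU x r n' Q.1 Q.2),
          ‖qint c.g c.t Q.1 Q.2‖ := by
  obtain ⟨C, hC, h⟩ := expand hd
  have hKp : 0 ≤ Kp d := by simp only [Kp, Kd]; positivity
  set M : ℝ := 1 + (Kp d + 1) * (2 : ℝ) ^ (C0 d + 1) with hMd
  have hM : 0 ≤ M := by positivity
  refine ⟨C.toReal * M, mul_nonneg ENNReal.toReal_nonneg hM,
    fun c x r n' hok hr hMb hn' h2r hn'r htop => ?_⟩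
  set S := (c.exMem x r n').filter (fun Q => c.NU x r n' Q.1 Q.2) with hS
  set I := ContinuousLinearMap.id ℝ (E d)
  have hid : ‖I‖ ≤ 1 := ContinuousLinearMap.norm_id_le
  have h3 := h c x r n' 0 I hok hr hMb hn' h2r
  rw [Cfg.sum_NU_eq (fun n k => ⟪qint c.g c.t n k, 0 + I (qctr c.t n k - x)⟫),
    Cfg.sum_NU_eq (fun n k => ENNReal.ofReal (8 * d * ‖I‖ * (2 : ℝ) ^ n) *
      ‖qint c.g c.t n k‖ₑ), ← hS] at h3
  simp only [I, ContinuousLinearMap.id_apply, zero_add] at h3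
  have hcut : (∑ n ∈ Finset.Icc c.Mb n', ∑' k : Fin d → ℤ, if c.cutK x r n k then
      c.iw n k * (‖qctr c.t n k - x‖ₑ + ENNReal.ofReal (‖I‖ * (2 : ℝ) ^ n)) else 0)
      ≤ ENNReal.ofReal (M * r) * c.cutS x r n' := by
    rw [Cfg.cutS, Finset.mul_sum]
    refine Finset.sum_le_sum fun n hn => ?_
    rw [← ENNReal.tsum_mul_left]
    refine ENNReal.tsum_le_tsum fun k => ?_
    split_ifs with hk
    · rw [mul_comm (c.iw n k), ← ofReal_norm,
        ← ENNReal.ofReal_add (norm_nonneg _) (mul_nonneg (norm_nonneg _) (zpow_nonneg zero_le_two n))]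
      refine mul_le_mul_left (ENNReal.ofReal_le_ofReal ?_) _
      simp only [Cfg.cutK] at hk
      have hk' := (abs_le.1 hk).2
      have hl : (2 : ℝ) ^ n ≤ (2 : ℝ) ^ (C0 d + 1) * r :=
        (zpow_le_zpow_right₀ one_le_two (Finset.mem_Icc.1 hn).2).trans hn'r
      have h5 := mul_le_mul_of_nonneg_left hl hKp
      have h6 := mul_le_of_le_one_left (zpow_pos two_pos n).le (α := ℝ) hid
      rw [norm_sub_rev, hMd]
      linarith
    · simp
  have hNU : ∀ Q ∈ S, |⟪qint c.g c.t Q.1 Q.2, qctr c.t Q.1 Q.2 - x⟫| +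
      8 * d * ‖I‖ * (2 : ℝ) ^ Q.1 * ‖qint c.g c.t Q.1 Q.2‖
        ≤ r * ‖qint c.g c.t Q.1 Q.2‖ := by
    intro Q hQ
    have hin : c.inside x r Q.1 Q.2 := (Finset.mem_filter.1 hQ).2.1
    simp only [Cfg.inside, Kd] at hin
    refine (add_le_add (abs_real_inner_le_norm _ _) le_rfl).trans ?_
    rw [mul_comm ‖qint c.g c.t Q.1 Q.2‖, ← add_mul, norm_sub_rev]
    refine mul_le_mul_of_nonneg_right ?_ (norm_nonneg _)
    have h7 : (0 : ℝ) ≤ (d : ℝ) * 2 ^ Q.1 :=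
      mul_nonneg (Nat.cast_nonneg d) (zpow_nonneg zero_le_two _)
    have h6 := mul_le_mul_of_nonneg_left hid h7
    linarith
  have hX0 : ∀ Q : Cb d, 0 ≤ 8 * (d : ℝ) * ‖I‖ * (2 : ℝ) ^ Q.1 * ‖qint c.g c.t Q.1 Q.2‖ :=
    fun Q => by positivity
  set X := ∑ Q ∈ S, 8 * d * ‖I‖ * (2 : ℝ) ^ Q.1 * ‖qint c.g c.t Q.1 Q.2‖
  have hX : (∑ Q ∈ S, ENNReal.ofReal (8 * d * ‖I‖ * (2 : ℝ) ^ Q.1) *
      ‖qint c.g c.t Q.1 Q.2‖ₑ) = ENNReal.ofReal X := by
    rw [ENNReal.ofReal_sum_of_nonneg fun Q _ => hX0 Q]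
    refine Finset.sum_congr rfl fun Q _ => ?_
    rw [← ofReal_norm, ← ENNReal.ofReal_mul' (norm_nonneg _)]
  rw [hX] at h3
  have hfin : C * (ENNReal.ofReal (M * r) * c.cutS x r n') ≠ ⊤ :=
    ENNReal.mul_ne_top hC (ENNReal.mul_ne_top ENNReal.ofReal_ne_top htop)
  have h4 := ENNReal.toReal_mono (ENNReal.add_ne_top.2 ⟨hfin, ENNReal.ofReal_ne_top⟩)
    (h3.trans (add_le_add (mul_le_mul_right hcut _) le_rfl))
  rw [ENNReal.toReal_add hfin ENNReal.ofReal_ne_top, ENNReal.toReal_mul, ENNReal.toReal_mul,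
    ENNReal.toReal_ofReal (mul_nonneg hM hr.le), ENNReal.toReal_ofReal
      (Finset.sum_nonneg fun Q _ => hX0 Q), toReal_enorm, Real.norm_eq_abs] at h4
  have hsum := Finset.sum_le_sum hNU
  rw [Finset.sum_add_distrib, ← Finset.mul_sum] at hsum
  have h5 := Finset.abs_sum_le_sum_abs
    (fun Q : Cb d => ⟪qint c.g c.t Q.1 Q.2, qctr c.t Q.1 Q.2 - x⟫) S
  have h6 := abs_sub_abs_le_abs_sub (∫ y in ball x r, ⟪c.g y, y - x⟫)
    (∑ Q ∈ S, ⟪qint c.g c.t Q.1 Q.2, qctr c.t Q.1 Q.2 - x⟫)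
  rw [abs_mul, abs_of_pos (inv_pos.2 hr), inv_mul_le_iff₀ hr]
  linarith

/-- The algebra of step D4. -/
theorem ex_edge_alg {Cl' B1 B2 ν σ Je Jn Ie Id Ne Nd De Dd θ : ℝ} (hCl : 4 ≤ Cl') (hB1 : 0 ≤ B1)
    (hB2 : 0 ≤ B2) (hν : 0 ≤ ν) (hσ : 0 ≤ σ) (hθ : θ ≤ 1 / 8) (hDd : Dd ≤ θ * (B2 * σ + ν))
    (hDe : -(θ * (B2 * σ + ν)) ≤ De) (hJn : Jn = Id + Dd) (hJe : Je = Ie + De)
    (hd1 : Id - Nd ≤ B1 * σ) (he1 : -(B1 * σ) ≤ Ie - Ne) (hNd : Nd ≤ ν)
    (hNe : 3 / 4 * ν ≤ Ne) : Jn - Cl' * Je ≤ Cl' * (2 * (B1 + B2 + 1)) * σ := by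
  have hX : 0 ≤ B2 * σ + ν := add_nonneg (mul_nonneg hB2 hσ) hν
  have h1 : θ * (B2 * σ + ν) ≤ 1 / 8 * (B2 * σ + ν) := mul_le_mul_of_nonneg_right hθ hX
  have p1 := mul_nonneg hB1 hσ
  have p2 := mul_nonneg hB2 hσ
  have hlow : 1 / 2 * ν - (B1 + B2 + 1) * σ ≤ Je := by linarith
  have hup : Jn ≤ 2 * ν + (B1 + B2 + 1) * σ := by linarith
  have h2 := mul_le_mul_of_nonneg_left hlow (show (0 : ℝ) ≤ Cl' by linarith)
  have h3 := mul_nonneg (show (0 : ℝ) ≤ Cl' - 4 by linarith) hν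
  have h4 := mul_nonneg (show (0 : ℝ) ≤ Cl' - 1 by linarith)
    (mul_nonneg (show (0 : ℝ) ≤ B1 + B2 + 1 by linarith) hσ)
  linarith

/-- Step D4 at an endpoint of the radius range. -/
theorem edge_loss (hd : 2 ≤ d) : ∃ Cl : ℝ, ∃ C : ℝ≥0∞, 0 < Cl ∧ C ≠ ⊤ ∧
    ∀ (c : Cfg d) (x e w : E d) (r : ℝ) (n' : ℤ),
      c.Ok → 0 < r → c.Mb < n' → n' ≤ c.N0 → 2 * r ≤ (2 : ℝ) ^ n' →
      (2 : ℝ) ^ n' ≤ (2 : ℝ) ^ (C0 d + 1) * r → ‖w‖ ≤ theta d → ‖e‖ = 1 →
      (∀ n k, c.Mb ≤ n → n < n' → c.NU x r n' n k →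
          (3 / 4 : ℝ) * ‖qint c.g c.t n k‖ ≤ ⟪e, qint c.g c.t n k⟫) →
      ∀ Cl' ≥ Cl, volume (ball x r) * lossV Cl' e ((volume.real (ball x r))⁻¹ •
          ((∫ y in ball x r, c.g y) + (r⁻¹ * ∫ y in ball x r, ⟪c.g y, y - x⟫) • w))
        ≤ ENNReal.ofReal Cl' * C * c.cutS x r n' := by
  obtain ⟨C1, hC1, h1⟩ := ex_const hd
  obtain ⟨C2, hC2, h2⟩ := ex_edge_moment hd
  refine ⟨4, ENNReal.ofReal (2 * (C1 + C2 + 1)), by norm_num, ENNReal.ofReal_ne_top,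
    fun c x e w r n' hok hr hMb hn' h2r hn'r hw he hdir Cl' hCl => ?_⟩
  by_cases htop : c.cutS x r n' = ⊤
  · rw [htop, ENNReal.mul_top (mul_ne_zero (ENNReal.ofReal_pos.2 (by linarith)).ne'
      (ENNReal.ofReal_pos.2 (by linarith)).ne')]
    exact le_top
  obtain ⟨hV, hVe⟩ := ex_volume_ball x hr
  set m := r⁻¹ * ∫ y in ball x r, ⟪c.g y, y - x⟫
  set I0 := ∫ y in ball x r, c.g y
  set J := I0 + m • w with hJ
  obtain ⟨hJd, hdn⟩ := ex_dirv_inner J
  have hθ : theta d ≤ 1 / 8 := by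
    have : (2 : ℝ) ≤ d := by exact_mod_cast hd
    rw [theta, div_le_iff₀ (by linarith)]
    linarith
  have hm := h2 c x r n' hok hr hMb hn' h2r hn'r htop
  have hD : ∀ v : E d, ‖v‖ ≤ 1 → |m * ⟪w, v⟫| ≤ theta d * (C2 * (c.cutS x r n').toReal +
      ∑ Q ∈ (c.exMem x r n').filter (fun Q => c.NU x r n' Q.1 Q.2),
        ‖qint c.g c.t Q.1 Q.2‖) := by
    intro v hv
    rw [abs_mul, mul_comm (theta d)]
    refine mul_le_mul hm ((abs_real_inner_le_norm w v).trans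
      ((mul_le_of_le_one_right (norm_nonneg _) hv).trans hw)) (abs_nonneg _)
      ((abs_nonneg _).trans hm)
  have hJv : ∀ v : E d, ⟪J, v⟫ = ⟪I0, v⟫ + m * ⟪w, v⟫ := fun v => by
    rw [hJ, inner_add_left, real_inner_smul_left]
  have hkey : ‖J‖ - Cl' * ⟪J, e⟫ ≤ Cl' * (2 * (C1 + C2 + 1)) * (c.cutS x r n').toReal :=
    ex_edge_alg hCl hC1 hC2 (Finset.sum_nonneg fun Q _ => norm_nonneg _) ENNReal.toReal_nonneg hθ
      (abs_le.1 (hD _ hdn)).2 (abs_le.1 (hD e he.le)).1 (hJd.symm.trans (hJv _)) (hJv e)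
      ((abs_le.1 (h1 c x r n' _ hok hr hMb hn' h2r htop)).2.trans
        (mul_le_of_le_one_right (mul_nonneg hC1 ENNReal.toReal_nonneg) hdn))
      ((neg_le_neg (mul_le_of_le_one_right (mul_nonneg hC1 ENNReal.toReal_nonneg) he.le)).trans
        (abs_le.1 (h1 c x r n' e hok hr hMb hn' h2r htop)).1)
      (ex_NU_up c _ hdn) (ex_NU_low hdir)
  rw [hVe, lossV, ← ENNReal.ofReal_mul hV.le, norm_smul, real_inner_smul_right, Real.norm_eq_abs,
    abs_of_pos (inv_pos.2 hV),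
    show volume.real (ball x r) * ((volume.real (ball x r))⁻¹ * ‖J‖ -
      Cl' * ((volume.real (ball x r))⁻¹ * ⟪e, J⟫)) = ‖J‖ - Cl' * ⟪J, e⟫ by
      rw [real_inner_comm J e]; field_simp]
  refine (ENNReal.ofReal_le_ofReal hkey).trans (le_of_eq ?_)
  rw [ENNReal.ofReal_mul (mul_nonneg (by linarith) (by linarith)),
    ENNReal.ofReal_mul (by linarith), ENNReal.ofReal_toReal htop]

end

end Vale.Agent.P137.Cen
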