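import Vale.Agent.P137.Cen.SegRec
import Vale.Agent.P137.Cen.Clustering

/-!
# P137, centred operator: the segment bound (step E)
-/

open MeasureTheory Metric Set
open scoped ENNReal RealInnerProductSpace

namespace Vale.Agent.P137.Cen

open Vale.Agent.P137.Unc (E)

noncomputable section

attribute [local instance] Classical.propDecidable

variable {d : ℕ}

theorem card_kbox_le (t x : E d) (n : ℤ) {R : ℝ} :
    (kbox t x (R * (2 : ℝ) ^ n) n).card ≤ (⌈2 * R⌉.toNat + 2) ^ d := by
  rw [kbox, Fintype.card_piFinset]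
  refine (Finset.prod_le_prod' (g := fun _ => ⌈2 * R⌉.toNat + 2) fun i _ => ?_).trans (by simp)
  rw [Int.card_Icc]
  have hp : (0 : ℝ) < 2 ^ n := zpow_pos two_pos n
  have e : (x i + R * 2 ^ n - t i) / (2 : ℝ) ^ n
      = (x i - R * 2 ^ n - t i) / (2 : ℝ) ^ n + 2 * R := by
    field_simp
    ring
  rw [e]
  set a := (x i - R * 2 ^ n - t i) / (2 : ℝ) ^ n
  have h1 : ⌊a + 2 * R⌋ < ⌊a⌋ + 1 + ⌈2 * R⌉ := by
    rw [Int.floor_lt]
    push_cast
    linarith [Int.lt_floor_add_one a, Int.le_ceil (2 * R)]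
  omega

theorem ofReal_inv_zpow_mul (n : ℤ) (d : ℕ) :
    ENNReal.ofReal ((((2 : ℝ) ^ n) ^ d)⁻¹) * ENNReal.ofReal (((2 : ℝ) ^ n) ^ d) = 1 := by
  rw [← ENNReal.ofReal_mul (by positivity), inv_mul_cancel₀ (by positivity), ENNReal.ofReal_one]

/-- Change of variables on an annulus. -/
theorem lintegral_ann [NeZero d] (n : ℤ) (a : E d) (Φ : E d → ℝ≥0∞) :
    ∫⁻ x, (if ann n a x then Φ x else 0)
      = ENNReal.ofReal (((2 : ℝ) ^ n) ^ d) * volume (Ann d)
        * ∫⁻ z, Φ (a + (2 : ℝ) ^ n • z) ∂annMeas d := by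
  have e : (fun x => if ann n a x then Φ x else 0)
      = {x | ann n a x}.indicator Φ := by
    funext x
    by_cases h : ann n a x
    · rw [if_pos h, indicator_of_mem (show x ∈ {x | ann n a x} from h)]
    · rw [if_neg h, indicator_of_notMem (show x ∉ {x | ann n a x} from h)]
  rw [e, lintegral_indicator (measurableSet_ann n a)]
  have h := lintegral_annulus a n fun z => Φ (a + (2 : ℝ) ^ n • z)
  rw [← h]
  refine lintegral_congr fun x => ?_
  simp only [smul_inv_smul₀ (zpow_pos (two_pos (α := ℝ)) n).ne', add_sub_cancel]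

namespace Cfg

variable {c : Cfg d} {hc : c.Ok} {t : E d}

theorem measurable_bigW (n : ℤ) : Measurable (bigW hc n) := by
  refine Finset.measurable_sum _ fun i _ => Measurable.ite ?_ measurable_const measurable_const
  by_cases h : n - (Ls d : ℤ) < (c.isys hc.rad).lev i ∧ (c.isys hc.rad).lev i ≤ n + (C0 d : ℤ)
  · simp only [h.1, h.2, true_and]
    exact measurableSet_le (continuous_id.sub continuous_const).norm.measurable measurable_const
  · convert MeasurableSet.empty
    ext x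
    simp only [mem_setOf_eq, mem_empty_iff_false, iff_false]
    exact fun hh => h ⟨hh.1, hh.2.1⟩

theorem measurable_boxW (n : ℤ) : Measurable (boxW hc t n) := by
  refine Measurable.ennreal_tsum fun k => ?_
  refine Measurable.ite (by exact MeasurableSet.const _) measurable_const ?_
  refine Measurable.ite (measurableSet_ann _ _) ?_ measurable_const
  exact ((c.isys hc.rad).measurable_spot _).comp (by fun_prop)

theorem measurableSet_wbot (b : Fin d → ℤ) (n : ℤ) : MeasurableSet {x | wbot hc t n x = b} := by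
  have e : {x | wbot hc t n x = b} = ⋃ k ∈ {k | (c.isys hc.rad).bot t c.Mb (n + (Ls d : ℤ)) k = b},
      qcube t (n + (Ls d : ℤ)) k := by
    ext x
    simp only [wbot, mem_setOf_eq, mem_iUnion, mem_qcube_iff, exists_prop, exists_eq_right']
  rw [e]
  exact MeasurableSet.biUnion (Set.to_countable _) fun k _ => measurableSet_qcube _ _ _

/-- A scale with its cost either big or along a chain. -/
theorem cost_dichotomy (hd : 1 ≤ d) {κ : ℝ} (hκ : 0 < κ) : ∃ C : ℝ≥0∞, C ≠ ⊤ ∧
    ∀ (c : Cfg d) (hc : c.Ok) (t : E d) (n : ℤ) (x : E d) (r : ℝ) (n' : ℤ),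
      Pick t c n x r n' → c.Loud κ x r n' →
      c.cost x r n' ≤ C * bigB hc t n x ∨ Hard hc t κ (wbot hc t n x) n x r n' := by
  set k := ENNReal.ofReal κ
  have hk0 : k ≠ 0 := by simp only [k, Ne, ENNReal.ofReal_eq_zero, not_le]; exact hκ
  have hki : k⁻¹ ≠ ⊤ := ENNReal.inv_ne_top.2 hk0
  refine ⟨4 * k⁻¹ + ENNReal.ofReal (gC d) * 2, by finiteness, ?_⟩
  intro c hc t n x r n' h hloud
  set b := wbot hc t n x
  set SC := ∑ u ∈ Finset.Icc c.Mb (n - (Ls d : ℤ)), chCut hc t b u x r with hSC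
  rcases lt_or_ge (bigB hc t n x) SC with hlt | hge
  · exact Or.inr ⟨h, rfl, hloud, hlt⟩
  refine Or.inl ?_
  have hn0 : (0 : ℝ) < 2 ^ n := zpow_pos two_pos n
  have hr0 : 0 < r := lt_of_lt_of_le hn0 h.hr.1
  have hν : c.nu x r n' ≤ k⁻¹ * (2 * bigB hc t n x) := by
    have h1 : k * c.nu x r n' ≤ 2 * bigB hc t n x := by
      refine hloud.le.trans ((cutS_le (hc := hc) hd h).trans ?_)
      rw [two_mul]
      exact add_le_add le_rfl hge
    have := mul_le_mul_right h1 k⁻¹
    rwa [← mul_assoc, ENNReal.inv_mul_cancel hk0 ENNReal.ofReal_ne_top, one_mul] at this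
  obtain ⟨p, hp, hpch⟩ : ∃ p ∈ sphere x r,
      ∀ u ∈ Finset.Icc c.Mb (n - (Ls d : ℤ)), chCut hc t b u x r ≠ 0 →
        p = spoint x (qctr t c.Mb b) r := by
    by_cases hz : ∀ u ∈ Finset.Icc c.Mb (n - (Ls d : ℤ)), chCut hc t b u x r = 0
    · haveI : Nonempty (Fin d) := ⟨⟨0, hd⟩⟩
      obtain ⟨v, hv⟩ : ∃ v : E d, ‖v‖ = r :=
        ⟨EuclideanSpace.single (Classical.arbitrary (Fin d)) r, by
          simp [abs_of_pos hr0]⟩
      exact ⟨x + v, by simp [mem_sphere, dist_eq_norm, hv], fun u hu hne => absurd (hz u hu) hne⟩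
    · push Not at hz
      obtain ⟨u, hu, hne⟩ := hz
      obtain ⟨hu1, hu2⟩ := Finset.mem_Icc.1 hu
      have hann := (chCut_ne_zero hd h (by omega) hne).1
      have hq : qctr t c.Mb b ≠ x := by
        intro e
        have := hann.1
        rw [e, sub_self, norm_zero] at this
        linarith
      exact ⟨_, spoint_mem hr0.le hq, fun _ _ _ => rfl⟩
  refine (iInf₂_le p hp).trans ?_
  have hw : c.wtp x r n' p ≤ 2 * c.nu x r n' := by
    rw [wtp_eq hd, nu_eq hd, Finset.mul_sum]
    refine Finset.sum_le_sum fun Q hQ => ?_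
    rw [mul_comm (2 : ℝ≥0∞)]
    refine mul_le_mul_right ?_ _
    refine le_trans (ENNReal.ofReal_le_ofReal (q := 2) ?_) (ENNReal.ofReal_ofNat 2).le
    rw [div_le_iff₀ hr0]
    have hin := ((mem_memb hd).1 hQ).2.2.1
    simp only [Cfg.inside] at hin
    rw [mem_sphere, dist_eq_norm] at hp
    have t1 := norm_sub_le_norm_sub_add_norm_sub (qctr c.t Q.1 Q.2) x p
    rw [norm_sub_rev (qctr c.t Q.1 Q.2) x, norm_sub_rev x p, hp] at t1
    have hK : 0 ≤ Kd d * (2 : ℝ) ^ Q.1 := mul_nonneg (by linarith [(Kd_ge hd).1]) (by positivity)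
    linarith
  have hG : c.cutG x r n' p ≤ ENNReal.ofReal (gC d) * (2 * bigB hc t n x) := by
    refine (cutG_le (hc := hc) hd h hp hpch).trans (mul_le_mul_right ?_ _)
    rw [two_mul]
    refine add_le_add le_rfl (le_trans (Finset.sum_le_sum fun u hu => ?_) hge)
    refine mul_le_of_le_one_left zero_le (ENNReal.ofReal_le_one.2 (Real.sqrt_le_one.2
      (zpow_le_one_of_nonpos₀ one_le_two ?_)))
    have := (Finset.mem_Icc.1 hu).2
    omega
  refine (add_le_add (hw.trans (mul_le_mul_right hν 2)) hG).trans (le_of_eq ?_)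
  ring

theorem rootW_sum_le :
    ∑' R : Cb d, (if (c.Mb ≤ R.1 ∧ R.1 ≤ c.N0) ∧ c.IsRoot R.1 R.2 then c.rootW R else 0)
      ≤ 2 * c.totW := by
  rw [ENNReal.tsum_prod']
  rw [tsum_eq_sum (s := Finset.Icc c.Mb c.N0) fun n hn => by
    refine ENNReal.tsum_eq_zero.2 fun k => if_neg fun h => hn (Finset.mem_Icc.2 h.1)]
  refine le_trans (Finset.sum_le_sum (g := fun n => (∑' k : Fin d → ℤ, c.iw n k)
      + if n = c.N0 then (∑' k : Fin d → ℤ, if c.IsRoot c.N0 k then c.rootW (c.N0, k) else 0)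
        else 0) fun n hn => ?_) ?_
  · by_cases hN : n = c.N0
    · subst hN
      rw [if_pos rfl]
      refine le_trans (ENNReal.tsum_le_tsum fun k => ?_) le_add_self
      split_ifs with h1 h2
      · exact le_rfl
      · exact absurd h1.2 h2
      · exact zero_le
      · exact zero_le
    · refine le_trans (ENNReal.tsum_le_tsum fun k => ?_) le_self_add
      split_ifs with h1
      · have hlt : n < c.N0 := lt_of_le_of_ne h1.1.2 hN
        rw [Cfg.iw, if_pos (show n < c.N0 ∧ c.IsRoot n k from ⟨hlt, h1.2⟩)]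
        exact le_add_self.trans le_self_add
      · exact zero_le
  · rw [Finset.sum_add_distrib, Finset.sum_ite_eq', two_mul]
    refine add_le_add le_self_add ?_
    split_ifs
    · exact le_add_self
    · exact zero_le

/-- The totals of the potentials of one shift. -/
def potTot (hc : c.Ok) (t : E d) : ℝ≥0∞ :=
  ∑' u : ℤ, (∑' k, (c.isys hc.rad).loss t u k + ∑' k, (c.isys hc.rad).nondom t u k)

theorem potTot_le [NeZero d] (hT : c.totW ≠ ⊤) :
    potTot hc t ≤ 4 * c.totW + 2 * ∑' u : ℤ, ∑' k, (c.isys hc.rad).csum t u k := by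
  set S := c.isys hc.rad
  have hL : (0 : ℝ) ≤ S.L0 := by show (0 : ℝ) ≤ L0 d; simp only [L0, Kp, Kd]; positivity
  have hw : ∀ i, S.wt i ≠ ⊤ := wt_ne_top hc hT
  have h1 : ∑' u : ℤ, ∑' k, S.loss t u k ≤ c.totW :=
    (Sys.loss_total hL).trans (sum_wt_le hc)
  have h2 : ∑' u : ℤ, ∑' k, S.leafW t u k ≤ c.totW := by
    refine le_trans (le_of_eq ?_) (sum_wt_le hc)
    have e : ∀ u : ℤ, ∑' k, S.leafW t u k
        = ∑ i ∈ Finset.univ.filter (fun i => S.lev i = u), S.wt i := fun u =>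
      S.tsum_sum_items t u _ _ fun k i => by simp [Sys.mem_leaves]
    simp only [e, Finset.sum_filter]
    rw [Summable.tsum_finsetSum fun i _ => ENNReal.summable]
    refine Finset.sum_congr rfl fun i _ => ?_
    rw [tsum_eq_single (S.lev i) fun u hu => if_neg fun h => hu h.symm, if_pos rfl]
  rw [potTot, ENNReal.tsum_add]
  have h3 : ∑' u : ℤ, ∑' k, S.nondom t u k ≤ 2 * ∑' u : ℤ, ∑' k, S.loss t u k
      + 2 * ∑' u : ℤ, ∑' k, S.csum t u k + ∑' u : ℤ, ∑' k, S.leafW t u k := by
    refine (ENNReal.tsum_le_tsum fun u => ENNReal.tsum_le_tsum fun k =>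
      Sys.nondom_le hL hw).trans (le_of_eq ?_)
    simp only [ENNReal.tsum_add, ENNReal.tsum_mul_left]
  refine (add_le_add h1 (h3.trans (add_le_add (add_le_add (mul_le_mul_right h1 2) le_rfl) h2))).trans
    (le_of_eq ?_)
  ring

theorem lintegral_bigW_sum_le (hc : c.Ok) (N : Finset ℤ) :
    ∑ n ∈ N, ENNReal.ofReal ((((2 : ℝ) ^ n) ^ d)⁻¹) * ∫⁻ x, bigW hc n x
      ≤ ((Ls d + C0 d : ℕ) : ℝ≥0∞) * ENNReal.ofReal (bigR d ^ d)
        * volume (closedBall (0 : E d) 1) * c.totW := by
  set S := c.isys hc.rad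
  have hR : 0 ≤ bigR d := by simp only [bigR, Kp, Kd]; positivity
  have hn : ∀ n ∈ N, ENNReal.ofReal ((((2 : ℝ) ^ n) ^ d)⁻¹) * ∫⁻ x, bigW hc n x
      ≤ ∑ i, if n - (Ls d : ℤ) < S.lev i ∧ S.lev i ≤ n + (C0 d : ℤ) then
          ENNReal.ofReal (bigR d ^ d) * volume (closedBall (0 : E d) 1) * S.wt i else 0 := by
    intro n _
    simp only [bigW]
    rw [lintegral_finsetSum _ fun i _ => ?_, Finset.mul_sum]
    · refine Finset.sum_le_sum fun i _ => ?_
      by_cases h : n - (Ls d : ℤ) < S.lev i ∧ S.lev i ≤ n + (C0 d : ℤ)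
      · rw [if_pos h]
        refine (mul_le_mul_right (lintegral_mono (g := (closedBall (S.pos i)
          (bigR d * (2 : ℝ) ^ n)).indicator fun _ => S.wt i) fun x => ?_) _).trans (le_of_eq ?_)
        · split_ifs with h'
          · rw [indicator_of_mem (by rw [mem_closedBall, dist_eq_norm]; exact h'.2.2)]
          · exact zero_le
        · rw [lintegral_indicator_const measurableSet_closedBall,
            Measure.addHaar_closedBall' volume _ (mul_nonneg hR (by positivity)),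
            finrank_euclideanSpace_fin, mul_pow, ENNReal.ofReal_mul (by positivity),
            show ENNReal.ofReal ((((2 : ℝ) ^ n) ^ d)⁻¹) * (S.wt i * (ENNReal.ofReal (bigR d ^ d)
              * ENNReal.ofReal (((2 : ℝ) ^ n) ^ d) * volume (closedBall (0 : E d) 1)))
            = ENNReal.ofReal ((((2 : ℝ) ^ n) ^ d)⁻¹) * ENNReal.ofReal (((2 : ℝ) ^ n) ^ d)
              * (ENNReal.ofReal (bigR d ^ d) * volume (closedBall (0 : E d) 1) * S.wt i) by ring,
            ofReal_inv_zpow_mul, one_mul]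
      · rw [if_neg h]
        refine le_of_eq (mul_eq_zero_of_right _ ?_)
        rw [lintegral_congr (g := fun _ => 0) fun x => if_neg fun hh => h ⟨hh.1, hh.2.1⟩,
          lintegral_zero]
    · refine Measurable.ite ?_ measurable_const measurable_const
      by_cases h : n - (Ls d : ℤ) < S.lev i ∧ S.lev i ≤ n + (C0 d : ℤ)
      · simp only [S] at h
        simp only [h.1, h.2, true_and]
        exact measurableSet_le (continuous_id.sub continuous_const).norm.measurable measurable_const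
      · convert MeasurableSet.empty
        ext x
        simp only [mem_setOf_eq, mem_empty_iff_false, iff_false]
        exact fun hh => h ⟨hh.1, hh.2.1⟩
  refine (Finset.sum_le_sum hn).trans ?_
  rw [Finset.sum_comm]
  refine le_trans ?_ (mul_le_mul_right (sum_wt_le hc) _)
  rw [Finset.mul_sum]
  refine Finset.sum_le_sum fun i _ => ?_
  rw [← Finset.sum_filter, Finset.sum_const, nsmul_eq_mul, ← mul_assoc, ← mul_assoc]
  refine mul_le_mul_left (mul_le_mul_left (mul_le_mul_left ?_ _) _) _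
  have hcard : (N.filter fun n => n - (Ls d : ℤ) < S.lev i ∧ S.lev i ≤ n + (C0 d : ℤ)).card
      ≤ Ls d + C0 d := by
    refine (Finset.card_le_card (t := Finset.Ico (S.lev i - (C0 d : ℤ)) (S.lev i + (Ls d : ℤ)))
      fun n hn => ?_).trans ?_
    · have := (Finset.mem_filter.1 hn).2
      simp only [Finset.mem_Ico]
      omega
    · rw [Int.card_Ico]; omega
  exact_mod_cast hcard

theorem lintegral_boxW_sum_le [NeZero d] (hT : c.totW ≠ ⊤) (N : Finset ℤ)
    (hN : ∀ n ∈ N, c.Mb ≤ n - (Ls d : ℤ)) :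
    ∑ n ∈ N, ENNReal.ofReal ((((2 : ℝ) ^ n) ^ d)⁻¹) * ∫⁻ x, boxW hc t n x
      ≤ volume (Ann d) * ((2 * Ls d : ℕ) : ℝ≥0∞) * potTot hc t := by
  set S := c.isys hc.rad
  have hL : (0 : ℝ) ≤ S.L0 := by show (0 : ℝ) ≤ L0 d; simp only [L0, Kp, Kd]; positivity
  set G := fun u : ℤ => ∑' k, S.loss t u k + ∑' k, S.nondom t u k
  have hn : ∀ n ∈ N, ENNReal.ofReal ((((2 : ℝ) ^ n) ^ d)⁻¹) * ∫⁻ x, boxW hc t n x
      ≤ volume (Ann d) * ∑ u ∈ Finset.Ioc (n - (Ls d : ℤ)) (n + (Ls d : ℤ)), G u := by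
    intro n hn
    set l := n - (Ls d : ℤ)
    set ν := n + (Ls d : ℤ)
    simp only [boxW]
    rw [lintegral_tsum fun k => ?_, ← ENNReal.tsum_mul_left]
    · refine le_trans (ENNReal.tsum_le_tsum fun k => ?_) ((le_of_eq ENNReal.tsum_mul_left).trans
        (mul_le_mul_right (Sys.tsum_boxes_le (S := S) (t := t) (Mb := c.Mb) hL (wt_ne_top hc hT)
          (hN n hn) (show l ≤ ν by omega)) _))
      by_cases hk : k = Sys.chain t c.Mb (S.bot t c.Mb ν (anc (ν - l).toNat k)) l
      · rw [if_pos hk, mul_zero]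
        refine le_of_eq (mul_eq_zero_of_right _ ?_)
        rw [lintegral_congr (g := fun _ => 0) fun x => if_pos hk, lintegral_zero]
      · rw [if_neg hk, lintegral_congr fun x => if_neg hk,
          lintegral_ann n (qctr t l k) fun x => S.spot t l k (qctr t l k)
            (((2 : ℝ) ^ n)⁻¹ • (x - qctr t l k)),
          ← mul_assoc, ← mul_assoc, ofReal_inv_zpow_mul, one_mul]
        refine mul_le_mul_right ?_ _
        simp only [add_sub_cancel_left, inv_smul_smul₀ (zpow_pos (two_pos (α := ℝ)) n).ne']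
        exact (lintegral_le_nrm2 (S.measurable_spot _)).trans
          (le_iSup (fun a => nrm2 (S.spot t l k a)) _)
    · refine (Measurable.ite (by exact MeasurableSet.const _) measurable_const ?_).aemeasurable
      exact Measurable.ite (measurableSet_ann _ _)
        ((S.measurable_spot _).comp (by fun_prop))
        measurable_const
  refine (Finset.sum_le_sum hn).trans ?_
  rw [← Finset.mul_sum, mul_assoc]
  refine mul_le_mul_right ?_ _
  rw [potTot, ← ENNReal.tsum_mul_left]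
  have e : ∀ n ∈ N, ∑ u ∈ Finset.Ioc (n - (Ls d : ℤ)) (n + (Ls d : ℤ)), G u
      = ∑' u : ℤ, if n - (Ls d : ℤ) < u ∧ u ≤ n + (Ls d : ℤ) then G u else 0 := fun n _ => by
    rw [tsum_eq_sum (s := Finset.Ioc (n - (Ls d : ℤ)) (n + (Ls d : ℤ))) fun u hu =>
      if_neg fun h => hu (Finset.mem_Ioc.2 h)]
    exact Finset.sum_congr rfl fun u hu => (if_pos (Finset.mem_Ioc.1 hu)).symm
  rw [Finset.sum_congr rfl e, ← Summable.tsum_finsetSum fun n _ => ENNReal.summable]
  refine ENNReal.tsum_le_tsum fun u => ?_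
  rw [← Finset.sum_filter, Finset.sum_const, nsmul_eq_mul]
  refine mul_le_mul_left ?_ _
  have hcard : (N.filter fun n => n - (Ls d : ℤ) < u ∧ u ≤ n + (Ls d : ℤ)).card ≤ 2 * Ls d := by
    refine (Finset.card_le_card (t := Finset.Ico (u - (Ls d : ℤ)) (u + (Ls d : ℤ)))
      fun n hn => ?_).trans ?_
    · have := (Finset.mem_filter.1 hn).2
      simp only [Finset.mem_Ico]
      omega
    · rw [Int.card_Ico]; omega
  exact_mod_cast hcard

theorem tsum_nearW_le :
    ∑' b : Fin d → ℤ, ∑' R : Cb d, nearW hc t b R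
      ≤ (((⌈2 * (12 * Kd d)⌉.toNat + 2) ^ d : ℕ) : ℝ≥0∞) * (2 * c.totW) := by
  rw [ENNReal.tsum_comm]
  refine le_trans (ENNReal.tsum_le_tsum fun R => ?_)
    ((le_of_eq ENNReal.tsum_mul_left).trans (mul_le_mul_right rootW_sum_le _))
  set q := qctr c.t R.1 R.2
  set Bx := kbox t q (12 * Kd d * (2 : ℝ) ^ R.1) R.1
  by_cases hR : (c.Mb ≤ R.1 ∧ R.1 ≤ c.N0) ∧ c.IsRoot R.1 R.2
  · rw [if_pos hR]
    have h1 : ∀ b : Fin d → ℤ, nearW hc t b R
        ≤ if (c.isys hc.rad).InSeg t c.Mb b R.1 then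
            (if Sys.chain t c.Mb b R.1 ∈ Bx then c.rootW R else 0) else 0 := by
      intro b
      simp only [nearW]
      split_ifs with h2 h3 h4
      · exact le_rfl
      · refine absurd (mem_kbox R.1 ?_) h4
        rw [norm_sub_rev]
        exact h2.2.2.2
      · exact absurd h2.2.2.1 h3
      all_goals exact zero_le
    refine (ENNReal.tsum_le_tsum h1).trans ((Sys.tsum_inSeg_le _ _ _ _
      (fun k => if k ∈ Bx then c.rootW R else 0)).trans ?_)
    rw [tsum_eq_sum (s := Bx) fun k hk => if_neg hk,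
      Finset.sum_congr rfl fun k hk => if_pos hk, Finset.sum_const, nsmul_eq_mul]
    refine mul_le_mul_left ?_ _
    exact_mod_cast card_kbox_le t q R.1
  · rw [if_neg hR, mul_zero]
    refine le_of_eq (ENNReal.tsum_eq_zero.2 fun b => if_neg fun h => hR ⟨h.1, h.2.1⟩)

theorem fixed_shift [NeZero d] (hd : 1 ≤ d) {κ : ℝ} (hκ : 0 < κ) : ∃ C : ℝ≥0∞, C ≠ ⊤ ∧
    ∀ (c : Cfg d) (hc : c.Ok) (t : E d) (F : ℤ → E d → ℝ≥0∞), (∀ n, Measurable (F n)) →
      (∀ n x, F n x ≤ c.scaleCost κ n x) → c.totW ≠ ⊤ →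
      ∑ n ∈ Finset.Icc c.M c.N0, ENNReal.ofReal ((((2 : ℝ) ^ n) ^ d)⁻¹)
          * ∫⁻ x, (if deep t (n + (Ls d : ℤ)) x then F n x else 0)
        ≤ C * (c.totW + potTot hc t) := by
  obtain ⟨Cd, hCd, hdich⟩ := cost_dichotomy hd hκ
  obtain ⟨Cs, hCs, hseg⟩ := segment_point (d := d) hd hκ
  set K1 : ℝ≥0∞ := ((Ls d + C0 d : ℕ) : ℝ≥0∞) * ENNReal.ofReal (bigR d ^ d)
    * volume (closedBall (0 : E d) 1)
  set K2 : ℝ≥0∞ := volume (Ann d) * ((2 * Ls d : ℕ) : ℝ≥0∞)
  set V : ℝ≥0∞ := volume (Ann d)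
  set K3 : ℝ≥0∞ := (((⌈2 * (12 * Kd d)⌉.toNat + 2) ^ d : ℕ) : ℝ≥0∞)
  refine ⟨(Cd + Cs) * (K1 + K2) + Cs * V * (1 + K3 * 2), ?_, ?_⟩
  · have h1 : V ≠ ⊤ := volume_Ann_ne_top
    have h2 : K2 ≠ ⊤ := ENNReal.mul_ne_top volume_Ann_ne_top (ENNReal.natCast_ne_top _)
    have h3 : K1 ≠ ⊤ := ENNReal.mul_ne_top (ENNReal.mul_ne_top (ENNReal.natCast_ne_top _)
      ENNReal.ofReal_ne_top) measure_closedBall_lt_top.ne
    have h4 : K3 ≠ ⊤ := ENNReal.natCast_ne_top _
    finiteness
  intro c hc t F hFm hF hT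
  set S := c.isys hc.rad
  set N := Finset.Icc c.M c.N0
  set L : ℤ := (Ls d : ℤ) with hLdef
  have hNMb : ∀ n ∈ N, c.Mb ≤ n - L := fun n hn => by
    have := hc.hMb
    have := (Finset.mem_Icc.1 hn).1
    simp only [botOff, hLdef] at *
    omega
  set q : (Fin d → ℤ) → E d := qb t hc
  set Bg := fun n => bigB hc t n
  have hBm : ∀ n, Measurable (Bg n) := fun n => (measurable_bigW n).add (measurable_boxW n)
  set H := fun (n : ℤ) (x : E d) => (if deep t (n + L) x then F n x else 0) - Cd * Bg n x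
  have hHm : ∀ n, Measurable (H n) := fun n =>
    ((hFm n).ite (measurableSet_deep _ _) measurable_const).sub ((hBm n).const_mul Cd)
  set Hs := fun (b : Fin d → ℤ) (n : ℤ) (x : E d) =>
    ⨆ σ : ℝ × ℤ, if Hard hc t κ b n x σ.1 σ.2 then c.cost x σ.1 σ.2 else 0
  have hH : ∀ n ∈ N, ∀ x, H n x ≤ Hs (wbot hc t n x) n x := by
    intro n hn x
    refine tsub_le_iff_right.2 ?_
    split_ifs with hdeep
    · refine (hF n x).trans (iSup₂_le fun r hr => iSup₂_le fun n' hn' => ?_)
      split_ifs with hl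
      · have hpick : Pick t c n x r n' := ⟨Finset.mem_Icc.1 hn, hr,
          ⟨hn'.1.1, hn'.1.2.trans (min_le_left _ _), hn'.1.2.trans (min_le_right _ _)⟩, hn'.2,
          hdeep⟩
        rcases hdich c hc t n x r n' hpick hl with h | h
        · exact h.trans le_add_self
        · exact le_trans (le_iSup_of_le (r, n') (by rw [if_pos h])) le_self_add
      · exact zero_le
    · exact zero_le
  have hHs0 : ∀ b n x, ¬ ann n (q b) x → Hs b n x = 0 := fun b n x h =>
    ENNReal.iSup_eq_zero.2 fun σ => if_neg fun hh => h (hh.facts hd).2.2.1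
  set Φ := fun (b : Fin d → ℤ) (n : ℤ) (x : E d) =>
    if wbot hc t n x = b then H n x else 0
  have hΦm : ∀ b n, Measurable (Φ b n) := fun b n =>
    (hHm n).ite (measurableSet_wbot b n) measurable_const
  have hsum : ∀ n ∈ N, ∀ x, H n x = ∑' b, (if ann n (q b) x then Φ b n x else 0) := by
    intro n hn x
    rw [tsum_eq_single (wbot hc t n x)]
    · by_cases h : ann n (q (wbot hc t n x)) x
      · simp [Φ, h]
      · rw [if_neg h]
        exact le_antisymm ((hH n hn x).trans (hHs0 _ _ _ h).le) zero_le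
    · intro b hb
      simp [Φ, Ne.symm hb]
  -- one segment
  have hper : ∀ (b : Fin d → ℤ) (z : E d), ∑ n ∈ N, Φ b n (q b + (2 : ℝ) ^ n • z)
      ≤ Cs * (∑ u ∈ Finset.Icc c.Mb c.N0, segSp hc t b z u + ∑' R : Cb d, nearW hc t b R
        + ∑ n ∈ N, if wbot hc t n (q b + (2 : ℝ) ^ n • z) = b then
            Bg n (q b + (2 : ℝ) ^ n • z) else 0) := by
    intro b z
    refine le_trans (Finset.sum_le_sum (g := fun n => Hs b n (q b + (2 : ℝ) ^ n • z))
      fun n hn => ?_) (seg_sum_iSup_le _ _ fun σ => ?_)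
    · simp only [Φ]
      split_ifs with h
      · have := hH n hn (q b + (2 : ℝ) ^ n • z)
        rwa [h] at this
      · exact zero_le
    · rw [← Finset.sum_filter]
      refine (hseg c hc t b z _ (fun n => (σ n).1) (fun n => (σ n).2)
        fun n hn => (Finset.mem_filter.1 hn).2).trans (mul_le_mul_right (add_le_add le_rfl ?_) _)
      rw [← Finset.sum_filter]
      refine Finset.sum_le_sum_of_subset fun n hn => ?_
      obtain ⟨h1, h2⟩ := Finset.mem_filter.1 hn
      exact Finset.mem_filter.2 ⟨h1, h2.hbot⟩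
  -- big parts
  have hBint : ∑ n ∈ N, ENNReal.ofReal ((((2 : ℝ) ^ n) ^ d)⁻¹) * ∫⁻ x, Bg n x
      ≤ (K1 + K2) * (c.totW + potTot hc t) := by
    simp only [Bg, bigB]
    rw [Finset.sum_congr rfl fun n _ => by
      rw [lintegral_add_left (measurable_bigW n), mul_add], Finset.sum_add_distrib, add_mul]
    exact add_le_add ((lintegral_bigW_sum_le hc N).trans (mul_le_mul_right le_self_add _))
      ((lintegral_boxW_sum_le hT N hNMb).trans (mul_le_mul_right le_add_self _))
  -- the change of variables for one segment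
  have hb : ∀ b : Fin d → ℤ,
      ∑ n ∈ N, ENNReal.ofReal ((((2 : ℝ) ^ n) ^ d)⁻¹)
          * ∫⁻ x, (if ann n (q b) x then Φ b n x else 0)
        ≤ Cs * V * (∑ u ∈ Finset.Icc c.Mb c.N0,
              (if S.InSeg t c.Mb b u then S.nondom t u (Sys.chain t c.Mb b u) else 0)
            + ∑' R : Cb d, nearW hc t b R)
          + Cs * ∑ n ∈ N, ENNReal.ofReal ((((2 : ℝ) ^ n) ^ d)⁻¹)
              * ∫⁻ x, (if wbot hc t n x = b then Bg n x else 0) := by
    intro b
    have hcv : ∀ (n : ℤ) (Ψ : E d → ℝ≥0∞), ENNReal.ofReal ((((2 : ℝ) ^ n) ^ d)⁻¹)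
        * ∫⁻ x, (if ann n (q b) x then Ψ x else 0)
        = V * ∫⁻ z, Ψ (q b + (2 : ℝ) ^ n • z) ∂annMeas d := fun n Ψ => by
      rw [lintegral_ann, ← mul_assoc, ← mul_assoc, ofReal_inv_zpow_mul, one_mul]
    have hmΦ : ∀ n, Measurable fun z : E d => Φ b n (q b + (2 : ℝ) ^ n • z) := fun n =>
      (hΦm b n).comp ((measurable_const_smul _).const_add _)
    have hmB : ∀ n, Measurable fun z : E d =>
        if wbot hc t n (q b + (2 : ℝ) ^ n • z) = b then Bg n (q b + (2 : ℝ) ^ n • z) else 0 :=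
      fun n => ((hBm n).ite (measurableSet_wbot b n) measurable_const).comp
        ((measurable_const_smul _).const_add _)
    have hmS : ∀ u, Measurable fun z : E d => segSp hc t b z u := fun u => by
      simp only [segSp]
      split_ifs
      · exact Sys.measurable_offSpot _ _ _
      · exact measurable_const
    rw [Finset.sum_congr rfl fun n _ => hcv n (Φ b n), ← Finset.mul_sum,
      ← lintegral_finsetSum _ fun n _ => hmΦ n]
    refine (mul_le_mul_right ((lintegral_mono fun z => hper b z).trans_eq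
      (lintegral_const_mul' _ _ hCs)) V).trans ?_
    rw [lintegral_add_right _ (Finset.measurable_sum _ fun n _ => hmB n),
      lintegral_add_right _ measurable_const, lintegral_const, measure_univ, mul_one,
      lintegral_finsetSum _ (fun u _ => hmS u), lintegral_finsetSum _ (fun n _ => hmB n)]
    have hsp : ∑ u ∈ Finset.Icc c.Mb c.N0, ∫⁻ z, segSp hc t b z u ∂annMeas d
        ≤ ∑ u ∈ Finset.Icc c.Mb c.N0,
          (if S.InSeg t c.Mb b u then S.nondom t u (Sys.chain t c.Mb b u) else 0) := by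
      refine Finset.sum_le_sum fun u _ => ?_
      by_cases h : S.InSeg t c.Mb b u
      · simp only [segSp]
        rw [if_pos h]
        simp only [if_pos h, S] at h ⊢
        exact Sys.lintegral_offSpot_le (wt_ne_top hc hT) _ _ _
      · rw [if_neg h]
        refine le_of_eq ?_
        rw [lintegral_congr (g := fun _ => 0) fun z => ?_, lintegral_zero]
        exact if_neg h
    have hBn : V * ∑ n ∈ N, ∫⁻ z, (if wbot hc t n (q b + (2 : ℝ) ^ n • z) = b then
        Bg n (q b + (2 : ℝ) ^ n • z) else 0) ∂annMeas d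
        ≤ ∑ n ∈ N, ENNReal.ofReal ((((2 : ℝ) ^ n) ^ d)⁻¹)
            * ∫⁻ x, (if wbot hc t n x = b then Bg n x else 0) := by
      rw [Finset.mul_sum]
      refine Finset.sum_le_sum fun n _ => ?_
      rw [← hcv n fun x => if wbot hc t n x = b then Bg n x else 0]
      refine mul_le_mul_right (lintegral_mono fun x => ?_) _
      split_ifs <;> simp
    refine (mul_le_mul_right (mul_le_mul_right (add_le_add (add_le_add hsp le_rfl) le_rfl) Cs)
      V).trans ?_
    rw [mul_left_comm, mul_add V, mul_add Cs, ← mul_assoc Cs V]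
    exact add_le_add le_rfl (mul_le_mul_right hBn Cs)
  -- collect
  have hmA : ∀ b n, Measurable fun x => if ann n (q b) x then Φ b n x else 0 := fun b n =>
    (hΦm b n).ite (measurableSet_ann _ _) measurable_const
  have hmBb : ∀ b n, Measurable fun x => if wbot hc t n x = b then Bg n x else 0 := fun b n =>
    (hBm n).ite (measurableSet_wbot b n) measurable_const
  have h1 : ∑ n ∈ N, ENNReal.ofReal ((((2 : ℝ) ^ n) ^ d)⁻¹)
        * ∫⁻ x, (if deep t (n + L) x then F n x else 0)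
      ≤ Cd * ((K1 + K2) * (c.totW + potTot hc t))
        + ∑' b : Fin d → ℤ, ∑ n ∈ N, ENNReal.ofReal ((((2 : ℝ) ^ n) ^ d)⁻¹)
          * ∫⁻ x, (if ann n (q b) x then Φ b n x else 0) := by
    refine le_trans (Finset.sum_le_sum (g := fun n => Cd * (ENNReal.ofReal ((((2 : ℝ) ^ n) ^ d)⁻¹)
        * ∫⁻ x, Bg n x) + ∑' b : Fin d → ℤ, ENNReal.ofReal ((((2 : ℝ) ^ n) ^ d)⁻¹)
          * ∫⁻ x, (if ann n (q b) x then Φ b n x else 0)) fun n hn => ?_) ?_
    · rw [ENNReal.tsum_mul_left, ← lintegral_tsum fun b => (hmA b n).aemeasurable,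
        mul_left_comm Cd, ← mul_add, ← lintegral_const_mul' _ _ hCd,
        ← lintegral_add_left ((hBm n).const_mul Cd)]
      refine mul_le_mul_right (lintegral_mono fun x => ?_) _
      rw [← hsum n hn x]
      exact le_add_tsub
    · rw [Finset.sum_add_distrib, ← Finset.mul_sum,
        ← Summable.tsum_finsetSum fun n _ => ENNReal.summable]
      exact add_le_add (mul_le_mul_right hBint _) le_rfl
  refine h1.trans ((add_le_add le_rfl (ENNReal.tsum_le_tsum hb)).trans ?_)
  rw [ENNReal.tsum_add, ENNReal.tsum_mul_left, ENNReal.tsum_mul_left, ENNReal.tsum_add,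
    Summable.tsum_finsetSum (fun n _ => ENNReal.summable),
    Summable.tsum_finsetSum (fun n _ => ENNReal.summable)]
  have hND : ∑ u ∈ Finset.Icc c.Mb c.N0, ∑' b : Fin d → ℤ,
      (if S.InSeg t c.Mb b u then S.nondom t u (Sys.chain t c.Mb b u) else 0) ≤ potTot hc t := by
    refine le_trans (Finset.sum_le_sum fun u _ => ?_) (ENNReal.sum_le_tsum _)
    exact (Sys.tsum_inSeg_le _ _ _ u fun k => S.nondom t u k).trans le_add_self
  have hBb : ∑ n ∈ N, ∑' b : Fin d → ℤ, ENNReal.ofReal ((((2 : ℝ) ^ n) ^ d)⁻¹)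
      * ∫⁻ x, (if wbot hc t n x = b then Bg n x else 0) ≤ (K1 + K2) * (c.totW + potTot hc t) := by
    refine le_trans (Finset.sum_le_sum fun n _ => ?_) hBint
    rw [ENNReal.tsum_mul_left, ← lintegral_tsum fun b => (hmBb b n).aemeasurable]
    refine mul_le_mul_right (lintegral_mono fun x => le_of_eq ?_) _
    rw [tsum_eq_single (wbot hc t n x) fun b hb => if_neg fun h => hb h.symm, if_pos rfl]
  refine (add_le_add le_rfl (add_le_add (mul_le_mul_right (add_le_add hND tsum_nearW_le) _)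
    (mul_le_mul_right hBb Cs))).trans ?_
  set T := c.totW
  set P := potTot hc t
  calc Cd * ((K1 + K2) * (T + P)) + (Cs * V * (P + K3 * (2 * T)) + Cs * ((K1 + K2) * (T + P)))
      ≤ Cd * ((K1 + K2) * (T + P)) + (Cs * V * ((T + P) + K3 * (2 * (T + P)))
          + Cs * ((K1 + K2) * (T + P))) :=
        add_le_add le_rfl (add_le_add (mul_le_mul_right (add_le_add le_add_self
          (mul_le_mul_right (mul_le_mul_right le_self_add _) _)) _) le_rfl)
    _ = _ := by ring

end Cfg

/-- The segment bound. -/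
theorem segment_bound (hd : 2 ≤ d) {κ : ℝ} (hκ : 0 < κ) : ∃ C : ℝ≥0∞, C ≠ ⊤ ∧
    ∀ (c : Cfg d) (F : ℤ → E d → ℝ≥0∞), c.Ok → (∀ n, Measurable (F n)) →
      (∀ n x, F n x ≤ c.scaleCost κ n x) →
      ∑ n ∈ Finset.Icc c.M c.N0, ENNReal.ofReal ((((2 : ℝ) ^ n) ^ d)⁻¹) * ∫⁻ x, F n x
        ≤ C * c.totW := by
  haveI : NeZero d := ⟨by omega⟩
  obtain ⟨Cf, hCf, hfix⟩ := Cfg.fixed_shift (d := d) (by omega) hκ
  obtain ⟨Cc, hCc, hclu⟩ := clustering hd
  refine ⟨4 ^ d * (Cf * (5 + 2 * Cc)) + 1, by finiteness, ?_⟩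
  intro c F hc hFm hF
  by_cases hT : c.totW = ⊤
  · rw [hT, ENNReal.mul_top (by simp)]
    exact le_top
  set L : ℤ := (Ls d : ℤ) with hLdef
  set m : ℕ := (c.N0 + L - c.Mb).toNat
  set S := c.isys hc.rad
  set w := fun n : ℤ => ENNReal.ofReal ((((2 : ℝ) ^ n) ^ d)⁻¹)
  have hMb := hc.hMb
  have hM := hc.hM
  simp only [botOff] at hMb
  have hcl : avgShift c.Mb m (fun t => ∑' n : ℤ, ∑' k, S.csum t n k) ≤ Cc * c.totW :=
    (hclu _ S c.Mb m rfl rfl Cfg.isys_lev (Cfg.wt_ne_top hc hT)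
      (show c.N0 ≤ c.Mb + m by omega)).trans (mul_le_mul_right (Cfg.sum_wt_le hc) _)
  have h1 : ∀ n ∈ Finset.Icc c.M c.N0, w n * ∫⁻ x, F n x
      ≤ 4 ^ d * avgShift c.Mb m fun t => w n * ∫⁻ x, (if deep t (n + L) x then F n x else 0) := by
    intro n hn
    obtain ⟨hn1, hn2⟩ := Finset.mem_Icc.1 hn
    refine (mul_le_mul_right (lintegral_mono fun x => le_avgShift_deep c.Mb (n + L) m
      (by omega) (by omega) x (F n x)) _).trans (le_of_eq ?_)
    simp only [avgShift, div_eq_mul_inv]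
    rw [lintegral_const_mul' _ _ (by finiteness),
      lintegral_mul_const' _ _ (ENNReal.inv_ne_top.2 (by simp)),
      lintegral_finsetSum _ fun s _ => (hFm n).ite (measurableSet_deep _ _) measurable_const,
      mul_left_comm, Finset.sum_mul, Finset.mul_sum]
    rw [Finset.sum_mul]
    simp only [mul_assoc]
  refine (Finset.sum_le_sum h1).trans ?_
  rw [← Finset.mul_sum]
  have hsw : ∑ n ∈ Finset.Icc c.M c.N0, avgShift c.Mb m
      (fun t => w n * ∫⁻ x, (if deep t (n + L) x then F n x else 0))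
      ≤ Cf * (5 + 2 * Cc) * c.totW := by
    have e : ∑ n ∈ Finset.Icc c.M c.N0, avgShift c.Mb m
        (fun t => w n * ∫⁻ x, (if deep t (n + L) x then F n x else 0))
        = avgShift c.Mb m (fun t => ∑ n ∈ Finset.Icc c.M c.N0,
            w n * ∫⁻ x, (if deep t (n + L) x then F n x else 0)) := by
      simp only [avgShift, div_eq_mul_inv]
      rw [← Finset.sum_mul, Finset.sum_comm]
    rw [e]
    refine (avgShift_mono c.Mb m (G := fun t => Cf * (c.totW + (4 * c.totW
      + 2 * ∑' u : ℤ, ∑' k, S.csum t u k))) fun s => (hfix c hc _ F hFm hF hT).trans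
      (mul_le_mul_right (add_le_add le_rfl (Cfg.potTot_le hT)) Cf)).trans ?_
    rw [avgShift_const_mul, avgShift_add, avgShift_const, avgShift_add, avgShift_const,
      avgShift_const_mul, mul_assoc]
    refine mul_le_mul_right ((add_le_add le_rfl (add_le_add le_rfl
      (mul_le_mul_right hcl 2))).trans (le_of_eq ?_)) Cf
    ring
  refine (mul_le_mul_right hsw _).trans ?_
  rw [← mul_assoc]
  exact mul_le_mul_left le_self_add _

end

end Vale.Agent.P137.Cen
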