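import Vale.Agent.P137.Cen.CoreCand
import Vale.Agent.P137.Cen.Expand
import Vale.Agent.P137.Cen.Segments
import Vale.Agent.P137.Cen.Calculus
import Vale.Agent.P137.Unc.Limit

/-!
# P137, centred operator: the total loss of the trees of one grid
-/

open MeasureTheory Metric Set Filter
open scoped ENNReal NNReal RealInnerProductSpace Gradient Topology

namespace Vale.Agent.P137.Cen

open Vale.Agent.P137.Unc (E ballAvg nAvg Smooth)

noncomputable section

attribute [local instance] Classical.propDecidable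

variable {d : ℕ}

theorem lossV_mono {Cl Cl' : ℝ} (h1 : 0 < Cl) (h : Cl ≤ Cl') (e G : E d) :
    lossV Cl' e G ≤ ENNReal.ofReal (Cl' / Cl) * lossV Cl e G := by
  rw [lossV, lossV, ← ENNReal.ofReal_mul (div_nonneg (h1.le.trans h) h1.le)]
  rcases le_or_gt (‖G‖ - Cl' * ⟪e, G⟫) 0 with h0 | h0
  · rw [ENNReal.ofReal_of_nonpos h0]; exact zero_le
  refine ENNReal.ofReal_le_ofReal ?_
  have hq : 1 ≤ Cl' / Cl := (one_le_div h1).2 h
  have hn := norm_nonneg G
  rcases le_or_gt 0 ⟪e, G⟫ with hp | hp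
  · have h2 : ‖G‖ - Cl' * ⟪e, G⟫ ≤ ‖G‖ - Cl * ⟪e, G⟫ := by
      linarith [mul_le_mul_of_nonneg_right h hp]
    exact h2.trans (le_mul_of_one_le_left (h0.le.trans h2) hq)
  · rw [mul_sub, ← mul_assoc, div_mul_cancel₀ _ h1.ne']
    linarith [le_mul_of_one_le_left hn hq]

theorem measurable_lossV (Cl : ℝ) (e : E d) : Measurable (lossV Cl e) := by
  unfold lossV
  exact (Continuous.measurable (by fun_prop)).ennreal_ofReal

theorem volume_ball_lb (x : E d) {r : ℝ} {n : ℤ} (h : (2 : ℝ) ^ n ≤ r) :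
    ENNReal.ofReal (((2 : ℝ) ^ n) ^ d) * volume (ball (0 : E d) 1) ≤ volume (ball x r) := by
  have hr : 0 < r := lt_of_lt_of_le (zpow_pos two_pos n) h
  rw [Measure.addHaar_ball_of_pos volume x hr, finrank_euclideanSpace_fin]
  gcongr

theorem ofReal_inv_mul_scale (n : ℤ) :
    ENNReal.ofReal ((((2 : ℝ) ^ n) ^ d)⁻¹) * ENNReal.ofReal (((2 : ℝ) ^ n) ^ d) = 1 := by
  rw [← ENNReal.ofReal_mul (by positivity), inv_mul_cancel₀ (by positivity), ENNReal.ofReal_one]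

namespace Cfg

variable {c : Cfg d}

/-- The cubes which count at an admissible radius point along the direction of the tree. -/
theorem coherent_ball (hd : 1 ≤ d) {x : E d} {r : ℝ} {n' : ℤ} {R : Cb d} {k0 : Fin d → ℤ}
    (hn' : n' ≤ c.N0) (hg : Good c.g c.t n' k0) (hroot : c.root n' k0 = R)
    (hnbr : ∀ y ∈ ball x r, ∃ o, qidx c.t n' y = nbr k0 o) {m : ℤ} {k : Fin d → ℤ} (hm : m < n')
    (h : c.NU x r n' m k) :
    (3 / 4 : ℝ) * ‖qint c.g c.t m k‖ ≤ ⟪c.edir R, qint c.g c.t m k⟫ := by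
  obtain ⟨hin, -, hgood, hlev⟩ := h
  obtain ⟨o, ho⟩ := hnbr (qctr c.t m k) (qcube_subset_of_inside hd hin
    (mem_qcube_iff.2 (qidx_qctr c.t m k)))
  have hk : anc (n' - m).toNat k = qidx c.t n' (qctr c.t m k) := by
    have := qidx_add c.t m (n' - m).toNat (qctr c.t m k)
    rw [show m + ((n' - m).toNat : ℤ) = n' by omega, qidx_qctr] at this
    exact this.symm
  rw [← hroot]
  exact c.coherent hn' hm.le hg ho hk hgood hlev

theorem continuous_rlo {R : Cb d} (hR : c.Tree R) : Continuous (c.rlo R) :=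
  continuous_const.mul (lipschitz_lam0 hR).continuous

theorem continuous_rhi {R : Cb d} (hR : c.Tree R) : Continuous (c.rhi R) :=
  (continuous_rlo hR).max (continuous_const.mul (lipschitz_dOut c R).continuous)

/-- Points with a maximiser of scale `2 ^ n` and none at the endpoints of the range. -/
def scaleSet (c : Cfg d) (u : E d → ℝ) (R : Cb d) (n : ℤ) : Set (E d) :=
  {x | 0 < c.zeta R x ∧ DifferentiableAt ℝ (c.UR u R) x ∧
    nAvg u x (c.rlo R x) ≠ c.UR u R x ∧ nAvg u x (c.rhi R x) ≠ c.UR u R x ∧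
    ∃ r ∈ Icc ((2 : ℝ) ^ n) ((2 : ℝ) ^ (n + 1)),
      c.rlo R x ≤ r ∧ r ≤ c.rhi R x ∧ nAvg u x r = c.UR u R x}

theorem measurableSet_scaleSet {u : E d → ℝ} (hu : Smooth u) (hd : 1 ≤ d) {R : Cb d}
    (hR : c.Tree R) (n : ℤ) : MeasurableSet (c.scaleSet u R n) := by
  obtain ⟨K, hK⟩ := lipschitz_UR hu hd hR
  have hU := hK.continuous
  have hA := Unc.continuous_nAvg (d := d) hu.contDiff.continuous
  have h1 : MeasurableSet {x | 0 < c.zeta R x} :=
    measurableSet_lt measurable_const (continuous_zeta hR).measurable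
  have h2 : MeasurableSet {x | DifferentiableAt ℝ (c.UR u R) x} :=
    measurableSet_of_differentiableAt ℝ _
  have h3 : ∀ ρ : E d → ℝ, Continuous ρ →
      MeasurableSet {x | nAvg u x (ρ x) ≠ c.UR u R x} := fun ρ hρ =>
    (measurableSet_eq_fun (hA.comp (continuous_id.prodMk hρ)).measurable hU.measurable).compl
  have h4 : IsClosed {x | ∃ r ∈ Icc ((2 : ℝ) ^ n) ((2 : ℝ) ^ (n + 1)),
      c.rlo R x ≤ r ∧ r ≤ c.rhi R x ∧ nAvg u x r = c.UR u R x} := by
    set S : Set (↥(Icc ((2 : ℝ) ^ n) ((2 : ℝ) ^ (n + 1))) × E d) :=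
      {p | c.rlo R p.2 ≤ p.1.1 ∧ p.1.1 ≤ c.rhi R p.2 ∧ nAvg u p.2 p.1.1 = c.UR u R p.2}
    have hS : IsClosed S :=
      (isClosed_le ((continuous_rlo hR).comp continuous_snd)
        (continuous_subtype_val.comp continuous_fst)).inter
        ((isClosed_le (continuous_subtype_val.comp continuous_fst)
          ((continuous_rhi hR).comp continuous_snd)).inter
          (isClosed_eq (hA.comp (continuous_snd.prodMk (continuous_subtype_val.comp continuous_fst)))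
            (hU.comp continuous_snd)))
    have e : {x | ∃ r ∈ Icc ((2 : ℝ) ^ n) ((2 : ℝ) ^ (n + 1)),
        c.rlo R x ≤ r ∧ r ≤ c.rhi R x ∧ nAvg u x r = c.UR u R x} = Prod.snd '' S := by
      ext x
      constructor
      · rintro ⟨r, hr, h⟩; exact ⟨(⟨r, hr⟩, x), h, rfl⟩
      · rintro ⟨⟨⟨r, hr⟩, y⟩, h, rfl⟩; exact ⟨r, hr, h⟩
    rw [e]
    exact isClosedMap_snd_of_compactSpace S hS
  exact h1.inter (h2.inter ((h3 _ (continuous_rlo hR)).inter
    ((h3 _ (continuous_rhi hR)).inter h4.measurableSet)))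

/-- At an interior maximiser the loss is paid by the cost. -/
theorem interior_loss (hd : 2 ≤ d) : ∃ Cl κ : ℝ, ∃ C : ℝ≥0∞, 0 < Cl ∧ 0 < κ ∧ C ≠ ⊤ ∧
    ∀ (c : Cfg d) (u : E d → ℝ) (R : Cb d) (x : E d) (n : ℤ),
      c.Ok → Smooth u → c.Tree R → (∀ y ∈ qcube c.t R.1 R.2, c.g y = ∇ u y) →
      x ∈ c.scaleSet u R n →
      c.M - (C0 d : ℤ) ≤ n ∧ n ≤ c.N0 ∧ R ∈ c.cand x n ∧
      ENNReal.ofReal (((2 : ℝ) ^ n) ^ d) * lossV Cl (c.edir R) (∇ (c.UR u R) x)
        ≤ C * c.scaleCost κ n x := by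
  have hd1 : 1 ≤ d := le_trans one_le_two hd
  obtain ⟨Cl, κ, C, hCl, hκ, hC, hP⟩ := point_loss hd
  set ω := volume (ball (0 : E d) 1)
  have hω0 : ω ≠ 0 := (measure_ball_pos volume _ one_pos).ne'
  have hωt : ω ≠ ⊤ := measure_ball_lt_top.ne
  refine ⟨Cl, κ, C / ω, hCl, hκ, ENNReal.div_ne_top hC hω0, ?_⟩
  intro c u R x n hok hu hR hgu hx
  obtain ⟨hz, hdiff, hne1, hne2, r, hr, hlo, hhi, heq⟩ := hx
  have hr0 : 0 < r := lt_of_lt_of_le (zpow_pos two_pos n) hr.1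
  have hlo' : c.rlo R x < r := lt_of_le_of_ne hlo fun e => hne1 (by rw [e]; exact heq)
  have hhi' : r < c.rhi R x := lt_of_le_of_ne hhi fun e => hne2 (by rw [← e]; exact heq)
  obtain ⟨h1, h2r, hup, hM, hsub, k0, hg, hroot, ⟨o, ho⟩, hnbr⟩ :=
    comparator hd1 hR hz ⟨hlo, hhi⟩ hr.1 hr.2
  set n' := min (n + (C0 d : ℤ)) R.1 with hn'
  have hn'N : n' ≤ c.N0 := (min_le_right _ _).trans hR.hi
  refine ⟨by omega, by omega,
    mem_cand hd1 hR hz ⟨hlo, hhi⟩ hr.1 hr.2 (by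
      rw [sub_self, norm_zero]
      exact mul_nonneg (zero_le_two.trans (Rcut_ge d)) (zpow_nonneg zero_le_two n)), ?_⟩
  have heq' : c.UR u R x = ballAvg u x r := by rw [Unc.ballAvg_eq_nAvg u x hr0, heq]
  have hev : ∀ᶠ q : E d × ℝ in 𝓝 (x, r), ballAvg u q.1 q.2 ≤ c.UR u R q.1 := by
    have o1 : IsOpen {q : E d × ℝ | c.rlo R q.1 < q.2} :=
      isOpen_lt ((continuous_rlo hR).comp continuous_fst) continuous_snd
    have o2 : IsOpen {q : E d × ℝ | q.2 < c.rhi R q.1} :=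
      isOpen_lt continuous_snd ((continuous_rhi hR).comp continuous_fst)
    filter_upwards [o1.mem_nhds (show (x, r) ∈ {q : E d × ℝ | c.rlo R q.1 < q.2} from hlo'),
      o2.mem_nhds (show (x, r) ∈ {q : E d × ℝ | q.2 < c.rhi R q.1} from hhi')] with q a b
    exact le_UR hu hd1 hR ⟨a.le, b.le⟩
  obtain ⟨hinner, hstat⟩ := envelope_interior hu.contDiff hr0 hdiff heq' hev
  have hG : volume.real (ball x r) • ∇ (c.UR u R) x = ∫ y in ball x r, ∇ u y := by
    refine ext_inner_right ℝ fun v => ?_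
    rw [real_inner_smul_left, hinner, real_inner_comm,
      ← integral_inner hu.integrable_grad.integrableOn]
    exact integral_congr_ae (Eventually.of_forall fun y => real_inner_comm _ _)
  have hMb : c.Mb < n' := by
    have := hok.hMb
    have h2 : C0 d < botOff d := by unfold botOff; omega
    omega
  obtain ⟨-, hP2⟩ := hP c u x (c.edir R) (∇ (c.UR u R) x) r n' hok hu hr0 hMb hn'N h2r hup
    (fun y hy => hgu y (hsub hy)) hG hstat
  have hmain := hP2 (norm_edir hR) fun m k _ hm h => coherent_ball hd1 hn'N hg hroot hnbr hm h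
  have hsc : (if c.Loud κ x r n' then c.cost x r n' else 0) ≤ c.scaleCost κ n x := by
    unfold scaleCost
    exact le_iSup_of_le r (le_iSup_of_le hr (le_iSup_of_le n'
      (le_iSup_of_le ⟨⟨h1.le, le_min hn'N (min_le_left _ _)⟩, h2r⟩ le_rfl)))
  rw [mul_comm (C / ω), ← mul_div_assoc, ENNReal.le_div_iff_mul_le (Or.inl hω0) (Or.inl hωt)]
  calc ENNReal.ofReal (((2 : ℝ) ^ n) ^ d) * lossV Cl (c.edir R) (∇ (c.UR u R) x) * ω
      ≤ volume (ball x r) * lossV Cl (c.edir R) (∇ (c.UR u R) x) := by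
        rw [mul_right_comm]; exact mul_le_mul' (volume_ball_lb x hr.1) le_rfl
    _ ≤ C * if c.Loud κ x r n' then c.cost x r n' else 0 := hmain
    _ ≤ c.scaleCost κ n x * C := by rw [mul_comm _ C]; exact mul_le_mul' le_rfl hsc

/-- At an endpoint maximiser the loss is paid by the cut items. -/
theorem endpoint_loss (hd : 2 ≤ d) : ∃ Cl : ℝ, 0 < Cl ∧ ∀ Cl' ≥ Cl, ∃ C : ℝ≥0∞, C ≠ ⊤ ∧
    ∀ (c : Cfg d) (u : E d → ℝ) (R : Cb d) (ρ : E d → ℝ) (x : E d),
      c.Ok → Smooth u → c.Tree R → (∀ y ∈ qcube c.t R.1 R.2, c.g y = ∇ u y) →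
      (∀ y, ρ y ∈ Icc (c.rlo R y) (c.rhi R y)) →
      (∀ y y', |ρ y - ρ y'| ≤ theta d * ‖y - y'‖) → 0 < c.zeta R x →
      DifferentiableAt ℝ (c.UR u R) x → DifferentiableAt ℝ ρ x →
      c.UR u R x = ballAvg u x (ρ x) →
      lossV Cl' (c.edir R) (∇ (c.UR u R) x) ≤ C *
        ∑ n ∈ Finset.Icc (c.M - (C0 d : ℤ)) c.N0,
          (if 0 < c.zeta R x ∧ (2 : ℝ) ^ n ≤ ρ x ∧ ρ x < (2 : ℝ) ^ (n + 1) then
            ENNReal.ofReal ((((2 : ℝ) ^ n) ^ d)⁻¹) * c.cutS x (ρ x) (min (n + (C0 d : ℤ)) R.1)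
          else 0) := by
  have hd1 : 1 ≤ d := le_trans one_le_two hd
  obtain ⟨Cl, C, hCl, hC, hP⟩ := edge_loss hd
  set ω := volume (ball (0 : E d) 1)
  have hω0 : ω ≠ 0 := (measure_ball_pos volume _ one_pos).ne'
  have hωt : ω ≠ ⊤ := measure_ball_lt_top.ne
  refine ⟨Cl, hCl, fun Cl' hCl' => ⟨ENNReal.ofReal Cl' * C / ω,
    ENNReal.div_ne_top (ENNReal.mul_ne_top ENNReal.ofReal_ne_top hC) hω0, ?_⟩⟩
  intro c u R ρ x hok hu hR hgu hρ hlip hz hdiff hρd heq
  have hr0 : 0 < ρ x := lt_of_lt_of_le (rlo_pos hd1 hR x) (hρ x).1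
  set n := Int.log 2 (ρ x)
  have hn1 : (2 : ℝ) ^ n ≤ ρ x := Int.zpow_log_le_self one_lt_two hr0
  have hn2 : ρ x < (2 : ℝ) ^ (n + 1) := Int.lt_zpow_succ_log_self one_lt_two _
  obtain ⟨h1, h2r, hup, hM, hsub, k0, hg, hroot, ⟨o, ho⟩, hnbr⟩ :=
    comparator hd1 hR hz (hρ x) hn1 hn2.le
  set n' := min (n + (C0 d : ℤ)) R.1 with hn'
  have hn'N : n' ≤ c.N0 := (min_le_right _ _).trans hR.hi
  have hmem : n ∈ Finset.Icc (c.M - (C0 d : ℤ)) c.N0 := Finset.mem_Icc.2 ⟨by omega, by omega⟩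
  refine le_trans ?_ (mul_le_mul' le_rfl (Finset.single_le_sum (f := fun n =>
    if 0 < c.zeta R x ∧ (2 : ℝ) ^ n ≤ ρ x ∧ ρ x < (2 : ℝ) ^ (n + 1) then
      ENNReal.ofReal ((((2 : ℝ) ^ n) ^ d)⁻¹) * c.cutS x (ρ x) (min (n + (C0 d : ℤ)) R.1)
    else 0) (fun _ _ => zero_le) hmem))
  rw [if_pos ⟨hz, hn1, hn2⟩]
  set G := ∇ (c.UR u R) x
  set w := ∇ ρ x
  have hw : ‖w‖ ≤ theta d := by
    have hl : LipschitzWith (theta d).toNNReal ρ := LipschitzWith.of_dist_le_mul fun y y' => by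
      rw [Real.coe_toNNReal _ (theta_pos hd1).le, Real.dist_eq, dist_eq_norm]
      exact hlip y y'
    have := norm_fderiv_le_of_lipschitz ℝ hl (x₀ := x)
    rw [Real.coe_toNNReal _ (theta_pos hd1).le] at this
    rwa [show ‖w‖ = ‖fderiv ℝ ρ x‖ from LinearIsometryEquiv.norm_map _ _]
  have hG : G = (volume.real (ball x (ρ x)))⁻¹ • ((∫ y in ball x (ρ x), c.g y) +
      ((ρ x)⁻¹ * ∫ y in ball x (ρ x), ⟪c.g y, y - x⟫) • w) := by
    have hgb : ∀ y ∈ ball x (ρ x), c.g y = ∇ u y := fun y hy => hgu y (hsub hy)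
    rw [setIntegral_congr_fun measurableSet_ball hgb,
      setIntegral_congr_fun measurableSet_ball
        (fun y hy => by simp only [hgb y hy] : EqOn (fun y => ⟪c.g y, y - x⟫)
          (fun y => ⟪∇ u y, y - x⟫) (ball x (ρ x)))]
    have hV : 0 < volume.real (ball x (ρ x)) :=
      ENNReal.toReal_pos (measure_ball_pos volume _ hr0).ne' measure_ball_lt_top.ne
    rw [eq_inv_smul_iff₀ hV.ne']
    refine ext_inner_right ℝ fun v => ?_
    rw [real_inner_smul_left, envelope_endpoint hu.contDiff hr0 hdiff hρd heq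
      (Eventually.of_forall fun y => le_UR hu hd1 hR (hρ y)) v, inner_add_left,
      real_inner_smul_left, real_inner_comm _ (∫ y in ball x (ρ x), ∇ u y),
      ← integral_inner hu.integrable_grad.integrableOn, Unc.inner_gradient_eq ρ x v]
    have i1 : IntegrableOn (fun y => ⟪∇ u y, v⟫) (ball x (ρ x)) :=
      (hu.integrable_grad.integrableOn).inner_const v
    have i2 : IntegrableOn (fun y => ⟪∇ u y, y - x⟫) (ball x (ρ x)) :=
      (((Unc.continuous_gradient hu.contDiff).inner (by fun_prop)).continuousOn.integrableOn_compact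
        (isCompact_closedBall x (ρ x))).mono_set ball_subset_closedBall
    simp only [inner_add_right, real_inner_smul_right]
    rw [integral_add i1 (i2.const_mul _), integral_const_mul]
    simp only [real_inner_comm v]
    ring
  have hMb : c.Mb < n' := by
    have := hok.hMb
    have h2 : C0 d < botOff d := by unfold botOff; omega
    omega
  have hmain := hP c x (c.edir R) w (ρ x) n' hok hr0 hMb hn'N h2r hup hw (norm_edir hR)
    (fun m k _ hm h => coherent_ball hd1 hn'N hg hroot hnbr hm h) Cl' hCl'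
  rw [← hG] at hmain
  calc lossV Cl' (c.edir R) G
      = (ω * ω⁻¹) * (ENNReal.ofReal ((((2 : ℝ) ^ n) ^ d)⁻¹) * ENNReal.ofReal (((2 : ℝ) ^ n) ^ d))
          * lossV Cl' (c.edir R) G := by
        rw [ENNReal.mul_inv_cancel hω0 hωt, ofReal_inv_mul_scale, one_mul, one_mul]
    _ = ω⁻¹ * ENNReal.ofReal ((((2 : ℝ) ^ n) ^ d)⁻¹)
          * (ENNReal.ofReal (((2 : ℝ) ^ n) ^ d) * ω * lossV Cl' (c.edir R) G) := by ring
    _ ≤ ω⁻¹ * ENNReal.ofReal ((((2 : ℝ) ^ n) ^ d)⁻¹)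
          * (ENNReal.ofReal Cl' * C * c.cutS x (ρ x) n') :=
        mul_le_mul' le_rfl ((mul_le_mul' (volume_ball_lb x hn1) le_rfl).trans hmain)
    _ = _ := by rw [div_eq_mul_inv]; ring

end Cfg

/-! The costs and totals do not depend on the finest scale. -/

theorem rootAux_setM (c : Cfg d) (m : ℤ) : ∀ (j : ℕ) (k : Fin d → ℤ),
    Cfg.rootAux ⟨c.g, c.t, c.Mb, m, c.N0⟩ j k = c.rootAux j k := by
  intro j
  induction j with
  | zero => intro k; simp only [Cfg.rootAux]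
  | succ j ih => intro k; simp only [Cfg.rootAux, ih]

theorem root_setM (c : Cfg d) (m n : ℤ) (k : Fin d → ℤ) :
    Cfg.root ⟨c.g, c.t, c.Mb, m, c.N0⟩ n k = c.root n k := by
  simp only [Cfg.root, rootAux_setM]

theorem isRoot_setM (c : Cfg d) (m n : ℤ) (k : Fin d → ℤ) :
    Cfg.IsRoot ⟨c.g, c.t, c.Mb, m, c.N0⟩ n k ↔ c.IsRoot n k := by
  simp only [Cfg.IsRoot, root_setM]

theorem isStop_setM (c : Cfg d) (m : ℤ) (R : Cb d) (n : ℤ) (k : Fin d → ℤ) :
    Cfg.IsStop ⟨c.g, c.t, c.Mb, m, c.N0⟩ R n k ↔ c.IsStop R n k := by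
  simp only [Cfg.IsStop, root_setM]

theorem rootW_setM (c : Cfg d) (m : ℤ) (R : Cb d) :
    Cfg.rootW ⟨c.g, c.t, c.Mb, m, c.N0⟩ R = c.rootW R := by
  simp only [Cfg.rootW, isStop_setM]

theorem iw_setM (c : Cfg d) (m n : ℤ) (k : Fin d → ℤ) :
    Cfg.iw ⟨c.g, c.t, c.Mb, m, c.N0⟩ n k = c.iw n k := by
  simp only [Cfg.iw, rootW_setM, isRoot_setM]

theorem totW_setM (c : Cfg d) (m : ℤ) :
    Cfg.totW ⟨c.g, c.t, c.Mb, m, c.N0⟩ = c.totW := by
  simp only [Cfg.totW, iw_setM, rootW_setM, isRoot_setM]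

theorem nU_setM (c : Cfg d) (m : ℤ) (x : E d) (r : ℝ) (n' n : ℤ) (k : Fin d → ℤ) :
    Cfg.NU ⟨c.g, c.t, c.Mb, m, c.N0⟩ x r n' n k ↔ c.NU x r n' n k := by
  simp only [Cfg.NU, Cfg.inside, root_setM]

theorem cutK_setM (c : Cfg d) (m : ℤ) (x : E d) (r : ℝ) (n : ℤ) (k : Fin d → ℤ) :
    Cfg.cutK ⟨c.g, c.t, c.Mb, m, c.N0⟩ x r n k ↔ c.cutK x r n k := Iff.rfl

theorem nu_setM (c : Cfg d) (m : ℤ) (x : E d) (r : ℝ) (n' : ℤ) :
    Cfg.nu ⟨c.g, c.t, c.Mb, m, c.N0⟩ x r n' = c.nu x r n' := by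
  simp only [Cfg.nu, nU_setM]

theorem cutS_setM (c : Cfg d) (m : ℤ) (x : E d) (r : ℝ) (n' : ℤ) :
    Cfg.cutS ⟨c.g, c.t, c.Mb, m, c.N0⟩ x r n' = c.cutS x r n' := by
  simp only [Cfg.cutS, iw_setM, cutK_setM]

theorem cost_setM (c : Cfg d) (m : ℤ) (x : E d) (r : ℝ) (n' : ℤ) :
    Cfg.cost ⟨c.g, c.t, c.Mb, m, c.N0⟩ x r n' = c.cost x r n' := by
  simp only [Cfg.cost, Cfg.wtp, Cfg.cutG, nU_setM, iw_setM, cutK_setM]

theorem loud_setM (c : Cfg d) (m : ℤ) (κ : ℝ) (x : E d) (r : ℝ) (n' : ℤ) :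
    Cfg.Loud ⟨c.g, c.t, c.Mb, m, c.N0⟩ κ x r n' ↔ c.Loud κ x r n' := by
  simp only [Cfg.Loud, nu_setM, cutS_setM]

theorem scaleCost_setM (c : Cfg d) (m : ℤ) (κ : ℝ) (n : ℤ) (x : E d) :
    Cfg.scaleCost ⟨c.g, c.t, c.Mb, m, c.N0⟩ κ n x = c.scaleCost κ n x := by
  simp only [Cfg.scaleCost, loud_setM, cost_setM]

/-- The interior maximisers of the trees, summed over trees and scales. -/
theorem interior_total (hd : 2 ≤ d) {Cl1 κ : ℝ} {C1 : ℝ≥0∞} (hκ : 0 < κ) (hC1 : C1 ≠ ⊤)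
    (hint : ∀ (c : Cfg d) (u : E d → ℝ) (R : Cb d) (x : E d) (n : ℤ),
      c.Ok → Smooth u → c.Tree R → (∀ y ∈ qcube c.t R.1 R.2, c.g y = ∇ u y) →
      x ∈ c.scaleSet u R n →
      c.M - (C0 d : ℤ) ≤ n ∧ n ≤ c.N0 ∧ R ∈ c.cand x n ∧
      ENNReal.ofReal (((2 : ℝ) ^ n) ^ d) * lossV Cl1 (c.edir R) (∇ (c.UR u R) x)
        ≤ C1 * c.scaleCost κ n x) :
    ∃ C : ℝ≥0∞, C ≠ ⊤ ∧ ∀ (c : Cfg d) (u : E d → ℝ) (P : Set (Cb d)), c.Ok →
      c.Mb + (botOff d : ℤ) + C0 d ≤ c.M →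
      Smooth u → (∀ R ∈ P, c.Tree R ∧ ∀ y ∈ qcube c.t R.1 R.2, c.g y = ∇ u y) →
      ∑' R : Cb d, (if R ∈ P then
          ∑ n ∈ Finset.Icc (c.M - (C0 d : ℤ)) c.N0,
            ∫⁻ x in c.scaleSet u R n, lossV Cl1 (c.edir R) (∇ (c.UR u R) x) else 0)
        ≤ C * c.totW := by
  have hd1 : 1 ≤ d := le_trans one_le_two hd
  obtain ⟨Cs, hCs, hseg⟩ := segment_bound hd hκ
  set NC : ℝ≥0∞ := ((candOff d).card : ℝ≥0∞)
  set B : ℝ≥0∞ := C1 * NC + 1
  have hB : B ≠ ⊤ := ENNReal.add_ne_top.2 ⟨ENNReal.mul_ne_top hC1 (ENNReal.natCast_ne_top _),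
    ENNReal.one_ne_top⟩
  have hB0 : B ≠ 0 := by simp [B]
  refine ⟨B * Cs, ENNReal.mul_ne_top hB hCs, ?_⟩
  intro c u P hok hbot hu hP
  set Ns := Finset.Icc (c.M - (C0 d : ℤ)) c.N0
  set Φ : Cb d → ℤ → E d → ℝ≥0∞ := fun R n => if R ∈ P then
    (c.scaleSet u R n).indicator fun x => lossV Cl1 (c.edir R) (∇ (c.UR u R) x) else fun _ => 0
    with hΦ
  have hΦ0 : ∀ R n x, Φ R n x ≠ 0 → R ∈ P ∧ x ∈ c.scaleSet u R n := fun R n x h => by
    by_cases hR : R ∈ P
    · refine ⟨hR, ?_⟩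
      by_contra hx
      simp only [hΦ, if_pos hR, indicator_of_notMem hx] at h
      exact h rfl
    · simp only [hΦ, if_neg hR] at h
      exact absurd rfl h
  have hΦm : ∀ R n, Measurable (Φ R n) := fun R n => by
    by_cases hR : R ∈ P
    · simp only [hΦ, if_pos hR]
      exact ((measurable_lossV _ _).comp (Unc.measurable_gradient' _)).indicator
        (Cfg.measurableSet_scaleSet hu hd1 (hP R hR).1 n)
    · simp only [hΦ, if_neg hR]
      exact measurable_const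
  set F : ℤ → E d → ℝ≥0∞ := fun n x =>
    ENNReal.ofReal (((2 : ℝ) ^ n) ^ d) * B⁻¹ * ∑' R : Cb d, Φ R n x with hFdef
  have hFm : ∀ n, Measurable (F n) := fun n =>
    (Measurable.tsum fun R => hΦm R n).const_mul _
  set c' : Cfg d := ⟨c.g, c.t, c.Mb, c.M - (C0 d : ℤ), c.N0⟩ with hc'
  have hok' : c'.Ok := ⟨hok.integrable, hok.supp,
    show c.Mb + (botOff d : ℤ) ≤ c.M - (C0 d : ℤ) by omega,
    show c.M - (C0 d : ℤ) ≤ c.N0 by have := hok.hM; omega⟩
  have hF : ∀ n x, F n x ≤ c'.scaleCost κ n x := fun n x => by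
    rw [hc', scaleCost_setM]
    have h1 : ∑' R : Cb d, ENNReal.ofReal (((2 : ℝ) ^ n) ^ d) * Φ R n x
        ≤ B * c.scaleCost κ n x := by
      rw [tsum_eq_sum (s := c.cand x n) fun R hR => by
        by_contra h
        obtain ⟨hRP, hx⟩ := hΦ0 R n x fun h0 => h (by rw [h0, mul_zero])
        exact hR (hint c u R x n hok hu (hP R hRP).1 (hP R hRP).2 hx).2.2.1]
      refine (Finset.sum_le_card_nsmul _ _ (C1 * c.scaleCost κ n x) fun R _ => ?_).trans ?_
      · by_cases h : Φ R n x = 0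
        · rw [h, mul_zero]; exact zero_le
        obtain ⟨hRP, hx⟩ := hΦ0 R n x h
        simp only [hΦ, if_pos hRP, indicator_of_mem hx]
        exact (hint c u R x n hok hu (hP R hRP).1 (hP R hRP).2 hx).2.2.2
      · rw [nsmul_eq_mul]
        calc ((c.cand x n).card : ℝ≥0∞) * (C1 * c.scaleCost κ n x)
            ≤ NC * (C1 * c.scaleCost κ n x) := by
              refine mul_le_mul' ?_ le_rfl
              exact Nat.cast_le.2 (Cfg.card_cand_le c x n)
          _ = C1 * NC * c.scaleCost κ n x := by ring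
          _ ≤ _ := mul_le_mul' le_self_add le_rfl
    rw [ENNReal.tsum_mul_left] at h1
    calc F n x = B⁻¹ * (ENNReal.ofReal (((2 : ℝ) ^ n) ^ d) * ∑' R : Cb d, Φ R n x) := by
          simp only [hFdef]; ring
      _ ≤ B⁻¹ * (B * c.scaleCost κ n x) := mul_le_mul' le_rfl h1
      _ = _ := by rw [← mul_assoc, ENNReal.inv_mul_cancel hB0 hB, one_mul]
  have hmain : ∑ n ∈ Ns, ENNReal.ofReal ((((2 : ℝ) ^ n) ^ d)⁻¹) * ∫⁻ x, F n x ≤ Cs * c.totW := by
    rw [← totW_setM c (c.M - (C0 d : ℤ))]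
    exact hseg c' F hok' hFm hF
  calc _ = ∑' R : Cb d, ∑ n ∈ Ns, ∫⁻ x, Φ R n x := tsum_congr fun R => by
        by_cases hR : R ∈ P
        · simp only [hΦ, if_pos hR]
          exact Finset.sum_congr rfl fun n _ =>
            (lintegral_indicator (Cfg.measurableSet_scaleSet hu hd1 (hP R hR).1 n) _).symm
        · simp only [hΦ, if_neg hR, lintegral_zero, Finset.sum_const_zero]
    _ = ∑ n ∈ Ns, B * (ENNReal.ofReal ((((2 : ℝ) ^ n) ^ d)⁻¹) * ∫⁻ x, F n x) := by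
        rw [Summable.tsum_finsetSum fun _ _ => ENNReal.summable]
        refine Finset.sum_congr rfl fun n _ => ?_
        simp only [hFdef]
        rw [lintegral_const_mul _ (Measurable.tsum fun R => hΦm R n),
          lintegral_tsum fun R => (hΦm R n).aemeasurable]
        calc ∑' R : Cb d, ∫⁻ x, Φ R n x
            = (ENNReal.ofReal ((((2 : ℝ) ^ n) ^ d)⁻¹) * ENNReal.ofReal (((2 : ℝ) ^ n) ^ d))
                * (B * B⁻¹) * ∑' R : Cb d, ∫⁻ x, Φ R n x := by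
              rw [ofReal_inv_mul_scale, ENNReal.mul_inv_cancel hB0 hB, one_mul, one_mul]
          _ = _ := by ring
    _ ≤ _ := by rw [← Finset.mul_sum, mul_assoc]; exact mul_le_mul' le_rfl hmain

/-- The endpoint term of one tree. -/
def edgeT (c : Cfg d) (ρ : Cb d → E d → ℝ) (R : Cb d) (x : E d) : ℝ≥0∞ :=
  ∑ n ∈ Finset.Icc (c.M - (C0 d : ℤ)) c.N0,
    (if 0 < c.zeta R x ∧ (2 : ℝ) ^ n ≤ ρ R x ∧ ρ R x < (2 : ℝ) ^ (n + 1) then
      ENNReal.ofReal ((((2 : ℝ) ^ n) ^ d)⁻¹) * c.cutS x (ρ R x) (min (n + (C0 d : ℤ)) R.1) else 0)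

theorem measurable_edgeT {c : Cfg d} {R : Cb d} (hT : c.Tree R) {ρ : Cb d → E d → ℝ}
    (hc : Continuous (ρ R)) : Measurable (edgeT c ρ R) := by
  refine Finset.measurable_sum _ fun n _ => Measurable.ite ?_ ?_ measurable_const
  · exact (measurableSet_lt measurable_const (Cfg.continuous_zeta hT).measurable).inter
      ((measurableSet_le measurable_const hc.measurable).inter
        (measurableSet_lt hc.measurable measurable_const))
  · unfold Cfg.cutS
    refine Measurable.const_mul (Finset.measurable_sum _ fun l _ => Measurable.tsum fun k => ?_) _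
    refine Measurable.ite ?_ measurable_const measurable_const
    exact measurableSet_le
      ((((continuous_id.sub continuous_const).norm).sub hc).abs).measurable measurable_const

theorem ae_differentiable_theta (hd : 1 ≤ d) {ρ : E d → ℝ}
    (h : ∀ y y', |ρ y - ρ y'| ≤ theta d * ‖y - y'‖) : ∀ᵐ x, DifferentiableAt ℝ ρ x :=
  (LipschitzWith.of_dist_le_mul (K := (theta d).toNNReal) fun y y' => by
    rw [Real.coe_toNNReal _ (theta_pos hd).le, Real.dist_eq, dist_eq_norm]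
    exact h y y').ae_differentiableAt

open Cfg in
/-- The total loss of the trees. -/
theorem loss_total_trees (hd : 2 ≤ d) : ∃ Cl : ℝ, ∃ C : ℝ≥0∞, 0 < Cl ∧ C ≠ ⊤ ∧
    ∀ (c : Cfg d) (u : E d → ℝ) (P : Set (Cb d)), c.Ok → c.Mb + (botOff d : ℤ) + C0 d ≤ c.M →
      Smooth u → (∀ R ∈ P, c.Tree R ∧ ∀ y ∈ qcube c.t R.1 R.2, c.g y = ∇ u y) →
      ∑' R : Cb d, (if R ∈ P then
          ∫⁻ x in {x | 0 < c.zeta R x}, lossV Cl (c.edir R) (∇ (c.UR u R) x) else 0)
        ≤ C * c.totW := by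
  have hd1 : 1 ≤ d := le_trans one_le_two hd
  obtain ⟨Cl1, κ, C1, hCl1, hκ, hC1, hint⟩ := Cfg.interior_loss hd
  obtain ⟨Cl2, hCl2, hend⟩ := Cfg.endpoint_loss hd
  set Cl := max Cl1 Cl2
  obtain ⟨C2, hC2, hend⟩ := hend Cl (le_max_right _ _)
  obtain ⟨Ci, hCi, hinttot⟩ := interior_total hd hκ hC1 hint
  obtain ⟨Ce, hCe, hedge⟩ := edge_total hd
  set q := ENNReal.ofReal (Cl / Cl1)
  refine ⟨Cl, q * Ci + (C2 * Ce + C2 * Ce), lt_of_lt_of_le hCl1 (le_max_left _ _),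
    ENNReal.add_ne_top.2 ⟨ENNReal.mul_ne_top ENNReal.ofReal_ne_top hCi, ENNReal.add_ne_top.2
      ⟨ENNReal.mul_ne_top hC2 hCe, ENNReal.mul_ne_top hC2 hCe⟩⟩, ?_⟩
  intro c u P hok hbot hu hP
  set Ns := Finset.Icc (c.M - (C0 d : ℤ)) c.N0
  have hth : theta d ≤ 1 / 2 := by linarith [theta_le hd1]
  have hlo_tot : ∑' R : Cb d, (if R ∈ P then ∫⁻ x, edgeT c c.rlo R x else 0) ≤ Ce * c.totW :=
    hedge c P c.rlo (fun R h => (hP R h).1) (fun R h x => ⟨le_rfl, rlo_le_rhi c R x⟩)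
      fun R h x x' => (abs_rlo_sub_le hd1 (hP R h).1 x x').trans
        ((mul_le_mul_of_nonneg_right hth (norm_nonneg _)).trans_eq (by ring))
  have hhi_tot : ∑' R : Cb d, (if R ∈ P then ∫⁻ x, edgeT c c.rhi R x else 0) ≤ Ce * c.totW :=
    hedge c P c.rhi (fun R h => (hP R h).1) (fun R h x => ⟨rlo_le_rhi c R x, le_rfl⟩)
      fun R h x x' => (abs_rhi_sub_le hd1 (hP R h).1 x x').trans
        ((mul_le_mul_of_nonneg_right hth (norm_nonneg _)).trans_eq (by ring))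
  have hR : ∀ R : Cb d, (if R ∈ P then
        ∫⁻ x in {x | 0 < c.zeta R x}, lossV Cl (c.edir R) (∇ (c.UR u R) x) else 0)
      ≤ q * (if R ∈ P then ∑ n ∈ Ns, ∫⁻ x in c.scaleSet u R n,
            lossV Cl1 (c.edir R) (∇ (c.UR u R) x) else 0)
        + (C2 * (if R ∈ P then ∫⁻ x, edgeT c c.rlo R x else 0)
        + C2 * (if R ∈ P then ∫⁻ x, edgeT c c.rhi R x else 0)) := by
    intro R
    by_cases hRP : R ∈ P
    swap
    · rw [if_neg hRP]; exact zero_le
    simp only [if_pos hRP]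
    obtain ⟨hT, hgu⟩ := hP R hRP
    obtain ⟨K, hK⟩ := lipschitz_UR hu hd1 hT
    set f : E d → ℝ≥0∞ := fun x => lossV Cl1 (c.edir R) (∇ (c.UR u R) x)
    have hfm : ∀ n, Measurable ((c.scaleSet u R n).indicator f) := fun n =>
      ((measurable_lossV _ _).comp (Unc.measurable_gradient' _)).indicator
        (measurableSet_scaleSet hu hd1 hT n)
    have hae : ∀ᵐ x ∂volume, x ∈ {x | 0 < c.zeta R x} →
        lossV Cl (c.edir R) (∇ (c.UR u R) x)
          ≤ q * (∑ n ∈ Ns, (c.scaleSet u R n).indicator f x)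
            + (C2 * edgeT c c.rlo R x + C2 * edgeT c c.rhi R x) := by
      filter_upwards [hK.ae_differentiableAt, ae_differentiable_theta hd1 (abs_rlo_sub_le hd1 hT),
        ae_differentiable_theta hd1 (abs_rhi_sub_le hd1 hT)] with x hxU hxlo hxhi hz
      have hlo0 := rlo_pos hd1 hT x
      have hhi0 := lt_of_lt_of_le hlo0 (rlo_le_rhi c R x)
      by_cases h1 : nAvg u x (c.rlo R x) = c.UR u R x
      · refine le_add_left (le_add_right ?_)
        exact hend c u R (c.rlo R) x hok hu hT hgu (fun y => ⟨le_rfl, rlo_le_rhi c R y⟩)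
          (abs_rlo_sub_le hd1 hT) hz hxU hxlo (by rw [Unc.ballAvg_eq_nAvg u x hlo0, h1])
      by_cases h2 : nAvg u x (c.rhi R x) = c.UR u R x
      · refine le_add_left (le_add_left ?_)
        exact hend c u R (c.rhi R) x hok hu hT hgu (fun y => ⟨rlo_le_rhi c R y, le_rfl⟩)
          (abs_rhi_sub_le hd1 hT) hz hxU hxhi (by rw [Unc.ballAvg_eq_nAvg u x hhi0, h2])
      obtain ⟨r, hr, e, -⟩ := exists_UR hu hd1 hT x
      have hr0 : 0 < r := lt_of_lt_of_le hlo0 hr.1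
      set n := Int.log 2 r
      have hx : x ∈ c.scaleSet u R n := ⟨hz, hxU, h1, h2, r,
        ⟨Int.zpow_log_le_self one_lt_two hr0, (Int.lt_zpow_succ_log_self one_lt_two r).le⟩,
        hr.1, hr.2, by rw [← Unc.ballAvg_eq_nAvg u x hr0, ← e]⟩
      obtain ⟨a1, a2, -, -⟩ := hint c u R x n hok hu hT hgu hx
      refine le_add_right ((lossV_mono hCl1 (le_max_left _ _) _ _).trans
        (mul_le_mul' le_rfl (le_trans (le_of_eq (indicator_of_mem hx f).symm)
          (Finset.single_le_sum (f := fun n => (c.scaleSet u R n).indicator f x)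
            (fun _ _ => zero_le) (Finset.mem_Icc.2 ⟨a1, a2⟩)))))
    have m1 : Measurable (edgeT c c.rlo R) := measurable_edgeT hT (continuous_rlo hT)
    have m2 : Measurable (edgeT c c.rhi R) := measurable_edgeT hT (continuous_rhi hT)
    have m0 := Finset.measurable_sum Ns fun n _ => hfm n
    have hzm : MeasurableSet {x | 0 < c.zeta R x} :=
      measurableSet_lt measurable_const (continuous_zeta hT).measurable
    refine (setLIntegral_mono_ae' hzm hae).trans ((setLIntegral_le_lintegral _ _).trans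
      (le_of_eq ?_))
    rw [lintegral_add_left (m0.const_mul _), lintegral_const_mul _ m0,
      lintegral_finsetSum _ fun n _ => hfm n, lintegral_add_left (m1.const_mul _),
      lintegral_const_mul _ m1, lintegral_const_mul _ m2]
    congr 2
    exact Finset.sum_congr rfl fun n _ =>
      lintegral_indicator (measurableSet_scaleSet hu hd1 hT n) _
  refine (ENNReal.tsum_le_tsum hR).trans ?_
  rw [ENNReal.tsum_add, ENNReal.tsum_add, ENNReal.tsum_mul_left, ENNReal.tsum_mul_left,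
    ENNReal.tsum_mul_left]
  calc _ ≤ q * (Ci * c.totW) + (C2 * (Ce * c.totW) + C2 * (Ce * c.totW)) :=
        add_le_add (mul_le_mul' le_rfl (hinttot c u P hok hbot hu hP))
          (add_le_add (mul_le_mul' le_rfl hlo_tot) (mul_le_mul' le_rfl hhi_tot))
    _ = _ := by ring

end

end Vale.Agent.P137.Cen
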