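import Vale.Agent.P137.Cen.Potential
import Vale.Agent.P137.Unc.Dyadic

/-!
# P137, centred operator: descendants and translations in the shifted grids
-/

open MeasureTheory Metric Set
open scoped ENNReal RealInnerProductSpace

namespace Vale.Agent.P137.Cen

open Vale.Agent.P137.Unc (E window cube ctr side)

noncomputable section

variable {d : ℕ}

/-- The vector `2 ^ n • k`. -/
def qvec (n : ℤ) (k : Fin d → ℤ) : E d := WithLp.toLp 2 fun i => (2 : ℝ) ^ n * (k i : ℝ)

/-- The descendants of cube `k` that are `j` levels lower. -/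
def desc (j : ℕ) (k : Fin d → ℤ) (b : Fin d → Fin (2 ^ j)) : Fin d → ℤ :=
  fun i => (2 : ℤ) ^ j * k i + ((b i : ℕ) : ℤ)

@[simp] theorem qvec_apply (n : ℤ) (k : Fin d → ℤ) (i : Fin d) :
    qvec n k i = (2 : ℝ) ^ n * (k i : ℝ) := rfl

theorem measurableSet_qcube (t : E d) (n : ℤ) (k : Fin d → ℤ) : MeasurableSet (qcube t n k) :=
  Unc.measurableSet_window

theorem disjoint_qcube (t : E d) (n : ℤ) {k k' : Fin d → ℤ} (h : k ≠ k') :
    Disjoint (qcube t n k) (qcube t n k') :=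
  Set.disjoint_left.2 fun _ hy hy' => h ((mem_qcube_iff.1 hy).symm.trans (mem_qcube_iff.1 hy'))

theorem iUnion_qcube (t : E d) (n : ℤ) : ⋃ k, qcube t n k = univ :=
  eq_univ_of_forall fun _ => mem_iUnion.2 ⟨_, mem_qcube_iff.2 rfl⟩

theorem qcorn_eq (t : E d) (n : ℤ) (k : Fin d → ℤ) : qcorn t n k = t + qvec n k := by
  ext i; simp [qcorn]

/-- Descendants are the cubes of a window. -/
theorem qcube_desc (t : E d) (n : ℤ) (j : ℕ) (k : Fin d → ℤ) (b : Fin d → Fin (2 ^ j)) :
    qcube t (n - j) (desc j k b) = cube (qcorn t n k) ((2 : ℝ) ^ n) j b := by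
  have hs : side ((2 : ℝ) ^ n) j = (2 : ℝ) ^ (n - j) := by
    rw [side, zpow_sub₀ (two_ne_zero (α := ℝ)), zpow_natCast]
  have hp : (2 : ℝ) ^ n = (2 : ℝ) ^ (n - j) * 2 ^ j := by
    rw [← zpow_natCast, ← zpow_add₀ (two_ne_zero (α := ℝ)), sub_add_cancel]
  ext y
  refine forall_congr' fun i => ?_
  simp only [qcorn, hs, desc]
  push_cast
  rw [hp]
  constructor <;> intro h <;> constructor <;> linarith [h.1, h.2]

theorem qctr_desc (t : E d) (n : ℤ) (j : ℕ) (k : Fin d → ℤ) (b : Fin d → Fin (2 ^ j)) :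
    qctr t (n - j) (desc j k b) = ctr (qcorn t n k) ((2 : ℝ) ^ n) j b := by
  have hs : side ((2 : ℝ) ^ n) j = (2 : ℝ) ^ (n - j) := by
    rw [side, zpow_sub₀ (two_ne_zero (α := ℝ)), zpow_natCast]
  have hp : (2 : ℝ) ^ n = (2 : ℝ) ^ (n - j) * 2 ^ j := by
    rw [← zpow_natCast, ← zpow_add₀ (two_ne_zero (α := ℝ)), sub_add_cancel]
  ext i
  simp only [qctr, ctr, qcorn, hs, desc]
  push_cast
  rw [hp]
  ring

theorem desc_one (k : Fin d → ℤ) (b : Fin d → Fin 2) : desc 1 k b = kid k b := by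
  funext i; simp [desc, kid]

theorem qcube_shift (t : E d) (n : ℤ) (m k : Fin d → ℤ) :
    qcube (t + qvec n m) n k = qcube t n (m + k) := by
  ext y
  refine forall_congr' fun i => ?_
  simp only [qcorn, PiLp.add_apply, qvec_apply, Pi.add_apply]
  push_cast
  constructor <;> intro h <;> constructor <;> linarith [h.1, h.2]

theorem qvec_two_pow (n : ℤ) (j : ℕ) (m : Fin d → ℤ) :
    qvec (n + j) m = qvec n (fun i => (2 : ℤ) ^ j * m i) := by
  ext i
  simp only [qvec_apply]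
  rw [zpow_add₀ (two_ne_zero (α := ℝ)), zpow_natCast]
  push_cast
  ring

/-- Cubes of level `n - j` are the descendants of the cubes of level `n`. -/
def descEquiv (d j : ℕ) : (Fin d → ℤ) × (Fin d → Fin (2 ^ j)) ≃ (Fin d → ℤ) :=
  haveI : NeZero (2 ^ j) := ⟨pow_ne_zero _ two_ne_zero⟩
  (Equiv.arrowProdEquivProdArrow _ _ _).symm.trans
    (Equiv.piCongrRight fun _ => (Int.divModEquiv (2 ^ j)).symm)

theorem descEquiv_apply (d j : ℕ) (k : Fin d → ℤ) (b : Fin d → Fin (2 ^ j)) :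
    descEquiv d j (k, b) = desc j k b := by
  funext i
  simp [descEquiv, desc, Equiv.piCongrRight, Equiv.arrowProdEquivProdArrow, Int.divModEquiv]
  ring

end

end Vale.Agent.P137.Cen
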