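import Vale.Agent.P137.Cen.Defs

/-!
# P137, centred operator: calculus of ball averages and of the centred maximal function
-/

open MeasureTheory Metric Set Filter Topology
open scoped ENNReal NNReal RealInnerProductSpace Gradient

namespace Vale.Agent.P137.Cen

open Vale.Agent.P137.Unc

noncomputable section

variable {d : ℕ} {u : E d → ℝ}

/-- The derivative of the ball average in centre and radius. -/
theorem hasFDerivAt_ballAvg (hu : Smooth u) (hd : 1 ≤ d) (x : E d) {r : ℝ} (hr : 0 < r) :
    ∃ L : E d × ℝ →L[ℝ] ℝ, HasFDerivAt (fun p : E d × ℝ => ballAvg u p.1 p.2) L (x, r) ∧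
      ∀ (v : E d) (h : ℝ), L (v, h) = (volume.real (ball x r))⁻¹ *
        ((∫ y in ball x r, ⟪∇ u y, v⟫) + h / r * ∫ y in ball x r, ⟪∇ u y, y - x⟫) := by
  have _ := hd
  have hd1 : Continuous (fderiv ℝ u) := hu.contDiff.continuous_fderiv one_ne_zero
  set μ := volume.restrict (closedBall (0 : E d) 1)
  let D : E d × ℝ → E d → (E d × ℝ →L[ℝ] ℝ) := fun p w =>
    (fderiv ℝ u (p.1 + p.2 • w)).comp
      (ContinuousLinearMap.fst ℝ (E d) ℝ + (ContinuousLinearMap.snd ℝ (E d) ℝ).smulRight w)
  have hDc : Continuous fun q : (E d × ℝ) × E d => D q.1 q.2 := by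
    refine (hd1.comp (by fun_prop : Continuous fun q : (E d × ℝ) × E d =>
      q.1.1 + q.1.2 • q.2)).clm_comp ?_
    exact continuous_const.add
      ((ContinuousLinearMap.smulRightL ℝ (E d × ℝ) (E d)
        (ContinuousLinearMap.snd ℝ (E d) ℝ)).continuous.comp continuous_snd)
  obtain ⟨C, hC⟩ := ((isCompact_closedBall (x, r) 1).prod
    (isCompact_closedBall (0 : E d) 1)).exists_bound_of_continuousOn hDc.continuousOn
  have hDi : Integrable (fun w => D (x, r) w) μ :=
    (hDc.comp (Continuous.prodMk_right (x, r))).continuousOn.integrableOn_compact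
      (isCompact_closedBall 0 1)
  have hI : HasFDerivAt (fun p : E d × ℝ => ∫ w, u (p.1 + p.2 • w) ∂μ) (∫ w, D (x, r) w ∂μ) (x, r) := by
    refine hasFDerivAt_integral_of_dominated_of_fderiv_le (bound := fun _ => C) (F' := D)
      (closedBall_mem_nhds (x, r) one_pos) ?_ ?_ ?_ ?_ ?_ ?_
    · exact Eventually.of_forall fun p => (hu.contDiff.continuous.comp
        (by fun_prop : Continuous fun w : E d => p.1 + p.2 • w)).aestronglyMeasurable
    · exact (hu.contDiff.continuous.comp
        (by fun_prop : Continuous fun w : E d => x + r • w)).continuousOn.integrableOn_compact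
        (isCompact_closedBall 0 1)
    · exact hDi.aestronglyMeasurable
    · exact (ae_restrict_mem measurableSet_closedBall).mono fun w hw p hp => hC (p, w) ⟨hp, hw⟩
    · exact integrableOn_const measure_closedBall_lt_top.ne
    · refine Eventually.of_forall fun w p _ => ?_
      have h1 : HasFDerivAt (fun p : E d × ℝ => p.1 + p.2 • w)
          (ContinuousLinearMap.fst ℝ (E d) ℝ + (ContinuousLinearMap.snd ℝ (E d) ℝ).smulRight w) p :=
        (ContinuousLinearMap.fst ℝ (E d) ℝ
          + (ContinuousLinearMap.snd ℝ (E d) ℝ).smulRight w).hasFDerivAt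
      exact ((hu.contDiff.differentiable one_ne_zero _).hasFDerivAt).comp p h1
  refine ⟨(volume.real (ball (0 : E d) 1))⁻¹ • ∫ w, D (x, r) w ∂μ, ?_, fun v h => ?_⟩
  · refine (hI.const_mul (volume.real (ball (0 : E d) 1))⁻¹).congr_of_eventuallyEq ?_
    filter_upwards [(continuous_snd.tendsto (x, r)).eventually (lt_mem_nhds hr)] with p hp
    exact ballAvg_eq_nAvg u p.1 hp
  · rw [smul_apply, ContinuousLinearMap.integral_apply hDi, smul_eq_mul]
    have e : ∀ w : E d, D (x, r) w (v, h)
        = (fun y => ⟪∇ u y, v⟫ + h / r * ⟪∇ u y, y - x⟫) (x + r • w) := fun w => by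
      simp only [D, ContinuousLinearMap.comp_apply, add_apply,
        ContinuousLinearMap.coe_fst', ContinuousLinearMap.smulRight_apply,
        ContinuousLinearMap.coe_snd', map_add, map_smul, smul_eq_mul, inner_grad, add_sub_cancel_left]
      field_simp
    simp only [e]
    rw [setIntegral_scale (fun y => ⟪∇ u y, v⟫ + h / r * ⟪∇ u y, y - x⟫) x hr,
      setIntegral_closedBall_eq _ _ hr]
    have hb : ∀ f : E d → E d, Continuous f → IntegrableOn (fun y => ⟪∇ u y, f y⟫) (ball x r) := by
      intro f hf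
      have : Continuous fun y => ⟪∇ u y, f y⟫ := by
        simp only [inner_grad]; fun_prop
      exact (this.continuousOn.integrableOn_compact (isCompact_closedBall x r)).mono_set
        ball_subset_closedBall
    rw [integral_add (hb _ continuous_const) ((hb (fun y => y - x) (by fun_prop)).const_mul _),
      integral_const_mul, volume_real_ball x hr, mul_inv]
    ring

/-- An infinitesimal rotation about the centre does not change a ball average. -/
theorem setIntegral_skew (hu : Smooth u) (x : E d) {r : ℝ} (hr : 0 < r)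
    (A : E d →L[ℝ] E d) (hA : ∀ v w : E d, ⟪A v, w⟫ = -⟪v, A w⟫) :
    ∫ y in ball x r, ⟪∇ u y, A (y - x)⟫ = 0 := by
  have hd1 : Continuous (fderiv ℝ u) := hu.contDiff.continuous_fderiv one_ne_zero
  set R : ℝ → (E d →L[ℝ] E d) := fun s => NormedSpace.exp (s • A) with hR
  have hR' : ∀ s, HasDerivAt R (A * R s) s := fun s => hasDerivAt_exp_smul_const' A s
  have hRc : Continuous R := continuous_iff_continuousAt.2 fun s => (hR' s).continuousAt
  have hR0 : R 0 = 1 := by
    show NormedSpace.exp ((0 : ℝ) • A) = 1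
    have h00 : (0 : ℝ) • A = 0 := ContinuousLinearMap.ext fun w => zero_smul ℝ (A w)
    rw [h00, NormedSpace.exp_zero]
  have hder : ∀ w s, HasDerivAt (fun s => R s w) (A (R s w)) s := fun w s =>
    ((ContinuousLinearMap.apply ℝ (E d) w).hasFDerivAt.comp_hasDerivAt s (hR' s))
  have hnorm : ∀ w s, ‖R s w‖ = ‖w‖ := by
    intro w s
    have hz : ∀ s, HasDerivAt (fun s => ⟪R s w, R s w⟫) 0 s := fun s => by
      refine ((hder w s).inner ℝ (hder w s)).congr_deriv ?_
      rw [hA (R s w) (R s w), real_inner_comm (A (R s w))]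
      ring
    have := is_const_of_deriv_eq_zero (fun s => (hz s).differentiableAt) (fun s => (hz s).deriv) s 0
    simp only [hR0, one_apply_eq_self, real_inner_self_eq_norm_sq] at this
    exact (sq_eq_sq₀ (norm_nonneg _) (norm_nonneg _)).1 this
  set μ := volume.restrict (closedBall (0 : E d) r)
  have hconst : ∀ s, ∫ w, u (x + R s w) ∂μ = ∫ w, u (x + w) ∂μ := by
    intro s
    let T : E d ≃ₗᵢ[ℝ] E d :=
      LinearIsometry.toLinearIsometryEquiv { toLinearMap := (R s).toLinearMap, norm_map' := fun w => hnorm w s } rfl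
    have hT : ∀ w, T w = R s w := fun w => rfl
    have := T.measurePreserving.setIntegral_preimage_emb T.toHomeomorph.measurableEmbedding
      (fun w => u (x + w)) (closedBall (0 : E d) r)
    have hpre : T ⁻¹' closedBall (0 : E d) r = closedBall 0 r := by
      ext w; simp
    rw [hpre] at this
    simpa only [hT] using this
  obtain ⟨C, hC⟩ := ((isCompact_closedBall (0 : ℝ) 1).prod
    (isCompact_closedBall (0 : E d) r)).exists_bound_of_continuousOn
    (f := fun q : ℝ × E d => fderiv ℝ u (x + R q.1 q.2) (A (R q.1 q.2))) (by fun_prop)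
  have hI : HasDerivAt (fun s => ∫ w, u (x + R s w) ∂μ)
      (∫ w, fderiv ℝ u (x + R 0 w) (A (R 0 w)) ∂μ) 0 := by
    refine (hasDerivAt_integral_of_dominated_loc_of_deriv_le (bound := fun _ => C)
      (F' := fun s w => fderiv ℝ u (x + R s w) (A (R s w)))
      (closedBall_mem_nhds (0 : ℝ) one_pos) ?_ ?_ ?_ ?_ ?_ ?_).2
    · exact Eventually.of_forall fun t => (hu.contDiff.continuous.comp
        (by fun_prop : Continuous fun w : E d => x + R t w)).aestronglyMeasurable
    · exact (hu.contDiff.continuous.comp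
        (by fun_prop : Continuous fun w : E d => x + R 0 w)).continuousOn.integrableOn_compact
        (isCompact_closedBall 0 r)
    · exact (by fun_prop : Continuous fun w : E d =>
        fderiv ℝ u (x + R 0 w) (A (R 0 w))).aestronglyMeasurable
    · exact (ae_restrict_mem measurableSet_closedBall).mono fun w hw t ht => hC (t, w) ⟨ht, hw⟩
    · exact integrableOn_const measure_closedBall_lt_top.ne
    · exact Eventually.of_forall fun w t _ =>
        ((hu.contDiff.differentiable one_ne_zero _).hasFDerivAt).comp_hasDerivAt t ((hder w t).const_add x)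
  have h0 : (∫ w, fderiv ℝ u (x + R 0 w) (A (R 0 w)) ∂μ) = 0 := by
    simp only [hconst] at hI
    exact hI.unique (hasDerivAt_const _ _)
  have key : (∫ y in closedBall x r, ⟪∇ u y, A (y - x)⟫)
      = ∫ w, fderiv ℝ u (x + R 0 w) (A (R 0 w)) ∂μ := by
    have := (measurePreserving_add_left (volume : Measure (E d)) x).setIntegral_preimage_emb
      (measurableEmbedding_addLeft x) (fun y => ⟪∇ u y, A (y - x)⟫) (closedBall x r)
    rw [preimage_add_closedBall, sub_self] at this
    rw [← this]
    simp only [hR0, one_apply_eq_self, add_sub_cancel_left, inner_grad, μ]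
  rw [← setIntegral_closedBall_eq _ _ hr, key, h0]

/-! ## The maximal function -/

theorem le_cmax_self (hu : Smooth u) (hd : 1 ≤ d) (x : E d) : u x ≤ cmax u x := by
  have _ := hd
  rw [← nAvg_zero u x]
  refine le_of_tendsto ((((continuous_nAvg hu.contDiff.continuous).comp
    (continuous_const.prodMk continuous_id)).tendsto (0 : ℝ)).mono_left
    (nhdsWithin_le_nhds (s := Ioi (0 : ℝ)))) (eventually_nhdsWithin_of_forall fun r hr => ?_)
  show nAvg u x r ≤ cmax u x
  rw [← ballAvg_eq_nAvg u x hr]
  exact le_cmax hu x hr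

/-- Either the value of the input wins, or some radius is optimal. -/
theorem cmax_cases (hu : Smooth u) (hd : 1 ≤ d) (x : E d) :
    cmax u x = u x ∨ ∃ n, x ∈ optC u n := by
  rcases (le_cmax_self hu hd x).eq_or_lt with h | h
  · exact Or.inl h.symm
  right
  have hV := unitVol_pos (d := d)
  have hM : 0 < cmax u x := (hu.nonneg x).trans_lt h
  have hI : 0 ≤ ∫ y, u y := integral_nonneg hu.nonneg
  set R := max 1 ((∫ y, u y) / (cmax u x * volume.real (ball (0 : E d) 1)) + 1)
  have hR1 : 1 ≤ R := le_max_left _ _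
  have hR : (R ^ d * volume.real (ball (0 : E d) 1))⁻¹ * (∫ y, u y) < cmax u x := by
    have h2 : (∫ y, u y) / (cmax u x * volume.real (ball (0 : E d) 1)) < R :=
      lt_of_lt_of_le (lt_add_one _) (le_max_right _ _)
    rw [div_lt_iff₀ (by positivity)] at h2
    rw [inv_mul_lt_iff₀ (by positivity)]
    calc (∫ y, u y) < R * (cmax u x * volume.real (ball (0 : E d) 1)) := h2
      _ ≤ R ^ d * (cmax u x * volume.real (ball (0 : E d) 1)) := by
        gcongr; exact le_self_pow₀ hR1 (by omega)
      _ = _ := by ring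
  obtain ⟨r, hr, hmax⟩ := (isCompact_Icc (a := (0 : ℝ)) (b := R)).exists_isMaxOn
    ⟨0, le_rfl, by linarith⟩
    ((continuous_nAvg hu.contDiff.continuous).comp (Continuous.prodMk_right x)).continuousOn
  have key : cmax u x ≤ max (nAvg u x r)
      ((R ^ d * volume.real (ball (0 : E d) 1))⁻¹ * ∫ y, u y) := cmax_le fun r' hr' => by
    rcases le_total r' R with h' | h'
    · refine le_max_of_le_left ?_
      rw [ballAvg_eq_nAvg u x hr']
      exact hmax (show r' ∈ Icc 0 R from ⟨hr'.le, h'⟩)
    · exact le_max_of_le_right (ballAvg_le_of_large hu x (by linarith) h')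
  have key' : cmax u x ≤ nAvg u x r := (le_max_iff.1 key).resolve_right (not_le.2 hR)
  rcases hr.1.eq_or_lt with h0 | h0
  · subst h0
    rw [nAvg_zero] at key'
    exact absurd key' (not_le.2 h)
  · refine ⟨Int.log 2 r, r, ⟨?_, (Int.lt_zpow_succ_log_self one_lt_two r).le⟩,
      le_antisymm (le_cmax hu x h0) ?_⟩
    · exact_mod_cast Int.zpow_log_le_self one_lt_two h0
    · rw [ballAvg_eq_nAvg u x h0]; exact key'

theorem measurableSet_optC (hu : Smooth u) (hd : 1 ≤ d) (n : ℤ) : MeasurableSet (optC u n) := by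
  have _ := hd
  have h2 : (0 : ℝ) < 2 ^ n := zpow_pos two_pos n
  set K := Icc ((2 : ℝ) ^ n) ((2 : ℝ) ^ (n + 1))
  have hK : K.Nonempty := nonempty_Icc.2 (zpow_le_zpow_right₀ one_le_two (by omega))
  set g : E d → ℝ := fun x => sSup ((fun r => nAvg u x r) '' K)
  have hg : Continuous g :=
    isCompact_Icc.continuous_sSup (f := fun x r => nAvg u x r) (continuous_nAvg hu.contDiff.continuous)
  have e : optC u n = {x | g x = cmax u x} := by
    ext x
    have hc : ContinuousOn (fun r => nAvg u x r) K :=
      ((continuous_nAvg hu.contDiff.continuous).comp (Continuous.prodMk_right x)).continuousOn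
    obtain ⟨r0, hr0, hmax, hle⟩ := isCompact_Icc.exists_sSup_image_eq_and_ge hK hc
    have hpos : ∀ r ∈ K, 0 < r := fun r hr => h2.trans_le hr.1
    have hg0 : g x ≤ cmax u x := by
      rw [show g x = nAvg u x r0 from hmax, ← ballAvg_eq_nAvg u x (hpos _ hr0)]
      exact le_cmax hu x (hpos _ hr0)
    constructor
    · rintro ⟨r, hr, h⟩
      refine le_antisymm hg0 ?_
      rw [← h, ballAvg_eq_nAvg u x (hpos _ hr)]
      rw [show g x = nAvg u x r0 from hmax]
      exact hle r hr
    · intro h
      refine ⟨r0, hr0, ?_⟩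
      rw [ballAvg_eq_nAvg u x (hpos _ hr0), ← hmax]
      exact h
  rw [e]
  exact measurableSet_eq_fun hg.measurable (locallyLipschitz_cmax hu).continuous.measurable

/-- The gradient at an optimal radius, and stationarity in the radius. -/
theorem grad_cmax_stat (hu : Smooth u) (hd : 1 ≤ d) {x : E d}
    (hx : DifferentiableAt ℝ (cmax u) x) {r : ℝ} (hr : 0 < r) (h : ballAvg u x r = cmax u x) :
    volume.real (ball x r) • ∇ (cmax u) x = ∫ y in ball x r, ∇ u y ∧
      (∫ y in ball x r, ⟪∇ u y, y - x⟫) = 0 := by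
  obtain ⟨L, hL, hLe⟩ := hasFDerivAt_ballAvg hu hd x hr
  have hV : 0 < volume.real (ball x r) :=
    ENNReal.toReal_pos (measure_ball_pos volume x hr).ne' measure_ball_lt_top.ne
  have hy : HasFDerivAt (fun y => ballAvg u y r)
      (L.comp ((ContinuousLinearMap.id ℝ (E d)).prod 0)) x :=
    HasFDerivAt.comp (f := fun y : E d => (y, r)) x hL
      ((hasFDerivAt_id x).prodMk (hasFDerivAt_const r x))
  have hmin : IsLocalMin (fun y => cmax u y - ballAvg u y r) x := Eventually.of_forall fun y => by
    show cmax u x - ballAvg u x r ≤ cmax u y - ballAvg u y r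
    rw [h, sub_self]; linarith [le_cmax hu y hr]
  have h0 := hmin.hasFDerivAt_eq_zero (hx.hasFDerivAt.sub hy)
  rw [sub_eq_zero] at h0
  have hs : HasDerivAt (fun ρ => ballAvg u x ρ) (L (0, 1)) r :=
    HasFDerivAt.comp_hasDerivAt (f := fun ρ : ℝ => (x, ρ)) r hL
      ((hasDerivAt_const r x).prodMk (hasDerivAt_id r))
  have hmax : IsLocalMax (fun ρ => ballAvg u x ρ) r :=
    (lt_mem_nhds hr).mono fun ρ hρ => (le_cmax hu x hρ).trans h.ge
  have h1 := hmax.hasDerivAt_eq_zero hs
  rw [hLe] at h1
  constructor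
  · refine ext_inner_right ℝ fun v => ?_
    rw [real_inner_smul_left, inner_grad, h0]
    have hi : IntegrableOn (fun y => ∇ u y) (ball x r) := hu.integrable_grad.integrableOn
    rw [show ⟪∫ y in ball x r, ∇ u y, v⟫ = ∫ y in ball x r, ⟪∇ u y, v⟫ by
      rw [real_inner_comm, ← integral_inner hi]
      exact integral_congr_ae (Eventually.of_forall fun y => real_inner_comm _ _)]
    simp only [ContinuousLinearMap.comp_apply, ContinuousLinearMap.prod_apply,
      ContinuousLinearMap.coe_id', id_eq, zero_apply, hLe, zero_div,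
      zero_mul, add_zero]
    rw [← mul_assoc, mul_inv_cancel₀ hV.ne', one_mul]
  · simpa [hV.ne', hr.ne'] using h1

theorem grad_cmax_eq (hu : Smooth u) (hd : 1 ≤ d) {x : E d}
    (hx : DifferentiableAt ℝ (cmax u) x) (h : cmax u x = u x) : ∇ (cmax u) x = ∇ u x := by
  have _ := hd
  have hmin : IsLocalMin (fun y => cmax u y - u y) x :=
    Eventually.of_forall fun y => by
      show cmax u x - u x ≤ cmax u y - u y
      rw [h, sub_self]; linarith [le_cmax_self hu hd y]
  have h0 := hmin.fderiv_eq_zero
  rw [fderiv_fun_sub hx (hu.contDiff.differentiable one_ne_zero x), sub_eq_zero] at h0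
  simp only [gradient, h0]

/-- A crude bound at an optimal radius, good for large radii. -/
theorem norm_grad_cmax_le (hu : Smooth u) (hd : 1 ≤ d) {x : E d}
    (hx : DifferentiableAt ℝ (cmax u) x) {r : ℝ} (hr : 0 < r) (h : ballAvg u x r = cmax u x) :
    ‖∇ (cmax u) x‖ ≤ d / r * ((volume.real (ball x r))⁻¹ * ∫ y, u y) := by
  have hd0 : (1 : ℝ) ≤ d := by exact_mod_cast hd
  have hA0 : 0 ≤ cmax u x := cmax_nonneg hu x
  have hlow : ∀ v : E d, ‖v‖ ≤ r → cmax u x * (1 - d * ‖v‖ / r) ≤ cmax u (x + v) := by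
    intro v hv
    have hR : 0 < r + ‖v‖ := by positivity
    have hsub : ball x r ⊆ ball (x + v) (r + ‖v‖) := ball_subset_ball' (by
      rw [dist_eq_norm, sub_add_cancel_left, norm_neg])
    have h1 : ∫ y in ball x r, u y ≤ ∫ y in ball (x + v) (r + ‖v‖), u y :=
      setIntegral_mono_set hu.integrable.integrableOn (Eventually.of_forall hu.nonneg)
        (LE.le.eventuallyLE hsub)
    have h2 : (r / (r + ‖v‖)) ^ d * ballAvg u x r ≤ ballAvg u (x + v) (r + ‖v‖) := by
      rw [ballAvg, ballAvg, volume_real_ball x hr, volume_real_ball (x + v) hR, div_pow]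
      have hV := unitVol_pos (d := d)
      refine le_trans (le_of_eq ?_) (mul_le_mul_of_nonneg_left h1 (by positivity))
      field_simp
    have h3 : 1 - d * ‖v‖ / r ≤ (r / (r + ‖v‖)) ^ d := by
      have hv' : -2 ≤ -(‖v‖ / r) := by
        have : ‖v‖ / r ≤ 1 := (div_le_one hr).2 hv
        linarith
      have hb := one_add_mul_le_pow hv' d
      have h4 : 1 + -(‖v‖ / r) ≤ r / (r + ‖v‖) := by
        rw [le_div_iff₀ hR]
        have : (1 + -(‖v‖ / r)) * (r + ‖v‖) = r - ‖v‖ ^ 2 / r := by field_simp; ring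
        have : 0 ≤ ‖v‖ ^ 2 / r := by positivity
        linarith
      have h5 : 0 ≤ 1 + -(‖v‖ / r) := by
        have : ‖v‖ / r ≤ 1 := (div_le_one hr).2 hv
        linarith
      refine le_trans (le_of_eq ?_) (hb.trans (pow_le_pow_left₀ h5 h4 d))
      ring
    rw [mul_comm, ← h]
    exact (mul_le_mul_of_nonneg_right h3 (ballAvg_nonneg hu x r)).trans
      (h2.trans (le_cmax hu (x + v) hR))
  set g := ∇ (cmax u) x
  have hl : HasDerivAt (fun t : ℝ => cmax u (x + t • (-g))) ⟪g, -g⟫ 0 := by
    rw [inner_grad]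
    have h1 : HasDerivAt (fun t : ℝ => x + t • (-g)) (-g) 0 := by
      simpa using ((hasDerivAt_id (0 : ℝ)).smul_const (-g)).const_add x
    exact HasFDerivAt.comp_hasDerivAt (f := fun t : ℝ => x + t • (-g)) 0
      (by simpa using hx.hasFDerivAt) h1
  set c := cmax u x * (d / r) with hc
  have hge : -(‖g‖ * c) ≤ ⟪g, -g⟫ := by
    refine ge_of_tendsto hl.tendsto_slope_zero_right ?_
    have hsm : ∀ᶠ t in 𝓝[>] (0 : ℝ), t * ‖g‖ < r := by
      refine nhdsWithin_le_nhds (Tendsto.eventually_lt_const hr ?_)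
      simpa using (by fun_prop : Continuous fun t : ℝ => t * ‖g‖).tendsto 0
    filter_upwards [hsm, self_mem_nhdsWithin] with t ht ht0
    rw [mem_Ioi] at ht0
    simp only [zero_add, zero_smul, add_zero, smul_eq_mul]
    have hn : ‖t • (-g)‖ = t * ‖g‖ := by rw [norm_smul, norm_neg, Real.norm_eq_abs, abs_of_pos ht0]
    have h3 := hlow (t • (-g)) (hn.le.trans ht.le)
    rw [hn] at h3
    rw [inv_mul_eq_div, le_div_iff₀ ht0]
    have e : cmax u x * (1 - d * (t * ‖g‖) / r) = cmax u x - ‖g‖ * c * t := by rw [hc]; ring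
    linarith
  rw [inner_neg_right, real_inner_self_eq_norm_sq] at hge
  have hc0 : 0 ≤ c := by positivity
  have hgc : ‖g‖ ≤ c := by
    by_contra hcon
    nlinarith [norm_nonneg g, not_le.1 hcon]
  refine hgc.trans (le_of_eq_of_le (mul_comm _ _) (mul_le_mul_of_nonneg_left ?_ (by positivity)))
  rw [← h, ballAvg]
  exact mul_le_mul_of_nonneg_left
    (setIntegral_le_integral hu.integrable (Eventually.of_forall hu.nonneg)) (by positivity)

end

end Vale.Agent.P137.Cen
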