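import Vale.Agent.P137.Cen.Defs

/-!
# P137, centred operator: Poincare inequalities with the decrements of one grid
-/

open MeasureTheory Metric Set Filter Topology
open scoped ENNReal NNReal RealInnerProductSpace Gradient

namespace Vale.Agent.P137.Cen

open Vale.Agent.P137.Unc (E qdec Smooth inner_grad)

noncomputable section

variable {d : ℕ}

theorem poin_volume_qcube (t : E d) (n : ℤ) (k : Fin d → ℤ) :
    volume (qcube t n k) = ENNReal.ofReal (((2 : ℝ) ^ n) ^ d) := by
  have e : qcube t n k = WithLp.ofLp ⁻¹' univ.pi fun i => Ico (qcorn t n k i) (qcorn t n k i + (2 : ℝ) ^ n) := by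
    ext y
    simp [qcube, Unc.window]
  rw [e, (PiLp.volume_preserving_ofLp (Fin d)).measure_preimage
      (MeasurableSet.univ_pi fun i => measurableSet_Ico).nullMeasurableSet, volume_pi_pi]
  simp [Real.volume_Ico, ← ENNReal.ofReal_pow (zpow_pos two_pos n).le]

theorem poin_qcube_subset_closedBall (t : E d) (n : ℤ) (k : Fin d → ℤ) :
    qcube t n k ⊆ closedBall (qctr t n k) (Real.sqrt d * (2 : ℝ) ^ n / 2) := fun y hy => by
  rw [mem_closedBall, dist_eq_norm]
  exact norm_sub_qctr_le hy

theorem poin_integrableOn {F : E d → ℝ} (hF : Continuous F) (t : E d) (n : ℤ) (k : Fin d → ℤ) :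
    IntegrableOn F (qcube t n k) :=
  (hF.continuousOn.integrableOn_compact (isCompact_closedBall _ _)).mono_set
    (poin_qcube_subset_closedBall t n k)

/-- The length of the interval of shifts that bring a point back into a cube. -/
theorem poin_tent (t : E d) (n : ℤ) (k k' : Fin d → ℤ) (i : Fin d)
    (hk : k' = Function.update k i (k i + 1)) (z : E d) :
    volume.real {τ : ℝ | τ ∈ Ioc 0 ((2 : ℝ) ^ n) ∧
        z - τ • EuclideanSpace.single i (1 : ℝ) ∈ qcube t n k}
      = (qcube t n k).indicator (fun z => z i - qcorn t n k i) z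
        + (qcube t n k').indicator (fun z => qcorn t n k i + 2 * (2 : ℝ) ^ n - z i) z := by
  set s : ℝ := (2 : ℝ) ^ n
  set a := qcorn t n k
  have hs : 0 < s := zpow_pos two_pos n
  have ha' : ∀ j, qcorn t n k' j = if j = i then a i + s else a j := fun j => by
    subst hk
    by_cases hj : j = i
    · subst hj; simp [a, qcorn, s]; ring
    · simp [a, qcorn, hj]
  have hmem : ∀ τ : ℝ, z - τ • EuclideanSpace.single i (1 : ℝ) ∈ qcube t n k ↔
      (∀ j, j ≠ i → a j ≤ z j ∧ z j < a j + s) ∧ a i ≤ z i - τ ∧ z i - τ < a i + s := by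
    intro τ
    constructor
    · intro h
      refine ⟨fun j hj => ?_, ?_⟩
      · simpa [hj, a, s] using h j
      · simpa [a, s] using h i
    · rintro ⟨h1, h2⟩ j
      by_cases hj : j = i
      · subst hj; simpa [a, s] using h2
      · simpa [hj, a, s] using h1 j hj
  simp only [hmem]
  have hQ : z ∈ qcube t n k ↔
      (∀ j, j ≠ i → a j ≤ z j ∧ z j < a j + s) ∧ a i ≤ z i ∧ z i < a i + s := by
    have := hmem 0
    simpa using this
  have hQ' : z ∈ qcube t n k' ↔
      (∀ j, j ≠ i → a j ≤ z j ∧ z j < a j + s) ∧ a i + s ≤ z i ∧ z i < a i + 2 * s := by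
    constructor
    · intro h
      refine ⟨fun j hj => ?_, ?_⟩
      · have := h j; rwa [ha', if_neg hj] at this
      · have := h i; rw [ha', if_pos rfl] at this
        exact ⟨this.1, by linarith [this.2]⟩
    · rintro ⟨h1, h2, h3⟩ j
      rw [ha']
      by_cases hj : j = i
      · subst hj; rw [if_pos rfl]; exact ⟨h2, by linarith⟩
      · rw [if_neg hj]; exact h1 j hj
  by_cases hA : ∀ j, j ≠ i → a j ≤ z j ∧ z j < a j + s
  · have e : {τ : ℝ | τ ∈ Ioc 0 s ∧ (∀ j, j ≠ i → a j ≤ z j ∧ z j < a j + s) ∧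
        a i ≤ z i - τ ∧ z i - τ < a i + s}
        = Ioc (max 0 (z i - a i - s)) (min s (z i - a i)) := by
      ext τ
      simp only [mem_ofPred_eq, mem_Ioc, max_lt_iff, le_min_iff]
      constructor
      · rintro ⟨⟨h1, h2⟩, -, h3, h4⟩; exact ⟨⟨h1, by linarith⟩, h2, by linarith⟩
      · rintro ⟨⟨h1, h2⟩, h3, h4⟩; exact ⟨⟨h1, h3⟩, hA, by linarith, by linarith⟩
    rw [e, measureReal_def, Real.volume_Ioc, ENNReal.toReal_ofReal']
    by_cases h : z ∈ qcube t n k
    · obtain ⟨-, h1, h2⟩ := hQ.1 h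
      have h' : z ∉ qcube t n k' := fun h' => by linarith [(hQ'.1 h').2.1]
      rw [indicator_of_mem h, indicator_of_notMem h', add_zero,
        max_eq_left (show z i - a i - s ≤ 0 by linarith), min_eq_right (show z i - a i ≤ s by linarith),
        sub_zero, max_eq_left (show 0 ≤ z i - a i by linarith)]
    · rw [indicator_of_notMem h, zero_add]
      by_cases h' : z ∈ qcube t n k'
      · obtain ⟨-, h1, h2⟩ := hQ'.1 h'
        rw [indicator_of_mem h', max_eq_right (show (0 : ℝ) ≤ z i - a i - s by linarith),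
          min_eq_left (show s ≤ z i - a i by linarith), max_eq_left (by linarith)]
        ring
      · rw [indicator_of_notMem h']
        refine max_eq_right ?_
        rcases lt_or_ge (z i) (a i) with h1 | h1
        · linarith [min_le_right s (z i - a i), le_max_left 0 (z i - a i - s)]
        · rcases lt_or_ge (z i) (a i + 2 * s) with h2 | h2
          · rcases lt_or_ge (z i) (a i + s) with h3 | h3
            · exact absurd (hQ.2 ⟨hA, h1, h3⟩) h
            · exact absurd (hQ'.2 ⟨hA, h3, h2⟩) h'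
          · linarith [min_le_left s (z i - a i), le_max_right 0 (z i - a i - s)]
  · rw [indicator_of_notMem fun h => hA (hQ.1 h).1, indicator_of_notMem fun h => hA (hQ'.1 h).1]
    have e : {τ : ℝ | τ ∈ Ioc 0 s ∧ (∀ j, j ≠ i → a j ≤ z j ∧ z j < a j + s) ∧
        a i ≤ z i - τ ∧ z i - τ < a i + s} = ∅ :=
      eq_empty_of_forall_notMem fun τ h => hA h.2.1
    rw [e]
    simp

/-- The difference of the integrals of `u` over two adjacent cubes. -/
theorem poin_pair_identity {u : E d → ℝ} (hu : Smooth u) (t : E d) (n : ℤ) (k k' : Fin d → ℤ)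
    (i : Fin d) (hk : k' = Function.update k i (k i + 1)) :
    (∫ z in qcube t n k', u z) - ∫ z in qcube t n k, u z
      = (∫ z in qcube t n k, (z i - qcorn t n k i) * fderiv ℝ u z (EuclideanSpace.single i 1))
        + ∫ z in qcube t n k', (qcorn t n k i + 2 * (2 : ℝ) ^ n - z i)
            * fderiv ℝ u z (EuclideanSpace.single i 1) := by
  set e : E d := EuclideanSpace.single i (1 : ℝ) with he
  set s : ℝ := (2 : ℝ) ^ n with hsd
  have hs : 0 < s := zpow_pos two_pos n
  have hd1 : Continuous (fderiv ℝ u) := hu.contDiff.continuous_fderiv one_ne_zero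
  set D : E d → ℝ := fun z => fderiv ℝ u z e with hD
  have hDc : Continuous D := by fun_prop
  have hpre : (fun y => y + s • e) ⁻¹' qcube t n k' = qcube t n k := by
    ext y
    simp only [mem_preimage, qcube, Unc.window, mem_ofPred_eq]
    refine forall_congr' fun j => ?_
    subst hk
    by_cases hj : j = i
    · subst hj
      simp [qcorn, he, s]
      constructor <;> rintro ⟨h1, h2⟩ <;> constructor <;> linarith
    · simp [qcorn, he, hj, s]
  have h2 : ∫ z in qcube t n k', u z = ∫ y in qcube t n k, u (y + s • e) := by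
    rw [← hpre]
    exact ((measurePreserving_add_right volume (s • e)).setIntegral_preimage_emb
      (measurableEmbedding_addRight (s • e)) u _).symm
  have ftc : ∀ y : E d, u (y + s • e) - u y = ∫ τ in Ioc 0 s, D (y + τ • e) := by
    intro y
    rw [← intervalIntegral.integral_of_le hs.le]
    symm
    have := intervalIntegral.integral_eq_sub_of_hasDerivAt
      (f := fun τ : ℝ => u (y + τ • e)) (f' := fun τ : ℝ => D (y + τ • e))
      (a := 0) (b := s) (fun τ _ => by
        have h := ((hasDerivAt_id τ).smul_const e).const_add y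
        simpa [Function.comp_def] using
          (hu.contDiff.differentiable one_ne_zero _).hasFDerivAt.comp_hasDerivAt τ h)
      ((hDc.comp (by fun_prop)).intervalIntegrable _ _)
    simpa using this
  have hi1 : IntegrableOn (fun y => u (y + s • e)) (qcube t n k) :=
    poin_integrableOn (hu.contDiff.continuous.comp (by fun_prop : Continuous fun y : E d => y + s • e)) t n k
  rw [h2, ← integral_sub hi1 (poin_integrableOn hu.contDiff.continuous t n k)]
  simp only [ftc]
  set c := qctr t n k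
  set ρ : ℝ := Real.sqrt d * s / 2 + s
  have hint : Integrable (fun p : E d × ℝ => D (p.1 + p.2 • e))
      ((volume.restrict (qcube t n k)).prod (volume.restrict (Ioc (0 : ℝ) s))) := by
    rw [Measure.prod_restrict]
    exact ((hDc.comp (by fun_prop : Continuous fun p : E d × ℝ => p.1 + p.2 • e)).continuousOn.integrableOn_compact
      ((isCompact_closedBall c (Real.sqrt d * s / 2)).prod (isCompact_Icc (a := (0:ℝ)) (b := s)))).mono_set
      (Set.prod_mono (poin_qcube_subset_closedBall t n k) Ioc_subset_Icc_self)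
  rw [integral_integral_swap hint]
  have slice : ∀ τ : ℝ, ∫ y in qcube t n k, D (y + τ • e)
      = ∫ z, ((fun z => z - τ • e) ⁻¹' qcube t n k).indicator D z := fun τ => by
    rw [← integral_indicator (measurableSet_qcube t n k),
      ← integral_add_right_eq_self (((fun z => z - τ • e) ⁻¹' qcube t n k).indicator D) (τ • e)]
    refine integral_congr_ae (Eventually.of_forall fun y => ?_)
    by_cases hy : y ∈ qcube t n k <;> simp [hy]
  simp only [slice]
  have hS : MeasurableSet {p : ℝ × E d | p.2 - p.1 • e ∈ qcube t n k} :=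
    (by fun_prop : Measurable fun p : ℝ × E d => p.2 - p.1 • e) (measurableSet_qcube t n k)
  have hint2 : Integrable (fun p : ℝ × E d => ((fun z => z - p.1 • e) ⁻¹' qcube t n k).indicator D p.2)
      ((volume.restrict (Ioc (0 : ℝ) s)).prod volume) := by
    have h1 := ((hDc.comp continuous_snd).continuousOn
      (s := Icc (0 : ℝ) s ×ˢ closedBall c ρ)
      |>.integrableOn_compact (isCompact_Icc.prod (isCompact_closedBall c ρ))
        (μ := volume.prod volume)).indicator hS
    have h3 := h1.of_forall_sdiff_eq_zero (t := Ioc (0 : ℝ) s ×ˢ (univ : Set (E d)))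
      (measurableSet_Ioc.prod MeasurableSet.univ) fun p hp => by
        apply indicator_of_notMem
        intro hpS
        apply hp.2
        refine ⟨Ioc_subset_Icc_self hp.1.1, ?_⟩
        have h4 := poin_qcube_subset_closedBall t n k hpS
        rw [mem_closedBall, dist_eq_norm] at h4 ⊢
        have h5 : ‖p.1 • e‖ ≤ s := by
          rw [norm_smul, Real.norm_eq_abs, abs_of_pos hp.1.1.1, he]
          simpa using hp.1.1.2
        have h6 := norm_add_le (p.2 - p.1 • e - c) (p.1 • e)
        rw [show p.2 - p.1 • e - c + p.1 • e = p.2 - c by abel] at h6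
        simp only [ρ]
        linarith
    rw [← Measure.restrict_univ (μ := (volume : Measure (E d))), Measure.prod_restrict]
    exact h3.congr_fun (fun p _ => rfl) (measurableSet_Ioc.prod MeasurableSet.univ)
  rw [integral_integral_swap hint2]
  have inner : ∀ z, ∫ τ in Ioc 0 s, ((fun z => z - τ • e) ⁻¹' qcube t n k).indicator D z
      = (qcube t n k).indicator (fun z => (z i - qcorn t n k i) * D z) z
        + (qcube t n k').indicator (fun z => (qcorn t n k i + 2 * s - z i) * D z) z := by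
    intro z
    have hm : MeasurableSet {τ : ℝ | z - τ • e ∈ qcube t n k} :=
      (by fun_prop : Measurable fun τ : ℝ => z - τ • e) (measurableSet_qcube t n k)
    have e1 : (fun τ : ℝ => ((fun z => z - τ • e) ⁻¹' qcube t n k).indicator D z)
        = {τ : ℝ | z - τ • e ∈ qcube t n k}.indicator fun _ => D z := by
      funext τ; by_cases h : z - τ • e ∈ qcube t n k <;> simp [h]
    rw [e1, integral_indicator_const _ hm, smul_eq_mul, measureReal_restrict_apply hm,
      show {τ : ℝ | z - τ • e ∈ qcube t n k} ∩ Ioc 0 s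
        = {τ : ℝ | τ ∈ Ioc 0 s ∧ z - τ • e ∈ qcube t n k} by ext τ; simp [and_comm],
      poin_tent t n k k' i hk z, add_mul, indicator_mul_left, indicator_mul_left]
  simp only [inner]
  rw [integral_add, integral_indicator (measurableSet_qcube t n k),
    integral_indicator (measurableSet_qcube t n k')]
  · exact (integrable_indicator_iff (measurableSet_qcube t n k)).2
      (poin_integrableOn (by fun_prop) t n k)
  · exact (integrable_indicator_iff (measurableSet_qcube t n k')).2
      (poin_integrableOn (by fun_prop) t n k')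

/-- A Lipschitz field against a gradient, bounded by one cube. -/
theorem poin_moment {g : E d → E d} {u : E d → ℝ} (hg : Integrable g) (t : E d) (n : ℤ)
    (k : Fin d → ℤ) (i : Fin d) (α β : ℝ) (hα : |α| ≤ 1)
    (hβ : |α * qctr t n k i + β| ≤ (2 : ℝ) ^ n) (hgu : ∀ y ∈ qcube t n k, g y = ∇ u y) :
    ‖∫ z in qcube t n k, (α * z i + β) * fderiv ℝ u z (EuclideanSpace.single i 1)‖ₑ
      ≤ ENNReal.ofReal ((Real.sqrt d + 1) * (2 : ℝ) ^ n) * (‖qint g t n k‖ₑ + qPsi g t n k) := by
  set e : E d := EuclideanSpace.single i (1 : ℝ)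
  have he : ‖e‖ = 1 := by simp [e]
  set φ : E d → E d := fun z => (α * z i + β) • e
  have hφ : LipschitzWith 1 φ := LipschitzWith.of_dist_le_mul fun x y => by
    simp only [φ, dist_eq_norm, ← sub_smul, norm_smul, he, mul_one, NNReal.coe_one, one_mul,
      Real.norm_eq_abs]
    rw [show α * x i + β - (α * y i + β) = α * (x - y) i by simp; ring, abs_mul]
    refine (mul_le_of_le_one_left (abs_nonneg _) hα).trans ?_
    simpa [Real.norm_eq_abs] using PiLp.norm_apply_le (x - y) i
  set c := φ (qctr t n k) with hc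
  have e1 : ∫ z in qcube t n k, (α * z i + β) * fderiv ℝ u z e
      = (∫ y in qcube t n k, ⟪g y, φ y - c⟫) + ⟪qint g t n k, c⟫ := by
    rw [qint, real_inner_comm, ← integral_inner hg.integrableOn c,
      ← integral_add (integrable_inner_lip hg hφ _ _ _) (hg.integrableOn.const_inner c)]
    refine setIntegral_congr_fun (measurableSet_qcube t n k) fun y hy => ?_
    simp only [hc, real_inner_comm (g y) (φ (qctr t n k))]
    rw [← inner_add_right, sub_add_cancel, real_inner_smul_right, hgu y hy, inner_grad]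
  rw [e1]
  refine (enorm_add_le _ _).trans ?_
  rw [add_mul, ENNReal.ofReal_add (by positivity) (by positivity), add_mul]
  refine add_le_add ?_ ?_
  · simpa using enorm_moment_le hg hφ n k
  · refine le_trans ?_ (mul_le_mul_right le_self_add _)
    rw [one_mul, ← ofReal_norm, ← ofReal_norm, ← ENNReal.ofReal_mul (by positivity), mul_comm]
    refine ENNReal.ofReal_le_ofReal ((abs_real_inner_le_norm _ _).trans ?_)
    refine mul_le_mul_of_nonneg_left ?_ (norm_nonneg _)
    simp only [hc, φ, norm_smul, he, mul_one, Real.norm_eq_abs]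
    exact hβ

/-- Adjacent cubes have nearly equal integrals. -/
theorem poin_pair_le {g : E d → E d} {u : E d → ℝ} (hu : Smooth u) (hg : Integrable g) (t : E d)
    (n : ℤ) (k k' : Fin d → ℤ) (i : Fin d) (hk : k' = Function.update k i (k i + 1))
    (hgu : ∀ y ∈ qcube t n k ∪ qcube t n k', g y = ∇ u y) :
    ‖(∫ z in qcube t n k', u z) - ∫ z in qcube t n k, u z‖ₑ
      ≤ ENNReal.ofReal ((Real.sqrt d + 1) * (2 : ℝ) ^ n)
        * ((‖qint g t n k‖ₑ + qPsi g t n k) + (‖qint g t n k'‖ₑ + qPsi g t n k')) := by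
  have hs : (0 : ℝ) < 2 ^ n := zpow_pos two_pos n
  rw [poin_pair_identity hu t n k k' i hk, mul_add]
  refine (enorm_add_le _ _).trans (add_le_add ?_ ?_)
  · have h := poin_moment hg t n k i 1 (-qcorn t n k i) (by simp)
      (by simp [qctr, qcorn]; rw [abs_le]; constructor <;> linarith)
      (fun y hy => hgu y (Or.inl hy))
    simpa [sub_eq_add_neg] using h
  · have h := poin_moment hg t n k' i (-1) (qcorn t n k i + 2 * (2 : ℝ) ^ n) (by simp)
      (by subst hk; simp [qctr, qcorn]; rw [abs_le]; constructor <;> linarith)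
      (fun y hy => hgu y (Or.inr hy))
    simpa [sub_eq_add_neg, add_comm, add_assoc, add_left_comm] using h

theorem poincare_pair (hd : 2 ≤ d) : ∃ C : ℝ≥0∞, C ≠ ⊤ ∧
    ∀ (g : E d → E d) (u : E d → ℝ) (t : E d) (n : ℤ) (k k' : Fin d → ℤ) (i : Fin d),
      Smooth u → Integrable g → (k' = Function.update k i (k i + 1)) →
      (∀ y ∈ qcube t n k ∪ qcube t n k', g y = ∇ u y) →
      ‖(∫ z in qcube t n k', u z) - ∫ z in qcube t n k, u z‖ₑ
        ≤ C * ENNReal.ofReal ((2 : ℝ) ^ n) *
          ((‖qint g t n k‖ₑ + qPsi g t n k) + (‖qint g t n k'‖ₑ + qPsi g t n k')) := by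
  have _ := hd
  refine ⟨ENNReal.ofReal (Real.sqrt d + 1), ENNReal.ofReal_ne_top,
    fun g u t n k k' i hu hg hk hgu => ?_⟩
  rw [← ENNReal.ofReal_mul (by positivity)]
  exact poin_pair_le hu hg t n k k' i hk hgu

/-! ## One cube -/

theorem poin_inv_qdec_le : qdec⁻¹ ≤ 6 / 5 := by
  rw [show (6 / 5 : ℝ) = (5 / 6)⁻¹ by norm_num]
  refine inv_anti₀ (by norm_num) ?_
  by_contra h
  have h4 := pow_lt_pow_left₀ (not_le.1 h) Unc.dy_qdec_pos.le (show (4 : ℕ) ≠ 0 by norm_num)
  rw [Unc.dy_qdec_pow_four] at h4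
  norm_num at h4

theorem poin_sum_kid_qPsi {g : E d → E d} (hg : Integrable g) (t : E d) (n : ℤ) (k : Fin d → ℤ) :
    ∑ b : Fin d → Fin 2, qPsi g t (n - 1) (kid k b) ≤ ENNReal.ofReal (6 / 5) * qPsi g t n k := by
  simp only [qPsi]
  rw [← Summable.tsum_finsetSum fun _ _ => ENNReal.summable, ← ENNReal.tsum_mul_left]
  simp only [← Finset.mul_sum]
  refine (ENNReal.tsum_le_tsum fun j => ?_).trans
    (ENNReal.tsum_comp_le_tsum_of_injective (add_left_injective 1)
      fun j => ENNReal.ofReal (6 / 5) * (ENNReal.ofReal (qdec ^ j) * qX g t n k j))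
  rw [← mul_assoc]
  refine mul_le_mul' ?_ (sum_kid_qX_le hg n k j)
  rw [← ENNReal.ofReal_mul (by norm_num)]
  refine ENNReal.ofReal_le_ofReal ?_
  have h := mul_le_mul_of_nonneg_right poin_inv_qdec_le Unc.dy_qdec_pos.le
  rw [inv_mul_cancel₀ Unc.dy_qdec_pos.ne'] at h
  rw [pow_succ]
  nlinarith [pow_pos Unc.dy_qdec_pos j]

theorem poin_sum_kid_qint {g : E d → E d} (hg : Integrable g) (t : E d) (n : ℤ) (k : Fin d → ℤ) :
    ∑ b : Fin d → Fin 2, ‖qint g t (n - 1) (kid k b)‖ₑ
      ≤ ‖qint g t n k‖ₑ + ENNReal.ofReal (6 / 5) * qPsi g t n k := by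
  rw [← dsum_one, ← qX_add hg, add_comm]
  refine add_le_add le_rfl ?_
  refine le_trans ?_ (mul_le_mul_right (ofReal_qdec_pow_mul_qX_le n k 1) _)
  rw [← mul_assoc, ← ENNReal.ofReal_mul (by norm_num), pow_one]
  refine le_mul_of_one_le_left zero_le ?_
  rw [← ENNReal.ofReal_one]
  refine ENNReal.ofReal_le_ofReal ?_
  have h := mul_le_mul_of_nonneg_right poin_inv_qdec_le Unc.dy_qdec_pos.le
  rwa [inv_mul_cancel₀ Unc.dy_qdec_pos.ne'] at h

theorem poin_kid_subset (t : E d) (n : ℤ) (k : Fin d → ℤ) (b : Fin d → Fin 2) :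
    qcube t (n - 1) (kid k b) ⊆ qcube t n k := fun _ hy =>
  mem_qcube_iff.2 (qidx_eq_kid_iff.1 (mem_qcube_iff.1 hy)).1

theorem poin_kid_injective (k : Fin d → ℤ) : Function.Injective (kid k) := fun b b' h =>
  funext fun i => Fin.ext (by have := congrFun h i; simp only [kid] at this; omega)

theorem poin_iUnion_kid (t : E d) (n : ℤ) (k : Fin d → ℤ) :
    ⋃ b : Fin d → Fin 2, qcube t (n - 1) (kid k b) = qcube t n k := by
  refine Subset.antisymm (iUnion_subset fun b => poin_kid_subset t n k b) fun y hy => ?_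
  refine mem_iUnion.2 ⟨fun i => ⟨(qidx t (n - 1) y i % 2).toNat, by omega⟩, mem_qcube_iff.2 ?_⟩
  exact qidx_eq_kid_iff.2 ⟨mem_qcube_iff.1 hy, fun i => by simp only; omega⟩

theorem poin_disjoint_kid (t : E d) (n : ℤ) (k : Fin d → ℤ) :
    Pairwise (Function.onFun Disjoint fun b : Fin d → Fin 2 => qcube t (n - 1) (kid k b)) :=
  fun _ _ hbb => disjoint_qcube t _ fun h => hbb (poin_kid_injective k h)

/-- The children of a cube have nearly equal integrals. -/
theorem poin_kid_diff {g : E d → E d} {u : E d → ℝ} (hu : Smooth u) (hg : Integrable g) (t : E d)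
    (n : ℤ) (k : Fin d → ℤ) (hgu : ∀ y ∈ qcube t n k, g y = ∇ u y) (b b' : Fin d → Fin 2)
    (s : Finset (Fin d)) :
    ‖(∫ z in qcube t (n - 1) (kid k (s.piecewise b' b)), u z)
        - ∫ z in qcube t (n - 1) (kid k b), u z‖ₑ
      ≤ s.card * (2 * (ENNReal.ofReal ((Real.sqrt d + 1) * (2 : ℝ) ^ n)
        * ∑ c : Fin d → Fin 2,
            (‖qint g t (n - 1) (kid k c)‖ₑ + qPsi g t (n - 1) (kid k c)))) := by
  set P := ENNReal.ofReal ((Real.sqrt d + 1) * (2 : ℝ) ^ n) * ∑ c : Fin d → Fin 2,
    (‖qint g t (n - 1) (kid k c)‖ₑ + qPsi g t (n - 1) (kid k c))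
  induction s using Finset.induction with
  | empty => simp
  | insert i s hi ih =>
    set f := s.piecewise b' b with hf
    have hf' : (insert i s).piecewise b' b = Function.update f i (b' i) :=
      Finset.piecewise_insert _ _ _ _
    have hstep : ‖(∫ z in qcube t (n - 1) (kid k (Function.update f i (b' i))), u z)
        - ∫ z in qcube t (n - 1) (kid k f), u z‖ₑ ≤ 2 * P := by
      have adj : ∀ c c' : Fin d → Fin 2, (∀ j, j ≠ i → c j = c' j) → (c i : ℕ) = 0 → (c' i : ℕ) = 1 →
          ‖(∫ z in qcube t (n - 1) (kid k c'), u z) - ∫ z in qcube t (n - 1) (kid k c), u z‖ₑ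
            ≤ 2 * P := by
        intro c c' hj h0 h1
        have hk : kid k c' = Function.update (kid k c) i (kid k c i + 1) := by
          funext j
          by_cases h : j = i
          · subst h; simp [kid, h0, h1]
          · simp [kid, h, hj j h]
        refine (poin_pair_le hu hg t (n - 1) _ _ i hk
          fun y hy => hgu y (hy.elim (poin_kid_subset t n k c ·) (poin_kid_subset t n k c' ·))).trans ?_
        have hsum : ∀ e : Fin d → Fin 2,
            ‖qint g t (n - 1) (kid k e)‖ₑ + qPsi g t (n - 1) (kid k e) ≤ ∑ c : Fin d → Fin 2,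
              (‖qint g t (n - 1) (kid k c)‖ₑ + qPsi g t (n - 1) (kid k c)) := fun e =>
          Finset.single_le_sum (f := fun c : Fin d → Fin 2 =>
            ‖qint g t (n - 1) (kid k c)‖ₑ + qPsi g t (n - 1) (kid k c))
            (fun _ _ => zero_le) (Finset.mem_univ e)
        refine (mul_le_mul' (ENNReal.ofReal_le_ofReal (q := (Real.sqrt d + 1) * (2 : ℝ) ^ n) ?_)
          (add_le_add (hsum c) (hsum c'))).trans
          (le_of_eq ?_)
        · exact mul_le_mul_of_nonneg_left (zpow_le_zpow_right₀ one_le_two (by omega)) (by positivity)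
        · simp only [P]; ring
      by_cases h : b' i = f i
      · rw [h, Function.update_eq_self]; simp
      · set f' := Function.update f i (b' i)
        have hne : ∀ j, j ≠ i → f j = f' j := fun j hj => (Function.update_of_ne hj _ _).symm
        have hfi : f' i = b' i := Function.update_self i _ f
        have h2 : ((f i : ℕ) = 0 ∧ (f' i : ℕ) = 1) ∨ ((f i : ℕ) = 1 ∧ (f' i : ℕ) = 0) := by
          rw [hfi]
          have := (f i).isLt
          have := (b' i).isLt
          have : (b' i : ℕ) ≠ (f i : ℕ) := fun e => h (Fin.ext e)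
          omega
        rcases h2 with ⟨h0, h1⟩ | ⟨h0, h1⟩
        · exact adj f f' hne h0 h1
        · rw [← enorm_neg, neg_sub]
          exact adj f' f (fun j hj => (hne j hj).symm) h1 h0
    rw [hf', Finset.card_insert_of_notMem hi, Nat.cast_add, Nat.cast_one, add_mul, one_mul]
    have e : ∀ x y z : ℝ, x - z = (y - z) + (x - y) := fun x y z => by ring
    rw [e _ (∫ z in qcube t (n - 1) (kid k f), u z)]
    exact (enorm_add_le _ _).trans (add_le_add ih hstep)

/-- The children against the parent. -/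
theorem poin_kid_dev {g : E d → E d} {u : E d → ℝ} (hu : Smooth u) (hg : Integrable g) (t : E d)
    (n : ℤ) (k : Fin d → ℤ) (hgu : ∀ y ∈ qcube t n k, g y = ∇ u y) :
    ∑ b : Fin d → Fin 2, ‖(∫ z in qcube t (n - 1) (kid k b), u z)
        - ((2 : ℝ) ^ d)⁻¹ * ∫ z in qcube t n k, u z‖ₑ
      ≤ ((2 : ℝ≥0∞) ^ d * (2 ^ d * (d * (2 * ENNReal.ofReal (3 * (Real.sqrt d + 1))))))
        * ENNReal.ofReal ((2 : ℝ) ^ n) * (‖qint g t n k‖ₑ + qPsi g t n k) := by
  set U : (Fin d → Fin 2) → ℝ := fun b => ∫ z in qcube t (n - 1) (kid k b), u z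
  have hsplit : ∫ z in qcube t n k, u z = ∑ b, U b := by
    rw [← poin_iUnion_kid t n k, integral_iUnion_fintype (fun b => measurableSet_qcube t _ _)
      (poin_disjoint_kid t n k) fun b => poin_integrableOn hu.contDiff.continuous t _ _]
  set a := ‖qint g t n k‖ₑ + qPsi g t n k
  have hkids : ∑ c : Fin d → Fin 2, (‖qint g t (n - 1) (kid k c)‖ₑ + qPsi g t (n - 1) (kid k c))
      ≤ ENNReal.ofReal 3 * a := by
    rw [Finset.sum_add_distrib]
    refine (add_le_add (poin_sum_kid_qint hg t n k) (poin_sum_kid_qPsi hg t n k)).trans ?_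
    rw [mul_add, add_assoc, ← add_mul, ← ENNReal.ofReal_add (by norm_num) (by norm_num)]
    refine add_le_add ?_ (mul_le_mul_left (ENNReal.ofReal_le_ofReal (by norm_num)) _)
    exact le_mul_of_one_le_left zero_le (by norm_num)
  have hb : ∀ b, ‖U b - ((2 : ℝ) ^ d)⁻¹ * ∫ z in qcube t n k, u z‖ₑ
      ≤ 2 ^ d * (d * (2 * (ENNReal.ofReal ((Real.sqrt d + 1) * (2 : ℝ) ^ n)
        * (ENNReal.ofReal 3 * a)))) := by
    intro b
    have e : U b - ((2 : ℝ) ^ d)⁻¹ * ∫ z in qcube t n k, u z
        = ((2 : ℝ) ^ d)⁻¹ * ∑ b', (U b - U b') := by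
      rw [hsplit, Finset.sum_sub_distrib, Finset.sum_const, Finset.card_univ, mul_sub]
      simp
    rw [e, enorm_mul]
    refine (mul_le_of_le_one_left zero_le ?_).trans ?_
    · rw [← ofReal_norm, ← ENNReal.ofReal_one]
      refine ENNReal.ofReal_le_ofReal ?_
      rw [Real.norm_eq_abs, abs_of_pos (by positivity)]
      exact inv_le_one_of_one_le₀ (one_le_pow₀ one_le_two)
    refine (enorm_sum_le _ _).trans ?_
    calc ∑ b', ‖U b - U b'‖ₑ ≤ ∑ _b' : Fin d → Fin 2, (d : ℝ≥0∞) *
          (2 * (ENNReal.ofReal ((Real.sqrt d + 1) * (2 : ℝ) ^ n) * (ENNReal.ofReal 3 * a))) := by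
          refine Finset.sum_le_sum fun b' _ => ?_
          rw [← enorm_neg, neg_sub]
          have h := poin_kid_diff hu hg t n k hgu b b' Finset.univ
          rw [Finset.piecewise_univ, Finset.card_univ, Fintype.card_fin] at h
          refine h.trans ?_
          gcongr
      _ = _ := by simp [Finset.sum_const, Finset.card_univ]
  refine (Finset.sum_le_card_nsmul _ _ _ fun b _ => hb b).trans (le_of_eq ?_)
  rw [Finset.card_univ, nsmul_eq_mul, Fintype.card_fun, Fintype.card_fin, Fintype.card_fin,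
    ENNReal.ofReal_mul (by positivity), ENNReal.ofReal_mul (by norm_num : (0 : ℝ) ≤ 3)]
  push_cast
  ring

/-- The oscillation of `u` on a cube. -/
def poinOsc (u : E d → ℝ) (t : E d) (n : ℤ) (k : Fin d → ℤ) : ℝ≥0∞ :=
  ∫⁻ y in qcube t n k, ‖u y - (volume.real (qcube t n k))⁻¹ * ∫ z in qcube t n k, u z‖ₑ

theorem poin_osc_step {u : E d → ℝ} (t : E d) (n : ℤ) (k : Fin d → ℤ) :
    poinOsc u t n k ≤ (∑ b : Fin d → Fin 2, poinOsc u t (n - 1) (kid k b))
      + ∑ b : Fin d → Fin 2, ‖(∫ z in qcube t (n - 1) (kid k b), u z)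
        - ((2 : ℝ) ^ d)⁻¹ * ∫ z in qcube t n k, u z‖ₑ := by
  set U := ∫ z in qcube t n k, u z
  set c := (volume.real (qcube t n k))⁻¹ * U
  have hv : ∀ m l, volume.real (qcube t m l) = ((2 : ℝ) ^ m) ^ d := fun m l => by
    rw [measureReal_def, poin_volume_qcube, ENNReal.toReal_ofReal (by positivity)]
  have hm : volume.real (qcube t n k) = (2 : ℝ) ^ d * ((2 : ℝ) ^ (n - 1)) ^ d := by
    rw [hv, ← mul_pow, zpow_sub_one₀ two_ne_zero]; ring_nf
  have e1 : poinOsc u t n k
      = ∑ b : Fin d → Fin 2, ∫⁻ y in qcube t (n - 1) (kid k b), ‖u y - c‖ₑ := by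
    rw [← tsum_fintype (L := .unconditional _),
      ← lintegral_iUnion (fun b => measurableSet_qcube t _ _) (poin_disjoint_kid t n k),
      poin_iUnion_kid]
    rfl
  rw [e1, ← Finset.sum_add_distrib]
  refine Finset.sum_le_sum fun b _ => ?_
  set cb := (volume.real (qcube t (n - 1) (kid k b)))⁻¹
    * ∫ z in qcube t (n - 1) (kid k b), u z
  calc ∫⁻ y in qcube t (n - 1) (kid k b), ‖u y - c‖ₑ
      ≤ ∫⁻ y in qcube t (n - 1) (kid k b), (‖u y - cb‖ₑ + ‖cb - c‖ₑ) :=
        lintegral_mono fun y => by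
          rw [← sub_add_sub_cancel (u y) cb c]; exact enorm_add_le _ _
    _ = poinOsc u t (n - 1) (kid k b) + ‖cb - c‖ₑ * volume (qcube t (n - 1) (kid k b)) := by
        rw [lintegral_add_right _ measurable_const, setLIntegral_const]; rfl
    _ ≤ _ := by
        refine add_le_add le_rfl (le_of_eq ?_)
        rw [poin_volume_qcube, ← ofReal_norm, ← ofReal_norm, ← ENNReal.ofReal_mul (norm_nonneg _),
          ← Real.norm_of_nonneg (show (0 : ℝ) ≤ ((2 : ℝ) ^ (n - 1)) ^ d by positivity), ← norm_mul]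
        congr 2
        simp only [cb, c, hm, hv]
        field_simp

theorem poin_osc_rec {g : E d → E d} {u : E d → ℝ} (hu : Smooth u) (hg : Integrable g) (t : E d)
    {C : ℝ≥0∞} (hC : C = (2 : ℝ≥0∞) ^ d * (2 ^ d * (d * (2 * ENNReal.ofReal (3 * (Real.sqrt d + 1))))))
    {L : ℝ≥0} : ∀ (J : ℕ) (n : ℤ) (k : Fin d → ℤ), (∀ y ∈ qcube t n k, g y = ∇ u y) →
      LipschitzOnWith L u (qcube t n k) →
      poinOsc u t n k ≤
        C * ENNReal.ofReal ((2 : ℝ) ^ n) * (2 * ‖qint g t n k‖ₑ + 10 * qPsi g t n k)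
        + ENNReal.ofReal ((L : ℝ) * (Real.sqrt d * (2 : ℝ) ^ n) / 2 ^ J) * volume (qcube t n k) := by
  intro J
  induction J with
  | zero =>
    intro n k _ hLip
    refine le_trans ?_ le_add_self
    rw [pow_zero, div_one, poinOsc, ← setLIntegral_const]
    refine setLIntegral_mono' (measurableSet_qcube t n k) fun y hy => ?_
    rw [← ofReal_norm]
    refine ENNReal.ofReal_le_ofReal ?_
    have hV : 0 < volume.real (qcube t n k) := by
      rw [measureReal_def, poin_volume_qcube, ENNReal.toReal_ofReal (by positivity)]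
      positivity
    have hfin : volume (qcube t n k) < ⊤ := by
      rw [poin_volume_qcube]; exact ENNReal.ofReal_lt_top
    have hi := poin_integrableOn hu.contDiff.continuous t n k
    have e : u y - (volume.real (qcube t n k))⁻¹ * ∫ z in qcube t n k, u z
        = (volume.real (qcube t n k))⁻¹ * ∫ z in qcube t n k, (u y - u z) := by
      rw [integral_sub (integrableOn_const (C := u y) hfin.ne) hi, setIntegral_const, smul_eq_mul]
      field_simp
    rw [e, norm_mul, norm_inv, Real.norm_of_nonneg hV.le, inv_mul_le_iff₀ hV, mul_comm]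
    refine norm_setIntegral_le_of_norm_le_const hfin fun z hz => ?_
    refine (hLip.norm_sub_le hy hz).trans (mul_le_mul_of_nonneg_left ?_ L.coe_nonneg)
    have h1 := norm_sub_qctr_le hy
    have h2 := norm_sub_qctr_le hz
    have h3 := norm_sub_le_norm_sub_add_norm_sub y (qctr t n k) z
    rw [norm_sub_rev (qctr t n k) z] at h3
    linarith
  | succ J ih =>
    intro n k hgu hLip
    refine (poin_osc_step t n k).trans ?_
    refine (add_le_add (Finset.sum_le_sum fun b _ => ih (n - 1) (kid k b)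
      (fun y hy => hgu y (poin_kid_subset t n k b hy)) (hLip.mono (poin_kid_subset t n k b)))
      (poin_kid_dev hu hg t n k hgu)).trans ?_
    rw [← hC, Finset.sum_add_distrib, ← Finset.mul_sum, ← Finset.mul_sum, Finset.sum_add_distrib,
      ← Finset.mul_sum, ← Finset.mul_sum]
    have hvol : ∑ b : Fin d → Fin 2, volume (qcube t (n - 1) (kid k b)) = volume (qcube t n k) := by
      rw [← tsum_fintype (L := .unconditional _),
        ← measure_iUnion (poin_disjoint_kid t n k) (fun b => measurableSet_qcube t _ _),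
        poin_iUnion_kid]
    have hrad : (L : ℝ) * (Real.sqrt d * (2 : ℝ) ^ (n - 1)) / 2 ^ J
        = (L : ℝ) * (Real.sqrt d * (2 : ℝ) ^ n) / 2 ^ (J + 1) := by
      rw [zpow_sub_one₀ two_ne_zero, pow_succ]; field_simp
    rw [hvol, hrad, add_right_comm]
    refine add_le_add ?_ le_rfl
    set I := ‖qint g t n k‖ₑ
    set Ψ := qPsi g t n k
    set S := ∑ b : Fin d → Fin 2, ‖qint g t (n - 1) (kid k b)‖ₑ
    set S' := ∑ b : Fin d → Fin 2, qPsi g t (n - 1) (kid k b)
    have hh : ENNReal.ofReal ((2 : ℝ) ^ (n - 1))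
        = ENNReal.ofReal ((2 : ℝ) ^ n) * ENNReal.ofReal (1 / 2) := by
      rw [← ENNReal.ofReal_mul (by positivity), zpow_sub_one₀ two_ne_zero]; ring_nf
    calc C * ENNReal.ofReal ((2 : ℝ) ^ (n - 1)) * (2 * S + 10 * S')
          + C * ENNReal.ofReal ((2 : ℝ) ^ n) * (I + Ψ)
        ≤ C * ENNReal.ofReal ((2 : ℝ) ^ (n - 1))
            * (2 * (I + ENNReal.ofReal (6 / 5) * Ψ) + 10 * (ENNReal.ofReal (6 / 5) * Ψ))
          + C * ENNReal.ofReal ((2 : ℝ) ^ n) * (I + Ψ) := by
          gcongr
          · exact poin_sum_kid_qint hg t n k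
          · exact poin_sum_kid_qPsi hg t n k
      _ = C * ENNReal.ofReal ((2 : ℝ) ^ n) *
          ((ENNReal.ofReal (1 / 2) * 2 + 1) * I
            + (ENNReal.ofReal (1 / 2) * 12 * ENNReal.ofReal (6 / 5) + 1) * Ψ) := by
          rw [hh]; ring
      _ ≤ _ := by
          gcongr
          · rw [show (2 : ℝ≥0∞) = ENNReal.ofReal 2 by simp, show (1 : ℝ≥0∞) = ENNReal.ofReal 1 by simp,
              ← ENNReal.ofReal_mul (by norm_num), ← ENNReal.ofReal_add (by norm_num) (by norm_num)]
            exact ENNReal.ofReal_le_ofReal (by norm_num)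
          · rw [show (12 : ℝ≥0∞) = ENNReal.ofReal 12 by simp, show (10 : ℝ≥0∞) = ENNReal.ofReal 10 by simp,
              show (1 : ℝ≥0∞) = ENNReal.ofReal 1 by simp, ← ENNReal.ofReal_mul (by norm_num),
              ← ENNReal.ofReal_mul (by norm_num), ← ENNReal.ofReal_add (by norm_num) (by norm_num)]
            exact ENNReal.ofReal_le_ofReal (by norm_num)

theorem poincare_cube (hd : 2 ≤ d) : ∃ C : ℝ≥0∞, C ≠ ⊤ ∧
    ∀ (g : E d → E d) (u : E d → ℝ) (t : E d) (n : ℤ) (k : Fin d → ℤ),
      Smooth u → Integrable g → (∀ y ∈ qcube t n k, g y = ∇ u y) →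
      ∫⁻ y in qcube t n k, ‖u y - (volume.real (qcube t n k))⁻¹ * ∫ z in qcube t n k, u z‖ₑ
        ≤ C * ENNReal.ofReal ((2 : ℝ) ^ n) * (‖qint g t n k‖ₑ + qPsi g t n k) := by
  have _ := hd
  refine ⟨(2 : ℝ≥0∞) ^ d * (2 ^ d * (d * (2 * ENNReal.ofReal (3 * (Real.sqrt d + 1))))) * 10, ?_,
    fun g u t n k hu hg hgu => ?_⟩
  · simp [ENNReal.mul_eq_top, ENNReal.pow_eq_top_iff]
  obtain ⟨L, hL⟩ := hu.contDiff.locallyLipschitz.locallyLipschitzOn.exists_lipschitzOnWith_of_compact
    (isCompact_closedBall (qctr t n k) (Real.sqrt d * (2 : ℝ) ^ n / 2))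
  have hLQ := hL.mono (poin_qcube_subset_closedBall t n k)
  set X := ENNReal.ofReal ((2 : ℝ) ^ n)
  have hlim : Tendsto (fun J : ℕ =>
      (2 : ℝ≥0∞) ^ d * (2 ^ d * (d * (2 * ENNReal.ofReal (3 * (Real.sqrt d + 1))))) * X
        * (2 * ‖qint g t n k‖ₑ + 10 * qPsi g t n k)
      + ENNReal.ofReal ((L : ℝ) * (Real.sqrt d * (2 : ℝ) ^ n) / 2 ^ J) * volume (qcube t n k))
      atTop (𝓝 ((2 : ℝ≥0∞) ^ d * (2 ^ d * (d * (2 * ENNReal.ofReal (3 * (Real.sqrt d + 1))))) * X
        * (2 * ‖qint g t n k‖ₑ + 10 * qPsi g t n k))) := by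
    have h0 : Tendsto (fun J : ℕ => (L : ℝ) * (Real.sqrt d * (2 : ℝ) ^ n) / 2 ^ J) atTop (𝓝 0) :=
      Tendsto.const_div_atTop (tendsto_pow_atTop_atTop_of_one_lt one_lt_two) _
    have h1 := ENNReal.Tendsto.mul_const (ENNReal.tendsto_ofReal h0)
      (Or.inr (by rw [poin_volume_qcube]; exact ENNReal.ofReal_ne_top) :
        ENNReal.ofReal 0 ≠ 0 ∨ volume (qcube t n k) ≠ ⊤)
    rw [ENNReal.ofReal_zero, zero_mul] at h1
    simpa only [add_zero] using tendsto_const_nhds.add h1
  refine (ge_of_tendsto hlim (Eventually.of_forall fun J =>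
    poin_osc_rec hu hg t rfl J n k hgu hLQ)).trans ?_
  generalize (2 : ℝ≥0∞) ^ d * (2 ^ d * (d * (2 * ENNReal.ofReal (3 * (Real.sqrt d + 1))))) = K
  calc K * X * (2 * ‖qint g t n k‖ₑ + 10 * qPsi g t n k)
      ≤ K * X * (10 * ‖qint g t n k‖ₑ + 10 * qPsi g t n k) := by gcongr; norm_num
    _ = K * 10 * X * (‖qint g t n k‖ₑ + qPsi g t n k) := by ring

end

end Vale.Agent.P137.Cen
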