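import Vale.Agent.P137.Cen.CoreGeom
import Vale.Agent.P137.Cen.Max
import Vale.Agent.P137.Cen.Poincare

/-!
# P137, centred operator: tools for the identity of a tree
-/

open MeasureTheory Metric Set Filter Topology
open scoped ENNReal NNReal RealInnerProductSpace Gradient

namespace Vale.Agent.P137.Cen

open Vale.Agent.P137.Unc (E qdec ballAvg Smooth)

noncomputable section

variable {d : ℕ}

/-- Integration by parts against a Lipschitz function of compact support. -/
theorem integral_mul_fderiv_lip {f φ : E d → ℝ} (hf : LocallyLipschitz f) {D : ℝ≥0}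
    (hD : LipschitzWith D φ) (hc : HasCompactSupport φ) (v : E d) :
    ∫ x, f x * fderiv ℝ φ x v = -∫ x, fderiv ℝ f x v * φ x := by
  obtain ⟨R, hR⟩ := hc.isCompact.isBounded.subset_closedBall (0 : E d)
  obtain ⟨K, hK⟩ := hf.locallyLipschitzOn.exists_lipschitzOnWith_of_compact
    (isCompact_closedBall (0 : E d) (R + 1))
  obtain ⟨g, hg, hgM⟩ := hK.extend_real
  have hloc : ∀ x ∈ tsupport φ, g =ᶠ[𝓝 x] f := fun x hx => by
    refine Filter.mem_of_superset (closedBall_mem_nhds_of_mem (c := (0 : E d)) (ε := R + 1) ?_)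
      fun y hy => (hgM hy).symm
    have := hR hx
    simp only [mem_closedBall, mem_ball] at this ⊢
    linarith
  have key := LipschitzWith.integral_lineDeriv_mul_eq (μ := volume) hg hD hc v
  have e2 : ∫ x, lineDeriv ℝ φ x (-v) * g x = -∫ x, f x * fderiv ℝ φ x v := by
    rw [← integral_neg]
    refine integral_congr_ae (hD.ae_differentiableAt.mono fun x hφ => ?_)
    simp only
    rw [hφ.lineDeriv_eq_fderiv, map_neg]
    by_cases hx : x ∈ tsupport φ
    · rw [(hloc x hx).self_of_nhds]; ring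
    · rw [fderiv_of_notMem_tsupport ℝ hx]; simp
  have e1 : ∫ x, lineDeriv ℝ g x v * φ x = ∫ x, fderiv ℝ f x v * φ x := by
    refine integral_congr_ae (hg.ae_differentiableAt.mono fun x hx => ?_)
    simp only
    by_cases h : x ∈ tsupport φ
    · rw [hx.lineDeriv_eq_fderiv, (hloc x h).fderiv_eq]
    · rw [image_eq_zero_of_notMem_tsupport h, mul_zero, mul_zero]
  rw [e1, e2] at key
  rw [key, neg_neg]

/-! ## Grids -/

theorem qctr_mem (t : E d) (n : ℤ) (k : Fin d → ℤ) : qctr t n k ∈ qcube t n k :=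
  mem_qcube_iff.2 (qidx_qctr t n k)

theorem anc_desc (j : ℕ) (k : Fin d → ℤ) (b : Fin d → Fin (2 ^ j)) : anc j (desc j k b) = k := by
  funext i
  have h : ((b i : ℕ) : ℤ) < (2 : ℤ) ^ j := by exact_mod_cast (b i).isLt
  simp only [anc, desc]
  rw [add_comm, Int.add_mul_ediv_left _ _ (pow_ne_zero j two_ne_zero),
    Int.ediv_eq_zero_of_lt (Int.natCast_nonneg _) h, zero_add]

theorem tsum_comp_anc (f : (Fin d → ℤ) → ℝ≥0∞) (j : ℕ) :
    ∑' k : Fin d → ℤ, f (anc j k) = ((2 ^ j) ^ d : ℕ) * ∑' k, f k := by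
  rw [← (descEquiv d j).tsum_eq (fun k => f (anc j k)), ENNReal.tsum_prod', ← ENNReal.tsum_mul_left]
  refine tsum_congr fun k => ?_
  simp [descEquiv_apply, anc_desc, tsum_fintype]

theorem tsum_comp_nbr (f : (Fin d → ℤ) → ℝ≥0∞) (o : Fin d → Fin 9) :
    ∑' k : Fin d → ℤ, f (nbr k o) = ∑' k, f k :=
  (Equiv.addRight (noff o)).tsum_eq f

/-- The opposite offset. -/
def orev (o : Fin d → Fin 9) : Fin d → Fin 9 := fun i => Fin.rev (o i)

theorem nbr_nbr_orev (k : Fin d → ℤ) (o : Fin d → Fin 9) : nbr (nbr k o) (orev o) = k := by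
  funext i
  simp only [nbr, noff, orev, Pi.add_apply, Fin.val_rev]
  have := (o i).isLt
  omega

theorem exists_nbr_self (k : Fin d → ℤ) : ∃ o : Fin d → Fin 9, nbr k o = k :=
  ⟨fun _ => 4, funext fun i => by simp [nbr, noff]⟩

theorem sqrt_dim_le (d : ℕ) : Real.sqrt d ≤ d := by
  rw [Real.sqrt_le_iff]
  refine ⟨Nat.cast_nonneg d, ?_⟩
  rcases Nat.eq_zero_or_pos d with h | h
  · simp [h]
  · exact le_self_pow₀ (by exact_mod_cast h) two_ne_zero

theorem norm_sub_le_of_nbr {t : E d} {n : ℤ} {k : Fin d → ℤ} {o : Fin d → Fin 9} {x y : E d}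
    (hx : x ∈ qcube t n k) (hy : y ∈ qcube t n (nbr k o)) :
    ‖x - y‖ ≤ 5 * Real.sqrt d * (2 : ℝ) ^ n := by
  have hp : (0 : ℝ) < 2 ^ n := zpow_pos two_pos n
  have h := Unc.norm_le_sqrt_mul (b := 5 * (2 : ℝ) ^ n) (v := x - y) (by positivity) fun i => by
    obtain ⟨a1, a2⟩ := hx i
    obtain ⟨b1, b2⟩ := hy i
    simp only [qcorn, nbr, noff, Pi.add_apply] at a1 a2 b1 b2
    push_cast at a1 a2 b1 b2
    have h0 : (0 : ℝ) ≤ ((o i : ℕ) : ℝ) := Nat.cast_nonneg _
    have h8 : ((o i : ℕ) : ℝ) ≤ 8 := by exact_mod_cast Nat.lt_succ_iff.1 (o i).isLt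
    simp only [PiLp.sub_apply]
    rw [abs_le]
    constructor <;> nlinarith
  linarith [h]

/-! ## Signed sums -/

theorem tsum_ofReal_pos_le {ι : Type*} {a : ι → ℝ} {S : ℝ} (h : HasSum a S) :
    ∑' i, ENNReal.ofReal (a i) ≤ ENNReal.ofReal S + ∑' i, ENNReal.ofReal (-a i) := by
  have hs : Summable fun i => max (-a i) 0 :=
    Summable.of_nonneg_of_le (fun i => le_max_right _ _)
      (fun i => max_le (neg_le_abs _) (abs_nonneg _)) h.summable.abs
  have hp : HasSum (fun i => max (a i) 0) (S + ∑' i, max (-a i) 0) := by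
    refine (h.add hs.hasSum).congr_fun fun i => ?_
    rcases le_total 0 (a i) with h0 | h0
    · rw [max_eq_left h0, max_eq_right (by linarith), add_zero]
    · rw [max_eq_right h0, max_eq_left (by linarith), add_neg_cancel]
  have e : ∀ b : ℝ, ENNReal.ofReal b = ENNReal.ofReal (max b 0) := fun b => by
    rcases le_total b 0 with h0 | h0
    · rw [max_eq_right h0, ENNReal.ofReal_of_nonpos h0, ENNReal.ofReal_zero]
    · rw [max_eq_left h0]
  calc ∑' i, ENNReal.ofReal (a i) = ∑' i, ENNReal.ofReal (max (a i) 0) := tsum_congr fun i => e _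
    _ = ENNReal.ofReal (S + ∑' i, max (-a i) 0) := by
        rw [← ENNReal.ofReal_tsum_of_nonneg (fun i => le_max_right _ _) hp.summable, hp.tsum_eq]
    _ ≤ ENNReal.ofReal S + ENNReal.ofReal (∑' i, max (-a i) 0) := ENNReal.ofReal_add_le
    _ = _ := by
        rw [ENNReal.ofReal_tsum_of_nonneg (fun i => le_max_right _ _) hs]
        congr 1
        exact tsum_congr fun i => (e _).symm

/-! ## Weights of cubes -/

/-- The size of a cube. -/
def cW (g : E d → E d) (t : E d) (n : ℤ) (k : Fin d → ℤ) : ℝ≥0∞ :=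
  ‖qint g t n k‖ₑ + qPsi g t n k

theorem enorm_qint_desc_le {g : E d → E d} (hg : Integrable g) (t : E d) (n : ℤ)
    (k : Fin d → ℤ) (j : ℕ) :
    ‖qint g t n k‖ₑ ≤ 2 ^ j * cW g t (n + j) (anc j k) := by
  obtain ⟨⟨k', b⟩, hb⟩ := (descEquiv d j).surjective k
  rw [descEquiv_apply] at hb
  subst hb
  rw [anc_desc]
  have h1 : ‖qint g t n (desc j k' b)‖ₑ ≤ dsum g t (n + j) k' j := by
    have := Finset.single_le_sum (f := fun b => ‖qint g t (n + j - j) (desc j k' b)‖ₑ)
      (fun _ _ => zero_le) (Finset.mem_univ b)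
    simpa [dsum] using this
  refine h1.trans ((dsum_le hg (n + j) k' j).trans ?_)
  rw [cW, mul_add]
  gcongr
  exact le_mul_of_one_le_left zero_le (one_le_pow₀ one_le_two)

end

end Vale.Agent.P137.Cen
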