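import Vale.Agent.P137.Unc.Defs

/-!
P137, centred operator: a sequence of integrable functions whose mass does not concentrate on
compact null sets has an integrable density for its limit functional (Riesz-Markov-Kakutani).
-/

open MeasureTheory Filter Set Metric CompactlySupported
open scoped Topology ENNReal NNReal

namespace Vale.Agent.P137.Cen

open Vale.Agent.P137.Unc

noncomputable section

variable {d : ℕ}

lemma cen_integrable_mul {w : E d → ℝ} (hw : Integrable w) (f : C_c(E d, ℝ)) :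
    Integrable (fun x => w x * f x) := by
  obtain ⟨M, hM⟩ := f.hasCompactSupport.exists_bound_of_continuous f.continuous
  exact hw.mul_bdd f.continuous.aestronglyMeasurable (c := M) (Eventually.of_forall hM)

/-- Nonnegative weights without concentration on null sets. -/
theorem cen_exists_density_nonneg (U : Ultrafilter ℕ) (w : ℕ → E d → ℝ)
    (hw : ∀ k, Integrable (w k)) (h0 : ∀ k x, 0 ≤ w k x) {C : ℝ} (hC0 : 0 ≤ C)
    (hC : ∀ᶠ k in (U : Filter ℕ), ∫ x, w k x ≤ C)
    (hsmall : ∀ K, IsCompact K → volume K = 0 → ∀ ε : ℝ, 0 < ε → ∃ O, IsOpen O ∧ K ⊆ O ∧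
      ∀ᶠ k in (U : Filter ℕ), ∫ x in O, w k x ≤ ε) :
    ∃ h : E d → ℝ, Integrable h ∧
      (∀ C' : ℝ, 0 ≤ C' → (∀ᶠ k in (U : Filter ℕ), ∫ x, w k x ≤ C') → ∫ x, |h x| ≤ C') ∧
      ∀ f : C_c(E d, ℝ), Tendsto (fun k => ∫ x, w k x * f x) U (𝓝 (∫ x, h x * f x)) := by
  have hlim : ∀ f : C_c(E d, ℝ), ∃ l : ℝ, Tendsto (fun k => ∫ x, w k x * f x) U (𝓝 l) := by
    intro f
    obtain ⟨M, hM⟩ := f.hasCompactSupport.exists_bound_of_continuous f.continuous
    have hev : ∀ᶠ k in (U : Filter ℕ), (∫ x, w k x * f x) ∈ Icc (-(C * |M|)) (C * |M|) := by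
      filter_upwards [hC] with k hk
      refine abs_le.1 (le_trans abs_integral_le_integral_abs ?_)
      refine le_trans (integral_mono (cen_integrable_mul (hw k) f).abs ((hw k).mul_const |M|)
        fun x => ?_) ?_
      · simp only [abs_mul, abs_of_nonneg (h0 k x)]
        exact mul_le_mul_of_nonneg_left ((hM x).trans (le_abs_self M)) (h0 k x)
      · rw [integral_mul_const]
        exact mul_le_mul_of_nonneg_right hk (abs_nonneg M)
    obtain ⟨l, -, hl⟩ := isCompact_Icc.ultrafilter_le_nhds (U.map fun k => ∫ x, w k x * f x)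
      (le_principal_iff.2 hev)
    exact ⟨l, hl⟩
  choose l hl using hlim
  let Λ₀ : C_c(E d, ℝ) →ₗ[ℝ] ℝ :=
    { toFun := l
      map_add' := fun f g => tendsto_nhds_unique (hl (f + g)) (((hl f).add (hl g)).congr fun k => by
        rw [← integral_add (cen_integrable_mul (hw k) f) (cen_integrable_mul (hw k) g)]
        simp [mul_add])
      map_smul' := fun c f => tendsto_nhds_unique (hl (c • f)) (((hl f).const_mul c).congr fun k => by
        rw [← integral_const_mul]
        exact integral_congr_ae (Eventually.of_forall fun x => by simp; ring)) }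
  have hpos : ∀ f : C_c(E d, ℝ), 0 ≤ f → 0 ≤ Λ₀ f := fun f hf =>
    ge_of_tendsto (hl f) (Eventually.of_forall fun k =>
      integral_nonneg fun x => mul_nonneg (h0 k x) (by simpa using hf x))
  let Λ : C_c(E d, ℝ) →ₚ[ℝ] ℝ := PositiveLinearMap.mk₀ Λ₀ hpos
  set μ := RealRMK.rieszMeasure Λ
  have hint : ∀ f : C_c(E d, ℝ), ∫ x, f x ∂μ = l f := fun f => RealRMK.integral_rieszMeasure Λ f
  have hK : ∀ K O, IsCompact K → IsOpen O → K ⊆ O → ∀ c : ℝ,
      (∀ᶠ k in (U : Filter ℕ), ∫ x in O, w k x ≤ c) → μ K ≤ ENNReal.ofReal c := by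
    intro K O hKc hO hKO c hc
    obtain ⟨f, hf1, hf0, hfc, hf01⟩ := exists_continuous_one_zero_of_isCompact hKc
      hO.isClosed_compl (disjoint_compl_right_iff_subset.2 hKO)
    set F : C_c(E d, ℝ) := ⟨f, hfc⟩
    refine (RealRMK.rieszMeasure_le_of_eq_one (Λ := Λ) (f := F) (fun x => (hf01 x).1)
      hKc fun x hx => hf1 hx).trans (ENNReal.ofReal_le_ofReal ?_)
    refine le_of_tendsto (hl F) (hc.mono fun k hk => le_trans ?_ hk)
    rw [← integral_indicator hO.measurableSet]
    refine integral_mono (cen_integrable_mul (hw k) F) ((hw k).indicator hO.measurableSet) fun x => ?_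
    by_cases hx : x ∈ O
    · rw [indicator_of_mem hx]
      exact mul_le_of_le_one_right (h0 k x) (hf01 x).2
    · rw [indicator_of_notMem hx]
      have : F x = 0 := hf0 hx
      simp [this]
  have huniv : ∀ C' : ℝ, (∀ᶠ k in (U : Filter ℕ), ∫ x, w k x ≤ C') → μ univ ≤ ENNReal.ofReal C' := by
    intro C' hC'
    rw [isOpen_univ.measure_eq_iSup_isCompact μ]
    exact iSup₂_le fun K _ => iSup_le fun hKc => hK K univ hKc isOpen_univ (subset_univ K) C'
      (by simpa using hC')
  haveI : IsFiniteMeasure μ := ⟨(huniv C hC).trans_lt ENNReal.ofReal_lt_top⟩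
  have hac : μ ≪ volume := by
    refine Measure.AbsolutelyContinuous.mk fun s hs hs0 => ?_
    rw [hs.measure_eq_iSup_isCompact_of_ne_top (measure_ne_top μ s)]
    refine le_antisymm (iSup₂_le fun K hKs => iSup_le fun hKc => ?_) zero_le
    refine ENNReal.le_of_forall_pos_le_add fun ε hε _ => ?_
    obtain ⟨O, hO, hKO, hc⟩ := hsmall K hKc (measure_mono_null hKs hs0) ε (by exact_mod_cast hε)
    simpa using hK K O hKc hO hKO ε hc
  refine ⟨fun x => (μ.rnDeriv volume x).toReal, Measure.integrable_toReal_rnDeriv,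
    fun C' hC'0 hC' => ?_, fun f => ?_⟩
  · simp only [abs_of_nonneg ENNReal.toReal_nonneg]
    rw [Measure.integral_toReal_rnDeriv hac]
    exact ENNReal.toReal_le_of_le_ofReal hC'0 (huniv C' hC')
  · rw [integral_toReal_rnDeriv_mul hac, hint f]
    exact hl f

/-- The limit functional of a sequence without concentration on null sets has an `L¹` density. -/
theorem cen_exists_density (G : ℕ → E d → ℝ) (hG : ∀ k, Integrable (G k)) {C : ℝ} (hC0 : 0 ≤ C)
    (hC : ∀ᶠ k in atTop, ∫ x, |G k x| ≤ C)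
    (hsmall : ∀ K, IsCompact K → volume K = 0 → ∀ ε : ℝ, 0 < ε → ∃ O, IsOpen O ∧ K ⊆ O ∧
      ∀ᶠ k in atTop, ∫ x in O, |G k x| ≤ ε) :
    ∃ H : E d → ℝ, Integrable H ∧
      (∀ C' : ℝ, 0 ≤ C' → (∀ᶠ k in atTop, ∫ x, |G k x| ≤ C') → ∫ x, |H x| ≤ 3 * C') ∧
      ∀ (φ : E d → ℝ), Continuous φ → HasCompactSupport φ → ∀ l : ℝ,
        Tendsto (fun k => ∫ x, G k x * φ x) atTop (𝓝 l) → ∫ x, H x * φ x = l := by
  set U : Ultrafilter ℕ := hyperfilter ℕ
  have hU : ∀ {P : ℕ → Prop}, (∀ᶠ k in atTop, P k) → ∀ᶠ k in (U : Filter ℕ), P k :=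
    fun h => h.filter_mono Nat.hyperfilter_le_atTop
  have hp : ∀ k x, 0 ≤ |G k x| + G k x := fun k x => by linarith [neg_abs_le (G k x)]
  obtain ⟨h1, h1i, h1C, h1f⟩ := cen_exists_density_nonneg U (fun k x => |G k x| + G k x)
    (fun k => (hG k).abs.add (hG k)) hp (C := 2 * C) (by linarith) (by
      filter_upwards [hU hC] with k hk
      rw [integral_add (hG k).abs (hG k)]
      linarith [le_abs_self (∫ x, G k x), abs_integral_le_integral_abs (f := G k) (μ := volume)])
    (fun K hK h0 ε hε => by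
      obtain ⟨O, hO, hKO, hc⟩ := hsmall K hK h0 (ε / 2) (half_pos hε)
      refine ⟨O, hO, hKO, (hU hc).mono fun k hk => ?_⟩
      rw [integral_add (hG k).abs.integrableOn (hG k).integrableOn]
      linarith [le_abs_self (∫ x in O, G k x),
        abs_integral_le_integral_abs (f := G k) (μ := volume.restrict O)])
  obtain ⟨h2, h2i, h2C, h2f⟩ := cen_exists_density_nonneg U (fun k x => |G k x|)
    (fun k => (hG k).abs) (fun k x => abs_nonneg _) hC0 (hU hC)
    (fun K hK h0 ε hε => by
      obtain ⟨O, hO, hKO, hc⟩ := hsmall K hK h0 ε hε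
      exact ⟨O, hO, hKO, hU hc⟩)
  refine ⟨fun x => h1 x - h2 x, h1i.sub h2i, fun C' hC'0 hC' => ?_, fun φ hφ hφc l hl => ?_⟩
  · have b1 := h1C (2 * C') (by linarith) (by
      filter_upwards [hU hC'] with k hk
      rw [integral_add (hG k).abs (hG k)]
      linarith [le_abs_self (∫ x, G k x), abs_integral_le_integral_abs (f := G k) (μ := volume)])
    have b2 := h2C C' hC'0 (hU hC')
    refine le_trans (integral_mono (g := fun x => |h1 x| + |h2 x|) (h1i.sub h2i).abs
      (h1i.abs.add h2i.abs) fun x => abs_sub _ _) ?_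
    rw [integral_add h1i.abs h2i.abs]
    linarith
  set f : C_c(E d, ℝ) := ⟨⟨φ, hφ⟩, hφc⟩
  have e : ∫ x, (h1 x - h2 x) * φ x = (∫ x, h1 x * f x) - ∫ x, h2 x * f x := by
    rw [← integral_sub (cen_integrable_mul h1i f) (cen_integrable_mul h2i f)]
    exact integral_congr_ae (Eventually.of_forall fun x => sub_mul _ _ _)
  rw [e]
  refine tendsto_nhds_unique (((h1f f).sub (h2f f)).congr fun k => ?_)
    (hl.mono_left Nat.hyperfilter_le_atTop)
  have i1 : Integrable (fun x => (|G k x| + G k x) * f x) := cen_integrable_mul ((hG k).abs.add (hG k)) f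
  have i2 : Integrable (fun x => |G k x| * f x) := cen_integrable_mul (hG k).abs f
  rw [← integral_sub i1 i2]
  exact integral_congr_ae (Eventually.of_forall fun x => by
    show (|G k x| + G k x) * φ x - |G k x| * φ x = G k x * φ x
    ring)

end

end Vale.Agent.P137.Cen
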