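import Vale.Agent.P137.Unc.Limit
import Vale.Agent.P137.Cen.CenMx
import Vale.Agent.P137.Cen.WeakDensity

/-!
P137, centred operator, block CG: from the bounds for smooth inputs to all functions with integrable
weak gradient.
-/

open MeasureTheory Metric Set Filter
open scoped ENNReal NNReal RealInnerProductSpace Gradient Topology

namespace Vale.Agent.P137.Cen

open Vale.Agent.P137.Unc

noncomputable section

variable {d : ℕ}

/-- The global and the local gradient bound of an operator on smooth inputs. -/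
structure CenBound (d : ℕ) (T : (E d → ℝ) → E d → ℝ) : Prop where
  glob : ∃ C : ℝ≥0∞, C ≠ ⊤ ∧ ∀ u, Smooth u → ∫⁻ x, ‖∇ (T u) x‖ₑ ≤ C * ∫⁻ x, ‖∇ u x‖ₑ
  loc : ∃ C : ℝ≥0∞, C ≠ ⊤ ∧ ∀ δ : ℝ, 0 < δ → ∃ Cδ : ℝ≥0∞, Cδ ≠ ⊤ ∧ ∀ u, Smooth u →
    ∀ O : Set (E d), MeasurableSet O → ∫⁻ x in O, ‖∇ (T u) x‖ₑ ≤
      C * (∫⁻ x in thickening δ O, ‖∇ u x‖ₑ) + Cδ * (∫⁻ x, ‖∇ u x‖ₑ) * volume O

/-- No mass of the gradients concentrates on a compact null set. -/
lemma cen_no_concentration {T : (E d → ℝ) → E d → ℝ} (hT : CenBound d T) {u : ℕ → E d → ℝ}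
    {v : E d → E d} (hu : ∀ n, Smooth (u n)) (hv : Integrable v)
    (hb0 : Tendsto (fun n => ∫⁻ x, ‖∇ (u n) x - v x‖ₑ) atTop (𝓝 0)) {K : Set (E d)}
    (hK : IsCompact K) (hK0 : volume K = 0) {ε : ℝ≥0∞} (hε : 0 < ε) :
    ∃ O, IsOpen O ∧ K ⊆ O ∧ ∀ᶠ k in atTop, ∫⁻ x in O, ‖∇ (T (u k)) x‖ₑ ≤ ε := by
  obtain ⟨C, hC, hloc⟩ := hT.loc
  have hvt : ∫⁻ x, ‖v x‖ₑ ≠ ⊤ := hv.hasFiniteIntegral.ne
  set q : ℝ≥0∞ := ε / 3
  have hq : 0 < q := ENNReal.div_pos hε.ne' (by simp)
  -- the mass of the limit near the set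
  have hth : Tendsto (fun r => volume (thickening r K)) (𝓝[>] 0) (𝓝 0) := by
    rw [← hK0]
    exact tendsto_measure_thickening_of_isClosed
      ⟨1, one_pos, (hK.isBounded.thickening).measure_lt_top.ne⟩ hK.isClosed
  obtain ⟨η, hη, hηC⟩ : ∃ η : ℝ≥0∞, 0 < η ∧ C * η ≤ q := by
    have h : Tendsto (fun η : ℝ≥0∞ => C * η) (𝓝[>] 0) (𝓝 0) := by
      simpa using ((ENNReal.continuous_const_mul hC).tendsto 0).mono_left nhdsWithin_le_nhds
    obtain ⟨η, h1, h2⟩ := ((h.eventually (Iic_mem_nhds hq)).and self_mem_nhdsWithin).exists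
    exact ⟨η, h2, h1⟩
  obtain ⟨s, hs, hsv⟩ := exists_pos_setLIntegral_lt_of_measure_lt hvt hη.ne'
  obtain ⟨r, hr, hr0⟩ := ((hth.eventually (Iio_mem_nhds hs)).and self_mem_nhdsWithin).exists
  have hr0' : (0 : ℝ) < r := hr0
  obtain ⟨Cδ, hCδ, hbd⟩ := hloc (r / 2) (half_pos hr0')
  -- a neighbourhood of small measure
  set B₀ : ℝ≥0∞ := (∫⁻ x, ‖v x‖ₑ) + 1
  have hB₀ : Cδ * B₀ ≠ ⊤ := ENNReal.mul_ne_top hCδ (ENNReal.add_ne_top.2 ⟨hvt, by simp⟩)
  have hth2 : Tendsto (fun t => Cδ * B₀ * volume (thickening t K)) (𝓝[>] 0) (𝓝 0) := by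
    simpa using ENNReal.Tendsto.const_mul hth (Or.inr hB₀)
  obtain ⟨t, ht, ht0, htr⟩ := ((hth2.eventually (Iic_mem_nhds hq)).and
    (Ioo_mem_nhdsGT (half_pos hr0'))).exists
  refine ⟨thickening t K, isOpen_thickening, self_subset_thickening ht0 K, ?_⟩
  have hsub : thickening (r / 2) (thickening t K) ⊆ thickening r K :=
    (thickening_thickening_subset _ _ _).trans (thickening_mono (by linarith) K)
  have hCb : Tendsto (fun k => C * ∫⁻ x, ‖∇ (u k) x - v x‖ₑ) atTop (𝓝 0) := by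
    simpa using ENNReal.Tendsto.const_mul hb0 (Or.inr hC)
  filter_upwards [hCb.eventually (Iic_mem_nhds hq), hb0.eventually (Iic_mem_nhds zero_lt_one)]
    with k hk hk1
  have hgu : ∀ S : Set (E d), ∫⁻ y in S, ‖∇ (u k) y‖ₑ
      ≤ (∫⁻ y in S, ‖v y‖ₑ) + ∫⁻ x, ‖∇ (u k) x - v x‖ₑ := fun S => by
    refine le_trans (le_trans (lintegral_mono fun y => ?_)
      (lintegral_add_left' hv.aestronglyMeasurable.restrict.enorm _).le)
      (add_le_add le_rfl (setLIntegral_le_lintegral _ _))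
    calc ‖∇ (u k) y‖ₑ = ‖v y + (∇ (u k) y - v y)‖ₑ := by rw [add_sub_cancel]
      _ ≤ _ := enorm_add_le _ _
  have hg : ∫⁻ x, ‖∇ (u k) x‖ₑ ≤ B₀ := by
    have h := hgu univ
    rw [setLIntegral_univ, setLIntegral_univ] at h
    exact h.trans (add_le_add le_rfl hk1)
  calc ∫⁻ x in thickening t K, ‖∇ (T (u k)) x‖ₑ
      ≤ C * (∫⁻ x in thickening (r / 2) (thickening t K), ‖∇ (u k) x‖ₑ)
        + Cδ * (∫⁻ x, ‖∇ (u k) x‖ₑ) * volume (thickening t K) :=
        hbd _ (hu k) _ isOpen_thickening.measurableSet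
    _ ≤ C * (η + ∫⁻ x, ‖∇ (u k) x - v x‖ₑ) + Cδ * B₀ * volume (thickening t K) := by
        gcongr
        refine (lintegral_mono_set hsub).trans ((hgu _).trans (add_le_add (hsv _ hr).le le_rfl))
    _ ≤ q + q + q := by
        rw [mul_add]
        exact add_le_add (add_le_add hηC hk) ht
    _ = ε := by
        rw [show q + q + q = 3 * q by ring]
        exact ENNReal.mul_div_cancel (by simp) (by simp)

/-- The result, from the bound for smooth inputs. -/
theorem centred_main_of_bound {T : (E d → ℝ) → E d → ℝ} (hlip' : ∀ u, Smooth u → LocallyLipschitz (T u))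
    (hnn : ∀ u, Smooth u → ∀ x, 0 ≤ T u x)
    (heq : ∀ u, Smooth u → ∀ x, cmx u x = ENNReal.ofReal (T u x)) (hb : CenBound d T) :
    ∃ C : ℝ, ∀ (f : E d → ℝ) (g : Fin d → E d → ℝ),
    Integrable f → (∀ i, Integrable (g i)) →
    (∀ i (φ : E d → ℝ), ContDiff ℝ ((⊤ : ℕ∞) : WithTop ℕ∞) φ → HasCompactSupport φ →
      ∫ x, f x * fderiv ℝ φ x (EuclideanSpace.single i 1) = -∫ x, g i x * φ x) →
    let M : E d → ℝ≥0∞ := fun x => ⨆ (r : ℝ) (_ : 0 < r),
      (∫⁻ y in ball x r, ‖f y‖ₑ) / volume (ball x r)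
    (∀ᵐ x, M x ≠ ⊤) ∧ LocallyIntegrable (fun x => (M x).toReal) ∧
      ∃ G : Fin d → E d → ℝ, (∀ i, Integrable (G i)) ∧
        (∀ i (φ : E d → ℝ), ContDiff ℝ 1 φ → HasCompactSupport φ →
          ∫ x, (M x).toReal * fderiv ℝ φ x (EuclideanSpace.single i 1) = -∫ x, G i x * φ x) ∧
        ∫ x, Real.sqrt (∑ i, G i x ^ 2) ≤ C * ∫ x, Real.sqrt (∑ i, g i x ^ 2) := by
  obtain ⟨C, hC, hbd⟩ := hb.glob
  refine ⟨3 * d * C.toReal, fun f g hf hg hweak => ?_⟩
  obtain ⟨u, v, hu, hv, hvle, hlg, hlu⟩ := exists_approx hf hg hweak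
  set F : E d → ℝ := fun y => |f y|
  have hF : Integrable F := hf.abs
  intro M
  have hM : M = cmx F := (cmx_abs f).symm
  rw [hM]
  change Tendsto (fun n => ∫ x, |u n x - F x|) atTop (𝓝 0) at hlu
  clear_value F
  clear hM M
  have hmeasM : Measurable (cmx F) := measurable_cmx F
  set D : ℕ → E d → ℝ≥0∞ := fun n => cmx (fun y => u n y - F y)
  have hsymm : ∀ n, cmx (fun y => F y - u n y) = D n := fun n => by
    funext x
    simp only [D, cmx, enorm_sub_comm' (F _) (u n _)]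
  have hcmp1 : ∀ n x, cmx F x ≤ ENNReal.ofReal (T (u n) x) + D n x := fun n x => by
    rw [← heq _ (hu n), ← hsymm]
    exact cmx_le_add (hu n).integrable.aestronglyMeasurable x
  have hcmp2 : ∀ n x, ENNReal.ofReal (T (u n) x) ≤ cmx F x + D n x := fun n x => by
    rw [← heq _ (hu n)]
    exact cmx_le_add hF.aestronglyMeasurable x
  have hlip := fun n => hlip' _ (hu n)
  -- local finiteness
  have hfin : ∀ K : Set (E d), IsCompact K → ∫⁻ x in K, cmx F x < ⊤ := fun K hK => by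
    obtain ⟨n, hn⟩ := ((tendsto_cmx hu hF hv hlu hlg hK.measure_lt_top.ne).eventually
      (Iio_mem_nhds zero_lt_one)).exists
    refine lt_of_le_of_lt ((lintegral_mono fun x => hcmp1 n x).trans_eq
      (lintegral_add_left (hlip n).continuous.measurable.ennreal_ofReal _)) ?_
    exact ENNReal.add_lt_top.2
      ⟨((hlip n).continuous.continuousOn.integrableOn_compact hK).lintegral_lt_top, hn.trans ENNReal.one_lt_top⟩
  have hae : ∀ᵐ x, cmx F x ≠ ⊤ := by
    have h : ∀ᵐ x ∂volume.restrict (⋃ j : ℕ, closedBall (0 : E d) j), cmx F x < ⊤ :=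
      (ae_restrict_iUnion_iff _ _).2 fun j =>
        ae_lt_top hmeasM (hfin _ (isCompact_closedBall _ _)).ne
    rw [iUnion_closedBall_nat, Measure.restrict_univ] at h
    exact h.mono fun x hx => hx.ne
  have hMloc : LocallyIntegrable fun x => (cmx F x).toReal := by
    rw [locallyIntegrable_iff]
    exact fun K hK => integrable_toReal_of_lintegral_ne_top hmeasM.aemeasurable (hfin K hK).ne
  refine ⟨hae, hMloc, ?_⟩
  -- the gradients
  set G : ℕ → Fin d → E d → ℝ :=
    fun k i x => fderiv ℝ (T (u k)) x (EuclideanSpace.single i 1) with hG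
  have hGm : ∀ k i, Measurable (G k i) := fun k i => measurable_fderiv_apply_const ℝ _ _
  have hGle : ∀ k i, ∫⁻ x, ‖G k i x‖ₑ ≤ C * ∫⁻ x, ‖∇ (u k) x‖ₑ := fun k i =>
    (lintegral_mono fun x => enorm_partial_le _ x i).trans (hbd _ (hu k))
  have hCk : ∀ k, C * ∫⁻ x, ‖∇ (u k) x‖ₑ ≠ ⊤ := fun k =>
    ENNReal.mul_ne_top hC (hu k).integrable_grad.hasFiniteIntegral.ne
  have hGi : ∀ k i, Integrable (G k i) := fun k i =>
    ⟨(hGm k i).aestronglyMeasurable, (hGle k i).trans_lt (lt_top_iff_ne_top.2 (hCk k))⟩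
  set I : ℝ := ∫ x, Real.sqrt (∑ i, g i x ^ 2)
  have hI : ∫ x, ‖v x‖ ≤ I := by
    refine integral_mono hv.norm ?_ hvle
    simpa only [norm_vec] using (integrable_vec hg).norm
  have hGb : ∀ η > 0, ∀ i, ∀ᶠ k in atTop, ∫ x, |G k i x| ≤ C.toReal * I + η := by
    intro η hη i
    have ht : Tendsto (fun k => C.toReal * (I + ∫ x, ‖∇ (u k) x - v x‖)) atTop
        (𝓝 (C.toReal * (I + 0))) := (hlg.const_add I).const_mul _
    rw [add_zero] at ht
    filter_upwards [ht.eventually (Iic_mem_nhds (lt_add_of_pos_right _ hη))] with k hk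
    refine le_trans ?_ hk
    have h1 : ∫ x, |G k i x| ≤ C.toReal * ∫ x, ‖∇ (u k) x‖ := by
      have := ENNReal.toReal_mono (hCk k) (hGle k i)
      rw [ENNReal.toReal_mul, ← integral_norm_eq_lintegral_enorm (hGm k i).aestronglyMeasurable,
        ← integral_norm_eq_lintegral_enorm (hu k).integrable_grad.aestronglyMeasurable] at this
      exact this
    refine h1.trans (mul_le_mul_of_nonneg_left (le_trans ?_ (add_le_add hI le_rfl))
      ENNReal.toReal_nonneg)
    rw [← integral_add hv.norm ((hu k).integrable_grad.sub' hv).norm]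
    refine integral_mono (hu k).integrable_grad.norm
      (hv.norm.add ((hu k).integrable_grad.sub' hv).norm) fun x => ?_
    exact norm_le_norm_add_norm_sub' (∇ (u k) x) (v x)
  have hb0 := tendsto_lint_sub (fun n => (hu n).integrable_grad.sub' hv) hlg
  have hsmall : ∀ i, ∀ K, IsCompact K → volume K = 0 → ∀ ε : ℝ, 0 < ε → ∃ O, IsOpen O ∧ K ⊆ O ∧
      ∀ᶠ k in atTop, ∫ x in O, |G k i x| ≤ ε := by
    intro i K hK h0 ε hε
    obtain ⟨O, hO, hKO, hc⟩ := cen_no_concentration hb hu hv hb0 hK h0 (ENNReal.ofReal_pos.2 hε)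
    refine ⟨O, hO, hKO, hc.mono fun k hk => ?_⟩
    have e : ∫ x in O, |G k i x| = (∫⁻ x in O, ‖G k i x‖ₑ).toReal :=
      integral_norm_eq_lintegral_enorm (hGm k i).aestronglyMeasurable
    rw [e]
    exact ENNReal.toReal_le_of_le_ofReal hε.le
      ((lintegral_mono fun x => enorm_partial_le _ x i).trans hk)
  have hI0 : 0 ≤ I := (integral_nonneg fun x => norm_nonneg _).trans hI
  choose H hHi hHle hHweak using fun i => cen_exists_density (fun k => G k i) (fun k => hGi k i)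
    (C := C.toReal * I + 1) (by positivity) (hGb 1 one_pos i) (hsmall i)
  refine ⟨H, hHi, fun i φ hφ hc => ?_, ?_⟩
  · set ψ : E d → ℝ := fun x => fderiv ℝ φ x (EuclideanSpace.single i 1)
    have hψc : Continuous ψ := (hφ.continuous_fderiv one_ne_zero).clm_apply continuous_const
    have hψs : HasCompactSupport ψ :=
      hc.fderiv_apply ℝ (EuclideanSpace.single i 1)
    obtain ⟨Mψ, hMψ⟩ := hψs.exists_bound_of_continuous hψc
    set K := tsupport ψ
    have hlim : Tendsto (fun k => ∫ x, T (u k) x * ψ x) atTop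
        (𝓝 (∫ x, (cmx F x).toReal * ψ x)) := by
      refine tendsto_integral_of_L1 _
        (hmeasM.ennreal_toReal.mul hψc.measurable).aestronglyMeasurable
        (Eventually.of_forall fun k => ((hlip k).continuous.mul hψc).integrable_of_hasCompactSupport
          hψs.mul_left) ?_
      have hz : Tendsto (fun k => ENNReal.ofReal Mψ * ∫⁻ x in K, D k x) atTop (𝓝 0) := by
        simpa using ENNReal.Tendsto.const_mul
          (tendsto_cmx hu hF hv hlu hlg (S := K) hψs.isCompact.measure_lt_top.ne)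
          (Or.inr (ENNReal.ofReal_ne_top (r := Mψ)))
      refine tendsto_of_tendsto_of_tendsto_of_le_of_le tendsto_const_nhds hz (fun k => zero_le)
        fun k => ?_
      rw [← lintegral_indicator (isClosed_tsupport ψ).measurableSet, ← lintegral_const_mul'
        _ _ ENNReal.ofReal_ne_top]
      refine lintegral_mono_ae (hae.mono fun x hx => ?_)
      simp only [Pi.mul_apply]
      rw [← sub_mul, enorm_mul]
      by_cases hxK : x ∈ K
      · rw [indicator_of_mem hxK, mul_comm]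
        refine mul_le_mul' ?_ ?_
        · rw [← ofReal_norm]
          exact ENNReal.ofReal_le_ofReal (hMψ x)
        · rw [← ENNReal.toReal_ofReal (hnn _ (hu k) x)]
          exact enorm_toReal_sub_le ENNReal.ofReal_ne_top hx (hcmp2 k x) (hcmp1 k x)
      · rw [image_eq_zero_of_notMem_tsupport hxK, indicator_of_notMem hxK]
        simp
    have h := hHweak i φ hφ.continuous hc _
      (hlim.neg.congr fun k => by
        rw [integral_mul_fderiv (hlip k) hφ hc, neg_neg])
    simp only [h, neg_neg]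
    rfl
  · have hbound : ∀ i, ∫ x, |H i x| ≤ 3 * (C.toReal * I) :=
      fun i => le_of_forall_pos_le_add fun η hη => by
        have := hHle i (C.toReal * I + η / 3) (by positivity) (hGb _ (by linarith) i)
        linarith
    refine le_trans (integral_mono_of_nonneg (Eventually.of_forall fun x => Real.sqrt_nonneg _)
      (integrable_finsetSum Finset.univ fun i _ => (hHi i).abs) (Eventually.of_forall fun x => ?_)) ?_
    · simp only
      rw [← norm_vec]
      exact norm_le_sum (vec H x)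
    rw [integral_finsetSum _ fun i _ => (hHi i).abs]
    refine (Finset.sum_le_sum fun i _ => hbound i).trans_eq ?_
    rw [Finset.sum_const, Finset.card_univ, Fintype.card_fin, nsmul_eq_mul]
    ring

end

end Vale.Agent.P137.Cen
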