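import Vale.Agent.P137.Cen.TreeBound
import Vale.Agent.P137.Cen.CenBound

/-!
# P137: endpoint Sobolev regularity of the centred maximal function, `d ≥ 2`
-/

open MeasureTheory Metric Set
open scoped ENNReal

namespace Vale.Agent.P137.Cen

open Vale.Agent.P137.Unc (E)

variable {d : ℕ}

theorem cen_bound (hd : 2 ≤ d) : CenBound d cmax := by
  have hd1 : 1 ≤ d := le_trans one_le_two hd
  obtain ⟨C, R, hC, hR, h⟩ := local_bound hd
  exact cenBound_of_local hd C hC R hR h (fun u hu => locallyLipschitz_cmax hu)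
    (fun u hu => cmax_cases hu hd1) (fun u hu => measurableSet_optC hu hd1)
    (fun u hu x hx r hr hA => (grad_cmax_stat hu hd1 hx hr hA).1)

theorem centred_main (hd : 2 ≤ d) :
    ∃ C : ℝ, ∀ (f : E d → ℝ) (g : Fin d → E d → ℝ),
    Integrable f → (∀ i, Integrable (g i)) →
    (∀ i (φ : E d → ℝ), ContDiff ℝ ((⊤ : ℕ∞) : WithTop ℕ∞) φ → HasCompactSupport φ →
      ∫ x, f x * fderiv ℝ φ x (EuclideanSpace.single i 1) = -∫ x, g i x * φ x) →
    let M : E d → ℝ≥0∞ := fun x => ⨆ (r : ℝ) (_ : 0 < r),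
      (∫⁻ y in ball x r, ‖f y‖ₑ) / volume (ball x r)
    (∀ᵐ x, M x ≠ ⊤) ∧ LocallyIntegrable (fun x => (M x).toReal) ∧
      ∃ G : Fin d → E d → ℝ, (∀ i, Integrable (G i)) ∧
        (∀ i (φ : E d → ℝ), ContDiff ℝ 1 φ → HasCompactSupport φ →
          ∫ x, (M x).toReal * fderiv ℝ φ x (EuclideanSpace.single i 1) = -∫ x, G i x * φ x) ∧
        ∫ x, Real.sqrt (∑ i, G i x ^ 2) ≤ C * ∫ x, Real.sqrt (∑ i, g i x ^ 2) :=
  centred_main_of_bound (fun _ hu => locallyLipschitz_cmax hu) (fun _ hu => cmax_nonneg hu)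
    (fun _ hu => cmx_eq_cmax hu) (cen_bound hd)

end Vale.Agent.P137.Cen
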