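import Vale.Agent.P137.Cen.PairTools

/-!
# P137, centred operator: one level of items against the deeper items of a sibling cube
-/

open MeasureTheory Metric Set
open scoped ENNReal RealInnerProductSpace

namespace Vale.Agent.P137.Cen

open Unc

noncomputable section

attribute [local instance] Classical.propDecidable

variable {d : ℕ} {ι : Type} [Fintype ι]

namespace Sys

variable (S : Sys d ι) (t : E d)

/-- Weight of the items of `A` which a sphere cuts. -/
def cutOn (A : Finset ι) (x : E d) (ρ : ℝ) : ℝ≥0∞ :=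
  ∑ i ∈ A, if S.cut x ρ i then S.wt i else 0

/-- Items of depth `l` below a cube. -/
def layer (m : ℤ) (k : Fin d → ℤ) (l : ℕ) : Finset ι :=
  (S.below t m k).filter fun i => S.lev i = m - l

/-- Items of depth at least `l` below a cube. -/
def deep (m : ℤ) (k : Fin d → ℤ) (l : ℕ) : Finset ι :=
  (S.below t m k).filter fun i => S.lev i ≤ m - l

/-- The item lies deep inside its cube of level `m`, relative to depth `l`. -/
def inner' (m : ℤ) (l : ℕ) (i : ι) : Prop :=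
  ∀ q, qcorn t m (qidx t m (S.pos i)) q + (2 : ℝ) ^ m / 2 ^ (l / 8) ≤ S.pos i q ∧
    S.pos i q < qcorn t m (qidx t m (S.pos i)) q + (2 : ℝ) ^ m - (2 : ℝ) ^ m / 2 ^ (l / 8)

/-- Weight of depth `l` below a cube. -/
def layerW (m : ℤ) (k : Fin d → ℤ) (l : ℕ) : ℝ≥0∞ := ∑ i ∈ S.layer t m k l, S.wt i

/-- Weight of depth `l` near the boundary of a cube. -/
def nearW (m : ℤ) (k : Fin d → ℤ) (l : ℕ) : ℝ≥0∞ :=
  ∑ i ∈ (S.layer t m k l).filter (fun i => ¬ S.inner' t m l i), S.wt i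

/-- Losses, collisions and leaves of the first `j` generations. -/
def errW (m : ℤ) (k : Fin d → ℤ) (j : ℕ) : ℝ≥0∞ :=
  ∑ i ∈ Finset.range j, ∑ kk ∈ descs i k,
    (S.loss t (m - i) kk + S.csum t (m - i) kk + S.leafW t (m - i) kk)

variable {S t}

omit [Fintype ι] in
theorem cutOn_le_weight (A : Finset ι) (x : E d) (ρ : ℝ) : S.cutOn A x ρ ≤ ∑ i ∈ A, S.wt i :=
  Finset.sum_le_sum fun i _ => by split_ifs <;> simp

omit [Fintype ι] in
theorem cutOn_mono {A A' : Finset ι} (h : A ⊆ A') (x : E d) (ρ : ℝ) :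
    S.cutOn A x ρ ≤ S.cutOn A' x ρ :=
  Finset.sum_le_sum_of_subset h

omit [Fintype ι] in
theorem cutOn_pos {A : Finset ι} {x : E d} {ρ : ℝ} (h : S.cutOn A x ρ ≠ 0) :
    ∃ i ∈ A, S.cut x ρ i := by
  by_contra hc
  push Not at hc
  exact h (Finset.sum_eq_zero fun i hi => if_neg (hc i hi))

/-- The sum of the potentials of the descendants. -/
theorem sum_descs_pot_le [NeZero d] (hL : 0 ≤ S.L0) (m : ℤ) (k : Fin d → ℤ) (j : ℕ) :
    ∑ kk ∈ descs j k, S.pot t (m - j) kk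
      ≤ S.pot t m k + ∑ i ∈ Finset.range j, ∑ kk ∈ descs i k, S.loss t (m - i) kk := by
  induction j with
  | zero => simp [descs_zero]
  | succ j ih =>
    rw [sum_descs_succ, Finset.sum_range_succ, ← add_assoc,
      show m - ((j + 1 : ℕ) : ℤ) = m - j - 1 by push_cast; ring]
    refine le_trans ?_ (add_le_add ih le_rfl)
    rw [← Finset.sum_add_distrib]
    refine Finset.sum_le_sum fun kk _ => ?_
    rw [add_comm, loss_add_pot hL, kidSum]
    exact le_self_add

/-- A potential is at most the square sum over descendants, plus collisions and leaves. -/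
theorem pot_le_descs [NeZero d] (hL : 0 ≤ S.L0) (m : ℤ) (k : Fin d → ℤ) (j : ℕ) :
    S.pot t m k ≤ (∑ kk ∈ descs j k, S.pot t (m - j) kk ^ (2 : ℝ)) ^ (1 / 2 : ℝ)
      + ∑ i ∈ Finset.range j, ∑ kk ∈ descs i k, (S.csum t (m - i) kk + S.leafW t (m - i) kk) := by
  induction j with
  | zero =>
    simp only [descs_zero, Finset.sum_singleton, Finset.range_zero, Finset.sum_empty, add_zero]
    rw [← ENNReal.rpow_mul]
    norm_num
  | succ j ih =>
    refine ih.trans ?_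
    rw [Finset.sum_range_succ, sum_descs_succ,
      show m - ((j + 1 : ℕ) : ℤ) = m - j - 1 by push_cast; ring]
    conv_rhs => rw [add_comm (∑ i ∈ Finset.range j, _), ← add_assoc]
    refine add_le_add ?_ le_rfl
    refine le_trans (ENNReal.rpow_le_rpow (Finset.sum_le_sum fun kk _ =>
      ENNReal.rpow_le_rpow ((pot_le_sqrt_add_csum (k := kk) hL).trans_eq (add_assoc _ _ _))
        (by norm_num)) (by norm_num)) ((sqrtSum_add_le _ _ _).trans (add_le_add (le_of_eq ?_) le_rfl))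
    congr 1
    refine Finset.sum_congr rfl fun kk _ => ?_
    rw [← ENNReal.rpow_mul]
    norm_num

theorem descs_pot_erase_le [NeZero d] (hL : 0 ≤ S.L0) (hw : ∀ i, S.wt i ≠ ⊤) (m : ℤ)
    (k : Fin d → ℤ) (j : ℕ) {R0 : Fin d → ℤ} (h0 : R0 ∈ descs j k)
    (hmax : ∀ R ∈ descs j k, S.pot t (m - j) R ≤ S.pot t (m - j) R0) :
    ∑ R ∈ (descs j k).erase R0, S.pot t (m - j) R ≤ 2 * S.errW t m k j := by
  refine sum_erase_le_two _ (fun i _ => pot_ne_top hw) h0 hmax ?_
  refine (sum_descs_pot_le hL m k j).trans ?_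
  refine (add_le_add (pot_le_descs hL m k j) le_rfl).trans (le_of_eq ?_)
  rw [add_assoc, errW, ← Finset.sum_add_distrib]
  congr 1
  refine Finset.sum_congr rfl fun i _ => ?_
  rw [← Finset.sum_add_distrib]
  exact Finset.sum_congr rfl fun kk _ => by ring

omit [Fintype ι] in
theorem adm_kid_descs (hL : 0 ≤ S.L0) {n : ℤ} {k : Fin d → ℤ} {a : E d} {c : Fin d → Fin 2} {j : ℕ}
    {R : Fin d → ℤ} (hR : R ∈ descs j (kid k c)) :
    S.adm t n k a ⊆ S.adm t (n - 1 - j) R a :=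
  (adm_subset hL a c).trans (adm_descs hL (n - 1) a j hR)

end Sys

/-- Centres of descendants of a child lie near the centre. -/
theorem norm_qctr_kid_descs_le (t : E d) (n : ℤ) (k : Fin d → ℤ) (b : Fin d → Fin 2) (j : ℕ)
    {g : Fin d → ℤ} (hg : g ∈ descs j (kid k b)) :
    ‖qctr t (n - 1 - j) g - qctr t n k‖ ≤ Real.sqrt d * 2 ^ n := by
  have h1 := norm_qctr_descs_le t (n - 1) j hg
  have h2 := norm_qctr_kid_le t n k b
  rw [norm_sub_rev] at h2
  have h3 := norm_sub_le_norm_sub_add_norm_sub (qctr t (n - 1 - j) g) (qctr t (n - 1) (kid k b))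
    (qctr t n k)
  have e : (2 : ℝ) ^ (n - 1) = 2 ^ n / 2 := by rw [zpow_sub_one₀ two_ne_zero]; ring
  rw [e] at h1
  have : (0 : ℝ) ≤ Real.sqrt d * 2 ^ n := by positivity
  linarith

/-- An inner item is far from the other children. -/
theorem inner_far (t : E d) (m : ℤ) (k : Fin d → ℤ) {b c : Fin d → Fin 2} (hbc : b ≠ c) (j : ℕ)
    {y : E d} {w : ℝ} (hyb : qidx t m y = kid k b)
    (hin : ∀ q, qcorn t m (qidx t m y) q + w ≤ y q ∧
      y q < qcorn t m (qidx t m y) q + (2 : ℝ) ^ m - w)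
    {R : Fin d → ℤ} (hR : R ∈ descs j (kid k c)) :
    w - (2 : ℝ) ^ (m - j) / 2 ≤ ‖qctr t (m - j) (qidx t (m - j) y) - qctr t (m - j) R‖ := by
  obtain ⟨q, hq⟩ := Function.ne_iff.1 hbc
  set p := m - (j : ℤ)
  set g := qidx t p y
  have hp : (0 : ℝ) < 2 ^ p := zpow_pos two_pos _
  have e : (2 : ℝ) ^ m = 2 ^ p * (2 : ℝ) ^ j := by
    rw [← zpow_natCast (2 : ℝ) j, ← zpow_add₀ two_ne_zero, sub_add_cancel]
  obtain ⟨y1, y2⟩ := hin q
  simp only [hyb, qcorn, kid] at y1 y2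
  obtain ⟨g1, g2⟩ := (mem_qcube_iff (t := t) (n := p) (k := g) (y := y)).2 rfl q
  simp only [qcorn] at g1 g2
  have hpow : (0 : ℤ) < 2 ^ j := by positivity
  have hR' := mem_descs.1 hR q
  have h1 : (2 : ℤ) ^ j * kid k c q ≤ R q := by
    rw [← hR', mul_comm]; exact Int.ediv_mul_le _ hpow.ne'
  have h2 : R q + 1 ≤ (2 : ℤ) ^ j * (kid k c q + 1) := by
    rw [← hR', mul_comm]; exact Int.lt_ediv_add_one_mul_self _ hpow
  have r1 : (2 : ℝ) ^ j * (2 * (k q : ℝ) + ((c q : ℕ) : ℝ)) ≤ (R q : ℝ) := by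
    have := (Int.cast_le (R := ℝ)).2 h1
    simpa [kid] using this
  have r2 : (R q : ℝ) + 1 ≤ (2 : ℝ) ^ j * (2 * (k q : ℝ) + ((c q : ℕ) : ℝ) + 1) := by
    have := (Int.cast_le (R := ℝ)).2 h2
    simpa [kid] using this
  refine le_trans ?_ (PiLp.norm_apply_le _ q)
  rw [Real.norm_eq_abs, PiLp.sub_apply]
  simp only [qctr]
  push_cast at y1 y2
  rw [e] at y1 y2
  have s1 := mul_le_mul_of_nonneg_left r1 hp.le
  have s2 := mul_le_mul_of_nonneg_left r2 hp.le
  have hb := (b q).isLt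
  have hc := (c q).isLt
  have hne : (b q : ℕ) ≠ (c q : ℕ) := fun h => hq (Fin.ext h)
  rcases Nat.eq_zero_or_pos (b q : ℕ) with h0 | h0
  · have hc1 : ((c q : ℕ) : ℝ) = 1 := by
      have : (c q : ℕ) = 1 := by omega
      simp [this]
    rw [h0, Nat.cast_zero] at y1 y2
    rw [hc1] at s1 s2
    rw [abs_sub_comm]
    refine le_trans ?_ (le_abs_self _)
    nlinarith
  · have hb1 : ((b q : ℕ) : ℝ) = 1 := by
      have : (b q : ℕ) = 1 := by omega
      simp [this]
    have hc0 : ((c q : ℕ) : ℝ) = 0 := by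
      have : (c q : ℕ) = 0 := by omega
      simp [this]
    rw [hb1] at y1 y2
    rw [hc0] at s1 s2
    refine le_trans ?_ (le_abs_self _)
    nlinarith

theorem th_sq_le (l : ℕ) : th l ≤ 1 := pow_le_one₀ zero_le (by norm_num)

namespace Sys

variable {S : Sys d ι} {t : E d}

/-- Centres of two fat spheres: one around an inner item, one in another child. -/
theorem centres_le (d : ℕ) [NeZero d] (K1 : ℝ) (hK1 : 1 ≤ K1) : ∃ C : ℝ≥0∞, C ≠ ⊤ ∧
    ∀ (ι : Type) [Fintype ι] (S : Sys d ι) (t : E d) (n : ℤ) (k : Fin d → ℤ) (a : E d)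
      (b c : Fin d → Fin 2) (l : ℕ) (i : ι) (R : Fin d → ℤ), b ≠ c → 1 ≤ S.L0 →
      qidx t (n - 1) (S.pos i) = kid k b → S.inner' t (n - 1) l i →
      R ∈ descs (l / 2) (kid k c) →
      annMeas d (S.pairSet t n k a (qctr t (n - 1 - (l / 2 : ℕ))
          (qidx t (n - 1 - (l / 2 : ℕ)) (S.pos i))) (qctr t (n - 1 - (l / 2 : ℕ)) R)
          ((Real.sqrt d + K1) * (2 : ℝ) ^ (n - 1 - ((l / 2 : ℕ) : ℤ)))) ^ (1 / 2 : ℝ)
        ≤ C * th l ^ 4 := by
  obtain ⟨Cc, hCc, hctr⟩ := pairSet_measure_le d (4 * (Real.sqrt d + K1))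
  refine ⟨Cc ^ (1 / 2 : ℝ), ENNReal.rpow_ne_top_of_nonneg (by norm_num) hCc,
    fun ι _ S t n k a b c l i R hbc hL hP hin hR => ?_⟩
  set m := n - 1 with hm
  set j0 := l / 2 with hj0
  set p := m - (j0 : ℤ) with hp
  have hg : qidx t p (S.pos i) ∈ descs j0 (kid k b) := hP ▸ qidx_sub_nat t m (S.pos i) j0
  have hfar : (2 : ℝ) ^ m / 2 ^ (l / 8) - (2 : ℝ) ^ p / 2
      ≤ ‖qctr t p (qidx t p (S.pos i)) - qctr t p R‖ := inner_far t m k hbc j0 hP hin hR
  have hmw : (2 : ℝ) ^ p ≤ 2 ^ m / 2 ^ (l / 8) := by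
    rw [← zpow_natCast (2 : ℝ) (l / 8), ← zpow_sub₀ two_ne_zero]
    exact zpow_le_zpow_right₀ one_le_two (by omega)
  have h16 : (2 : ℝ) ^ p * 2 ^ (16 * (l / 64)) ≤ 2 * ((2 : ℝ) ^ m / 2 ^ (l / 8)) := by
    rw [← zpow_natCast (2 : ℝ) (l / 8), ← zpow_sub₀ two_ne_zero, ← zpow_natCast,
      ← zpow_add₀ two_ne_zero, mul_comm (2 : ℝ) _, ← zpow_add_one₀ two_ne_zero]
    exact zpow_le_zpow_right₀ one_le_two (by omega)
  have hs : (0 : ℝ) ≤ Real.sqrt d + K1 := by positivity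
  have hc0 : (Real.sqrt d + K1) * (2 : ℝ) ^ p * 2 ^ (16 * (l / 64))
      ≤ 4 * (Real.sqrt d + K1) * ‖qctr t p (qidx t p (S.pos i)) - qctr t p R‖ := by
    rw [mul_assoc]
    refine (mul_le_mul_of_nonneg_left h16 hs).trans ?_
    nlinarith
  refine (ENNReal.rpow_le_rpow (hctr ι S t n k a _ _ _ (l / 64) hL
    (norm_qctr_kid_descs_le t n k b j0 hg) (norm_qctr_kid_descs_le t n k c j0 hR)
    (by positivity) hc0) (by norm_num : (0 : ℝ) ≤ 1 / 2)).trans (le_of_eq ?_)
  rw [ENNReal.mul_rpow_of_nonneg _ _ (by norm_num : (0 : ℝ) ≤ 1 / 2), th,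
    ← ENNReal.rpow_natCast _ 8, ← ENNReal.rpow_mul, ← ENNReal.rpow_natCast _ 4]
  norm_num

/-- Items of one depth without heavy cubes: the square of the cut weight has small integral. -/
theorem light_le (d : ℕ) [NeZero d] (K1 : ℝ) (hK1 : 1 ≤ K1) : ∃ C : ℝ≥0∞, C ≠ ⊤ ∧
    ∀ (ι : Type) [Fintype ι] (S : Sys d ι) (t : E d) (n : ℤ) (k : Fin d → ℤ) (a : E d) (l : ℕ)
      (A : Finset ι) (τ : ℝ≥0∞), S.K ≤ K1 → 1 ≤ S.L0 →
      (∀ i ∈ A, qidx t n (S.pos i) = k ∧ S.lev i = n - 1 - l) →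
      (∀ g, ∑ i ∈ A.filter (fun i => qidx t (n - 1 - (l / 2 : ℕ)) (S.pos i) = g), S.wt i ≤ τ) →
      ∃ F : E d → ℝ≥0∞, Measurable F ∧
        (∀ z : E d, ∀ j ∈ S.adm t n k a, ∀ ρ : ℝ, S.cutOn A (a + (2 : ℝ) ^ j • z) ρ ≤ F z) ∧
        nrm2 F ≤ ((∑ i ∈ A, S.wt i) * ((3 : ℝ≥0∞) ^ d * τ
          + (∑ i ∈ A, S.wt i) * (C * th l ^ 8))) ^ (1 / 2 : ℝ) := by
  obtain ⟨Ci, hCi, hitem⟩ := pairSet_measure_le d K1
  refine ⟨Ci, hCi, fun ι _ S t n k a l A τ hK hL hmem hfib => ?_⟩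
  set j0 := l / 2 with hj0
  set p := n - 1 - (j0 : ℤ) with hp
  have h2p : (0 : ℝ) < 2 ^ p := zpow_pos two_pos _
  set δ0 := K1 * (2 : ℝ) ^ (n - 1 - (l : ℤ)) with hδ0
  set ip : ι → ι → Set (E d) := fun i i' => S.pairSet t n k a (S.pos i) (S.pos i') δ0
  have hipm : ∀ i i', MeasurableSet (ip i i') := fun i i' => S.measurableSet_pairSet t n k a _ _ _
  set Q : E d → ℝ≥0∞ := fun z => ∑ i ∈ A, ∑ i' ∈ A,
    (ip i i').indicator (fun _ => S.wt i * S.wt i') z
  have hQm : Measurable Q := Finset.measurable_sum _ fun i _ => Finset.measurable_sum _ fun i' _ =>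
    measurable_const.indicator (hipm i i')
  refine ⟨fun z => Q z ^ (1 / 2 : ℝ), hQm.pow_const _, fun z j hj ρ => ?_, ?_⟩
  · set x := a + (2 : ℝ) ^ j • z
    have hd0 : ∀ i ∈ A, S.cut x ρ i → |‖x - S.pos i‖ - ρ| ≤ δ0 := fun i hi hc =>
      le_trans hc (by
        rw [(hmem i hi).2]
        exact mul_le_mul_of_nonneg_right hK (zpow_pos two_pos _).le)
    have hLL : S.cutOn A x ρ * S.cutOn A x ρ ≤ Q z := by
      simp only [cutOn, Finset.sum_mul_sum, Q]
      refine Finset.sum_le_sum fun i hi => Finset.sum_le_sum fun i' hi' => ?_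
      by_cases hci : S.cut x ρ i
      · by_cases hci' : S.cut x ρ i'
        · rw [if_pos hci, if_pos hci',
            indicator_of_mem (mem_pairSet hj (hd0 i hi hci) (hd0 i' hi' hci'))]
        · rw [if_neg hci', mul_zero]; exact zero_le
      · rw [if_neg hci, zero_mul]; exact zero_le
    calc S.cutOn A x ρ = (S.cutOn A x ρ * S.cutOn A x ρ) ^ (1 / 2 : ℝ) := by
          rw [← sq, ← ENNReal.rpow_two, ← ENNReal.rpow_mul]; norm_num
      _ ≤ _ := ENNReal.rpow_le_rpow hLL (by norm_num)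
  rw [nrm2]
  simp only [← ENNReal.rpow_mul, show (1 / 2 : ℝ) * 2 = 1 by norm_num, ENNReal.rpow_one]
  refine ENNReal.rpow_le_rpow ?_ (by norm_num)
  simp only [Q]
  rw [lintegral_finsetSum _ fun i _ => Finset.measurable_sum _ fun i' _ =>
    measurable_const.indicator (hipm i i'), Finset.sum_mul]
  refine Finset.sum_le_sum fun i hi => ?_
  rw [lintegral_finsetSum _ fun i' _ => measurable_const.indicator (hipm i i')]
  simp only [lintegral_indicator_const (hipm i _), mul_assoc]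
  rw [← Finset.mul_sum]
  refine mul_le_mul_of_nonneg_left ?_ zero_le
  rw [← Finset.sum_filter_add_sum_filter_not A (fun i' => ‖S.pos i - S.pos i'‖ < (2 : ℝ) ^ p)
    (f := fun i' => S.wt i' * annMeas d (ip i i'))]
  refine add_le_add ?_ ?_
  · set g0 := qidx t p (S.pos i) with hg0
    set box := Fintype.piFinset fun q => Finset.Icc (g0 q - 1) (g0 q + 1)
    have hbox : ∀ i' ∈ A.filter (fun i' => ‖S.pos i - S.pos i'‖ < (2 : ℝ) ^ p),
        qidx t p (S.pos i') ∈ box := by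
      intro i' hi'
      have hn := (Finset.mem_filter.1 hi').2
      simp only [box, Fintype.mem_piFinset, Finset.mem_Icc, hg0, qidx]
      intro q
      have h1 := (PiLp.norm_apply_le (S.pos i - S.pos i') q).trans_lt hn
      rw [Real.norm_eq_abs, PiLp.sub_apply, abs_lt] at h1
      constructor
      · rw [Int.le_floor, le_div_iff₀ h2p]
        have := Int.floor_le ((S.pos i q - t q) / (2 : ℝ) ^ p)
        rw [le_div_iff₀ h2p] at this
        push_cast
        nlinarith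
      · rw [← Int.lt_add_one_iff, Int.floor_lt, div_lt_iff₀ h2p]
        have := Int.lt_floor_add_one ((S.pos i q - t q) / (2 : ℝ) ^ p)
        rw [div_lt_iff₀ h2p] at this
        push_cast
        nlinarith
    calc ∑ i' ∈ A.filter (fun i' => ‖S.pos i - S.pos i'‖ < (2 : ℝ) ^ p),
          S.wt i' * annMeas d (ip i i')
        ≤ ∑ i' ∈ A.filter (fun i' => ‖S.pos i - S.pos i'‖ < (2 : ℝ) ^ p), S.wt i' :=
          Finset.sum_le_sum fun i' _ => (mul_le_mul_of_nonneg_left prob_le_one zero_le).trans_eq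
            (mul_one _)
      _ = ∑ g ∈ box, ∑ i' ∈ (A.filter fun i' => ‖S.pos i - S.pos i'‖ < (2 : ℝ) ^ p).filter
          (fun i' => qidx t p (S.pos i') = g), S.wt i' :=
            (Finset.sum_fiberwise_of_maps_to hbox _).symm
      _ ≤ ∑ _g ∈ box, τ := Finset.sum_le_sum fun g _ => (Finset.sum_le_sum_of_subset
            (Finset.filter_subset_filter _ (Finset.filter_subset _ _))).trans (hfib g)
      _ = _ := by
          have hcard : box.card = 3 ^ d := by
            simp only [box, Fintype.card_piFinset, Int.card_Icc]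
            have : ∀ q, (g0 q + 1 + 1 - (g0 q - 1)).toNat = 3 := fun q => by omega
            simp [this]
          rw [Finset.sum_const, hcard, nsmul_eq_mul]
          push_cast
          rfl
  · rw [Finset.sum_mul]
    refine le_trans (Finset.sum_le_sum fun i' hi' => ?_)
      (Finset.sum_le_sum_of_subset (f := fun i' => S.wt i' * (Ci * th l ^ 8))
        (Finset.filter_subset _ _))
    refine mul_le_mul_of_nonneg_left ?_ zero_le
    obtain ⟨hi'A, hfar⟩ := Finset.mem_filter.1 hi'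
    rw [not_lt] at hfar
    have hyQ : ∀ i ∈ A, ‖S.pos i - qctr t n k‖ ≤ Real.sqrt d * 2 ^ n := fun i hi =>
      (norm_sub_qctr_le (mem_qcube_iff.2 (hmem i hi).1)).trans (half_le_self (by positivity))
    refine hitem ι S t n k a _ _ δ0 (l / 64) hL (hyQ i hi) (hyQ i' hi'A) (by positivity) ?_
    rw [hδ0, mul_assoc]
    refine mul_le_mul_of_nonneg_left (le_trans ?_ hfar) (by positivity)
    rw [← zpow_natCast, ← zpow_add₀ two_ne_zero]
    exact zpow_le_zpow_right₀ one_le_two (by omega)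

/-- Cut weight of heavy cubes against the deep items of another child. -/
theorem heavy_pointwise (hL : 0 ≤ S.L0) {n : ℤ} {k : Fin d → ℤ} {a : E d} {c : Fin d → Fin 2}
    {l : ℕ} {K1 : ℝ} (hK1 : 1 ≤ K1) (hK : S.K ≤ K1) {A : Finset ι}
    (hA : ∀ i ∈ A, S.lev i ≤ n - 1 - l) {R0 : Fin d → ℤ}
    (hR0 : R0 ∈ descs (l / 2) (kid k c)) {j : ℤ} (hj : j ∈ S.adm t n k a) (z : E d) (ρ : ℝ) :
    min (S.cutOn A (a + (2 : ℝ) ^ j • z) ρ)
        (S.cutOn (S.deep t (n - 1) (kid k c) l) (a + (2 : ℝ) ^ j • z) ρ)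
      ≤ (∑ g ∈ A.image (fun i => qidx t (n - 1 - (l / 2 : ℕ)) (S.pos i)),
          (S.pairSet t n k a (qctr t (n - 1 - (l / 2 : ℕ)) g) (qctr t (n - 1 - (l / 2 : ℕ)) R0)
              ((Real.sqrt d + K1) * (2 : ℝ) ^ (n - 1 - ((l / 2 : ℕ) : ℤ)))).indicator
            (fun _ => ∑ i ∈ A.filter (fun i => qidx t (n - 1 - (l / 2 : ℕ)) (S.pos i) = g), S.wt i) z)
        + min (∑ i ∈ A, S.wt i)
          (∑ g ∈ A.image (fun i => qidx t (n - 1 - (l / 2 : ℕ)) (S.pos i)),
            ∑ R ∈ (descs (l / 2) (kid k c)).erase R0,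
              (S.pairSet t n k a (qctr t (n - 1 - (l / 2 : ℕ)) g) (qctr t (n - 1 - (l / 2 : ℕ)) R)
                ((Real.sqrt d + K1) * (2 : ℝ) ^ (n - 1 - ((l / 2 : ℕ) : ℤ)))).indicator
                  (S.spot t (n - 1 - (l / 2 : ℕ)) R a) z) := by
  set m := n - 1 with hm
  set j0 := l / 2 with hj0
  set p := m - (j0 : ℤ) with hp
  set x := a + (2 : ℝ) ^ j • z
  set δ1 := (Real.sqrt d + K1) * (2 : ℝ) ^ p with hδ1
  set G := A.image fun i => qidx t p (S.pos i)
  set Rs := descs j0 (kid k c)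
  set cp : (Fin d → ℤ) → (Fin d → ℤ) → Set (E d) := fun g R =>
    S.pairSet t n k a (qctr t p g) (qctr t p R) δ1
  have hdmem : ∀ i ∈ S.deep t m (kid k c) l, qidx t m (S.pos i) = kid k c ∧ S.lev i ≤ m - l :=
    fun i hi => by
      simp only [deep, Finset.mem_filter, mem_below] at hi
      exact ⟨hi.1.1, hi.2⟩
  have hfat : ∀ i, S.lev i ≤ m - l → S.cut x ρ i →
      |‖x - qctr t p (qidx t p (S.pos i))‖ - ρ| ≤ δ1 := by
    intro i hi hc
    have h1 := norm_sub_qctr_le (mem_qcube_iff.2 (rfl : qidx t p (S.pos i) = _))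
    have h2 : S.K * (2 : ℝ) ^ (S.lev i) ≤ K1 * 2 ^ p :=
      mul_le_mul hK (zpow_le_zpow_right₀ one_le_two (by omega)) (zpow_pos two_pos _).le (by linarith)
    have h3 := abs_norm_sub_norm_le (x - qctr t p (qidx t p (S.pos i))) (x - S.pos i)
    rw [sub_sub_sub_cancel_left] at h3
    have h4 : (0 : ℝ) ≤ Real.sqrt d * 2 ^ p := by positivity
    simp only [cut] at hc
    have := abs_sub_le ‖x - qctr t p (qidx t p (S.pos i))‖ ‖x - S.pos i‖ ρ
    rw [hδ1, add_mul]
    linarith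
  set FA : (Fin d → ℤ) → ℝ≥0∞ := fun g =>
    S.cutOn (A.filter fun i => qidx t p (S.pos i) = g) x ρ
  set FR : (Fin d → ℤ) → ℝ≥0∞ := fun R =>
    S.cutOn ((S.deep t m (kid k c) l).filter fun i => qidx t p (S.pos i) = R) x ρ
  have hH : S.cutOn A x ρ = ∑ g ∈ G, FA g :=
    (Finset.sum_fiberwise_of_maps_to (fun i hi => Finset.mem_image_of_mem _ hi) _).symm
  have hmaps : ∀ i ∈ S.deep t m (kid k c) l, qidx t p (S.pos i) ∈ Rs := fun i hi => by
    have := qidx_sub_nat t m (S.pos i) j0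
    rwa [(hdmem i hi).1] at this
  have hF : S.cutOn (S.deep t m (kid k c) l) x ρ = FR R0 + ∑ R ∈ Rs.erase R0, FR R := by
    rw [Finset.add_sum_erase Rs FR hR0]
    exact (Finset.sum_fiberwise_of_maps_to hmaps _).symm
  have hmem : ∀ g R, FA g ≠ 0 → FR R ≠ 0 → z ∈ cp g R := by
    intro g R h1 h2
    obtain ⟨i, hi, hci⟩ := cutOn_pos h1
    obtain ⟨i', hi', hci'⟩ := cutOn_pos h2
    obtain ⟨hiA, rfl⟩ := Finset.mem_filter.1 hi
    obtain ⟨hid, rfl⟩ := Finset.mem_filter.1 hi'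
    exact mem_pairSet hj (hfat i (hA i hiA) hci) (hfat i' (hdmem i' hid).2 hci')
  rw [hF]
  refine (min_add_le _ _ _).trans (add_le_add ?_ ?_)
  · by_cases h0 : FR R0 = 0
    · rw [h0]; exact (min_le_right _ _).trans zero_le
    refine (min_le_left _ _).trans (hH.le.trans (Finset.sum_le_sum fun g _ => ?_))
    by_cases hg0 : FA g = 0
    · rw [hg0]; exact zero_le
    rw [indicator_of_mem (hmem g R0 hg0 h0)]
    exact cutOn_le_weight _ x ρ
  · refine le_min ((min_le_left _ _).trans (cutOn_le_weight A x ρ)) ?_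
    by_cases hH0 : S.cutOn A x ρ = 0
    · rw [hH0]; exact (min_le_left _ _).trans zero_le
    refine (min_le_right _ _).trans ?_
    obtain ⟨g, hg, hgne⟩ := Finset.exists_ne_zero_of_sum_ne_zero (hH ▸ hH0)
    refine le_trans ?_ (Finset.single_le_sum
      (f := fun g => ∑ R ∈ Rs.erase R0, (cp g R).indicator (S.spot t p R a) z)
      (fun _ _ => zero_le) hg)
    refine Finset.sum_le_sum fun R hR => ?_
    by_cases hR0' : FR R = 0
    · rw [hR0']; exact zero_le
    rw [indicator_of_mem (hmem g R hgne hR0')]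
    refine le_trans (le_trans ?_ (le_iSup (fun ρ => S.cutw t p R x ρ) ρ))
      (le_iSup₂ (f := fun j _ => ⨆ ρ : ℝ, S.cutw t p R (a + (2 : ℝ) ^ j • z) ρ) j ?_)
    · refine cutOn_mono (fun i hi => ?_) x ρ
      obtain ⟨hid, hiR⟩ := Finset.mem_filter.1 hi
      exact mem_below.2 ⟨hiR, by have := (hdmem i hid).2; omega⟩
    · exact adm_kid_descs hL (Finset.mem_of_mem_erase hR) hj

/-- Few heavy cubes against another child. -/
theorem heavy_le (d : ℕ) [NeZero d] (K1 : ℝ) (hK1 : 1 ≤ K1) : ∃ C : ℝ≥0∞, C ≠ ⊤ ∧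
    ∀ (ι : Type) [Fintype ι] (S : Sys d ι) (t : E d) (n : ℤ) (k : Fin d → ℤ) (a : E d)
      (b c : Fin d → Fin 2) (l : ℕ) (A : Finset ι), b ≠ c → S.K ≤ K1 → 1 ≤ S.L0 →
      (∀ i, S.wt i ≠ ⊤) →
      (∀ i ∈ A, qidx t (n - 1) (S.pos i) = kid k b ∧ S.lev i = n - 1 - l ∧
        S.inner' t (n - 1) l i) →
      ((A.image fun i => qidx t (n - 1 - (l / 2 : ℕ)) (S.pos i)).card : ℝ≥0∞)
          * (th l ^ 2 * (2 * S.errW t (n - 1) (kid k c) (l / 2))) ≤ ∑ i ∈ A, S.wt i →
      ∃ F : E d → ℝ≥0∞, Measurable F ∧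
        (∀ z : E d, ∀ j ∈ S.adm t n k a, ∀ ρ : ℝ,
          min (S.cutOn A (a + (2 : ℝ) ^ j • z) ρ)
            (S.cutOn (S.deep t (n - 1) (kid k c) l) (a + (2 : ℝ) ^ j • z) ρ) ≤ F z) ∧
        nrm2 F ≤ C * (th l * ∑ i ∈ A, S.wt i) := by
  obtain ⟨Cs, hCs, hctr⟩ := centres_le d K1 hK1
  refine ⟨Cs + Cs ^ (1 / 2 : ℝ), ENNReal.add_ne_top.2
    ⟨hCs, ENNReal.rpow_ne_top_of_nonneg (by norm_num) hCs⟩,
    fun ι _ S t n k a b c l A hbc hK hL hw hA hcard => ?_⟩
  have hL0 : 0 ≤ S.L0 := zero_le_one.trans hL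
  set m := n - 1 with hm
  set j0 := l / 2 with hj0
  set p := m - (j0 : ℤ) with hp
  set θ := th l
  set X := S.errW t m (kid k c) j0
  set B := ∑ i ∈ A, S.wt i
  set G := A.image fun i => qidx t p (S.pos i) with hG
  set Rs := descs j0 (kid k c)
  set δ1 := (Real.sqrt d + K1) * (2 : ℝ) ^ p
  obtain ⟨R0, hR0, hR0max⟩ := Finset.exists_max_image Rs (fun R => S.pot t p R)
    ⟨qidx t p (qctr t m (kid k c)), by
      have h1 : qidx t m (qctr t m (kid k c)) = kid k c := mem_qcube_iff.1 fun i => by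
        have : (0 : ℝ) < 2 ^ m := zpow_pos two_pos _
        simp only [qcorn, qctr]; constructor <;> linarith
      have h2 := qidx_sub_nat t m (qctr t m (kid k c)) j0
      rwa [h1] at h2⟩
  set bg : (Fin d → ℤ) → ℝ≥0∞ := fun g =>
    ∑ i ∈ A.filter (fun i => qidx t p (S.pos i) = g), S.wt i
  set cp : (Fin d → ℤ) → (Fin d → ℤ) → Set (E d) := fun g R =>
    S.pairSet t n k a (qctr t p g) (qctr t p R) δ1
  have hcpm : ∀ g R, MeasurableSet (cp g R) := fun g R => S.measurableSet_pairSet t n k a _ _ _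
  have hcpP : ∀ g ∈ G, ∀ R ∈ Rs, annMeas d (cp g R) ^ (1 / 2 : ℝ) ≤ Cs * θ ^ 4 := by
    intro g hg R hR
    obtain ⟨i, hi, rfl⟩ := Finset.mem_image.1 hg
    exact hctr ι S t n k a b c l i R hbc hL (hA i hi).1 (hA i hi).2.2 hR
  set Z : E d → ℝ≥0∞ := fun z => ∑ g ∈ G, (cp g R0).indicator (fun _ => bg g) z
  set Sg : E d → ℝ≥0∞ := fun z => ∑ g ∈ G, ∑ R ∈ Rs.erase R0,
    (cp g R).indicator (S.spot t p R a) z
  set F2 : E d → ℝ≥0∞ := fun z => min B (Sg z)
  have hZm : Measurable Z := Finset.measurable_sum _ fun g _ =>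
    measurable_const.indicator (hcpm g R0)
  have hSgm : Measurable Sg := Finset.measurable_sum _ fun g _ => Finset.measurable_sum _ fun R _ =>
    (S.measurable_spot a).indicator (hcpm g R)
  have hF2m : Measurable F2 := measurable_const.min hSgm
  have hθ1 : θ ≤ 1 := th_sq_le l
  refine ⟨fun z => Z z + F2 z, hZm.add hF2m, fun z j hj ρ => ?_, ?_⟩
  · exact heavy_pointwise hL0 hK1 hK (fun i hi => (hA i hi).2.1.le) hR0 hj z ρ
  have hZn : nrm2 Z ≤ Cs * (θ * B) := by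
    calc nrm2 Z ≤ ∑ g ∈ G, nrm2 ((cp g R0).indicator fun _ => bg g) :=
          nrm2_sum_le _ fun g => measurable_const.indicator (hcpm g R0)
      _ ≤ ∑ g ∈ G, bg g * (Cs * θ ^ 4) := Finset.sum_le_sum fun g hg => by
          rw [nrm2_indicator _ (hcpm g R0)]
          exact mul_le_mul_of_nonneg_left (hcpP g hg R0 hR0) zero_le
      _ = B * (Cs * θ ^ 4) := by
          rw [← Finset.sum_mul,
            Finset.sum_fiberwise_of_maps_to (fun i hi => Finset.mem_image_of_mem _ hi)]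
      _ ≤ B * (Cs * θ) := by
          gcongr
          exact pow_le_of_le_one zero_le hθ1 (by norm_num)
      _ = _ := by ring
  have hint : ∫⁻ z, F2 z ^ (2 : ℝ) ∂annMeas d ≤ Cs * (θ * B) ^ 2 := by
    calc ∫⁻ z, F2 z ^ (2 : ℝ) ∂annMeas d ≤ ∫⁻ z, B * Sg z ∂annMeas d :=
          lintegral_mono fun z => by
            rw [ENNReal.rpow_two, sq]
            exact mul_le_mul (min_le_left _ _) (min_le_right _ _) zero_le zero_le
      _ = B * ∫⁻ z, Sg z ∂annMeas d := lintegral_const_mul _ hSgm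
      _ ≤ B * ∑ _g ∈ G, 2 * X * (Cs * θ ^ 4) := by
          refine mul_le_mul_of_nonneg_left ?_ zero_le
          simp only [Sg]
          rw [lintegral_finsetSum _ fun g _ => Finset.measurable_sum _ fun R _ =>
            (S.measurable_spot a).indicator (hcpm g R)]
          refine Finset.sum_le_sum fun g hg => ?_
          rw [lintegral_finsetSum _ fun R _ => (S.measurable_spot a).indicator (hcpm g R)]
          refine (Finset.sum_le_sum fun R hR =>
            (lintegral_indicator_le_nrm2 (S.measurable_spot a) (hcpm g R)).trans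
              (mul_le_mul (le_iSup (fun a => nrm2 (S.spot t p R a)) a)
                (hcpP g hg R (Finset.mem_of_mem_erase hR)) zero_le zero_le)).trans ?_
          rw [← Finset.sum_mul]
          exact mul_le_mul_of_nonneg_right
            (descs_pot_erase_le hL0 hw m (kid k c) j0 hR0 hR0max) zero_le
      _ = B * (Cs * θ ^ 2 * ((G.card : ℝ≥0∞) * (θ ^ 2 * (2 * X)))) := by
          rw [Finset.sum_const, nsmul_eq_mul]; ring
      _ ≤ B * (Cs * θ ^ 2 * B) := by gcongr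
      _ = _ := by ring
  have hF2 : nrm2 F2 ≤ Cs ^ (1 / 2 : ℝ) * (θ * B) := by
    refine (ENNReal.rpow_le_rpow hint (by norm_num : (0 : ℝ) ≤ 1 / 2)).trans (le_of_eq ?_)
    rw [ENNReal.mul_rpow_of_nonneg _ _ (by norm_num : (0 : ℝ) ≤ 1 / 2),
      ← ENNReal.rpow_natCast _ 2, ← ENNReal.rpow_mul]
    norm_num
  rw [add_mul]
  exact (nrm2_add_le hZm hF2m).trans (add_le_add hZn hF2)

/-- Depth `l` of one child against the deeper items of another child. -/
theorem pair_bound (d : ℕ) [NeZero d] (K0 : ℝ) : ∃ C : ℝ≥0∞, C ≠ ⊤ ∧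
    ∀ (ι : Type) [Fintype ι] (S : Sys d ι) (t : E d) (n : ℤ) (k : Fin d → ℤ)
      (b c : Fin d → Fin 2) (l : ℕ) (a : E d), b ≠ c → S.K ≤ K0 → 1 ≤ S.L0 →
      (∀ i, S.wt i ≠ ⊤) →
      ∃ M : E d → ℝ≥0∞, Measurable M ∧
        (∀ z : E d, ∀ j ∈ S.adm t n k a, ∀ ρ : ℝ,
          min (S.cutOn (S.layer t (n - 1) (kid k b) l) (a + (2 : ℝ) ^ j • z) ρ)
              (S.cutOn (S.deep t (n - 1) (kid k c) l) (a + (2 : ℝ) ^ j • z) ρ) ≤ M z) ∧
        nrm2 M ≤ S.nearW t (n - 1) (kid k b) l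
          + C * th l * (S.layerW t (n - 1) (kid k b) l + S.errW t (n - 1) (kid k c) (l / 2)) := by
  set K1 := max K0 1 with hK1def
  have hK1 : (1 : ℝ) ≤ K1 := le_max_right _ _
  obtain ⟨Ci, hCi, hlight⟩ := light_le d K1 hK1
  obtain ⟨Ch, hCh, hheavy⟩ := heavy_le d K1 hK1
  set C1 := ((3 : ℝ≥0∞) ^ d + Ci) ^ (1 / 2 : ℝ) with hC1
  refine ⟨2 * (C1 + Ch), ?_, fun ι _ S t n k b c l a hbc hK hL hw => ?_⟩
  · exact ENNReal.mul_ne_top (by norm_num) (ENNReal.add_ne_top.2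
      ⟨ENNReal.rpow_ne_top_of_nonneg (by norm_num)
        (ENNReal.add_ne_top.2 ⟨ENNReal.pow_ne_top (by norm_num), hCi⟩), hCh⟩)
  have hSK : S.K ≤ K1 := hK.trans (le_max_left _ _)
  set m := n - 1 with hm
  set j0 := l / 2 with hj0
  set p := m - (j0 : ℤ) with hp
  set A := (S.layer t m (kid k b) l).filter (fun i => S.inner' t m l i) with hA
  set B := ∑ i ∈ A, S.wt i
  set gi : ι → Fin d → ℤ := fun i => qidx t p (S.pos i)
  set bg : (Fin d → ℤ) → ℝ≥0∞ := fun g => ∑ i ∈ A.filter (fun i => gi i = g), S.wt i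
  set X := S.errW t m (kid k c) j0
  set θ := th l
  set τ := θ ^ 2 * (B + 2 * X) with hτ
  have hθ1 : θ ≤ 1 := th_sq_le l
  have hAmem : ∀ i ∈ A, qidx t m (S.pos i) = kid k b ∧ S.lev i = m - l ∧ S.inner' t m l i :=
    fun i hi => by
      simp only [hA, layer, Finset.mem_filter, mem_below] at hi
      exact ⟨hi.1.1.1, hi.1.2, hi.2⟩
  set Li := A.filter fun i => bg (gi i) ≤ τ with hLi
  set Hi := A.filter fun i => ¬ bg (gi i) ≤ τ with hHi
  have hLA : Li ⊆ A := Finset.filter_subset _ _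
  have hHA : Hi ⊆ A := Finset.filter_subset _ _
  obtain ⟨FL, hFLm, hFL, hFLn⟩ := hlight ι S t n k a l Li τ hSK hL
    (fun i hi => ⟨(qidx_eq_kid_iff.1 (hAmem i (hLA hi)).1).1, (hAmem i (hLA hi)).2.1⟩) fun g => by
      rcases (Li.filter fun i => gi i = g).eq_empty_or_nonempty with he | ⟨i1, hi1⟩
      · rw [he, Finset.sum_empty]; exact zero_le
      · obtain ⟨hi1L, hi1g⟩ := Finset.mem_filter.1 hi1
        exact (Finset.sum_le_sum_of_subset (Finset.filter_subset_filter _ hLA)).trans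
          (hi1g ▸ (Finset.mem_filter.1 hi1L).2)
  obtain ⟨FH, hFHm, hFH, hFHn⟩ := hheavy ι S t n k a b c l Hi hbc hSK hL hw
    (fun i hi => hAmem i (hHA hi)) (by
      rw [← Finset.sum_fiberwise_of_maps_to (fun i hi => Finset.mem_image_of_mem gi hi) S.wt]
      refine le_trans (le_of_eq ?_) (Finset.card_nsmul_le_sum _ _ (θ ^ 2 * (2 * X)) fun g hg => ?_)
      · rw [nsmul_eq_mul]
      obtain ⟨i, hi, rfl⟩ := Finset.mem_image.1 hg
      have hgt := not_le.1 (Finset.mem_filter.1 hi).2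
      have e : Hi.filter (fun i' => gi i' = gi i) = A.filter (fun i' => gi i' = gi i) := by
        ext i'
        simp only [hHi, Finset.mem_filter]
        exact ⟨fun h => ⟨h.1.1, h.2⟩, fun h => ⟨⟨h.1, h.2.symm ▸ not_le.2 hgt⟩, h.2⟩⟩
      rw [e]
      refine le_trans ?_ hgt.le
      rw [hτ]
      exact mul_le_mul_of_nonneg_left le_add_self zero_le)
  set N := S.nearW t m (kid k b) l
  refine ⟨fun z => N + (FL z + FH z), measurable_const.add (hFLm.add hFHm), fun z j hj ρ => ?_, ?_⟩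
  · set x := a + (2 : ℝ) ^ j • z
    have hsplit : S.cutOn (S.layer t m (kid k b) l) x ρ
        ≤ N + (S.cutOn Li x ρ + S.cutOn Hi x ρ) := by
      rw [cutOn, ← Finset.sum_filter_add_sum_filter_not (S.layer t m (kid k b) l)
        (fun i => S.inner' t m l i), add_comm]
      exact add_le_add (cutOn_le_weight _ x ρ)
        (Finset.sum_filter_add_sum_filter_not A (fun i => bg (gi i) ≤ τ) _).symm.le
    refine le_trans (min_le_min_right _ hsplit) ?_
    refine le_trans (b := N + (S.cutOn Li x ρ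
      + min (S.cutOn Hi x ρ) (S.cutOn (S.deep t m (kid k c) l) x ρ))) ?_ ?_
    · rcases le_total (S.cutOn Hi x ρ) (S.cutOn (S.deep t m (kid k c) l) x ρ) with h | h
      · rw [min_eq_left h]; exact min_le_left _ _
      · rw [min_eq_right h]; exact (min_le_right _ _).trans (le_add_left (le_add_left le_rfl))
    exact add_le_add le_rfl (add_le_add (hFL z j hj ρ) (hFH z j hj ρ))
  have hBW : B ≤ S.layerW t m (kid k b) l := Finset.sum_le_sum_of_subset (Finset.filter_subset _ _)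
  have hLn : nrm2 FL ≤ C1 * (θ * (B + 2 * X)) := by
    refine hFLn.trans ((ENNReal.rpow_le_rpow (z := (1 / 2 : ℝ))
      (y := ((3 : ℝ≥0∞) ^ d + Ci) * (θ * (B + 2 * X)) ^ 2) ?_ (by norm_num)).trans (le_of_eq ?_))
    · have hBL : ∑ i ∈ Li, S.wt i ≤ B + 2 * X :=
        (Finset.sum_le_sum_of_subset hLA).trans le_self_add
      have e1 : θ ^ 8 ≤ θ ^ 2 := pow_le_pow_right_of_le_one' hθ1 (by norm_num)
      calc _ ≤ (B + 2 * X) * ((3 : ℝ≥0∞) ^ d * τ + (B + 2 * X) * (Ci * θ ^ 2)) := by gcongr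
        _ = _ := by simp only [hτ]; ring
    · rw [ENNReal.mul_rpow_of_nonneg _ _ (by norm_num : (0 : ℝ) ≤ 1 / 2),
        ← ENNReal.rpow_natCast _ 2, ← ENNReal.rpow_mul, hC1]
      norm_num
  refine (nrm2_add_le measurable_const (hFLm.add hFHm)).trans (add_le_add (nrm2_const_le _) ?_)
  refine (nrm2_add_le hFLm hFHm).trans ((add_le_add hLn (hFHn.trans
    (mul_le_mul_of_nonneg_left (mul_le_mul_of_nonneg_left (Finset.sum_le_sum_of_subset hHA)
      zero_le) zero_le))).trans ?_)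
  have hBX : B + 2 * X ≤ 2 * (B + X) := by
    rw [mul_add]; exact add_le_add (le_mul_of_one_le_left zero_le one_le_two) le_rfl
  have hB2 : B ≤ 2 * (B + X) := le_self_add.trans hBX
  calc C1 * (θ * (B + 2 * X)) + Ch * (θ * B)
      ≤ C1 * (θ * (2 * (B + X))) + Ch * (θ * (2 * (B + X))) := by gcongr
    _ = 2 * (C1 + Ch) * θ * (B + X) := by ring
    _ ≤ _ := mul_le_mul_of_nonneg_left (add_le_add hBW le_rfl) zero_le

end Sys

end

end Vale.Agent.P137.Cen
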