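import Vale.Agent.P137.Cen.Potential

/-!
# P137, centred operator: tools for the clustering lemma
-/

open MeasureTheory Metric Set
open scoped ENNReal RealInnerProductSpace

namespace Vale.Agent.P137.Cen

open Unc

noncomputable section

attribute [local instance] Classical.propDecidable

variable {d : ℕ} {ι : Type} [Fintype ι]

/-! ## Sums of minima -/

theorem min_add_le (a b c : ℝ≥0∞) : min a (b + c) ≤ min a b + min a c := by
  rcases le_total a b with h | h
  · exact (min_le_left _ _).trans (le_add_right (le_min le_rfl h))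
  rcases le_total a c with h' | h'
  · exact (min_le_left _ _).trans (le_add_left (le_min le_rfl h'))
  rw [min_eq_right h, min_eq_right h']
  exact min_le_right _ _

theorem min_split_step (a b A B : ℝ≥0∞) :
    min (A + a) (B + b) ≤ min A B + (min a (B + b) + min b (A + a)) := by
  rcases le_total (B + b) a with h | h
  · rw [min_eq_right h]
    exact (min_le_right _ _).trans (le_add_left (le_add_right le_rfl))
  rcases le_total (A + a) b with h' | h'
  · rw [min_eq_right h']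
    exact (min_le_left _ _).trans (le_add_left (le_add_left le_rfl))
  rw [min_eq_left h, min_eq_left h']
  rcases le_total A B with hab | hab
  · rw [min_eq_left hab]
    exact (min_le_left _ _).trans (add_le_add le_rfl le_self_add)
  · rw [min_eq_right hab]
    exact (min_le_right _ _).trans (add_le_add le_rfl le_add_self)

/-- Minimum of two sums over depths. -/
theorem min_sum_le (D : ℕ) : ∀ a b : ℕ → ℝ≥0∞,
    min (∑ l ∈ Finset.range D, a l) (∑ l ∈ Finset.range D, b l)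
      ≤ ∑ l ∈ Finset.range D,
          (min (a l) (∑ i ∈ Finset.Ico l D, b i) + min (b l) (∑ i ∈ Finset.Ico l D, a i)) := by
  induction D with
  | zero => simp
  | succ D ih =>
    intro a b
    have e : ∀ f : ℕ → ℝ≥0∞, ∀ l, ∑ i ∈ Finset.Ico (l + 1) (D + 1), f i
        = ∑ i ∈ Finset.Ico l D, f (i + 1) := fun f l =>
      (Finset.sum_Ico_add' f l D 1).symm
    conv_rhs => rw [Finset.sum_range_succ']
    simp only [e, Nat.Ico_zero_eq_range]
    rw [Finset.sum_range_succ', Finset.sum_range_succ']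
    exact (min_split_step _ _ _ _).trans (add_le_add (ih _ _) le_rfl)

theorem offMax_le_pairs (A : (Fin d → Fin 2) → ℝ≥0∞) :
    Sys.offMax A ≤ ∑ b, ∑ c ∈ Finset.univ.erase b, min (A b) (A c) := by
  obtain ⟨b0, hb0⟩ := Finite.exists_max A
  refine (iInf_le _ b0).trans ?_
  refine le_trans (Finset.sum_le_sum fun c _ => ?_)
    (Finset.single_le_sum (f := fun b => ∑ c ∈ Finset.univ.erase b, min (A b) (A c))
      (fun _ _ => zero_le) (Finset.mem_univ b0))
  rw [min_eq_right (hb0 c)]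

/-! ## Square sums -/

theorem sqrtSum_add_le {β : Type*} (s : Finset β) (u v : β → ℝ≥0∞) :
    (∑ i ∈ s, (u i + v i) ^ (2 : ℝ)) ^ (1 / 2 : ℝ)
      ≤ (∑ i ∈ s, u i ^ (2 : ℝ)) ^ (1 / 2 : ℝ) + ∑ i ∈ s, v i := by
  refine (ENNReal.Lp_add_le s u v one_le_two).trans (add_le_add le_rfl ?_)
  induction s using Finset.induction with
  | empty => simp
  | insert i s hi ih =>
    rw [Finset.sum_insert hi, Finset.sum_insert hi]
    refine (ENNReal.rpow_add_le_add_rpow _ _ (by norm_num) (by norm_num)).trans (add_le_add ?_ ih)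
    rw [← ENNReal.rpow_mul]
    norm_num

/-- If the sum exceeds the square sum by at most `X`, all but the largest term sum to `2 X`. -/
theorem sum_erase_le_two {β : Type*} [DecidableEq β] (s : Finset β) {h : β → ℝ≥0∞}
    (hh : ∀ i ∈ s, h i ≠ ⊤) {b0 : β} (hb : b0 ∈ s) (hmax : ∀ i ∈ s, h i ≤ h b0) {X : ℝ≥0∞}
    (hX : ∑ i ∈ s, h i ≤ (∑ i ∈ s, h i ^ (2 : ℝ)) ^ (1 / 2 : ℝ) + X) :
    ∑ i ∈ s.erase b0, h i ≤ 2 * X := by
  rcases eq_or_ne X ⊤ with hXt | hXt
  · simp [hXt]
  have hsum : ∑ i ∈ s, h i ≠ ⊤ := ENNReal.sum_ne_top.2 hh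
  set T := ∑ i ∈ s, h i with hT
  set Q := (∑ i ∈ s, h i ^ (2 : ℝ)) ^ (1 / 2 : ℝ) with hQ
  have h2 : ∑ i ∈ s, h i ^ (2 : ℝ) ≤ h b0 * T := by
    rw [hT, Finset.mul_sum]
    refine Finset.sum_le_sum fun i hi => ?_
    rw [ENNReal.rpow_two, sq]
    exact mul_le_mul_of_nonneg_right (hmax i hi) zero_le
  have hQ2 : Q * Q ≤ h b0 * T := by
    rw [hQ, ← sq, ← ENNReal.rpow_two, ← ENNReal.rpow_mul]
    norm_num
    simpa using h2
  have hQt : Q ≠ ⊤ := fun e => by
    rw [e, ENNReal.top_mul_top, top_le_iff] at hQ2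
    exact ENNReal.mul_ne_top (hh b0 hb) hsum hQ2
  have hb0t := hh b0 hb
  have hle : T ≤ h b0 + 2 * X := by
    rw [← ENNReal.ofReal_toReal hsum, ← ENNReal.ofReal_toReal hb0t, ← ENNReal.ofReal_toReal hXt,
      show (2 : ℝ≥0∞) = ENNReal.ofReal 2 by simp, ← ENNReal.ofReal_mul zero_le_two,
      ← ENNReal.ofReal_add ENNReal.toReal_nonneg (by positivity)]
    refine ENNReal.ofReal_le_ofReal ?_
    have r1 := ENNReal.toReal_mono (ENNReal.add_ne_top.2 ⟨hQt, hXt⟩) hX
    rw [ENNReal.toReal_add hQt hXt] at r1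
    have r2 := ENNReal.toReal_mono (ENNReal.mul_ne_top hb0t hsum) hQ2
    rw [ENNReal.toReal_mul, ENNReal.toReal_mul] at r2
    nlinarith [sq_nonneg ((h b0).toReal - T.toReal), ENNReal.toReal_nonneg (a := h b0),
      ENNReal.toReal_nonneg (a := T), ENNReal.toReal_nonneg (a := Q)]
  rw [hT, ← Finset.add_sum_erase s h hb] at hle
  exact ENNReal.le_of_add_le_add_left hb0t hle

/-! ## Square norms -/

theorem nrm2_indicator (c : ℝ≥0∞) {s : Set (E d)} (hs : MeasurableSet s) :
    nrm2 (s.indicator fun _ => c) = c * annMeas d s ^ (1 / 2 : ℝ) := by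
  have e : ∀ z, s.indicator (fun _ => c) z ^ (2 : ℝ) = s.indicator (fun _ => c ^ (2 : ℝ)) z :=
    fun z => by by_cases hz : z ∈ s <;> simp [hz]
  rw [nrm2]
  simp only [e]
  rw [lintegral_indicator_const hs, ENNReal.mul_rpow_of_nonneg _ _ (by norm_num),
    ← ENNReal.rpow_mul]
  norm_num

theorem lintegral_indicator_le_nrm2 {f : E d → ℝ≥0∞} (hf : Measurable f) {s : Set (E d)}
    (hs : MeasurableSet s) :
    ∫⁻ z, s.indicator f z ∂annMeas d ≤ nrm2 f * annMeas d s ^ (1 / 2 : ℝ) := by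
  have h := ENNReal.lintegral_mul_le_Lp_mul_Lq (annMeas d) Real.HolderConjugate.two_two
    hf.aemeasurable (g := s.indicator fun _ => (1 : ℝ≥0∞))
    ((measurable_const.indicator hs).aemeasurable)
  have e : ∫⁻ z, s.indicator f z ∂annMeas d
      = ∫⁻ z, (f * s.indicator fun _ => (1 : ℝ≥0∞)) z ∂annMeas d :=
    lintegral_congr fun z => by by_cases hz : z ∈ s <;> simp [hz]
  have e2 : ∫⁻ z, (s.indicator (fun _ => (1 : ℝ≥0∞)) z) ^ (2 : ℝ) ∂annMeas d = annMeas d s := by
    rw [← lintegral_indicator_one hs]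
    exact lintegral_congr fun z => by by_cases hz : z ∈ s <;> simp [hz]
  rw [e]
  refine h.trans (le_of_eq ?_)
  rw [e2, nrm2]

/-! ## Descendants -/

/-- Indices of the descendants `j` levels lower. -/
def descs (j : ℕ) (k : Fin d → ℤ) : Finset (Fin d → ℤ) :=
  Fintype.piFinset fun i => Finset.Ico ((2 : ℤ) ^ j * k i) ((2 : ℤ) ^ j * (k i + 1))

theorem mem_descs {j : ℕ} {k kk : Fin d → ℤ} :
    kk ∈ descs j k ↔ ∀ i, kk i / (2 : ℤ) ^ j = k i := by
  simp only [descs, Fintype.mem_piFinset, Finset.mem_Ico]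
  refine forall_congr' fun i => ?_
  have hp : (0 : ℤ) < 2 ^ j := by positivity
  constructor
  · rintro ⟨h1, h2⟩
    exact le_antisymm (Int.lt_add_one_iff.1 ((Int.ediv_lt_iff_lt_mul hp).2 (by linarith)))
      ((Int.le_ediv_iff_mul_le hp).2 (by linarith))
  · intro h
    have h1 := (Int.le_ediv_iff_mul_le hp).1 h.ge
    have h2 := (Int.ediv_lt_iff_lt_mul hp).1 (Int.lt_add_one_iff.2 h.le)
    constructor <;> linarith

theorem descs_zero (k : Fin d → ℤ) : descs 0 k = {k} := by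
  ext kk
  simp [mem_descs, funext_iff]

/-- A descendant of depth `j + 1` is a child of one of depth `j`. -/
theorem sum_descs_succ (j : ℕ) (k : Fin d → ℤ) (f : (Fin d → ℤ) → ℝ≥0∞) :
    ∑ kk ∈ descs (j + 1) k, f kk = ∑ kk ∈ descs j k, ∑ b, f (kid kk b) := by
  rw [← Finset.sum_product']
  refine (Finset.sum_bij' (fun p _ => kid p.1 p.2)
    (fun kk _ => (fun i => kk i / 2, fun i => ⟨(kk i % 2).toNat, by omega⟩))
    (fun p hp => ?_) (fun kk hkk => ?_) (fun p _ => ?_) (fun kk _ => ?_) (fun p _ => rfl)).symm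
  · simp only [Finset.mem_product, Finset.mem_univ, and_true, mem_descs] at hp
    rw [mem_descs]
    intro i
    rw [pow_succ', ← Int.ediv_ediv_of_nonneg (by positivity), ← hp i]
    have := (p.2 i).isLt
    congr 1
    simp only [kid]
    omega
  · rw [mem_descs] at hkk
    simp only [Finset.mem_product, Finset.mem_univ, and_true, mem_descs]
    intro i
    rw [Int.ediv_ediv_of_nonneg (by positivity), ← pow_succ']
    exact hkk i
  · refine Prod.ext (funext fun i => ?_) (funext fun i => Fin.ext ?_) <;>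
      · have := (p.2 i).isLt
        simp only [kid]
        omega
  · funext i
    simp only [kid]
    omega

theorem tsum_descs (j : ℕ) (f : (Fin d → ℤ) → ℝ≥0∞) :
    ∑' k, ∑ kk ∈ descs j k, f kk = ∑' k, f k := by
  induction j generalizing f with
  | zero => simp [descs_zero]
  | succ j ih =>
    simp only [sum_descs_succ]
    rw [ih fun kk => ∑ b, f (kid kk b)]
    exact Sys.tsum_kid

theorem qidx_sub_nat (t : E d) (m : ℤ) (y : E d) (j : ℕ) :
    qidx t (m - j) y ∈ descs j (qidx t m y) := by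
  induction j with
  | zero => simp [descs_zero]
  | succ j ih =>
    rw [mem_descs] at ih ⊢
    intro i
    rw [pow_succ', ← Int.ediv_ediv_of_nonneg (by positivity),
      show m - ((j + 1 : ℕ) : ℤ) = m - j - 1 by push_cast; ring, ← qidx_pred]
    exact ih i

theorem norm_qctr_descs_le (t : E d) (m : ℤ) (j : ℕ) {k kk : Fin d → ℤ} (h : kk ∈ descs j k) :
    ‖qctr t (m - j) kk - qctr t m k‖ ≤ Real.sqrt d * (2 : ℝ) ^ m / 2 := by
  apply norm_sub_qctr_le
  intro i
  have hi := mem_descs.1 h i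
  have hpow : (0 : ℤ) < 2 ^ j := by positivity
  have h1 : (2 : ℤ) ^ j * k i ≤ kk i := by
    rw [← hi, mul_comm]; exact Int.ediv_mul_le _ hpow.ne'
  have h2 : kk i < (2 : ℤ) ^ j * (k i + 1) := by
    rw [← hi, mul_comm]; exact Int.lt_ediv_add_one_mul_self _ hpow
  have e : (2 : ℝ) ^ m = 2 ^ (m - j) * (2 : ℝ) ^ j := by
    rw [← zpow_natCast (2 : ℝ) j, ← zpow_add₀ two_ne_zero, sub_add_cancel]
  have hp : (0 : ℝ) < 2 ^ (m - (j : ℤ)) := zpow_pos two_pos _
  have r1 : (2 : ℝ) ^ j * (k i : ℝ) ≤ (kk i : ℝ) := by exact_mod_cast h1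
  have r2 : (kk i : ℝ) + 1 ≤ (2 : ℝ) ^ j * ((k i : ℝ) + 1) := by exact_mod_cast h2
  simp only [qcorn, qctr, e]
  constructor <;> nlinarith

namespace Sys

variable {S : Sys d ι} {t : E d}

omit [Fintype ι] in
theorem adm_descs (hL : 0 ≤ S.L0) (m : ℤ) (a : E d) (j : ℕ) : ∀ {k kk : Fin d → ℤ},
    kk ∈ descs j k → S.adm t m k a ⊆ S.adm t (m - j) kk a := by
  induction j with
  | zero =>
    intro k kk h
    rw [descs_zero, Finset.mem_singleton] at h
    subst h
    simp
  | succ j ih =>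
    intro k kk h
    set k1 : Fin d → ℤ := fun i => kk i / 2
    set b : Fin d → Fin 2 := fun i => ⟨(kk i % 2).toNat, by omega⟩
    have hk1 : k1 ∈ descs j k := by
      rw [mem_descs] at h ⊢
      intro i
      rw [Int.ediv_ediv_of_nonneg (by positivity), ← pow_succ']
      exact h i
    have e : kk = kid k1 b := by funext i; simp only [kid, k1, b]; omega
    rw [e, show m - ((j + 1 : ℕ) : ℤ) = m - j - 1 by push_cast; ring]
    exact (ih hk1).trans (adm_subset hL a b)

end Sys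

/-! ## One sphere through two small balls -/

/-- Centres of admissible spheres which pass near both points. -/
def Sys.pairSet (S : Sys d ι) (t : E d) (n : ℤ) (k : Fin d → ℤ) (a y y' : E d) (δ : ℝ) :
    Set (E d) :=
  {z | ∃ j ∈ S.adm t n k a, |‖a + (2 : ℝ) ^ j • z - y‖ - ‖a + (2 : ℝ) ^ j • z - y'‖| ≤ 2 * δ}

omit [Fintype ι] in
theorem Sys.measurableSet_pairSet (S : Sys d ι) (t : E d) (n : ℤ) (k : Fin d → ℤ) (a y y' : E d)
    (δ : ℝ) : MeasurableSet (S.pairSet t n k a y y' δ) := by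
  have e : S.pairSet t n k a y y' δ = ⋃ j ∈ S.adm t n k a,
      {z | |‖a + (2 : ℝ) ^ j • z - y‖ - ‖a + (2 : ℝ) ^ j • z - y'‖| ≤ 2 * δ} := by
    ext z; simp [Sys.pairSet]
  rw [e]
  refine MeasurableSet.biUnion (Set.to_countable _) fun j _ => ?_
  exact (isClosed_le (((continuous_const.add (continuous_const_smul _)).sub continuous_const).norm.sub
    ((continuous_const.add (continuous_const_smul _)).sub continuous_const).norm).abs
    continuous_const).measurableSet

omit [Fintype ι] in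
theorem Sys.mem_pairSet {S : Sys d ι} {t : E d} {n : ℤ} {k : Fin d → ℤ} {a y y' z : E d} {δ ρ : ℝ}
    {j : ℤ} (hj : j ∈ S.adm t n k a) (h : |‖a + (2 : ℝ) ^ j • z - y‖ - ρ| ≤ δ)
    (h' : |‖a + (2 : ℝ) ^ j • z - y'‖ - ρ| ≤ δ) : z ∈ S.pairSet t n k a y y' δ := by
  refine ⟨j, hj, ?_⟩
  rw [abs_le] at h h' ⊢
  constructor <;> linarith

/-- Decay factor at depth `l`. -/
def th (l : ℕ) : ℝ≥0∞ := (2⁻¹ : ℝ≥0∞) ^ (l / 64)

/-- Two points at distance at least `2 ^ (16 i)` fat radii are in one admissible sphere with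
probability `2 ^ (-8 i)`. -/
theorem pairSet_measure_le (d : ℕ) [NeZero d] (c : ℝ) : ∃ C : ℝ≥0∞, C ≠ ⊤ ∧
    ∀ (ι : Type) [Fintype ι] (S : Sys d ι) (t : E d) (n : ℤ) (k : Fin d → ℤ) (a y y' : E d) (δ : ℝ)
      (i : ℕ), 1 ≤ S.L0 → ‖y - qctr t n k‖ ≤ Real.sqrt d * 2 ^ n →
      ‖y' - qctr t n k‖ ≤ Real.sqrt d * 2 ^ n → 0 < δ → δ * 2 ^ (16 * i) ≤ c * ‖y - y'‖ →
      annMeas d (S.pairSet t n k a y y' δ) ≤ C * ((2⁻¹ : ℝ≥0∞) ^ i) ^ 8 := by
  obtain ⟨C0, hC0, h0⟩ := two_point d
  set c' := max c 1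
  refine ⟨(3 * C0 + 1) * ENNReal.ofReal (2 * c'),
    ENNReal.mul_ne_top (ENNReal.add_ne_top.2 ⟨ENNReal.mul_ne_top (by norm_num) hC0,
      ENNReal.one_ne_top⟩) ENNReal.ofReal_ne_top, fun ι _ S t n k a y y' δ i hL hy hy' hδ hc => ?_⟩
  set P : ℝ := (2 : ℝ) ^ (8 * i) with hPdef
  have hP : 0 < P := by positivity
  have hP2 : (2 : ℝ) ^ (16 * i) = P ^ 2 := by rw [hPdef, ← pow_mul]; congr 1; ring
  have eP : ((2⁻¹ : ℝ≥0∞) ^ i) ^ 8 = ENNReal.ofReal (1 / P) := by
    rw [← pow_mul, one_div, ENNReal.ofReal_inv_of_pos hP, hPdef,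
      ENNReal.ofReal_pow zero_le_two, show ENNReal.ofReal 2 = 2 by simp, ENNReal.inv_pow,
      mul_comm i 8]
  have hh0 : 0 ≤ ‖y - y'‖ := norm_nonneg _
  have hc' : δ * P ^ 2 ≤ c' * ‖y - y'‖ :=
    hP2 ▸ hc.trans (mul_le_mul_of_nonneg_right (le_max_left _ _) hh0)
  have hc1 : 1 ≤ c' := le_max_right _ _
  rw [eP, mul_assoc, ← ENNReal.ofReal_mul (by linarith)]
  by_cases hsmall : ‖y - y'‖ < 2 * δ
  · refine prob_le_one.trans ?_
    have : 1 ≤ ENNReal.ofReal (2 * c' * (1 / P)) := by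
      rw [← ENNReal.ofReal_one]
      refine ENNReal.ofReal_le_ofReal ?_
      rw [mul_one_div, le_div_iff₀ hP, one_mul]
      have h1 : δ * P ^ 2 ≤ δ * (2 * c') := by
        nlinarith [mul_le_mul_of_nonneg_left hsmall.le (by linarith : (0 : ℝ) ≤ c')]
      have : P ^ 2 ≤ (2 * c') ^ 2 :=
        (le_of_mul_le_mul_left h1 hδ).trans (le_self_pow₀ (by linarith) two_ne_zero)
      exact (abs_le_of_sq_le_sq' this (by linarith)).2
    calc (1 : ℝ≥0∞) = 1 * 1 := (one_mul 1).symm
      _ ≤ _ := mul_le_mul le_add_self this zero_le zero_le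
  · rw [not_lt] at hsmall
    set D := Real.sqrt d * (2 : ℝ) ^ n + ‖a - qctr t n k‖
    have hD : ∀ {w : E d}, ‖w - qctr t n k‖ ≤ Real.sqrt d * 2 ^ n → ‖w - a‖ ≤ D := fun {w} hw => by
      have h1 := norm_sub_le_norm_sub_add_norm_sub w (qctr t n k) a
      rw [norm_sub_rev (qctr t n k) a] at h1
      simp only [D]; linarith
    refine (measure_mono ?_).trans ((h0 a y y' (2 * δ) D (by linarith) hsmall (hD hy) (hD hy')).trans ?_)
    · rintro z ⟨j, ⟨-, hj⟩, hz⟩
      exact ⟨j, le_trans (le_mul_of_one_le_left (by positivity) hL) hj, hz⟩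
    set r := ‖y - y'‖ / (2 * δ)
    have hr1 : 1 ≤ r := (one_le_div (by linarith)).2 hsmall
    have hs : 0 < Real.sqrt r := Real.sqrt_pos.2 (by linarith)
    have hlog : 1 + Real.log r ≤ 3 * Real.sqrt r := by
      have h1 := Real.log_le_sub_one_of_pos hs
      rw [Real.log_sqrt (by linarith)] at h1
      have h2 : 1 ≤ Real.sqrt r := Real.one_le_sqrt.2 hr1
      linarith
    have hrs : P / (2 * c') ≤ Real.sqrt r := by
      apply Real.le_sqrt_of_sq_le
      rw [le_div_iff₀ (by linarith), div_pow, div_mul_eq_mul_div, div_le_iff₀ (by positivity)]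
      nlinarith [mul_le_mul_of_nonneg_left hc1 (mul_nonneg (by linarith : (0:ℝ) ≤ c') hh0)]
    have hreal : 2 * δ / ‖y - y'‖ * (1 + Real.log r) ≤ 3 * (2 * c' * (1 / P)) := by
      rw [show 2 * δ / ‖y - y'‖ = 1 / r by rw [one_div_div]]
      calc 1 / r * (1 + Real.log r) ≤ 1 / r * (3 * Real.sqrt r) :=
            mul_le_mul_of_nonneg_left hlog (by positivity)
        _ = 3 / Real.sqrt r := by
            field_simp
            rw [Real.sq_sqrt (by linarith)]
        _ ≤ 3 / (P / (2 * c')) := by gcongr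
        _ = _ := by field_simp
    refine (mul_le_mul_of_nonneg_left (ENNReal.ofReal_le_ofReal hreal) zero_le).trans ?_
    rw [ENNReal.ofReal_mul (by norm_num), show ENNReal.ofReal 3 = 3 by simp, ← mul_assoc,
      mul_comm C0 3]
    exact mul_le_mul_of_nonneg_right le_self_add zero_le

end

end Vale.Agent.P137.Cen
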