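import Vale.Agent.P137.Cen.Grid
import Vale.Agent.P137.Unc.GridNest

/-!
# P137, centred operator: cube integrals, their defects, moments and pair deficits (step B1)
-/

open MeasureTheory Metric Set Filter
open scoped ENNReal NNReal RealInnerProductSpace Topology

namespace Vale.Agent.P137.Cen

open Vale.Agent.P137.Unc (E qdec)

noncomputable section

variable {d : ℕ}

/-- The integral of `g` over a grid cube. -/
def qint (g : E d → E d) (t : E d) (n : ℤ) (k : Fin d → ℤ) : E d := ∫ y in qcube t n k, g y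

/-- The sum of `|I|` over one level. -/
def gsum (g : E d → E d) (t : E d) (n : ℤ) : ℝ≥0∞ := ∑' k, ‖qint g t n k‖ₑ

/-- The `L^1` norm. -/
def gV (g : E d → E d) : ℝ≥0∞ := ∫⁻ y, ‖g y‖ₑ

/-- The sum of `|I|` over the descendants `j` levels below a cube. -/
def dsum (g : E d → E d) (t : E d) (n : ℤ) (k : Fin d → ℤ) (j : ℕ) : ℝ≥0∞ :=
  ∑ b : Fin d → Fin (2 ^ j), ‖qint g t (n - j) (desc j k b)‖ₑ

/-- The decrement at depth `j`. -/
def qX (g : E d → E d) (t : E d) (n : ℤ) (k : Fin d → ℤ) (j : ℕ) : ℝ≥0∞ :=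
  dsum g t n k j - ‖qint g t n k‖ₑ

/-- The weighted decrements of a cube. -/
def qPsi (g : E d → E d) (t : E d) (n : ℤ) (k : Fin d → ℤ) : ℝ≥0∞ :=
  ∑' j : ℕ, ENNReal.ofReal (qdec ^ j) * qX g t n k j

/-- The deficit of two vectors. -/
def pairD (a b : E d) : ℝ := ‖a‖ + ‖b‖ - ‖a + b‖

/-- The offset of a neighbour, in `[-4, 4]`. -/
def noff (v : Fin d → Fin 9) : Fin d → ℤ := fun i => ((v i : ℕ) : ℤ) - 4

/-- The pair deficits of a cube with its neighbours. -/
def qDst (g : E d → E d) (t : E d) (n : ℤ) (k : Fin d → ℤ) : ℝ≥0∞ :=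
  ∑ v : Fin d → Fin 9, ENNReal.ofReal (pairD (qint g t n k) (qint g t n (k + noff v)))

variable {g : E d → E d} {t : E d}

/-! ## Descendants -/

theorem qint_eq_sum_desc (hg : Integrable g) (n : ℤ) (k : Fin d → ℤ) (j : ℕ) :
    qint g t n k = ∑ b : Fin d → Fin (2 ^ j), qint g t (n - j) (desc j k b) := by
  have hL : (0 : ℝ) < 2 ^ n := zpow_pos two_pos n
  simp only [qint, qcube_desc]
  rw [← integral_iUnion_fintype (fun b => Unc.measurableSet_cube j b) ?_ fun b => hg.integrableOn]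
  · congr 2
    rw [qcube]
    refine Set.Subset.antisymm (fun y hy => ?_) (iUnion_subset fun b => Unc.cube_subset_window hL j b)
    obtain ⟨b, hb⟩ := Unc.exists_mem_cube hL j hy
    exact mem_iUnion.2 ⟨b, hb⟩
  · exact fun b b' hbb => Set.disjoint_left.2 fun y h1 h2 =>
      hbb (Unc.cube_index_unique hL j h1 h2)

theorem desc_zero (k : Fin d → ℤ) (b : Fin d → Fin (2 ^ 0)) : desc 0 k b = k := by
  funext i
  have := (b i).isLt
  simp only [desc, pow_zero] at this ⊢
  omega

theorem dsum_zero (n : ℤ) (k : Fin d → ℤ) : dsum g t n k 0 = ‖qint g t n k‖ₑ := by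
  simp [dsum, desc_zero]

theorem dsum_one (n : ℤ) (k : Fin d → ℤ) :
    dsum g t n k 1 = ∑ b : Fin d → Fin 2, ‖qint g t (n - 1) (kid k b)‖ₑ := by
  simp only [dsum, Nat.cast_one]
  exact Fintype.sum_congr _ _ fun b => by rw [desc_one]

theorem dsum_succ (n : ℤ) (k : Fin d → ℤ) (j : ℕ) :
    dsum g t n k (j + 1) = ∑ b : Fin d → Fin 2, dsum g t (n - 1) (kid k b) j := by
  let e : (Fin d → Fin 2) × (Fin d → Fin (2 ^ j)) ≃ (Fin d → Fin (2 ^ (j + 1))) :=
    (Equiv.arrowProdEquivProdArrow _ _ _).symm.trans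
      (Equiv.piCongrRight fun _ => finProdFinEquiv.trans (finCongr (by rw [pow_succ'])))
  simp only [dsum]
  rw [← Fintype.sum_prod_type' fun b c => ‖qint g t (n - 1 - j) (desc j (kid k b) c)‖ₑ,
    ← e.sum_comp]
  refine Fintype.sum_congr _ _ fun p => ?_
  congr 2
  · push_cast; ring
  · funext i
    simp [e, desc, kid, Equiv.piCongrRight, Equiv.arrowProdEquivProdArrow, finProdFinEquiv]
    ring

theorem enorm_qint_le_dsum (hg : Integrable g) (n : ℤ) (k : Fin d → ℤ) (j : ℕ) :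
    ‖qint g t n k‖ₑ ≤ dsum g t n k j := by
  rw [qint_eq_sum_desc hg n k j]
  exact enorm_sum_le _ _

theorem dsum_mono (hg : Integrable g) (n : ℤ) (k : Fin d → ℤ) :
    Monotone (dsum g t n k) := by
  refine monotone_nat_of_le_succ fun j => ?_
  induction j generalizing n k with
  | zero => rw [dsum_zero]; exact enorm_qint_le_dsum hg n k 1
  | succ j ih =>
    rw [dsum_succ, dsum_succ n k (j + 1)]
    exact Finset.sum_le_sum fun b _ => ih _ _

theorem qX_add (hg : Integrable g) (n : ℤ) (k : Fin d → ℤ) (j : ℕ) :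
    qX g t n k j + ‖qint g t n k‖ₑ = dsum g t n k j :=
  tsub_add_cancel_of_le (enorm_qint_le_dsum hg n k j)

theorem qX_mono (hg : Integrable g) (n : ℤ) (k : Fin d → ℤ) : Monotone (qX g t n k) :=
  fun _ _ h => tsub_le_tsub_right (dsum_mono hg n k h) _

theorem ofReal_qdec_pow_mul_qX_le (n : ℤ) (k : Fin d → ℤ) (j : ℕ) :
    ENNReal.ofReal (qdec ^ j) * qX g t n k j ≤ qPsi g t n k :=
  ENNReal.le_tsum (f := fun j => ENNReal.ofReal (qdec ^ j) * qX g t n k j) j

theorem half_le_qdec : 1 / 2 ≤ qdec := by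
  rw [← Unc.dy_qdec_pow_four]
  calc qdec ^ 4 ≤ qdec ^ 1 :=
        pow_le_pow_of_le_one Unc.dy_qdec_pos.le Unc.qdec_lt_one.le (by norm_num)
    _ = qdec := pow_one _

theorem one_le_two_pow_mul_qdec_pow (j : ℕ) :
    (1 : ℝ≥0∞) ≤ 2 ^ j * ENNReal.ofReal (qdec ^ j) := by
  rw [← ENNReal.ofReal_ofNat 2, ← ENNReal.ofReal_pow zero_le_two,
    ← ENNReal.ofReal_mul (pow_nonneg zero_le_two _), ← mul_pow, ← ENNReal.ofReal_one]
  refine ENNReal.ofReal_le_ofReal (one_le_pow₀ ?_)
  linarith [half_le_qdec]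

theorem qX_le_qPsi (n : ℤ) (k : Fin d → ℤ) (j : ℕ) :
    qX g t n k j ≤ 2 ^ j * qPsi g t n k := by
  calc qX g t n k j = 1 * qX g t n k j := (one_mul _).symm
    _ ≤ 2 ^ j * ENNReal.ofReal (qdec ^ j) * qX g t n k j := by
        gcongr; exact one_le_two_pow_mul_qdec_pow j
    _ ≤ _ := by rw [mul_assoc]; exact mul_le_mul_right (ofReal_qdec_pow_mul_qX_le n k j) _

/-- Descendants at depth `j` have `|I|` at most `|I| + 2 ^ j Psi` in total. -/
theorem dsum_le (hg : Integrable g) (n : ℤ) (k : Fin d → ℤ) (j : ℕ) :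
    dsum g t n k j ≤ ‖qint g t n k‖ₑ + 2 ^ j * qPsi g t n k := by
  rw [← qX_add hg, add_comm]
  exact add_le_add le_rfl (qX_le_qPsi n k j)

theorem sum_kid_enorm_le (hg : Integrable g) (n : ℤ) (k : Fin d → ℤ) :
    ∑ b : Fin d → Fin 2, ‖qint g t (n - 1) (kid k b)‖ₑ
      ≤ ‖qint g t n k‖ₑ + 2 * qPsi g t n k := by
  rw [← dsum_one]
  simpa using dsum_le hg n k 1

theorem sum_kid_qX_le (hg : Integrable g) (n : ℤ) (k : Fin d → ℤ) (j : ℕ) :
    ∑ b : Fin d → Fin 2, qX g t (n - 1) (kid k b) j ≤ qX g t n k (j + 1) := by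
  have hfin : ∑ b : Fin d → Fin 2, ‖qint g t (n - 1) (kid k b)‖ₑ ≠ ⊤ := by
    simp [ENNReal.sum_eq_top, enorm_ne_top]
  have h1 : (∑ b : Fin d → Fin 2, qX g t (n - 1) (kid k b) j)
      + ∑ b : Fin d → Fin 2, ‖qint g t (n - 1) (kid k b)‖ₑ = dsum g t n k (j + 1) := by
    rw [← Finset.sum_add_distrib, dsum_succ]
    exact Finset.sum_congr rfl fun b _ => qX_add hg _ _ _
  rw [ENNReal.eq_sub_of_add_eq hfin h1, qX, ← dsum_one]
  exact tsub_le_tsub_left (enorm_qint_le_dsum hg n k 1) _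

theorem sum_kid_qPsi_le (hg : Integrable g) (n : ℤ) (k : Fin d → ℤ) :
    ∑ b : Fin d → Fin 2, qPsi g t (n - 1) (kid k b) ≤ 2 * qPsi g t n k := by
  simp only [qPsi]
  rw [← Summable.tsum_finsetSum fun _ _ => ENNReal.summable]
  simp only [← Finset.mul_sum]
  have h2 : ∀ j : ℕ, ENNReal.ofReal (qdec ^ j) ≤ 2 * ENNReal.ofReal (qdec ^ (j + 1)) := fun j => by
    rw [← ENNReal.ofReal_ofNat 2, ← ENNReal.ofReal_mul zero_le_two]
    refine ENNReal.ofReal_le_ofReal ?_
    rw [pow_succ]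
    nlinarith [half_le_qdec, pow_pos Unc.dy_qdec_pos j]
  calc ∑' j : ℕ, ENNReal.ofReal (qdec ^ j) * ∑ b : Fin d → Fin 2, qX g t (n - 1) (kid k b) j
      ≤ ∑' j : ℕ, 2 * (ENNReal.ofReal (qdec ^ (j + 1)) * qX g t n k (j + 1)) :=
        ENNReal.tsum_le_tsum fun j => by
          rw [← mul_assoc]
          exact mul_le_mul' (h2 j) (sum_kid_qX_le hg n k j)
    _ ≤ _ := by
        rw [ENNReal.tsum_mul_left]
        refine mul_le_mul_right ?_ _
        exact ENNReal.tsum_comp_le_tsum_of_injective (add_left_injective 1)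
          (fun j => ENNReal.ofReal (qdec ^ j) * qX g t n k j)

theorem sum_desc_qPsi_le (hg : Integrable g) (n : ℤ) (k : Fin d → ℤ) (j : ℕ) :
    ∑ b : Fin d → Fin (2 ^ j), qPsi g t (n - j) (desc j k b) ≤ 2 ^ j * qPsi g t n k := by
  induction j generalizing n k with
  | zero => simp [desc_zero]
  | succ j ih =>
    let e : (Fin d → Fin 2) × (Fin d → Fin (2 ^ j)) ≃ (Fin d → Fin (2 ^ (j + 1))) :=
      (Equiv.arrowProdEquivProdArrow _ _ _).symm.trans
        (Equiv.piCongrRight fun _ => finProdFinEquiv.trans (finCongr (by rw [pow_succ'])))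
    rw [← e.sum_comp, Fintype.sum_prod_type]
    calc _ = ∑ b : Fin d → Fin 2, ∑ c, qPsi g t (n - 1 - j) (desc j (kid k b) c) := by
          refine Fintype.sum_congr _ _ fun b => Fintype.sum_congr _ _ fun c => ?_
          congr 1
          · push_cast; ring
          · funext i
            simp [e, desc, kid, Equiv.piCongrRight, Equiv.arrowProdEquivProdArrow, finProdFinEquiv]
            ring
      _ ≤ ∑ b : Fin d → Fin 2, 2 ^ j * qPsi g t (n - 1) (kid k b) :=
          Finset.sum_le_sum fun b _ => ih _ _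
      _ ≤ 2 ^ j * (2 * qPsi g t n k) := by
          rw [← Finset.mul_sum]; exact mul_le_mul_right (sum_kid_qPsi_le hg n k) _
      _ = _ := by rw [pow_succ, mul_assoc]

/-! ## Levels -/

theorem tsum_dsum (n : ℤ) (j : ℕ) : ∑' k, dsum g t n k j = gsum g t (n - j) := by
  rw [gsum, ← (descEquiv d j).tsum_eq fun k => ‖qint g t (n - j) k‖ₑ, ENNReal.tsum_prod']
  refine tsum_congr fun k => ?_
  rw [tsum_fintype, dsum]
  exact Fintype.sum_congr _ _ fun b => by rw [descEquiv_apply]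

theorem tsum_setLIntegral_qcube (t : E d) (n : ℤ) (F : E d → ℝ≥0∞) :
    ∑' k, ∫⁻ y in qcube t n k, F y = ∫⁻ y, F y := by
  rw [← lintegral_iUnion (measurableSet_qcube t n) (fun _ _ h => disjoint_qcube t n h),
    iUnion_qcube, setLIntegral_univ]

theorem gsum_le_gV (t : E d) (n : ℤ) : gsum g t n ≤ gV g := by
  rw [gV, ← tsum_setLIntegral_qcube t n]
  exact ENNReal.tsum_le_tsum fun k => enorm_integral_le_lintegral_enorm _

theorem gV_ne_top (hg : Integrable g) : gV g ≠ ⊤ := hg.hasFiniteIntegral.ne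

theorem gsum_ne_top (hg : Integrable g) (n : ℤ) : gsum g t n ≠ ⊤ :=
  ne_top_of_le_ne_top (gV_ne_top hg) (gsum_le_gV t n)

theorem gsum_anti (hg : Integrable g) (n : ℤ) (j : ℕ) : gsum g t n ≤ gsum g t (n - j) := by
  rw [← tsum_dsum n j, gsum]
  exact ENNReal.tsum_le_tsum fun k => enorm_qint_le_dsum hg n k j

theorem gsum_antitone (hg : Integrable g) : Antitone (gsum g t) := fun n m h => by
  have := gsum_anti (t := t) hg m (m - n).toNat
  rwa [Int.toNat_of_nonneg (by omega), sub_sub_cancel] at this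

theorem tsum_qX (hg : Integrable g) (n : ℤ) (j : ℕ) :
    ∑' k, qX g t n k j = gsum g t (n - j) - gsum g t n := by
  refine ENNReal.eq_sub_of_add_eq (gsum_ne_top hg n) ?_
  rw [← tsum_dsum n j, gsum, ← ENNReal.tsum_add]
  exact tsum_congr fun k => qX_add hg n k j

/-- The total constant for `qPsi`. -/
def cPsi : ℝ≥0∞ := ∑' j : ℕ, ENNReal.ofReal (qdec ^ j) * (j : ℝ≥0∞)

theorem cPsi_ne_top : cPsi ≠ ⊤ := by
  have hs : Summable fun j : ℕ => qdec ^ j * (j : ℝ) := by
    have := summable_pow_mul_geometric_of_norm_lt_one (R := ℝ) 1 (r := qdec)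
      (by rw [Real.norm_of_nonneg Unc.dy_qdec_pos.le]; exact Unc.qdec_lt_one)
    simpa [mul_comm] using this
  have : cPsi = ENNReal.ofReal (∑' j : ℕ, qdec ^ j * (j : ℝ)) := by
    rw [cPsi, ENNReal.ofReal_tsum_of_nonneg
      (fun j => mul_nonneg (pow_nonneg Unc.dy_qdec_pos.le j) (Nat.cast_nonneg j)) hs]
    exact tsum_congr fun j => by
      rw [ENNReal.ofReal_mul (pow_nonneg Unc.dy_qdec_pos.le j), ENNReal.ofReal_natCast]
  rw [this]; exact ENNReal.ofReal_ne_top

theorem qpair_telescope {a : ℕ → ℝ≥0∞} (ha : Antitone a) (M : ℕ) :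
    ∑ i ∈ Finset.range M, (a i - a (i + 1)) = a 0 - a M := by
  induction M with
  | zero => simp
  | succ M ih =>
    rw [Finset.sum_range_succ, ih]
    exact tsub_add_tsub_cancel (ha (Nat.zero_le M)) (ha (Nat.le_succ M))

/-- The decrements at depth `j`, summed over all levels up to `N`. -/
theorem tsum_level_qX_le (hg : Integrable g) (N : ℤ) (j : ℕ) :
    ∑' i : ℕ, ∑' k, qX g t (N - i) k j ≤ (j : ℝ≥0∞) * (gV g - gsum g t N) := by
  simp only [tsum_qX hg]
  set a : ℕ → ℝ≥0∞ := fun i => gsum g t (N - i) with ha_def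
  have ha : Monotone a := fun i i' h => gsum_antitone hg (by omega)
  have hsum : ∀ i : ℕ, gsum g t (N - i - j) - gsum g t (N - i)
      = ∑ l ∈ Finset.range j, (a (i + (l + 1)) - a (i + l)) := fun i => by
    have h : ∀ l : ℕ, a (i + (l + 1)) = a (i + l + 1) := fun l => by rw [add_assoc]
    have h' := Unc.grid_telescope_sum (a := fun l => a (i + l)) (fun _ _ h => ha (by omega)) j
    rw [h']
    simp only [ha_def, add_zero]
    congr 1
    congr 1
    push_cast; ring
  simp only [hsum]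
  refine ENNReal.summable.tsum_le_of_sum_range_le fun M => ?_
  rw [Finset.sum_comm]
  calc ∑ l ∈ Finset.range j, ∑ i ∈ Finset.range M, (a (i + (l + 1)) - a (i + l))
      ≤ ∑ _l ∈ Finset.range j, (gV g - gsum g t N) := Finset.sum_le_sum fun l _ => by
        have h := Unc.grid_telescope_sum (a := fun i => a (i + l)) (fun _ _ h => ha (by omega)) M
        calc ∑ i ∈ Finset.range M, (a (i + (l + 1)) - a (i + l))
            = ∑ i ∈ Finset.range M, (a (i + 1 + l) - a (i + l)) :=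
              Finset.sum_congr rfl fun i _ => by rw [add_comm l 1, ← add_assoc]
          _ = a (M + l) - a (0 + l) := h
          _ ≤ _ := tsub_le_tsub (gsum_le_gV t _) (by
              have := ha (Nat.zero_le (0 + l))
              simpa [ha_def] using this)
    _ = _ := by rw [Finset.sum_const, Finset.card_range, nsmul_eq_mul]

/-- Step B1: the sum of `Psi` over all cubes of levels `≤ N`. -/
theorem tsum_qPsi_le (hg : Integrable g) (N : ℤ) :
    ∑' i : ℕ, ∑' k, qPsi g t (N - i) k ≤ cPsi * (gV g - gsum g t N) := by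
  simp only [qPsi]
  calc ∑' (i : ℕ) (k : Fin d → ℤ) (j : ℕ), ENNReal.ofReal (qdec ^ j) * qX g t (N - i) k j
      = ∑' (j : ℕ), ENNReal.ofReal (qdec ^ j) * ∑' (i : ℕ), ∑' k, qX g t (N - i) k j := by
        simp only [← ENNReal.tsum_mul_left]
        rw [ENNReal.tsum_comm (f := fun (j : ℕ) (i : ℕ) =>
          ∑' k, ENNReal.ofReal (qdec ^ j) * qX g t (N - i) k j)]
        exact tsum_congr fun i => ENNReal.tsum_comm
    _ ≤ ∑' (j : ℕ), ENNReal.ofReal (qdec ^ j) * ((j : ℝ≥0∞) * (gV g - gsum g t N)) :=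
        ENNReal.tsum_le_tsum fun j => mul_le_mul_right (tsum_level_qX_le hg N j) _
    _ = _ := by
        rw [cPsi, ← ENNReal.tsum_mul_right]
        exact tsum_congr fun j => (mul_assoc _ _ _).symm

/-! ## Moments -/

theorem integrable_inner_lip (hg : Integrable g) {φ : E d → E d} {K : ℝ≥0}
    (hφ : LipschitzWith K φ) (c : E d) (n : ℤ) (k : Fin d → ℤ) :
    IntegrableOn (fun y => ⟪g y, φ y - φ c⟫) (qcube t n k) := by
  have hb : ∀ y ∈ qcube t n k, ‖φ y - φ c‖ ≤
      (K : ℝ) * (Real.sqrt d * (2 : ℝ) ^ n / 2 + ‖qctr t n k - c‖) := fun y hy => by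
    refine (hφ.norm_sub_le y c).trans (mul_le_mul_of_nonneg_left ?_ K.coe_nonneg)
    exact (norm_sub_le_norm_sub_add_norm_sub y (qctr t n k) c).trans
      (add_le_add (norm_sub_qctr_le hy) le_rfl)
  refine Integrable.mono' (hg.norm.integrableOn.mul_const
    ((K : ℝ) * (Real.sqrt d * (2 : ℝ) ^ n / 2 + ‖qctr t n k - c‖))) ?_ ?_
  · exact ((hg.aestronglyMeasurable.inner
      ((hφ.continuous.sub continuous_const).aestronglyMeasurable)).restrict)
  · refine ae_restrict_of_forall_mem (measurableSet_qcube t n k) fun y hy => ?_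
    rw [Real.norm_eq_abs]
    exact (abs_real_inner_le_norm _ _).trans (mul_le_mul_of_nonneg_left (hb y hy) (norm_nonneg _))

theorem moment_step (hg : Integrable g) {φ : E d → E d} {K : ℝ≥0} (hφ : LipschitzWith K φ)
    (n : ℤ) (k : Fin d → ℤ) :
    ‖∫ y in qcube t n k, ⟪g y, φ y - φ (qctr t n k)⟫‖ₑ ≤
      (∑ b : Fin d → Fin 2,
        ‖∫ y in qcube t (n - 1) (kid k b), ⟪g y, φ y - φ (qctr t (n - 1) (kid k b))⟫‖ₑ)
      + ENNReal.ofReal ((K : ℝ) * (Real.sqrt d * (2 : ℝ) ^ n / 4)) * dsum g t n k 1 := by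
  have hL : (0 : ℝ) < 2 ^ n := zpow_pos two_pos n
  have hkid : ∀ b : Fin d → Fin (2 ^ 1),
      qcube t (n - 1) (kid k b) = Unc.cube (qcorn t n k) ((2 : ℝ) ^ n) 1 b := fun b => by
    have := qcube_desc t n 1 k b
    simpa [desc_one] using this
  have hsplit : ∫ y in qcube t n k, ⟪g y, φ y - φ (qctr t n k)⟫ = ∑ b : Fin d → Fin 2,
      ∫ y in qcube t (n - 1) (kid k b), ⟪g y, φ y - φ (qctr t n k)⟫ := by
    rw [← integral_iUnion_fintype (fun b => measurableSet_qcube t _ _) ?_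
      fun b => integrable_inner_lip hg hφ _ _ _]
    · congr 2
      rw [qcube]
      refine Set.Subset.antisymm (fun y hy => ?_) (iUnion_subset fun b => ?_)
      · obtain ⟨b, hb⟩ := Unc.exists_mem_cube hL 1 hy
        exact mem_iUnion.2 ⟨b, by rw [hkid b]; exact hb⟩
      · exact (hkid b).le.trans (Unc.cube_subset_window hL 1 b)
    · intro b b' hbb
      refine disjoint_qcube t _ fun h => hbb (funext fun i => ?_)
      have := congrFun h i
      simp only [kid] at this
      exact Fin.ext (by omega)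
  have hb : ∀ b : Fin d → Fin 2,
      ∫ y in qcube t (n - 1) (kid k b), ⟪g y, φ y - φ (qctr t n k)⟫ =
      (∫ y in qcube t (n - 1) (kid k b), ⟪g y, φ y - φ (qctr t (n - 1) (kid k b))⟫) +
        ⟪qint g t (n - 1) (kid k b), φ (qctr t (n - 1) (kid k b)) - φ (qctr t n k)⟫ := fun b => by
    set c := φ (qctr t (n - 1) (kid k b)) - φ (qctr t n k) with hc
    rw [qint, real_inner_comm, ← integral_inner hg.integrableOn c,
      ← integral_add (integrable_inner_lip hg hφ _ _ _)
        (hg.integrableOn.const_inner c)]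
    refine integral_congr_ae (Eventually.of_forall fun y => ?_)
    simp only [hc, real_inner_comm (g y)]
    rw [← inner_add_right, sub_add_sub_cancel]
  rw [hsplit, dsum_one, Finset.mul_sum, ← Finset.sum_add_distrib]
  refine (enorm_sum_le _ _).trans (Finset.sum_le_sum fun b _ => ?_)
  rw [hb]
  refine (enorm_add_le _ _).trans (add_le_add le_rfl ?_)
  rw [← ofReal_norm, ← ofReal_norm, ← ENNReal.ofReal_mul (by positivity)]
  refine ENNReal.ofReal_le_ofReal ?_
  rw [Real.norm_eq_abs, mul_comm ((K : ℝ) * _)]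
  refine (abs_real_inner_le_norm _ _).trans (mul_le_mul_of_nonneg_left ?_ (norm_nonneg _))
  refine (hφ.norm_sub_le _ _).trans (mul_le_mul_of_nonneg_left ?_ K.coe_nonneg)
  rw [norm_sub_rev]
  exact norm_qctr_kid_le t n k b

/-- Step B1: the moment bound for a Lipschitz field. -/
theorem enorm_moment_le (hg : Integrable g) {φ : E d → E d} {K : ℝ≥0} (hφ : LipschitzWith K φ)
    (n : ℤ) (k : Fin d → ℤ) :
    ‖∫ y in qcube t n k, ⟪g y, φ y - φ (qctr t n k)⟫‖ₑ ≤
      ENNReal.ofReal ((K : ℝ) * (Real.sqrt d * (2 : ℝ) ^ n))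
        * (‖qint g t n k‖ₑ + qPsi g t n k) := by
  set a : ℤ → ℝ≥0∞ := fun n => ENNReal.ofReal ((K : ℝ) * (Real.sqrt d * (2 : ℝ) ^ n / 2)) with ha
  have ha2 : ∀ n : ℤ, a (n - 1) = a n * 2⁻¹ := fun n => by
    have h2 : (2 : ℝ≥0∞)⁻¹ = ENNReal.ofReal ((2 : ℝ)⁻¹) := by
      rw [ENNReal.ofReal_inv_of_pos two_pos, ENNReal.ofReal_ofNat]
    simp only [ha]
    rw [h2, ← ENNReal.ofReal_mul (by positivity), zpow_sub_one₀ two_ne_zero]
    congr 1; ring
  have hrec : ∀ (J : ℕ) (n : ℤ) (k : Fin d → ℤ),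
      ‖∫ y in qcube t n k, ⟪g y, φ y - φ (qctr t n k)⟫‖ₑ ≤
      a n * ((∑ j ∈ Finset.range J, 2⁻¹ ^ (j + 1) * dsum g t n k (j + 1))
        + 2⁻¹ ^ J * ∫⁻ y in qcube t n k, ‖g y‖ₑ) := by
    intro J
    induction J with
    | zero =>
      intro n k
      simp only [Finset.range_zero, Finset.sum_empty, zero_add, pow_zero, one_mul]
      refine (enorm_integral_le_lintegral_enorm _).trans ?_
      rw [← lintegral_const_mul' _ _ ENNReal.ofReal_ne_top]
      refine setLIntegral_mono' (measurableSet_qcube t n k) fun y hy => ?_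
      rw [← ofReal_norm, ← ofReal_norm, ← ENNReal.ofReal_mul (by positivity)]
      refine ENNReal.ofReal_le_ofReal ?_
      rw [Real.norm_eq_abs, mul_comm ((K : ℝ) * _)]
      refine (abs_real_inner_le_norm _ _).trans (mul_le_mul_of_nonneg_left ?_ (norm_nonneg _))
      exact (hφ.norm_sub_le _ _).trans
        (mul_le_mul_of_nonneg_left (norm_sub_qctr_le hy) K.coe_nonneg)
    | succ J ih =>
      intro n k
      refine (moment_step hg hφ n k).trans ?_
      refine (add_le_add (Finset.sum_le_sum fun b _ => ih (n - 1) (kid k b)) le_rfl).trans ?_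
      rw [← Finset.mul_sum, Finset.sum_add_distrib, Finset.sum_comm, ha2 n]
      simp only [← Finset.mul_sum, ← dsum_succ]
      have hint : ∑ b : Fin d → Fin 2, ∫⁻ y in qcube t (n - 1) (kid k b), ‖g y‖ₑ
          ≤ ∫⁻ y in qcube t n k, ‖g y‖ₑ := by
        rw [← tsum_fintype (L := .unconditional _), ← lintegral_iUnion
          (fun b => measurableSet_qcube t _ _) (fun b b' hbb => disjoint_qcube t _ fun h => hbb
            (funext fun i => Fin.ext (by have := congrFun h i; simp only [kid] at this; omega)))]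
        refine lintegral_mono_set (iUnion_subset fun b y hy => ?_)
        exact mem_qcube_iff.2 ((qidx_eq_kid_iff.1 (mem_qcube_iff.1 hy)).1)
      have e4 : ENNReal.ofReal ((K : ℝ) * (Real.sqrt d * (2 : ℝ) ^ n / 4)) = a n * 2⁻¹ := by
        rw [← ha2]; simp only [ha]
        congr 1
        rw [zpow_sub_one₀ two_ne_zero]; ring
      rw [e4, Finset.sum_range_succ' _ J]
      calc a n * 2⁻¹ * ((∑ x ∈ Finset.range J, 2⁻¹ ^ (x + 1) * dsum g t n k (x + 1 + 1))
            + 2⁻¹ ^ J * ∑ b : Fin d → Fin 2, ∫⁻ y in qcube t (n - 1) (kid k b), ‖g y‖ₑ)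
            + a n * 2⁻¹ * dsum g t n k 1
          ≤ a n * 2⁻¹ * ((∑ x ∈ Finset.range J, 2⁻¹ ^ (x + 1) * dsum g t n k (x + 1 + 1))
            + 2⁻¹ ^ J * ∫⁻ y in qcube t n k, ‖g y‖ₑ) + a n * 2⁻¹ * dsum g t n k 1 := by gcongr
        _ = _ := by
            rw [zero_add, pow_one]
            simp only [mul_add, Finset.mul_sum]
            rw [show ∀ A B C : ℝ≥0∞, A + B + C = A + C + B from fun A B C => add_right_comm A B C]
            congr 1
            · congr 1
              · exact Finset.sum_congr rfl fun x _ => by rw [pow_succ _ (x + 1)]; ring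
              · ring
            · rw [pow_succ]; ring
  have hb : ∀ J : ℕ, (∑ j ∈ Finset.range J, (2 : ℝ≥0∞)⁻¹ ^ (j + 1) * dsum g t n k (j + 1))
      ≤ ‖qint g t n k‖ₑ + qPsi g t n k := by
    intro J
    simp only [← qX_add hg n k, mul_add]
    rw [Finset.sum_add_distrib, add_comm, ← Finset.sum_mul]
    refine add_le_add ?_ ?_
    · calc (∑ i ∈ Finset.range J, (2 : ℝ≥0∞)⁻¹ ^ (i + 1)) * ‖qint g t n k‖ₑ
          ≤ 1 * ‖qint g t n k‖ₑ := by
            gcongr
            refine (ENNReal.sum_le_tsum _).trans_eq ?_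
            rw [ENNReal.tsum_geometric_add_one, ENNReal.one_sub_inv_two, inv_inv,
              ENNReal.inv_mul_cancel (by norm_num) (by norm_num)]
        _ = _ := one_mul _
    · refine (Finset.sum_le_sum fun j _ => ?_).trans ((ENNReal.sum_le_tsum _).trans
        (ENNReal.tsum_comp_le_tsum_of_injective (add_left_injective 1)
          (fun j => ENNReal.ofReal (qdec ^ j) * qX g t n k j)))
      refine mul_le_mul_left ?_ _
      rw [← ENNReal.ofReal_ofNat 2, ← ENNReal.ofReal_inv_of_pos two_pos,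
        ← ENNReal.ofReal_pow (by norm_num)]
      refine ENNReal.ofReal_le_ofReal (pow_le_pow_left₀ (by norm_num) ?_ _)
      linarith [half_le_qdec]
  have hI : ∫⁻ y in qcube t n k, ‖g y‖ₑ ≠ ⊤ :=
    ne_top_of_le_ne_top (gV_ne_top hg) (setLIntegral_le_lintegral _ _)
  have hlim : Tendsto (fun J : ℕ => a n * ((‖qint g t n k‖ₑ + qPsi g t n k)
      + (2 : ℝ≥0∞)⁻¹ ^ J * ∫⁻ y in qcube t n k, ‖g y‖ₑ)) atTop
      (𝓝 (a n * ((‖qint g t n k‖ₑ + qPsi g t n k) + 0))) := by
    refine ENNReal.Tendsto.const_mul (tendsto_const_nhds.add ?_) (Or.inr ENNReal.ofReal_ne_top)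
    have h := ENNReal.Tendsto.mul_const (ENNReal.tendsto_pow_atTop_nhds_zero_of_lt_one
      (show (2 : ℝ≥0∞)⁻¹ < 1 from ENNReal.inv_lt_one.2 (by norm_num))) (Or.inr hI)
    rwa [zero_mul] at h
  refine le_trans (ge_of_tendsto hlim (Eventually.of_forall fun J => (hrec J n k).trans ?_)) ?_
  · exact mul_le_mul_right (add_le_add (hb J) le_rfl) _
  · rw [add_zero]
    refine mul_le_mul_left (ENNReal.ofReal_le_ofReal ?_) _
    have : 0 ≤ (K : ℝ) * (Real.sqrt d * (2 : ℝ) ^ n) := by positivity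
    linarith

/-! ## Pairs -/

theorem pairD_nonneg (a b : E d) : 0 ≤ pairD a b := sub_nonneg.2 (norm_add_le a b)

theorem pair_inner_ge (a b : E d) : ‖a‖ * ‖b‖ - ⟪a, b⟫ ≤ pairD a b * (‖a‖ + ‖b‖) := by
  have h := norm_add_sq_real a b
  have h1 := norm_add_le a b
  unfold pairD
  nlinarith [norm_nonneg (a + b)]

theorem pairD_le_sum {β : Type*} [Fintype β] [DecidableEq β] (I : β → E d) {i j : β} (h : i ≠ j) :
    pairD (I i) (I j) ≤ (∑ b, ‖I b‖) - ‖∑ b, I b‖ := by
  have h1 : ‖∑ b, I b‖ ≤ ‖I i + I j‖ + ∑ b ∈ Finset.univ \ {i, j}, ‖I b‖ := by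
    rw [← Finset.sum_sdiff (Finset.subset_univ {i, j}), Finset.sum_pair h, add_comm]
    exact (norm_add_le _ _).trans (add_le_add le_rfl (norm_sum_le _ _))
  have h2 : ∑ b, ‖I b‖ = (∑ b ∈ Finset.univ \ {i, j}, ‖I b‖) + (‖I i‖ + ‖I j‖) := by
    rw [← Finset.sum_sdiff (Finset.subset_univ {i, j}), Finset.sum_pair h]
  unfold pairD
  linarith

theorem qint_shift (n : ℤ) (m k : Fin d → ℤ) :
    qint g (t + qvec n m) n k = qint g t n (m + k) := by rw [qint, qint, qcube_shift]

theorem gsum_shift (n : ℤ) (m : Fin d → ℤ) : gsum g (t + qvec n m) n = gsum g t n := by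
  simp only [gsum, qint_shift]
  exact (Equiv.addLeft m).tsum_eq fun k => ‖qint g t n k‖ₑ

theorem pairD_desc_le (hg : Integrable g) (n : ℤ) (K : Fin d → ℤ) (j : ℕ)
    (b b' : Fin d → Fin (2 ^ j)) :
    ENNReal.ofReal (pairD (qint g t (n - j) (desc j K b)) (qint g t (n - j) (desc j K b')))
      ≤ qX g t n K j := by
  rcases eq_or_ne b b' with rfl | h
  · simp [pairD, ← two_smul ℝ (qint g t (n - j) (desc j K b)), norm_smul]
    ring_nf; simp
  refine (ENNReal.ofReal_le_ofReal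
    (pairD_le_sum (fun b => qint g t (n - j) (desc j K b)) h)).trans (le_of_eq ?_)
  rw [← qint_eq_sum_desc hg n K j, ENNReal.ofReal_sub _ (norm_nonneg _), qX, dsum,
    ENNReal.ofReal_sum_of_nonneg (fun b _ => norm_nonneg _), ofReal_norm]
  simp only [ofReal_norm]

/-- One offset at one level: translate so that the pair lies in one cube four levels up. -/
theorem tsum_pairD_le (hg : Integrable g) (n : ℤ) (v : Fin d → Fin 9) :
    ∑' k, ENNReal.ofReal (pairD (qint g t n k) (qint g t n (k + noff v))) ≤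
      ∑ m : Fin d → Fin (2 ^ 4),
        (gsum g t n - gsum g (t + qvec n (fun i => ((m i : ℕ) : ℤ))) (n + 4)) := by
  set r : Fin d → ℤ := fun i => max (-noff v i) 0 with hr
  let e : (Fin d → ℤ) × (Fin d → Fin (2 ^ 4)) ≃ (Fin d → ℤ) :=
    (descEquiv d 4).trans (Equiv.addRight r)
  rw [← e.tsum_eq, ENNReal.tsum_prod', ENNReal.tsum_comm, tsum_fintype]
  refine Finset.sum_le_sum fun m _ => ?_
  set t' := t + qvec n (fun i => ((m i : ℕ) : ℤ))
  have hX := tsum_qX (t := t') hg (n + 4) 4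
  rw [show n + 4 - ((4 : ℕ) : ℤ) = n by norm_num] at hX
  rw [← gsum_shift (t := t) n fun i => ((m i : ℕ) : ℤ), ← hX]
  refine ENNReal.tsum_le_tsum fun K => ?_
  have h1 : ∀ i, 0 ≤ r i ∧ r i < 2 ^ 4 ∧ 0 ≤ r i + noff v i ∧ r i + noff v i < 2 ^ 4 := fun i => by
    have := (v i).isLt
    simp only [hr, noff]
    omega
  have hlt : ∀ i, (r i).toNat < 2 ^ 4 ∧ (r i + noff v i).toNat < 2 ^ 4 := fun i => by
    have := h1 i; omega
  have := pairD_desc_le (t := t') hg (n + 4) K 4 (fun i => ⟨_, (hlt i).1⟩)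
    (fun i => ⟨_, (hlt i).2⟩)
  rw [show n + 4 - ((4 : ℕ) : ℤ) = n by norm_num, qint_shift, qint_shift] at this
  refine le_of_eq_of_le ?_ this
  congr 3 <;>
  · funext i
    have := h1 i
    simp [e, descEquiv_apply, desc]
    omega

/-- The shift number `s` of a finite family of shifts of step `2 ^ M`. -/
def qlat (t : E d) (M : ℤ) {P : ℕ} (s : Fin d → Fin (2 ^ P)) : E d :=
  t + qvec M (fun i => ((s i : ℕ) : ℤ))

theorem qvec_add (n : ℤ) (a b : Fin d → ℤ) : qvec n (a + b) = qvec n a + qvec n b := by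
  ext i; simp [mul_add]

/-- Averaging over the shifts removes a translation by lattice vectors. -/
theorem sum_gsum_translate (t : E d) (M : ℤ) (P i j : ℕ) (hij : i + j ≤ P) (m : Fin d → ℤ) :
    ∑ s : Fin d → Fin (2 ^ P), gsum g (qlat t M s + qvec (M + i) m) (M + i + j)
      = ∑ s : Fin d → Fin (2 ^ P), gsum g (qlat t M s) (M + i + j) := by
  have : NeZero (2 ^ P) := ⟨pow_ne_zero _ two_ne_zero⟩
  set z : Fin d → ZMod (2 ^ P) := fun l => (((2 : ℤ) ^ i * m l : ℤ) : ZMod (2 ^ P))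
  let q : Fin (2 ^ P) ≃ ZMod (2 ^ P) :=
    { toFun := fun x => ((x : ℕ) : ZMod (2 ^ P))
      invFun := fun y => ⟨y.val, y.val_lt⟩
      left_inv := fun x => Fin.ext (ZMod.val_natCast_of_lt x.isLt)
      right_inv := fun y => ZMod.natCast_zmod_val y }
  let e : (Fin d → Fin (2 ^ P)) ≃ (Fin d → Fin (2 ^ P)) :=
    Equiv.piCongrRight fun l => (q.trans (Equiv.addRight (z l))).trans q.symm
  conv_rhs => rw [← e.sum_comp]
  refine Fintype.sum_congr _ _ fun s => ?_
  have hw : ∀ l, ∃ w : ℤ, ((s l : ℕ) : ℤ) + 2 ^ i * m l = ((e s l : ℕ) : ℤ) + 2 ^ P * w := by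
    intro l
    have h : ((((s l : ℕ) : ℤ) + 2 ^ i * m l : ℤ) : ZMod (2 ^ P))
        = ((((e s l : ℕ) : ℤ)) : ZMod (2 ^ P)) := by
      have h1 : (((e s l : Fin (2 ^ P)) : ℕ) : ZMod (2 ^ P)) = ((s l : ℕ) : ZMod (2 ^ P)) + z l := by
        show ((((q (s l) + z l).val) : ℕ) : ZMod (2 ^ P)) = _
        rw [ZMod.natCast_zmod_val]
        rfl
      rw [Int.cast_natCast, Int.cast_add, Int.cast_natCast, h1]
    obtain ⟨w, hw⟩ := (ZMod.intCast_eq_intCast_iff_dvd_sub _ _ _).1 h
    refine ⟨-w, ?_⟩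
    push_cast at hw
    linarith
  choose w hw using hw
  have hv : qlat t M s + qvec (M + i) m
      = qlat t M (e s) + qvec (M + i + j) (fun l => (2 : ℤ) ^ (P - (i + j)) * w l) := by
    rw [qlat, qlat, add_assoc, add_assoc, add_assoc, ← Nat.cast_add, qvec_two_pow, qvec_two_pow,
      ← qvec_add, ← qvec_add]
    congr 2
    funext l
    simp only [Pi.add_apply]
    rw [hw l, ← mul_assoc, ← pow_add, Nat.add_sub_cancel' hij]
  rw [hv, gsum_shift]

/-- Step B1: the shift-averaged pair deficits of the levels `M, …, M + N`. -/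
theorem sum_qDst_le (hg : Integrable g) (t : E d) (M : ℤ) (P N : ℕ) (hN : N + 4 ≤ P) :
    ∑ s : Fin d → Fin (2 ^ P), ∑ i ∈ Finset.range (N + 1), ∑' k, qDst g (qlat t M s) (M + i) k ≤
      (4 * 9 ^ d * 16 ^ d : ℕ) *
        ∑ s : Fin d → Fin (2 ^ P), (gV g - gsum g (qlat t M s) (M + N + 4)) := by
  set A : ℕ → ℝ≥0∞ := fun i => ∑ s : Fin d → Fin (2 ^ P), gsum g (qlat t M s) (M + i) with hA
  have hAfin : ∀ i, A i ≠ ⊤ := fun i => by simp [hA, ENNReal.sum_eq_top, gsum_ne_top hg]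
  have hAanti : Antitone A := fun i i' h =>
    Finset.sum_le_sum fun s _ => gsum_antitone hg (by omega)
  have h1 : ∀ i ≤ N, ∑ s : Fin d → Fin (2 ^ P), ∑' k, qDst g (qlat t M s) (M + i) k
      ≤ (9 ^ d * 16 ^ d : ℕ) * (A i - A (i + 4)) := by
    intro i hi
    calc ∑ s : Fin d → Fin (2 ^ P), ∑' k, qDst g (qlat t M s) (M + i) k
        ≤ ∑ s : Fin d → Fin (2 ^ P), ∑ _v : Fin d → Fin 9, ∑ m : Fin d → Fin (2 ^ 4),
            (gsum g (qlat t M s) (M + i) -
              gsum g (qlat t M s + qvec (M + i) (fun l => ((m l : ℕ) : ℤ))) (M + i + 4)) := by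
          refine Finset.sum_le_sum fun s _ => ?_
          simp only [qDst]
          rw [Summable.tsum_finsetSum fun _ _ => ENNReal.summable]
          exact Finset.sum_le_sum fun v _ => tsum_pairD_le hg _ v
      _ = (9 ^ d : ℕ) * ∑ m : Fin d → Fin (2 ^ 4), ∑ s : Fin d → Fin (2 ^ P),
            (gsum g (qlat t M s) (M + i) -
              gsum g (qlat t M s + qvec (M + i) (fun l => ((m l : ℕ) : ℤ))) (M + i + 4)) := by
          simp only [Finset.sum_const, Finset.card_univ, Fintype.card_fun, Fintype.card_fin,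
            nsmul_eq_mul]
          rw [Finset.sum_comm, ← Finset.mul_sum]
      _ = _ := by
          have hm : ∀ m : Fin d → Fin (2 ^ 4), ∑ s : Fin d → Fin (2 ^ P),
              (gsum g (qlat t M s) (M + i) -
                gsum g (qlat t M s + qvec (M + i) (fun l => ((m l : ℕ) : ℤ))) (M + i + 4))
              = A i - A (i + 4) := fun m => by
            refine ENNReal.eq_sub_of_add_eq (hAfin _) ?_
            have e4 : (M + i + 4 : ℤ) = M + ((i + 4 : ℕ) : ℤ) := by push_cast; ring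
            have ht := sum_gsum_translate (g := g) t M P i 4 (by omega) fun l => ((m l : ℕ) : ℤ)
            simp only [Nat.cast_ofNat] at ht
            have hA4 : A (i + 4) = ∑ s : Fin d → Fin (2 ^ P),
                gsum g (qlat t M s + qvec (M + i) (fun l => ((m l : ℕ) : ℤ))) (M + i + 4) := by
              rw [ht, e4]
            rw [hA4, ← Finset.sum_add_distrib]
            refine Finset.sum_congr rfl fun s _ => tsub_add_cancel_of_le ?_
            refine (gsum_antitone hg (show M + i ≤ M + i + 4 by omega)).trans_eq ?_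
            rw [gsum_shift]
          simp only [hm, Finset.sum_const, Finset.card_univ, Fintype.card_fun, Fintype.card_fin,
            nsmul_eq_mul]
          push_cast
          rw [← mul_assoc]
  rw [Finset.sum_comm]
  refine (Finset.sum_le_sum fun i hi => h1 i (by simpa [Nat.lt_succ_iff] using hi)).trans ?_
  rw [← Finset.mul_sum]
  have hT : ∑ i ∈ Finset.range (N + 1), (A i - A (i + 4)) ≤
      4 * ∑ s : Fin d → Fin (2 ^ P), (gV g - gsum g (qlat t M s) (M + N + 4)) := by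
    have hsplit : ∀ i, A i - A (i + 4) = ∑ l ∈ Finset.range 4, (A (i + l) - A (i + l + 1)) :=
      fun i => by
        have := qpair_telescope (a := fun l => A (i + l)) (fun _ _ h => hAanti (by omega)) 4
        simpa [add_assoc] using this.symm
    simp only [hsplit]
    rw [Finset.sum_comm]
    have hcard : ((Finset.range 4).card : ℝ≥0∞) = 4 := by simp
    rw [← hcard, ← nsmul_eq_mul, ← Finset.sum_const]
    refine Finset.sum_le_sum fun l hl => ?_
    have htel := qpair_telescope (a := fun i => A (i + l)) (fun _ _ h => hAanti (by omega))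
      (N + 1)
    calc ∑ i ∈ Finset.range (N + 1), (A (i + l) - A (i + l + 1))
        = ∑ i ∈ Finset.range (N + 1), (A (i + l) - A (i + 1 + l)) :=
          Finset.sum_congr rfl fun i _ => by rw [add_right_comm]
      _ = A (0 + l) - A (N + 1 + l) := htel
      _ ≤ (∑ _s : Fin d → Fin (2 ^ P), gV g) - A (N + 4) := by
          refine tsub_le_tsub (Finset.sum_le_sum fun s _ => gsum_le_gV _ _) (hAanti ?_)
          have := Finset.mem_range.1 hl
          omega
      _ ≤ _ := by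
          rw [tsub_le_iff_right, hA, ← Finset.sum_add_distrib]
          exact Finset.sum_le_sum fun s _ => by
            rw [show M + ((N + 4 : ℕ) : ℤ) = M + N + 4 by push_cast; ring]
            exact le_tsub_add
  refine (mul_le_mul_right hT _).trans (le_of_eq ?_)
  push_cast
  ring

/-! ## Fine grids see all the mass -/

theorem gsum_le_add (t : E d) (n : ℤ) {g h : E d → E d} (hg : Integrable g) (hh : Integrable h) :
    gsum h t n ≤ gsum g t n + ∫⁻ y, ‖g y - h y‖ₑ := by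
  rw [gsum, gsum, ← tsum_setLIntegral_qcube t n fun y => ‖g y - h y‖ₑ, ← ENNReal.tsum_add]
  refine ENNReal.tsum_le_tsum fun k => ?_
  calc ‖qint h t n k‖ₑ
      = ‖(∫ y in qcube t n k, g y) - ∫ y in qcube t n k, (g y - h y)‖ₑ := by
        rw [integral_sub hg.integrableOn hh.integrableOn, sub_sub_cancel, qint]
    _ ≤ _ := enorm_sub_le.trans (add_le_add le_rfl (enorm_integral_le_lintegral_enorm _))

theorem gV_sub_gsum_le {h : E d → E d} (hi : Integrable h) {η δ R : ℝ}
    (hη : ∀ y z, dist y z ≤ δ → dist (h y) (h z) ≤ η) (hR : ∀ y, R < ‖y‖ → h y = 0)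
    (t : E d) {n : ℤ} (hn : Real.sqrt d * (2 : ℝ) ^ n ≤ min δ 1) :
    gV h - gsum h t n ≤ 2 * (ENNReal.ofReal η * volume (closedBall (0 : E d) (R + 1))) := by
  set B := closedBall (0 : E d) (R + 1)
  have hB : MeasurableSet B := measurableSet_closedBall
  have e : ENNReal.ofReal η * volume B = ∫⁻ y, B.indicator (fun _ => ENNReal.ofReal η) y := by
    rw [lintegral_indicator hB, setLIntegral_const]
  rw [tsub_le_iff_left, e, gV, ← tsum_setLIntegral_qcube t n fun y => ‖h y‖ₑ,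
    ← tsum_setLIntegral_qcube t n (B.indicator fun _ => ENNReal.ofReal η), ← ENNReal.tsum_mul_left,
    gsum, ← ENNReal.tsum_add]
  refine ENNReal.tsum_le_tsum fun k => ?_
  set Q := qcube t n k
  set c : E d := qctr t n k
  have hQm : MeasurableSet Q := measurableSet_qcube t n k
  have hdist : ∀ y ∈ Q, ‖y - c‖ ≤ min δ 1 := fun y hy => by
    refine (norm_sub_qctr_le hy).trans (le_trans ?_ hn)
    have : 0 ≤ Real.sqrt d * (2 : ℝ) ^ n := by positivity
    linarith
  have hosc : ∀ y ∈ Q, ‖h y - h c‖ₑ ≤ B.indicator (fun _ => ENNReal.ofReal η) y := fun y hy => by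
    by_cases hyB : y ∈ B
    · rw [indicator_of_mem hyB, ← ofReal_norm]
      refine ENNReal.ofReal_le_ofReal ?_
      rw [← dist_eq_norm]
      exact hη y c (by rw [dist_eq_norm]; exact (hdist y hy).trans (min_le_left _ _))
    · rw [mem_closedBall_zero_iff, not_le] at hyB
      have hc : R < ‖c‖ := by
        linarith [norm_le_norm_add_norm_sub' y c, (hdist y hy).trans (min_le_right δ 1)]
      rw [hR y (by linarith), hR c hc, sub_self, enorm_zero]
      exact zero_le
  have hfin : volume Q ≠ ⊤ := ne_top_of_le_ne_top measure_closedBall_lt_top.ne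
    (measure_mono fun y (hy : y ∈ Q) => mem_closedBall_iff_norm.2 (hdist y hy))
  have hcst : IntegrableOn (fun _ : E d => h c) Q := integrableOn_const (C := h c) hfin
  set o : ℝ≥0∞ := ∫⁻ y in Q, B.indicator (fun _ => ENNReal.ofReal η) y
  have h1 : ∫⁻ y in Q, ‖h y‖ₑ ≤ ‖∫ _ in Q, h c‖ₑ + o := by
    have e1 : ‖∫ _ in Q, h c‖ₑ = ‖h c‖ₑ * volume Q := by
      rw [setIntegral_const, enorm_smul, measureReal_def, Real.enorm_of_nonneg ENNReal.toReal_nonneg,
        ENNReal.ofReal_toReal hfin, mul_comm]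
    rw [e1, ← setLIntegral_const Q, ← lintegral_add_left measurable_const]
    refine setLIntegral_mono' hQm fun y hy => ?_
    calc ‖h y‖ₑ = ‖h c + (h y - h c)‖ₑ := by rw [add_sub_cancel]
      _ ≤ _ := (enorm_add_le _ _).trans (add_le_add le_rfl (hosc y hy))
  have h2 : ‖∫ _ in Q, h c‖ₑ ≤ ‖qint h t n k‖ₑ + o := by
    calc ‖∫ _ in Q, h c‖ₑ = ‖(∫ y in Q, h y) - ∫ y in Q, (h y - h c)‖ₑ := by
          rw [integral_sub hi.integrableOn hcst, sub_sub_cancel]
      _ ≤ _ := enorm_sub_le.trans (add_le_add le_rfl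
          ((enorm_integral_le_lintegral_enorm _).trans (setLIntegral_mono' hQm hosc)))
  calc ∫⁻ y in Q, ‖h y‖ₑ ≤ ‖qint h t n k‖ₑ + o + o := h1.trans (add_le_add h2 le_rfl)
    _ = _ := by rw [add_assoc, ← two_mul]

/-- Uniformly in the shift, `V - E_n` tends to zero as the level goes down. -/
theorem exists_gV_sub_gsum_le (hg : Integrable g) {ε : ℝ≥0∞} (hε : ε ≠ 0) :
    ∃ N : ℤ, ∀ n ≤ N, ∀ t : E d, gV g - gsum g t n ≤ ε := by
  have hε2 : ε / 2 / 2 ≠ 0 :=
    (ENNReal.div_pos (ENNReal.div_pos hε (by norm_num)).ne' (by norm_num)).ne'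
  obtain ⟨h, hsupp, hle, hcont, hint⟩ := hg.exists_hasCompactSupport_lintegral_sub_le hε2
  obtain ⟨R, hR⟩ := hsupp.isCompact.isBounded.subset_closedBall (0 : E d)
  have hR' : ∀ y, R < ‖y‖ → h y = 0 := fun y hy => image_eq_zero_of_notMem_tsupport fun hm =>
    (not_le.2 hy) (mem_closedBall_zero_iff.1 (hR hm))
  set V := volume (closedBall (0 : E d) (R + 1))
  have hV : V ≠ ⊤ := measure_closedBall_lt_top.ne
  obtain ⟨η, hη0, hηle⟩ : ∃ η : ℝ, 0 < η ∧ 2 * (ENNReal.ofReal η * V) ≤ ε / 2 := by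
    have ht : Tendsto (fun η : ℝ => 2 * (ENNReal.ofReal η * V)) (𝓝 0)
        (𝓝 (2 * (ENNReal.ofReal 0 * V))) :=
      ENNReal.Tendsto.const_mul (ENNReal.Tendsto.mul_const
        (ENNReal.continuous_ofReal.tendsto 0) (Or.inr hV)) (Or.inr (by simp))
    simp only [ENNReal.ofReal_zero, zero_mul, mul_zero] at ht
    obtain ⟨η, h1, h2⟩ := (((ht.mono_left nhdsWithin_le_nhds).eventually
      (Iic_mem_nhds (show (0 : ℝ≥0∞) < ε / 2 from ENNReal.div_pos hε (by simp)))).and
      (self_mem_nhdsWithin (a := (0 : ℝ)) (s := Ioi 0))).exists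
    exact ⟨η, h2, h1⟩
  obtain ⟨δ, hδ0, hδ⟩ := Metric.uniformContinuous_iff_le.1
    (hcont.uniformContinuous_of_tendsto_cocompact hsupp.is_zero_at_infty) η hη0
  obtain ⟨m, hm⟩ := exists_pow_lt_of_lt_one
    (show (0 : ℝ) < min δ 1 / (Real.sqrt d + 1) by positivity) (show (1 / 2 : ℝ) < 1 by norm_num)
  rw [lt_div_iff₀ (by positivity), one_div, inv_pow, ← zpow_natCast, ← zpow_neg] at hm
  refine ⟨-(m : ℤ), fun n hn t => ?_⟩
  have hsmall : Real.sqrt d * (2 : ℝ) ^ n ≤ min δ 1 := by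
    calc Real.sqrt d * (2 : ℝ) ^ n ≤ (Real.sqrt d + 1) * (2 : ℝ) ^ (-(m : ℤ)) :=
          mul_le_mul (by linarith) (zpow_le_zpow_right₀ one_le_two hn)
            (zpow_nonneg zero_le_two n) (by positivity)
      _ ≤ _ := by rw [mul_comm]; exact hm.le
  have hgh : gV g ≤ gV h + ∫⁻ y, ‖g y - h y‖ₑ := by
    rw [gV, gV, ← lintegral_add_left' hint.aestronglyMeasurable.enorm]
    refine lintegral_mono fun y => ?_
    calc ‖g y‖ₑ = ‖h y + (g y - h y)‖ₑ := by rw [add_sub_cancel]
      _ ≤ _ := enorm_add_le _ _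
  have h1 := (gV_sub_gsum_le hint hδ hR' t hsmall).trans hηle
  rw [tsub_le_iff_right] at h1 ⊢
  calc gV g ≤ gV h + ∫⁻ y, ‖g y - h y‖ₑ := hgh
    _ ≤ ε / 2 + (gsum g t n + ∫⁻ y, ‖g y - h y‖ₑ) + ∫⁻ y, ‖g y - h y‖ₑ :=
        add_le_add (h1.trans (add_le_add le_rfl (gsum_le_add t n hg hint))) le_rfl
    _ ≤ ε / 2 + (gsum g t n + ε / 2 / 2) + ε / 2 / 2 := by gcongr
    _ = ε / 2 + gsum g t n + (ε / 2 / 2 + ε / 2 / 2) := by ring
    _ = ε + gsum g t n := by rw [ENNReal.add_halves, add_right_comm, ENNReal.add_halves]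

end

end Vale.Agent.P137.Cen
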