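import Vale.Agent.P137.Cen.TwoPoint

/-!
# P137, centred operator: the cluster potential of a family of items and its telescoping
-/

open MeasureTheory Metric Set
open scoped ENNReal RealInnerProductSpace

namespace Vale.Agent.P137.Cen

open Unc

noncomputable section

attribute [local instance] Classical.propDecidable

variable {d : ℕ} {ι : Type} [Fintype ι]

/-- Items (points with levels and weights) and the parameters of the cut and admissibility rules. -/
structure Sys (d : ℕ) (ι : Type) where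
  /-- position -/
  pos : ι → E d
  /-- level: the size is `2 ^ lev` -/
  lev : ι → ℤ
  /-- weight -/
  wt : ι → ℝ≥0∞
  /-- enlargement of cut items -/
  K : ℝ
  /-- admissibility constant -/
  L0 : ℝ
  /-- top scale -/
  top : ℤ

/-! ## The shifted grid -/

/-- Corner of a cube. -/
def qcorn (t : E d) (n : ℤ) (k : Fin d → ℤ) : E d :=
  WithLp.toLp 2 fun i => t i + (2 : ℝ) ^ n * (k i : ℝ)

/-- Cube of level `n`. -/
def qcube (t : E d) (n : ℤ) (k : Fin d → ℤ) : Set (E d) := window (qcorn t n k) ((2 : ℝ) ^ n)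

/-- Centre of a cube. -/
def qctr (t : E d) (n : ℤ) (k : Fin d → ℤ) : E d :=
  WithLp.toLp 2 fun i => t i + (2 : ℝ) ^ n * ((k i : ℝ) + 1 / 2)

/-- Index of the cube containing a point. -/
def qidx (t : E d) (n : ℤ) (y : E d) : Fin d → ℤ := fun i => ⌊(y i - t i) / (2 : ℝ) ^ n⌋

/-- Index of a child cube, one level below. -/
def kid (k : Fin d → ℤ) (b : Fin d → Fin 2) : Fin d → ℤ := fun i => 2 * k i + ((b i : ℕ) : ℤ)

theorem mem_qcube_iff {t : E d} {n : ℤ} {k : Fin d → ℤ} {y : E d} :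
    y ∈ qcube t n k ↔ qidx t n y = k := by
  have h : (0 : ℝ) < 2 ^ n := zpow_pos two_pos n
  have key : ∀ i, (qcorn t n k i ≤ y i ∧ y i < qcorn t n k i + (2 : ℝ) ^ n)
      ↔ qidx t n y i = k i := fun i => by
    simp only [qidx, Int.floor_eq_iff, le_div_iff₀ h, div_lt_iff₀ h, qcorn]
    constructor <;> rintro ⟨h1, h2⟩ <;> constructor <;> linarith
  constructor
  · exact fun hy => funext fun i => (key i).1 (hy i)
  · exact fun hy i => (key i).2 (congrFun hy i)

theorem qidx_pred (t : E d) (n : ℤ) (y : E d) (i : Fin d) :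
    qidx t n y i = qidx t (n - 1) y i / 2 := by
  simp only [qidx]
  have e : (y i - t i) / (2 : ℝ) ^ n = (y i - t i) / (2 : ℝ) ^ (n - 1) / ((2 : ℕ) : ℝ) := by
    rw [div_div, Nat.cast_ofNat, ← zpow_add_one₀ two_ne_zero, sub_add_cancel]
  rw [e, Int.floor_div_natCast]
  norm_num

theorem qidx_eq_kid_iff {t : E d} {n : ℤ} {k : Fin d → ℤ} {y : E d} {b : Fin d → Fin 2} :
    qidx t (n - 1) y = kid k b ↔
      qidx t n y = k ∧ ∀ i, ((b i : ℕ) : ℤ) = qidx t (n - 1) y i % 2 := by
  constructor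
  · intro h
    refine ⟨funext fun i => ?_, fun i => ?_⟩
    · have := (b i).isLt
      rw [qidx_pred, h, kid]; omega
    · have := (b i).isLt
      rw [h, kid]; omega
  · rintro ⟨h1, h2⟩
    funext i
    have := congrFun h1 i
    rw [qidx_pred] at this
    have := h2 i
    simp only [kid]
    omega

theorem norm_sub_qctr_le {t : E d} {n : ℤ} {k : Fin d → ℤ} {y : E d} (hy : y ∈ qcube t n k) :
    ‖y - qctr t n k‖ ≤ Real.sqrt d * (2 : ℝ) ^ n / 2 := by
  have h : (0 : ℝ) < 2 ^ n := zpow_pos two_pos n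
  have h1 : ∀ i, |(y - qctr t n k) i| ≤ (2 : ℝ) ^ n / 2 := fun i => by
    obtain ⟨a, b⟩ := hy i
    simp only [qcorn] at a b
    simp only [PiLp.sub_apply, qctr, abs_le]
    constructor <;> linarith
  have h2 : ∑ i, ‖(y - qctr t n k) i‖ ^ 2 ≤ (d : ℝ) * ((2 : ℝ) ^ n / 2) ^ 2 := by
    refine le_trans (Finset.sum_le_card_nsmul _ _ (((2 : ℝ) ^ n / 2) ^ 2) fun i _ => ?_) (by simp)
    rw [Real.norm_eq_abs]
    exact pow_le_pow_left₀ (abs_nonneg _) (h1 i) 2
  rw [EuclideanSpace.norm_eq]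
  refine (Real.sqrt_le_sqrt h2).trans (le_of_eq ?_)
  rw [Real.sqrt_mul (Nat.cast_nonneg d), Real.sqrt_sq (by positivity)]
  ring

theorem norm_qctr_kid_le (t : E d) (n : ℤ) (k : Fin d → ℤ) (b : Fin d → Fin 2) :
    ‖qctr t n k - qctr t (n - 1) (kid k b)‖ ≤ Real.sqrt d * (2 : ℝ) ^ n / 4 := by
  have h : (0 : ℝ) < 2 ^ n := zpow_pos two_pos n
  have e : (2 : ℝ) ^ (n - 1) = 2 ^ n / 2 := by rw [zpow_sub_one₀ two_ne_zero]; ring
  have h1 : ∀ i, |(qctr t n k - qctr t (n - 1) (kid k b)) i| = (2 : ℝ) ^ n / 4 := fun i => by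
    have hb := (b i).isLt
    simp only [PiLp.sub_apply, qctr, kid, e]
    push_cast
    interval_cases hcase : (b i : ℕ)
    · rw [Nat.cast_zero, show t i + 2 ^ n * ((k i : ℝ) + 1 / 2)
        - (t i + 2 ^ n / 2 * (2 * (k i : ℝ) + 0 + 1 / 2)) = (2 : ℝ) ^ n / 4 by ring,
        abs_of_pos (by positivity)]
    · rw [Nat.cast_one, show t i + 2 ^ n * ((k i : ℝ) + 1 / 2)
        - (t i + 2 ^ n / 2 * (2 * (k i : ℝ) + 1 + 1 / 2)) = -((2 : ℝ) ^ n / 4) by ring,
        abs_neg, abs_of_pos (by positivity)]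
  have h2 : ∑ i, ‖(qctr t n k - qctr t (n - 1) (kid k b)) i‖ ^ 2
      = (d : ℝ) * ((2 : ℝ) ^ n / 4) ^ 2 := by
    simp only [Real.norm_eq_abs, h1, Finset.sum_const, Finset.card_univ, Fintype.card_fin,
      nsmul_eq_mul]
  rw [EuclideanSpace.norm_eq, h2, Real.sqrt_mul (Nat.cast_nonneg d), Real.sqrt_sq (by positivity)]
  exact le_of_eq (by ring)

/-! ## Norms on the annulus -/

/-- The square norm with respect to the normalised annulus. -/
def nrm2 (f : E d → ℝ≥0∞) : ℝ≥0∞ := (∫⁻ z, f z ^ (2 : ℝ) ∂annMeas d) ^ (1 / 2 : ℝ)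

theorem nrm2_mono {f g : E d → ℝ≥0∞} (h : ∀ z, f z ≤ g z) : nrm2 f ≤ nrm2 g := by
  unfold nrm2; gcongr with z; exact h z

theorem nrm2_add_le {f g : E d → ℝ≥0∞} (hf : Measurable f) (hg : Measurable g) :
    nrm2 (fun z => f z + g z) ≤ nrm2 f + nrm2 g :=
  ENNReal.lintegral_Lp_add_le hf.aemeasurable hg.aemeasurable one_le_two

theorem nrm2_sum_le {β : Type*} (s : Finset β) {f : β → E d → ℝ≥0∞} (hf : ∀ b, Measurable (f b)) :
    nrm2 (fun z => ∑ b ∈ s, f b z) ≤ ∑ b ∈ s, nrm2 (f b) := by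
  induction s using Finset.induction with
  | empty => simp [nrm2]
  | insert b s hb ih =>
    simp only [Finset.sum_insert hb]
    exact (nrm2_add_le (hf b) (Finset.measurable_sum _ fun c _ => hf c)).trans
      (add_le_add_right ih _)

theorem nrm2_const_le [NeZero d] (c : ℝ≥0∞) : nrm2 (fun _ : E d => c) ≤ c := by
  rw [nrm2, lintegral_const, measure_univ, mul_one, ← ENNReal.rpow_mul]
  norm_num

theorem lintegral_le_nrm2 [NeZero d] {f : E d → ℝ≥0∞} (hf : Measurable f) :
    ∫⁻ z, f z ∂annMeas d ≤ nrm2 f := by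
  have h := ENNReal.lintegral_mul_le_Lp_mul_Lq (annMeas d) (Real.HolderConjugate.two_two)
    hf.aemeasurable (g := fun _ => (1 : ℝ≥0∞)) aemeasurable_const
  simpa [nrm2] using h

/-! ## Cut weights -/

namespace Sys

variable (S : Sys d ι) (t : E d) (n : ℤ) (k : Fin d → ℤ)

/-- Items below a cube. -/
def below : Finset ι := Finset.univ.filter fun i => S.pos i ∈ qcube t n k ∧ S.lev i ≤ n

/-- Items of the size of the cube: extra children. -/
def leaves : Finset ι := Finset.univ.filter fun i => S.pos i ∈ qcube t n k ∧ S.lev i = n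

/-- Weight of the extra children. -/
def leafW : ℝ≥0∞ := ∑ i ∈ S.leaves t n k, S.wt i

/-- Admissible scales. -/
def adm (a : E d) : Set ℤ :=
  {j | j ≤ S.top ∧ S.L0 * (Real.sqrt d * (2 : ℝ) ^ n + ‖a - qctr t n k‖) ≤ (2 : ℝ) ^ j}

/-- Item `i` is cut by the sphere of centre `x` and radius `ρ`. -/
def cut (x : E d) (ρ : ℝ) (i : ι) : Prop := |‖x - S.pos i‖ - ρ| ≤ S.K * (2 : ℝ) ^ (S.lev i)

/-- Weight of the items below a cube which a sphere cuts. -/
def cutw (x : E d) (ρ : ℝ) : ℝ≥0∞ :=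
  ∑ i ∈ S.below t n k, if S.cut x ρ i then S.wt i else 0

/-- Largest cut weight over the admissible scales and all radii. -/
def spot (a z : E d) : ℝ≥0∞ :=
  ⨆ j ∈ S.adm t n k a, ⨆ ρ : ℝ, S.cutw t n k (a + (2 : ℝ) ^ j • z) ρ

/-- The potential of a cube. -/
def pot : ℝ≥0∞ := ⨆ a : E d, nrm2 (S.spot t n k a)

/-- The sum of the potentials of the children. -/
def kidSum : ℝ≥0∞ := (∑ b : Fin d → Fin 2, S.pot t (n - 1) (kid k b)) + S.leafW t n k

/-- The loss of potential at a cube. -/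
def loss : ℝ≥0∞ := S.kidSum t n k - S.pot t n k

/-- The children potentials without the dominant one. -/
def nondom : ℝ≥0∞ :=
  S.kidSum t n k - Finset.univ.sup fun b : Fin d → Fin 2 => S.pot t (n - 1) (kid k b)

/-- Sum without the largest term. -/
def offMax (A : (Fin d → Fin 2) → ℝ≥0∞) : ℝ≥0∞ := ⨅ b, ∑ c ∈ Finset.univ.erase b, A c

/-- Cut weight of the children without the largest, maximised over scales and radii. -/
def coll (a z : E d) : ℝ≥0∞ :=
  ⨆ j ∈ S.adm t n k a, ⨆ ρ : ℝ,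
    offMax fun b => S.cutw t (n - 1) (kid k b) (a + (2 : ℝ) ^ j • z) ρ

/-- Its norm, the collision term of a cube. -/
def csum : ℝ≥0∞ := ⨆ a : E d, nrm2 (S.coll t n k a)

variable {S t n k}

theorem offMax_mono {A B : (Fin d → Fin 2) → ℝ≥0∞} (h : ∀ b, A b ≤ B b) : offMax A ≤ offMax B :=
  iInf_mono fun _ => Finset.sum_le_sum fun c _ => h c

theorem sum_le_sup_add_offMax (A : (Fin d → Fin 2) → ℝ≥0∞) :
    ∑ b, A b ≤ Finset.univ.sup A + offMax A := by
  obtain ⟨b0, hb0⟩ := Finite.exists_min fun b => ∑ c ∈ Finset.univ.erase b, A c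
  have e : offMax A = ∑ c ∈ Finset.univ.erase b0, A c :=
    le_antisymm (iInf_le _ b0) (le_iInf hb0)
  rw [e, ← Finset.add_sum_erase Finset.univ A (Finset.mem_univ b0)]
  exact add_le_add_left (Finset.le_sup (Finset.mem_univ b0)) _

theorem mem_below {i : ι} : i ∈ S.below t n k ↔ qidx t n (S.pos i) = k ∧ S.lev i ≤ n := by
  simp [below, mem_qcube_iff]

theorem mem_leaves {i : ι} : i ∈ S.leaves t n k ↔ qidx t n (S.pos i) = k ∧ S.lev i = n := by
  simp [leaves, mem_qcube_iff]

theorem sum_below (S : Sys d ι) (t : E d) (n : ℤ) (k : Fin d → ℤ) (f : ι → ℝ≥0∞) :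
    ∑ i ∈ S.below t n k, f i
      = (∑ b, ∑ i ∈ S.below t (n - 1) (kid k b), f i) + ∑ i ∈ S.leaves t n k, f i := by
  have e1 : ∀ (m : ℤ) (l : Fin d → ℤ), ∑ i ∈ S.below t m l, f i
      = ∑ i, if qidx t m (S.pos i) = l ∧ S.lev i ≤ m then f i else 0 := fun m l => by
    rw [← Finset.sum_filter]
    exact Finset.sum_congr (by ext i; simp [mem_below]) fun i _ => rfl
  have e2 : ∑ i ∈ S.leaves t n k, f i
      = ∑ i, if qidx t n (S.pos i) = k ∧ S.lev i = n then f i else 0 := by
    rw [← Finset.sum_filter]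
    exact Finset.sum_congr (by ext i; simp [mem_leaves]) fun i _ => rfl
  simp only [e1, e2]
  rw [Finset.sum_comm, ← Finset.sum_add_distrib]
  refine Finset.sum_congr rfl fun i _ => ?_
  by_cases hk : qidx t n (S.pos i) = k
  · let b0 : Fin d → Fin 2 := fun j => ⟨(qidx t (n - 1) (S.pos i) j % 2).toNat, by omega⟩
    rw [Finset.sum_eq_single b0]
    · have hb : qidx t (n - 1) (S.pos i) = kid k b0 :=
        qidx_eq_kid_iff.2 ⟨hk, fun j => by simp only [b0]; omega⟩
      rcases lt_trichotomy (S.lev i) n with h | h | h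
      · rw [if_pos ⟨hk, h.le⟩, if_pos ⟨hb, by omega⟩, if_neg (by omega), add_zero]
      · rw [if_pos ⟨hk, h.le⟩, if_neg (by omega), if_pos ⟨hk, h⟩, zero_add]
      · rw [if_neg (by omega), if_neg (by omega), if_neg (by omega), add_zero]
    · intro b _ hb
      refine if_neg fun h => hb (funext fun j => Fin.ext ?_)
      have := (qidx_eq_kid_iff.1 h.1).2 j
      simp only [b0]; omega
    · simp
  · rw [if_neg (fun h => hk h.1), if_neg (fun h => hk h.1), add_zero, Finset.sum_eq_zero]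
    exact fun b _ => if_neg fun h => hk (qidx_eq_kid_iff.1 h.1).1

theorem cutw_eq_kids (x : E d) (ρ : ℝ) :
    S.cutw t n k x ρ = (∑ b, S.cutw t (n - 1) (kid k b) x ρ)
      + ∑ i ∈ S.leaves t n k, if S.cut x ρ i then S.wt i else 0 :=
  S.sum_below t n k _

theorem cutw_le_kids (x : E d) (ρ : ℝ) :
    S.cutw t n k x ρ ≤ (∑ b, S.cutw t (n - 1) (kid k b) x ρ) + S.leafW t n k := by
  rw [cutw_eq_kids]
  exact add_le_add_right (Finset.sum_le_sum fun i _ => by split_ifs <;> simp) _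

/-- The radius may be taken at the inner edge of one of the items. -/
theorem exists_radius (x : E d) (ρ : ℝ) :
    ∃ l : Option ι, ∀ i, S.cut x ρ i →
      S.cut x (Option.elim l 0 fun i0 => ‖x - S.pos i0‖ - S.K * (2 : ℝ) ^ (S.lev i0)) i := by
  by_cases h : (Finset.univ.filter fun i => S.cut x ρ i).Nonempty
  · obtain ⟨i0, hi0, hmax⟩ := Finset.exists_max_image _
      (fun i => ‖x - S.pos i‖ - S.K * (2 : ℝ) ^ (S.lev i)) h
    refine ⟨some i0, fun i hi => ?_⟩
    have h0 : S.cut x ρ i0 := (Finset.mem_filter.1 hi0).2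
    have h1 := hmax i (Finset.mem_filter.2 ⟨Finset.mem_univ _, hi⟩)
    simp only [cut, Option.elim, abs_le] at hi h0 h1 ⊢
    constructor <;> linarith
  · exact ⟨none, fun i hi => absurd ⟨i, Finset.mem_filter.2 ⟨Finset.mem_univ _, hi⟩⟩ h⟩

theorem cutw_mono_radius {x : E d} {ρ ρ' : ℝ} (h : ∀ i, S.cut x ρ i → S.cut x ρ' i) :
    S.cutw t n k x ρ ≤ S.cutw t n k x ρ' := by
  refine Finset.sum_le_sum fun i _ => ?_
  by_cases hi : S.cut x ρ i
  · rw [if_pos hi, if_pos (h i hi)]
  · rw [if_neg hi]; exact zero_le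

theorem measurable_cutw {f : E d → ℝ} (hf : Measurable f) :
    Measurable fun x => S.cutw t n k x (f x) := by
  refine Finset.measurable_sum _ fun i _ => Measurable.ite ?_ measurable_const measurable_const
  exact measurableSet_le (((continuous_id.sub continuous_const).norm.measurable.sub hf).norm)
    measurable_const

theorem iSup_radius_eq {F : ((Fin d → Fin 2) → ℝ≥0∞) → ℝ≥0∞ → ℝ≥0∞}
    (hF : ∀ A B a b, (∀ c, A c ≤ B c) → a ≤ b → F A a ≤ F B b) (x : E d) :
    (⨆ ρ : ℝ, F (fun b => S.cutw t (n - 1) (kid k b) x ρ) (S.cutw t n k x ρ))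
      = ⨆ l : Option ι, F
          (fun b => S.cutw t (n - 1) (kid k b) x
            (Option.elim l 0 fun i0 => ‖x - S.pos i0‖ - S.K * (2 : ℝ) ^ (S.lev i0)))
          (S.cutw t n k x
            (Option.elim l 0 fun i0 => ‖x - S.pos i0‖ - S.K * (2 : ℝ) ^ (S.lev i0))) := by
  refine le_antisymm (iSup_le fun ρ => ?_) (iSup_le fun l => le_iSup_of_le _ le_rfl)
  obtain ⟨l, hl⟩ := S.exists_radius x ρ
  exact le_iSup_of_le l (hF _ _ _ _ (fun _ => cutw_mono_radius hl) (cutw_mono_radius hl))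

theorem measurable_iSup_radius {F : ((Fin d → Fin 2) → ℝ≥0∞) → ℝ≥0∞ → ℝ≥0∞}
    (hF : ∀ A B a b, (∀ c, A c ≤ B c) → a ≤ b → F A a ≤ F B b)
    (hm : Measurable fun p : ((Fin d → Fin 2) → ℝ≥0∞) × ℝ≥0∞ => F p.1 p.2) :
    Measurable fun x => ⨆ ρ : ℝ, F (fun b => S.cutw t (n - 1) (kid k b) x ρ) (S.cutw t n k x ρ) := by
  simp only [S.iSup_radius_eq hF]
  refine Measurable.iSup fun l => ?_
  have hr : Measurable fun x : E d =>
      Option.elim l 0 fun i0 => ‖x - S.pos i0‖ - S.K * (2 : ℝ) ^ (S.lev i0) := by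
    cases l with
    | none => exact measurable_const
    | some i0 => exact ((continuous_id.sub continuous_const).norm.sub continuous_const).measurable
  exact hm.comp ((measurable_pi_lambda _ fun b => measurable_cutw hr).prodMk (measurable_cutw hr))

theorem measurable_spot (a : E d) : Measurable (S.spot t n k a) := by
  refine Measurable.iSup fun j => Measurable.iSup fun _ => ?_
  exact (S.measurable_iSup_radius (F := fun _ b => b) (fun _ _ _ _ _ h => h) measurable_snd).comp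
    ((continuous_const.add (continuous_const_smul _)).measurable)

theorem measurable_offMax : Measurable (offMax (d := d)) := by
  unfold offMax
  exact Measurable.iInf fun b => Finset.measurable_sum _ fun c _ => measurable_pi_apply c

theorem measurable_coll (a : E d) : Measurable (S.coll t n k a) := by
  refine Measurable.iSup fun j => Measurable.iSup fun _ => ?_
  exact (S.measurable_iSup_radius (F := fun A _ => offMax A) (fun _ _ _ _ h _ => offMax_mono h)
    (measurable_offMax.comp measurable_fst)).comp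
    ((continuous_const.add (continuous_const_smul _)).measurable)

theorem spot_le_weight (a z : E d) : S.spot t n k a z ≤ ∑ i ∈ S.below t n k, S.wt i :=
  iSup₂_le fun _ _ => iSup_le fun _ => Finset.sum_le_sum fun i _ => by split_ifs <;> simp

theorem pot_le_weight [NeZero d] : S.pot t n k ≤ ∑ i ∈ S.below t n k, S.wt i :=
  iSup_le fun a => (nrm2_mono (spot_le_weight a)).trans (nrm2_const_le _)

theorem pot_ne_top [NeZero d] (hw : ∀ i, S.wt i ≠ ⊤) : S.pot t n k ≠ ⊤ :=
  ne_top_of_le_ne_top (ENNReal.sum_ne_top.2 fun i _ => hw i) pot_le_weight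

omit [Fintype ι] in
/-- The admissible scales of a cube are admissible for its children. -/
theorem adm_subset (hL : 0 ≤ S.L0) (a : E d) (b : Fin d → Fin 2) :
    S.adm t n k a ⊆ S.adm t (n - 1) (kid k b) a := by
  rintro j ⟨h1, h2⟩
  refine ⟨h1, le_trans (mul_le_mul_of_nonneg_left ?_ hL) h2⟩
  have e : (2 : ℝ) ^ (n - 1) = 2 ^ n / 2 := by rw [zpow_sub_one₀ two_ne_zero]; ring
  have h3 := norm_sub_le_norm_sub_add_norm_sub a (qctr t n k) (qctr t (n - 1) (kid k b))
  have h4 := norm_qctr_kid_le t n k b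
  have h5 : (0 : ℝ) ≤ Real.sqrt d * 2 ^ n := by positivity
  rw [e]
  linarith

theorem spot_le_kids (hL : 0 ≤ S.L0) (a z : E d) :
    S.spot t n k a z ≤ (∑ b, S.spot t (n - 1) (kid k b) a z) + S.leafW t n k := by
  refine iSup₂_le fun j hj => iSup_le fun ρ => (cutw_le_kids _ ρ).trans ?_
  exact add_le_add_left (Finset.sum_le_sum fun b _ => le_iSup₂_of_le j (adm_subset hL a b hj)
    (le_iSup (fun ρ => S.cutw t (n - 1) (kid k b) (a + (2 : ℝ) ^ j • z) ρ) ρ)) _

/-- The potential is subadditive. -/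
theorem pot_le_kidSum [NeZero d] (hL : 0 ≤ S.L0) : S.pot t n k ≤ S.kidSum t n k := by
  refine iSup_le fun a => (nrm2_mono (spot_le_kids hL a)).trans ?_
  refine (nrm2_add_le (Finset.measurable_sum _ fun b _ => S.measurable_spot a)
    measurable_const).trans (add_le_add ?_ (nrm2_const_le _))
  exact (nrm2_sum_le _ fun b => S.measurable_spot a).trans
    (Finset.sum_le_sum fun b _ => le_iSup (fun a => nrm2 (S.spot t (n - 1) (kid k b) a)) a)

theorem loss_add_pot [NeZero d] (hL : 0 ≤ S.L0) :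
    S.loss t n k + S.pot t n k = S.kidSum t n k :=
  tsub_add_cancel_of_le (pot_le_kidSum hL)

/-- The potential is at most the square sum of the children, plus the collision term. -/
theorem pot_le_sqrt_add_csum [NeZero d] (hL : 0 ≤ S.L0) :
    S.pot t n k ≤ (∑ b, S.pot t (n - 1) (kid k b) ^ (2 : ℝ)) ^ (1 / 2 : ℝ)
      + S.csum t n k + S.leafW t n k := by
  refine iSup_le fun a => ?_
  have hpt : ∀ z, S.spot t n k a z
      ≤ ((∑ b, S.spot t (n - 1) (kid k b) a z ^ (2 : ℝ)) ^ (1 / 2 : ℝ) + S.coll t n k a z)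
        + S.leafW t n k := by
    intro z
    refine iSup₂_le fun j hj => iSup_le fun ρ => (cutw_le_kids _ ρ).trans (add_le_add_left ?_ _)
    refine (sum_le_sup_add_offMax _).trans (add_le_add ?_
      (le_iSup₂_of_le j hj (le_iSup (fun ρ =>
        offMax fun b => S.cutw t (n - 1) (kid k b) (a + (2 : ℝ) ^ j • z) ρ) ρ)))
    refine Finset.sup_le fun b _ => le_trans (b := S.spot t (n - 1) (kid k b) a z) (le_iSup₂_of_le j (adm_subset hL a b hj)
      (le_iSup (fun ρ => S.cutw t (n - 1) (kid k b) (a + (2 : ℝ) ^ j • z) ρ) ρ)) ?_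
    show S.spot t (n - 1) (kid k b) a z ≤ _
    calc S.spot t (n - 1) (kid k b) a z
        = (S.spot t (n - 1) (kid k b) a z ^ (2 : ℝ)) ^ (1 / 2 : ℝ) := by
          rw [← ENNReal.rpow_mul]; norm_num
      _ ≤ _ := ENNReal.rpow_le_rpow (Finset.single_le_sum
          (f := fun b => S.spot t (n - 1) (kid k b) a z ^ (2 : ℝ)) (fun _ _ => zero_le)
          (Finset.mem_univ b)) (by norm_num)
  have hm : Measurable fun z => (∑ b, S.spot t (n - 1) (kid k b) a z ^ (2 : ℝ)) ^ (1 / 2 : ℝ) :=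
    (Finset.measurable_sum _ fun b _ => (S.measurable_spot a).pow_const _).pow_const _
  refine (nrm2_mono hpt).trans ((nrm2_add_le (hm.add (S.measurable_coll a)) measurable_const).trans
    (add_le_add ((nrm2_add_le hm (S.measurable_coll a)).trans (add_le_add ?_
      (le_iSup (fun a => nrm2 (S.coll t n k a)) a))) (nrm2_const_le _)))
  rw [nrm2]
  refine ENNReal.rpow_le_rpow ?_ (by norm_num)
  simp only [← ENNReal.rpow_mul, show (1 / 2 : ℝ) * 2 = 1 by norm_num, ENNReal.rpow_one]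
  rw [lintegral_finsetSum _ fun b _ => (S.measurable_spot a).pow_const _]
  refine Finset.sum_le_sum fun b _ => ?_
  have h : nrm2 (S.spot t (n - 1) (kid k b) a) ≤ S.pot t (n - 1) (kid k b) :=
    le_iSup (fun a => nrm2 (S.spot t (n - 1) (kid k b) a)) a
  have h2 := ENNReal.rpow_le_rpow h (show (0 : ℝ) ≤ 2 by norm_num)
  rwa [nrm2, ← ENNReal.rpow_mul, show (1 / 2 : ℝ) * 2 = 1 by norm_num, ENNReal.rpow_one] at h2

/-- The non-dominant children are controlled by the loss and the collision term. -/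
theorem nondom_le [NeZero d] (hL : 0 ≤ S.L0) (hw : ∀ i, S.wt i ≠ ⊤) :
    S.nondom t n k ≤ 2 * S.loss t n k + 2 * S.csum t n k + S.leafW t n k := by
  rcases eq_or_ne (S.csum t n k) ⊤ with hc | hc
  · rw [hc]; simp
  set P : (Fin d → Fin 2) → ℝ≥0∞ := fun b => S.pot t (n - 1) (kid k b) with hP
  have hPf : ∀ b, P b ≠ ⊤ := fun b => pot_ne_top hw
  set h : (Fin d → Fin 2) → ℝ := fun b => (P b).toReal with hh
  have hPh : ∀ b, P b = ENNReal.ofReal (h b) := fun b => (ENNReal.ofReal_toReal (hPf b)).symm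
  have hh0 : ∀ b, 0 ≤ h b := fun b => ENNReal.toReal_nonneg
  obtain ⟨b0, -, hb0⟩ := Finset.exists_max_image Finset.univ h Finset.univ_nonempty
  have hsup : Finset.univ.sup P = ENNReal.ofReal (h b0) := by
    rw [← hPh]
    refine le_antisymm (Finset.sup_le fun b _ => ?_) (Finset.le_sup (Finset.mem_univ b0))
    rw [hPh b, hPh b0]
    exact ENNReal.ofReal_le_ofReal (hb0 b (Finset.mem_univ b))
  set T := ∑ b, h b with hT
  have hsum : ∑ b, P b = ENNReal.ofReal T := by
    rw [hT, ENNReal.ofReal_sum_of_nonneg fun b _ => hh0 b]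
    exact Finset.sum_congr rfl fun b _ => hPh b
  set Q := Real.sqrt (∑ b, h b ^ 2) with hQ
  have hsq : (∑ b, P b ^ (2 : ℝ)) ^ (1 / 2 : ℝ) = ENNReal.ofReal Q := by
    rw [Finset.sum_congr rfl fun b _ => show P b ^ (2 : ℝ) = ENNReal.ofReal (h b ^ 2) by
        rw [hPh b, ENNReal.ofReal_rpow_of_nonneg (hh0 b) (by norm_num)]; norm_num,
      ← ENNReal.ofReal_sum_of_nonneg fun b _ => sq_nonneg (h b),
      ENNReal.ofReal_rpow_of_nonneg (Finset.sum_nonneg fun b _ => sq_nonneg (h b)) (by norm_num),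
      hQ, Real.sqrt_eq_rpow]
  have hlf : S.leafW t n k ≠ ⊤ := ENNReal.sum_ne_top.2 fun i _ => hw i
  obtain ⟨lf, hl, hlf0⟩ : ∃ lf : ℝ, S.leafW t n k = ENNReal.ofReal lf ∧ 0 ≤ lf :=
    ⟨_, (ENNReal.ofReal_toReal hlf).symm, ENNReal.toReal_nonneg⟩
  obtain ⟨cs, hcs, hcs0⟩ : ∃ cs : ℝ, S.csum t n k = ENNReal.ofReal cs ∧ 0 ≤ cs :=
    ⟨_, (ENNReal.ofReal_toReal hc).symm, ENNReal.toReal_nonneg⟩
  obtain ⟨pr, hpr, hpr0⟩ : ∃ pr : ℝ, S.pot t n k = ENNReal.ofReal pr ∧ 0 ≤ pr :=
    ⟨_, (ENNReal.ofReal_toReal (pot_ne_top hw)).symm, ENNReal.toReal_nonneg⟩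
  have hT0 : 0 ≤ T := Finset.sum_nonneg fun b _ => hh0 b
  have hQ0 : 0 ≤ Q := Real.sqrt_nonneg _
  have key := pot_le_sqrt_add_csum (S := S) (t := t) (n := n) (k := k) hL
  rw [hsq, hcs, hl, hpr, ← ENNReal.ofReal_add hQ0 hcs0,
    ← ENNReal.ofReal_add (by positivity) hlf0,
    ENNReal.ofReal_le_ofReal_iff (by positivity)] at key
  have hQT : 2 * Q ≤ h b0 + T := by
    have h1 : ∑ b, h b ^ 2 ≤ ((h b0 + T) / 2) ^ 2 := by
      have : ∑ b, h b ^ 2 ≤ h b0 * T := by
        rw [hT, Finset.mul_sum]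
        exact Finset.sum_le_sum fun b _ => by
          rw [sq]; exact mul_le_mul_of_nonneg_right (hb0 b (Finset.mem_univ b)) (hh0 b)
      nlinarith [sq_nonneg (h b0 - T)]
    have := Real.sqrt_le_sqrt h1
    rw [Real.sqrt_sq (by linarith [hh0 b0]), ← hQ] at this
    linarith
  rw [nondom, loss, kidSum, hsum, hsup, hl, hpr, hcs, ← ENNReal.ofReal_add hT0 hlf0,
    ← ENNReal.ofReal_sub _ (hh0 b0), ← ENNReal.ofReal_sub _ hpr0]
  rcases le_or_gt pr (T + lf) with hle | hgt
  · rw [show (2 : ℝ≥0∞) = ENNReal.ofReal 2 by simp, ← ENNReal.ofReal_mul zero_le_two,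
      ← ENNReal.ofReal_mul zero_le_two, ← ENNReal.ofReal_add (by linarith) (by linarith),
      ← ENNReal.ofReal_add (by linarith) hlf0]
    exact ENNReal.ofReal_le_ofReal (by linarith)
  · exfalso
    have := pot_le_kidSum (S := S) (t := t) (n := n) (k := k) hL
    rw [kidSum, hsum, hl, hpr, ← ENNReal.ofReal_add hT0 hlf0,
      ENNReal.ofReal_le_ofReal_iff (by linarith)] at this
    linarith

/-! ## Telescoping -/

theorem tsum_kid {f : (Fin d → ℤ) → ℝ≥0∞} :
    ∑' k, ∑ b, f (kid k b) = ∑' k, f k := by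
  have hinj : Function.Injective fun p : (Fin d → ℤ) × (Fin d → Fin 2) => kid p.1 p.2 := by
    rintro ⟨k, b⟩ ⟨k', b'⟩ h
    have h' : ∀ i, 2 * k i + ((b i : ℕ) : ℤ) = 2 * k' i + ((b' i : ℕ) : ℤ) := congrFun h
    refine Prod.ext (funext fun i => ?_) (funext fun i => Fin.ext ?_) <;>
      · have := h' i; have := (b i).isLt; have := (b' i).isLt; simp only; omega
  have hsurj : Function.Surjective fun p : (Fin d → ℤ) × (Fin d → Fin 2) => kid p.1 p.2 := fun k =>
    ⟨(fun i => k i / 2, fun i => ⟨(k i % 2).toNat, by omega⟩), funext fun i => by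
      simp only [kid]; omega⟩
  rw [← (Equiv.ofBijective _ ⟨hinj, hsurj⟩).tsum_eq f, ENNReal.tsum_prod']
  exact tsum_congr fun k => (tsum_fintype _).symm

omit [Fintype ι] in
theorem tsum_sum_items (S : Sys d ι) (t : E d) (m : ℤ) (A : (Fin d → ℤ) → Finset ι) (B : Finset ι)
    (hA : ∀ k i, i ∈ A k ↔ qidx t m (S.pos i) = k ∧ i ∈ B) :
    ∑' k : Fin d → ℤ, ∑ i ∈ A k, S.wt i = ∑ i ∈ B, S.wt i := by
  have e : ∀ k, ∑ i ∈ A k, S.wt i = ∑ i ∈ B, if qidx t m (S.pos i) = k then S.wt i else 0 :=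
    fun k => by
      rw [← Finset.sum_filter]
      exact Finset.sum_congr (by ext i; simp [hA, and_comm]) fun _ _ => rfl
  simp only [e]
  rw [Summable.tsum_finsetSum fun i _ => ENNReal.summable]
  refine Finset.sum_congr rfl fun i _ => ?_
  rw [tsum_eq_single (qidx t m (S.pos i)) fun k hk => if_neg fun h => hk h.symm, if_pos rfl]

/-- Total potential of a level. -/
theorem tsum_pot_le_weight [NeZero d] :
    ∑' k, S.pot t n k ≤ ∑ i ∈ Finset.univ.filter (fun i => S.lev i ≤ n), S.wt i :=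
  (ENNReal.tsum_le_tsum fun _ => pot_le_weight).trans
    (S.tsum_sum_items t n _ _ fun k i => by simp [mem_below]).le

theorem level_step [NeZero d] (hL : 0 ≤ S.L0) :
    ∑' k, S.loss t n k + ∑' k, S.pot t n k
      = ∑' k, S.pot t (n - 1) k + ∑ i ∈ Finset.univ.filter (fun i => S.lev i = n), S.wt i := by
  rw [← ENNReal.tsum_add]
  simp only [loss_add_pot hL, kidSum, ENNReal.tsum_add]
  rw [tsum_kid (f := fun k => S.pot t (n - 1) k)]
  exact congrArg _ (S.tsum_sum_items t n _ _ fun k i => by simp [mem_leaves])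

/-- Telescoping of the losses over any range of levels. -/
theorem loss_range [NeZero d] (hL : 0 ≤ S.L0) {M N : ℤ} (hMN : M ≤ N) :
    ∑ m ∈ Finset.Ioc M N, ∑' k, S.loss t m k + ∑' k, S.pot t N k
      ≤ ∑ i ∈ Finset.univ.filter (fun i => S.lev i ≤ N), S.wt i := by
  induction N, hMN using Int.leInduction with
  | base =>
    rw [Finset.Ioc_self, Finset.sum_empty, zero_add]
    exact tsum_pot_le_weight
  | succ N hN ih =>
    have e : Finset.Ioc M (N + 1) = insert (N + 1) (Finset.Ioc M N) := by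
      ext m; simp only [Finset.mem_Ioc, Finset.mem_insert]; omega
    have e2 : Finset.univ.filter (fun i => S.lev i ≤ N + 1)
        = Finset.univ.filter (fun i => S.lev i ≤ N) ∪ Finset.univ.filter (fun i => S.lev i = N + 1) := by
      ext i; simp only [Finset.mem_filter, Finset.mem_union, Finset.mem_univ, true_and]; omega
    rw [e, Finset.sum_insert (by simp), e2, Finset.sum_union (by
      rw [Finset.disjoint_filter]; intro i _ h; omega)]
    calc _ = ∑ m ∈ Finset.Ioc M N, ∑' k, S.loss t m k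
          + (∑' k, S.loss t (N + 1) k + ∑' k, S.pot t (N + 1) k) := by ring
      _ = (∑ m ∈ Finset.Ioc M N, ∑' k, S.loss t m k + ∑' k, S.pot t N k)
          + ∑ i ∈ Finset.univ.filter (fun i => S.lev i = N + 1), S.wt i := by
        rw [level_step (n := N + 1) hL, add_sub_cancel_right, add_assoc]
      _ ≤ _ := add_le_add_left ih _

/-- The losses sum to at most the total weight. -/
theorem loss_total [NeZero d] (hL : 0 ≤ S.L0) :
    ∑' m : ℤ, ∑' k, S.loss t m k ≤ ∑ i, S.wt i := by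
  refine ENNReal.tsum_eq_iSup_sum.le.trans (iSup_le fun s => ?_)
  set N := ∑ m ∈ s, |m| with hN
  have hN0 : 0 ≤ N := Finset.sum_nonneg fun m _ => abs_nonneg m
  have hs : s ⊆ Finset.Ioc (-N - 1) N := fun m hm => by
    have := Finset.single_le_sum (f := fun m : ℤ => |m|) (fun m _ => abs_nonneg m) hm
    have := abs_le.1 (show |m| ≤ N from this)
    simp only [Finset.mem_Ioc]; omega
  refine (Finset.sum_le_sum_of_subset hs).trans (le_trans (le_self_add (b := ∑' k, S.pot t N k)) ?_)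
  exact (loss_range hL (by omega)).trans
    (Finset.sum_le_sum_of_subset (Finset.filter_subset _ _))

/-- Two items of a cube are rarely both cut, over all admissible scales and radii. -/
theorem two_cut (d : ℕ) : ∃ C : ℝ≥0∞, C ≠ ⊤ ∧
    ∀ (ι : Type) [Fintype ι] (S : Sys d ι) (t : E d) (n : ℤ) (k : Fin d → ℤ) (a y y' : E d) (δ : ℝ),
      1 ≤ S.L0 → y ∈ qcube t n k → y' ∈ qcube t n k → 0 < δ → 2 * δ ≤ ‖y - y'‖ →
      annMeas d {z | ∃ j ∈ S.adm t n k a, ∃ ρ : ℝ, |‖a + (2 : ℝ) ^ j • z - y‖ - ρ| ≤ δ ∧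
          |‖a + (2 : ℝ) ^ j • z - y'‖ - ρ| ≤ δ}
        ≤ C * ENNReal.ofReal (2 * δ / ‖y - y'‖ * (1 + Real.log (‖y - y'‖ / (2 * δ)))) := by
  obtain ⟨C, hC, h⟩ := two_point d
  refine ⟨C, hC, fun ι _ S t n k a y y' δ hL hy hy' hδ hh => ?_⟩
  set D := Real.sqrt d * (2 : ℝ) ^ n + ‖a - qctr t n k‖
  have hD : ∀ {w : E d}, w ∈ qcube t n k → ‖w - a‖ ≤ D := fun {w} hw => by
    have h1 := norm_sub_le_norm_sub_add_norm_sub w (qctr t n k) a
    rw [norm_sub_rev (qctr t n k) a] at h1
    have h2 := norm_sub_qctr_le hw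
    have : (0 : ℝ) ≤ Real.sqrt d * 2 ^ n := by positivity
    simp only [D]; linarith
  refine (measure_mono ?_).trans (h a y y' (2 * δ) D (by linarith) hh (hD hy) (hD hy'))
  rintro z ⟨j, ⟨-, hj⟩, ρ, h1, h2⟩
  refine ⟨j, le_trans ?_ hj, ?_⟩
  · exact le_mul_of_one_le_left (by positivity) hL
  · refine (abs_sub_le _ ρ _).trans ?_
    rw [abs_sub_comm ρ]
    linarith

end Sys

/-- Change of variables from a dyadic annulus around `a` to the normalised one. -/
theorem lintegral_annulus [NeZero d] (a : E d) (j : ℤ) (f : E d → ℝ≥0∞) :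
    ∫⁻ x in {x | (2 : ℝ) ^ j / 4 ≤ ‖x - a‖ ∧ ‖x - a‖ ≤ 8 * (2 : ℝ) ^ j},
        f (((2 : ℝ) ^ j)⁻¹ • (x - a))
      = ENNReal.ofReal (((2 : ℝ) ^ j) ^ d) * volume (Ann d) * ∫⁻ z, f z ∂annMeas d := by
  set s : ℝ := (2 : ℝ) ^ j
  have hs : 0 < s := zpow_pos two_pos j
  set φ : E d → E d := fun z => a + s • z
  have hφm : MeasurableEmbedding φ :=
    (measurableEmbedding_addLeft a).comp
      ((MeasurableEquiv.smul₀ s hs.ne').measurableEmbedding)
  have hmap : Measure.map φ volume = ENNReal.ofReal ((s ^ d)⁻¹) • (volume : Measure (E d)) := by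
    show Measure.map ((fun x => a + x) ∘ fun z => s • z) volume = _
    rw [← Measure.map_map (measurable_const_add a) (measurable_const_smul s),
      Measure.map_addHaar_smul _ hs.ne', Measure.map_smul,
      map_add_left_eq_self, finrank_euclideanSpace_fin, abs_of_pos (by positivity)]
  have hcan : ENNReal.ofReal (s ^ d) * ENNReal.ofReal ((s ^ d)⁻¹) = 1 := by
    rw [← ENNReal.ofReal_mul (by positivity), mul_inv_cancel₀ (by positivity), ENNReal.ofReal_one]
  have hvol : (volume : Measure (E d)) = ENNReal.ofReal (s ^ d) • Measure.map φ volume := by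
    rw [hmap, smul_smul, hcan, one_smul]
  set R := {x | s / 4 ≤ ‖x - a‖ ∧ ‖x - a‖ ≤ 8 * s}
  have hpre : φ ⁻¹' R = Ann d := by
    ext z
    simp only [φ, R, mem_preimage, mem_ofPred_eq, add_sub_cancel_left, norm_smul, Real.norm_eq_abs,
      abs_of_pos hs, Ann]
    constructor
    · rintro ⟨h1, h2⟩; constructor <;> nlinarith
    · rintro ⟨h1, h2⟩; constructor <;> nlinarith
  conv_lhs => rw [hvol]
  rw [Measure.restrict_smul, lintegral_smul_measure, smul_eq_mul, hφm.restrict_map, hpre,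
    hφm.lintegral_map, annMeas, lintegral_smul_measure, smul_eq_mul, mul_assoc,
    ← mul_assoc (volume (Ann d)),
    ENNReal.mul_inv_cancel (volume_Ann_pos (NeZero.pos d)).ne' volume_Ann_ne_top, one_mul]
  refine congrArg _ (lintegral_congr fun z => ?_)
  simp only [φ, add_sub_cancel_left, smul_smul, inv_mul_cancel₀ hs.ne', one_smul]

end

end Vale.Agent.P137.Cen
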