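import Vale.Agent.P137.Cen.SegBase

/-!
# P137, centred operator: the records argument along one segment

Scales `n` of a finite set each see at least `2 κ ν n` of chain weight `CH n u`, which vanishes
below the level `J n` and is at most `sp u` uniformly in `n`. The largest scale pays with the
chain weights above its `J`; a scale whose chain weight is mostly above that level is compared
with it; the others continue below it. So the levels are used once.
-/

open scoped ENNReal

namespace Vale.Agent.P137.Cen

noncomputable section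

theorem geo_mono {u v n : ℤ} (h : u ≤ v) : geo u n ≤ geo v n :=
  Real.sqrt_le_sqrt (zpow_le_zpow_right₀ one_le_two (by omega))

theorem records {s : Finset ℤ} {Mb T : ℤ} {L : ℕ} {κ A : ℝ≥0∞} (hκ : κ ≠ 0)
    (J : ℤ → ℤ) (ν W E : ℤ → ℝ≥0∞) (CH X : ℤ → ℤ → ℝ≥0∞) (sp : ℤ → ℝ≥0∞)
    (hT : ∀ n ∈ s, n - (L : ℤ) ≤ T)
    (hCH : ∀ n ∈ s, ∀ u ∈ Finset.Icc Mb (n - (L : ℤ)), CH n u ≤ sp u)
    (hJ : ∀ n ∈ s, ∀ u < J n, CH n u = 0)
    (hlow : ∀ n ∈ s, 2 * (κ * ν n) ≤ ∑ u ∈ Finset.Icc Mb (n - (L : ℤ)), CH n u)
    (hself : ∀ n ∈ s, W n ≤ A * ν n)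
    (hstep : ∀ n1 ∈ s, ∀ n ∈ s, n < n1 → max (J n1) (J n) ≤ n - (L : ℤ) →
      W n ≤ A * (ν n * ENNReal.ofReal (geo (max (J n1) (J n)) n) + E n + X n1 n))
    (hX : ∀ n1 ∈ s, ∑ n ∈ s.filter (· < n1), X n1 n ≤ A * ν n1) :
    κ * ∑ n ∈ s, W n
      ≤ (5 * A + A * A) * ∑ u ∈ Finset.Icc Mb T, sp u + A * κ * ∑ n ∈ s, E n := by
  classical
  set g : ℤ → ℝ≥0∞ := fun n =>
    ∑ u ∈ Finset.Icc Mb (n - (L : ℤ)), sp u * ENNReal.ofReal (geo u n) with hg
  have main : ∀ (s' : Finset ℤ), s' ⊆ s → ∀ U : ℤ,
      (∀ n ∈ s', κ * ν n ≤ ∑ u ∈ (Finset.Icc Mb (n - (L : ℤ))).filter (· < U), CH n u) →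
      κ * ∑ n ∈ s', W n
        ≤ (A + A * A) * ∑ u ∈ (Finset.Icc Mb T).filter (· < U), sp u
          + A * ∑ n ∈ s', (g n + κ * E n) := by
    intro s'
    induction s' using Finset.strongInduction with
    | _ s' ih =>
      intro hs U hU
      rcases s'.eq_empty_or_nonempty with rfl | hne
      · simp
      set n1 := s'.max' hne
      have hn1 : n1 ∈ s' := s'.max'_mem hne
      have hn1s : n1 ∈ s := hs hn1
      set U' := min U (J n1) with hU'
      set s'' := (s'.erase n1).filter fun n =>
        κ * ν n ≤ ∑ u ∈ (Finset.Icc Mb (n - (L : ℤ))).filter (· < U'), CH n u with hs''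
      set rem := (s'.erase n1).filter fun n =>
        ¬ κ * ν n ≤ ∑ u ∈ (Finset.Icc Mb (n - (L : ℤ))).filter (· < U'), CH n u with hrem
      have hss : s'' ⊂ s' := lt_of_le_of_lt (Finset.filter_subset _ _) (Finset.erase_ssubset hn1)
      have hrec := ih s'' hss (hss.subset.trans hs) U' fun n hn => (Finset.mem_filter.1 hn).2
      -- the record itself
      set top := (Finset.Icc Mb T).filter fun u => U' ≤ u ∧ u < U
      have hν1 : κ * ν n1 ≤ ∑ u ∈ top, sp u := by
        refine (hU n1 hn1).trans ?_
        rw [← Finset.sum_filter_of_ne (p := fun u => U' ≤ u) (s := (Finset.Icc Mb (n1 - (L : ℤ))).filter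
          (· < U))]
        · refine (Finset.sum_le_sum fun u hu => hCH n1 hn1s u
            (Finset.mem_filter.1 (Finset.mem_filter.1 hu).1).1).trans
            (Finset.sum_le_sum_of_subset fun u hu => ?_)
          have := hT n1 hn1s
          simp only [top, Finset.mem_filter, Finset.mem_Icc] at hu ⊢
          omega
        · intro u _ hne'
          by_contra hlt
          exact hne' (hJ n1 hn1s u (by rw [hU'] at hlt; omega))
      -- the removed scales
      have hremsub : rem ⊆ s'.filter (· < n1) := fun n hn => by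
        obtain ⟨hn', -⟩ := Finset.mem_filter.1 hn
        obtain ⟨hne', hn''⟩ := Finset.mem_erase.1 hn'
        exact Finset.mem_filter.2 ⟨hn'', lt_of_le_of_ne (s'.le_max' n hn'') hne'⟩
      have hremW : ∀ n ∈ rem, κ * W n ≤ A * (g n + κ * E n + κ * X n1 n) := by
        intro n hn
        obtain ⟨hn', hsmall⟩ := Finset.mem_filter.1 hn
        obtain ⟨hns', hlt⟩ := Finset.mem_filter.1 (hremsub hn)
        have hns : n ∈ s := hs hns'
        have hJU : U' = J n1 := by
          rcases le_total U (J n1) with h | h
          · exact absurd (hU n hns') (by rwa [hU', min_eq_left h] at hsmall)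
          · rw [hU', min_eq_right h]
        rw [hJU] at hsmall
        have hbig : κ * ν n
            ≤ ∑ u ∈ (Finset.Icc Mb (n - (L : ℤ))).filter (fun u => ¬ u < J n1), CH n u := by
          by_contra hcon
          have := hlow n hns
          rw [← Finset.sum_filter_add_sum_filter_not (Finset.Icc Mb (n - (L : ℤ))) (· < J n1),
            two_mul] at this
          exact absurd this (not_le.2 (ENNReal.add_lt_add (not_le.1 hsmall) (not_le.1 hcon)))
        set m := max (J n1) (J n) with hm
        have hbig' : κ * ν n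
            ≤ ∑ u ∈ (Finset.Icc Mb (n - (L : ℤ))).filter (fun u => m ≤ u), CH n u := by
          refine hbig.trans (le_of_eq (Finset.sum_subset_zero_on_sdiff ?_ ?_ fun _ _ => rfl).symm)
          · intro u hu
            simp only [Finset.mem_filter, Finset.mem_Icc] at hu ⊢
            omega
          · intro u hu
            simp only [Finset.mem_sdiff, Finset.mem_filter, Finset.mem_Icc] at hu
            exact hJ n hns u (by omega)
        rcases lt_or_ge (n - (L : ℤ)) m with hout | hin
        · have h0 : κ * ν n = 0 := by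
            refine le_antisymm (hbig'.trans (le_of_eq (Finset.sum_eq_zero fun u hu => ?_))) zero_le
            simp only [Finset.mem_filter, Finset.mem_Icc] at hu
            omega
          have hν0 : ν n = 0 := (mul_eq_zero.1 h0).resolve_left hκ
          have hW0 : W n = 0 := le_antisymm ((hself n hns).trans (by rw [hν0, mul_zero])) zero_le
          rw [hW0, mul_zero]
          exact zero_le
        · refine (mul_le_mul_right (hstep n1 hn1s n hns hlt hin) κ).trans ?_
          rw [mul_left_comm, mul_add κ, mul_add κ]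
          refine mul_le_mul_right (add_le_add (add_le_add ?_ le_rfl) le_rfl) A
          rw [← mul_assoc]
          refine (mul_le_mul_left hbig' _).trans ?_
          rw [Finset.sum_mul]
          refine (Finset.sum_le_sum fun u hu => ?_).trans
            (Finset.sum_le_sum_of_subset (Finset.filter_subset _ _))
          obtain ⟨hu1, hu2⟩ := Finset.mem_filter.1 hu
          exact mul_le_mul' (hCH n hns u hu1) (ENNReal.ofReal_le_ofReal (geo_mono hu2))
      -- collect
      have hsplit : ∀ f : ℤ → ℝ≥0∞,
          ∑ n ∈ s', f n = f n1 + (∑ n ∈ s'', f n + ∑ n ∈ rem, f n) := fun f => by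
        rw [hs'', hrem, Finset.sum_filter_add_sum_filter_not,
          Finset.add_sum_erase s' f hn1]
      have hX1 : κ * ∑ n ∈ rem, X n1 n ≤ A * (κ * ν n1) := by
        rw [mul_left_comm]
        refine mul_le_mul_right ((Finset.sum_le_sum_of_subset ?_).trans (hX n1 hn1s)) κ
        exact fun n hn => Finset.filter_subset_filter _ hs (hremsub hn)
      have hdisj : ∑ u ∈ top, sp u + ∑ u ∈ (Finset.Icc Mb T).filter (· < U'), sp u
          ≤ ∑ u ∈ (Finset.Icc Mb T).filter (· < U), sp u := by
        rw [← Finset.sum_union (Finset.disjoint_left.2 fun u hu hu' => by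
          simp only [top, Finset.mem_filter] at hu hu'; omega)]
        refine Finset.sum_le_sum_of_subset fun u hu => ?_
        simp only [top, Finset.mem_union, Finset.mem_filter] at hu ⊢
        rcases hu with h | h
        · exact ⟨h.1, h.2.2⟩
        · exact ⟨h.1, lt_of_lt_of_le h.2 (min_le_left _ _)⟩
      calc κ * ∑ n ∈ s', W n
          = κ * W n1 + (κ * ∑ n ∈ s'', W n + ∑ n ∈ rem, κ * W n) := by
            rw [hsplit W, mul_add, mul_add, Finset.mul_sum (s := rem)]
        _ ≤ κ * (A * ν n1) + (((A + A * A) * ∑ u ∈ (Finset.Icc Mb T).filter (· < U'), sp u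
              + A * ∑ n ∈ s'', (g n + κ * E n))
              + (A * ∑ n ∈ rem, (g n + κ * E n) + A * (A * (κ * ν n1)))) := by
            refine add_le_add (mul_le_mul_right (hself n1 hn1s) κ) (add_le_add hrec ?_)
            refine (Finset.sum_le_sum hremW).trans ?_
            rw [← Finset.mul_sum, Finset.sum_add_distrib, mul_add, ← Finset.mul_sum (s := rem)]
            exact add_le_add le_rfl (mul_le_mul_right hX1 A)
        _ = (A + A * A) * (κ * ν n1)
              + (A + A * A) * ∑ u ∈ (Finset.Icc Mb T).filter (· < U'), sp u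
              + A * (∑ n ∈ s'', (g n + κ * E n) + ∑ n ∈ rem, (g n + κ * E n)) := by ring
        _ ≤ _ := by
            refine add_le_add ?_ (mul_le_mul_right ?_ A)
            · rw [← mul_add]
              exact mul_le_mul_right (le_trans (add_le_add hν1 le_rfl) hdisj) _
            · rw [hsplit fun n => g n + κ * E n]
              exact le_add_self
  have h0 := main s subset_rfl (T + 1) fun n hn => by
    rw [Finset.filter_true_of_mem fun u hu => by
      have := hT n hn
      simp only [Finset.mem_Icc] at hu
      omega]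
    refine le_trans ?_ (hlow n hn)
    rw [two_mul]
    exact le_self_add
  rw [Finset.filter_true_of_mem fun u hu => by simp only [Finset.mem_Icc] at hu; omega,
    Finset.sum_add_distrib, ← Finset.mul_sum] at h0
  have hgs : ∑ n ∈ s, g n ≤ 4 * ∑ u ∈ Finset.Icc Mb T, sp u := by
    have e : ∀ n ∈ s, g n = ∑ u ∈ Finset.Icc Mb T,
        if u ≤ n - (L : ℤ) then sp u * ENNReal.ofReal (geo u n) else 0 := fun n hn => by
      rw [← Finset.sum_filter]
      refine Finset.sum_congr ?_ fun _ _ => rfl
      have := hT n hn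
      ext u
      simp only [Finset.mem_filter, Finset.mem_Icc]
      omega
    rw [Finset.sum_congr rfl e, Finset.sum_comm, Finset.mul_sum]
    refine Finset.sum_le_sum fun u _ => ?_
    rw [← Finset.sum_filter, ← Finset.mul_sum, mul_comm, ← ENNReal.ofReal_sum_of_nonneg
      fun n _ => geo_nonneg u n]
    refine mul_le_mul_left ?_ _
    rw [show (4 : ℝ≥0∞) = ENNReal.ofReal 4 by simp]
    exact ENNReal.ofReal_le_ofReal (geo_sum_le u _ fun n hn => by
      have := (Finset.mem_filter.1 hn).2; omega)
  refine h0.trans ?_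
  calc (A + A * A) * ∑ u ∈ Finset.Icc Mb T, sp u + A * (∑ n ∈ s, g n + κ * ∑ n ∈ s, E n)
      ≤ (A + A * A) * ∑ u ∈ Finset.Icc Mb T, sp u
        + A * (4 * ∑ u ∈ Finset.Icc Mb T, sp u + κ * ∑ n ∈ s, E n) :=
        add_le_add le_rfl (mul_le_mul_right (add_le_add hgs le_rfl) A)
    _ = _ := by ring

end

end Vale.Agent.P137.Cen
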