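import Vale.Agent.P137.Cen.CoreGeom

/-!
# P137, centred operator: chains of dominant children, off-chain weights, boxes, margins
-/

open MeasureTheory Metric Set
open scoped ENNReal RealInnerProductSpace

namespace Vale.Agent.P137.Cen

open Vale.Agent.P137.Unc (E)

noncomputable section

attribute [local instance] Classical.propDecidable

variable {d : ℕ}

/-! ## Sums of suprema, geometric sums -/

/-- A finite sum of suprema is bounded by the sums along selections. -/
theorem seg_sum_iSup_le {α β : Type*} [Nonempty β] (s : Finset α) (f : α → β → ℝ≥0∞) {B : ℝ≥0∞}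
    (h : ∀ σ : α → β, ∑ a ∈ s, f a (σ a) ≤ B) : ∑ a ∈ s, ⨆ b, f a b ≤ B := by
  classical
  induction s using Finset.induction generalizing B with
  | empty => simp
  | insert a s ha ih =>
    rw [Finset.sum_insert ha, ENNReal.iSup_add]
    refine iSup_le fun b => ?_
    have h' : ∀ σ : α → β, f a b + ∑ c ∈ s, f c (σ c) ≤ B := fun σ => by
      have := h (Function.update σ a b)
      rw [Finset.sum_insert ha, Function.update_self] at this
      refine le_trans (le_of_eq ?_) this
      refine congrArg _ (Finset.sum_congr rfl fun c hc => ?_)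
      rw [Function.update_of_ne]
      rintro rfl
      exact ha hc
    rcases eq_or_ne (f a b) ⊤ with ht | ht
    · have := h' fun _ => b
      rw [ht, top_add] at this
      exact le_top.trans this
    have hb : f a b ≤ B := le_self_add.trans (h' fun _ => b)
    have := ih (B := B - f a b) fun σ => ENNReal.le_sub_of_add_le_left ht (h' σ)
    exact (add_le_add le_rfl this).trans (le_of_eq (add_tsub_cancel_of_le hb))

/-- Square root of the ratio of two dyadic lengths. -/
def geo (i n : ℤ) : ℝ := Real.sqrt ((2 : ℝ) ^ (i - n))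

theorem geo_nonneg (i n : ℤ) : 0 ≤ geo i n := Real.sqrt_nonneg _

theorem zpow_le_geo {i n : ℤ} (h : i ≤ n) : (2 : ℝ) ^ (i - n) ≤ geo i n := by
  have h0 : (0 : ℝ) ≤ 2 ^ (i - n) := by positivity
  have h1 : (2 : ℝ) ^ (i - n) ≤ 1 := zpow_le_one_of_nonpos₀ one_le_two (by omega)
  refine Real.le_sqrt_of_sq_le ?_
  rw [sq]
  exact mul_le_of_le_one_left h0 h1

theorem geo_sum_le (i : ℤ) (N : Finset ℤ) (hN : ∀ n ∈ N, i ≤ n) : ∑ n ∈ N, geo i n ≤ 4 := by
  set q : ℝ := geo 0 1 with hq
  have hq0 : 0 ≤ q := geo_nonneg _ _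
  have hq1 : q ≤ 3 / 4 := by
    rw [hq, geo]
    refine Real.sqrt_le_iff.2 ⟨by norm_num, ?_⟩
    norm_num
  have hpow : ∀ m : ℕ, geo i (i + m) = q ^ m := fun m => by
    induction m with
    | zero => simp [geo]
    | succ m ih =>
      rw [pow_succ, ← ih, hq, geo, geo, geo, ← Real.sqrt_mul (by positivity),
        ← zpow_add₀ (two_ne_zero (α := ℝ))]
      congr 2
      push_cast
      ring
  have e : ∀ n ∈ N, geo i n = q ^ (n - i).toNat := fun n hn => by
    rw [← hpow]
    congr 1
    have := hN n hn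
    omega
  rw [Finset.sum_congr rfl e]
  refine le_trans ?_ (show (1 - q)⁻¹ ≤ 4 by
    rw [inv_le_comm₀ (by linarith) (by norm_num)]; linarith)
  have hinj : Set.InjOn (fun n : ℤ => (n - i).toNat) N := fun a ha b hb h => by
    have := hN a ha; have := hN b hb; simp only at h; omega
  rw [← Finset.sum_image hinj]
  exact sum_le_hasSum _ (fun m _ => pow_nonneg hq0 m)
    (hasSum_geometric_of_lt_one hq0 (by linarith))

/-! ## Indices -/

theorem par_kid (k : Fin d → ℤ) (b : Fin d → Fin 2) : par (kid k b) = k := by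
  funext i
  have := (b i).isLt
  simp only [par, kid]
  omega

theorem qctr_mem (t : E d) (n : ℤ) (k : Fin d → ℤ) : qctr t n k ∈ qcube t n k :=
  mem_qcube_iff.2 (qidx_qctr t n k)

theorem qidx_of_le (t : E d) {n m : ℤ} (h : n ≤ m) (y : E d) :
    qidx t m y = anc (m - n).toNat (qidx t n y) := by
  have := qidx_add t n (m - n).toNat y
  rwa [show n + ((m - n).toNat : ℤ) = m by omega] at this

/-- Centres of nested cubes are close. -/
theorem norm_qctr_sub_le (t : E d) {n m : ℤ} {k l : Fin d → ℤ} (h : n ≤ m)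
    (hk : anc (m - n).toNat k = l) :
    ‖qctr t n k - qctr t m l‖ ≤ Real.sqrt d * (2 : ℝ) ^ m / 2 := by
  refine norm_sub_qctr_le (mem_qcube_iff.2 ?_)
  rw [qidx_of_le t h, qidx_qctr, hk]

/-! ## Dominant children and chains -/

namespace Sys

variable {ι : Type} [Fintype ι] (S : Sys d ι) (t : E d) (Mb : ℤ)

/-- A child with the largest potential. -/
def dom (n : ℤ) (k : Fin d → ℤ) : Fin d → Fin 2 :=
  (Finite.exists_max fun b : Fin d → Fin 2 => S.pot t (n - 1) (kid k b)).choose

theorem pot_le_dom (n : ℤ) (k : Fin d → ℤ) (b : Fin d → Fin 2) :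
    S.pot t (n - 1) (kid k b) ≤ S.pot t (n - 1) (kid k (S.dom t n k)) :=
  (Finite.exists_max fun b : Fin d → Fin 2 => S.pot t (n - 1) (kid k b)).choose_spec b

/-- Descent along dominant children to the bottom level. -/
def botAux : ℕ → (Fin d → ℤ) → (Fin d → ℤ)
  | 0, k => k
  | j + 1, k => botAux j (kid k (S.dom t (Mb + j + 1) k))

/-- The bottom cube of a chain. -/
def bot (i : ℤ) (k : Fin d → ℤ) : Fin d → ℤ := S.botAux t Mb (i - Mb).toNat k

omit [Fintype ι] in
/-- The cube of level `i` over the bottom cube `b`. -/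
def chain (b : Fin d → ℤ) (i : ℤ) : Fin d → ℤ := qidx t i (qctr t Mb b)

/-- The level `i` belongs to the segment of `b`. -/
def InSeg (b : Fin d → ℤ) (i : ℤ) : Prop := S.bot t Mb i (chain t Mb b i) = b

theorem bot_succ {i : ℤ} (hi : Mb ≤ i) (k : Fin d → ℤ) :
    S.bot t Mb (i + 1) k = S.bot t Mb i (kid k (S.dom t (i + 1) k)) := by
  rw [bot, show (i + 1 - Mb).toNat = (i - Mb).toNat + 1 by omega, botAux, bot,
    show Mb + ((i - Mb).toNat : ℤ) + 1 = i + 1 by omega]

theorem anc_botAux (j : ℕ) (k : Fin d → ℤ) : anc j (S.botAux t Mb j k) = k := by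
  induction j generalizing k with
  | zero => simp [botAux, anc_zero]
  | succ j ih => rw [botAux, show j + 1 = 1 + j by ring, ← anc_add 1 j, ih, anc_one, par_kid]

theorem chain_bot {i : ℤ} (hi : Mb ≤ i) (k : Fin d → ℤ) :
    chain t Mb (S.bot t Mb i k) i = k := by
  rw [chain, qidx_of_le t hi, qidx_qctr, bot, anc_botAux]

theorem inSeg_bot {i : ℤ} (hi : Mb ≤ i) (k : Fin d → ℤ) : S.InSeg t Mb (S.bot t Mb i k) i := by
  rw [InSeg, chain_bot S t Mb hi]

theorem chain_pred {b : Fin d → ℤ} {i : ℤ} (hi : Mb < i) (h : S.InSeg t Mb b i) :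
    S.InSeg t Mb b (i - 1) ∧
      chain t Mb b (i - 1) = kid (chain t Mb b i) (S.dom t i (chain t Mb b i)) := by
  set k' := kid (chain t Mb b i) (S.dom t i (chain t Mb b i))
  have e : S.bot t Mb (i - 1) k' = b := by
    have := S.bot_succ t Mb (show Mb ≤ i - 1 by omega) (chain t Mb b i)
    rw [sub_add_cancel] at this
    exact this.symm.trans h
  have e' : chain t Mb b (i - 1) = k' := by
    rw [← e]
    exact S.chain_bot t Mb (by omega) k'
  exact ⟨by rw [InSeg, e', e], e'⟩

theorem inSeg_mono {b : Fin d → ℤ} {i l : ℤ} (hl : Mb ≤ l) (hli : l ≤ i) (h : S.InSeg t Mb b i) :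
    S.InSeg t Mb b l := by
  induction i, hli using Int.leInduction with
  | base => exact h
  | succ i hi ih =>
    have := (S.chain_pred t Mb (show Mb < i + 1 by omega) h).1
    rw [add_sub_cancel_right] at this
    exact ih this

/-- Summing along all segments visits every cube of a level at most once. -/
theorem tsum_inSeg_le (i : ℤ) (f : (Fin d → ℤ) → ℝ≥0∞) :
    ∑' b : Fin d → ℤ, (if S.InSeg t Mb b i then f (chain t Mb b i) else 0) ≤ ∑' k, f k := by
  have e : ∀ b : Fin d → ℤ, (if S.InSeg t Mb b i then f (chain t Mb b i) else 0)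
      = {b | S.InSeg t Mb b i}.indicator (fun b => f (chain t Mb b i)) b := fun b => by
    by_cases h : S.InSeg t Mb b i
    · rw [if_pos h, indicator_of_mem (show b ∈ {b | S.InSeg t Mb b i} from h)]
    · rw [if_neg h, indicator_of_notMem (show b ∉ {b | S.InSeg t Mb b i} from h)]
  rw [tsum_congr e, ← tsum_subtype {b | S.InSeg t Mb b i} (fun b => f (chain t Mb b i))]
  refine ENNReal.tsum_comp_le_tsum_of_injective (fun a b hab => Subtype.ext ?_) f
  have ha : S.InSeg t Mb a.1 i := a.2
  have hb : S.InSeg t Mb b.1 i := b.2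
  rw [← ha, ← hb]
  exact congrArg _ hab

/-! ## Off-chain weights -/

/-- Cut weight below a cube outside its dominant child. -/
def offCut (n : ℤ) (k : Fin d → ℤ) (x : E d) (ρ : ℝ) : ℝ≥0∞ :=
  (∑ b ∈ Finset.univ.erase (S.dom t n k), S.cutw t (n - 1) (kid k b) x ρ)
    + ∑ i ∈ S.leaves t n k, if S.cut x ρ i then S.wt i else 0

/-- Its maximum over the admissible scales and all radii. -/
def offSpot (n : ℤ) (k : Fin d → ℤ) (a z : E d) : ℝ≥0∞ :=
  (∑ b ∈ Finset.univ.erase (S.dom t n k), S.spot t (n - 1) (kid k b) a z) + S.leafW t n k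

variable {S t Mb}

theorem cutw_eq_offCut (n : ℤ) (k : Fin d → ℤ) (x : E d) (ρ : ℝ) :
    S.cutw t n k x ρ = S.offCut t n k x ρ + S.cutw t (n - 1) (kid k (S.dom t n k)) x ρ := by
  rw [cutw_eq_kids, offCut, ← Finset.add_sum_erase Finset.univ
    (fun b => S.cutw t (n - 1) (kid k b) x ρ) (Finset.mem_univ (S.dom t n k))]
  ring

theorem offCut_le_offSpot (hL : 0 ≤ S.L0) {n j : ℤ} {k : Fin d → ℤ} {a z x : E d} (ρ : ℝ)
    (hj : j ∈ S.adm t n k a) (hx : x = a + (2 : ℝ) ^ j • z) :
    S.offCut t n k x ρ ≤ S.offSpot t n k a z := by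
  subst hx
  refine add_le_add (Finset.sum_le_sum fun b _ => ?_)
    (Finset.sum_le_sum fun i _ => by split_ifs <;> simp)
  exact le_iSup₂_of_le j (adm_subset hL a b hj)
    (le_iSup (fun ρ => S.cutw t (n - 1) (kid k b) (a + (2 : ℝ) ^ j • z) ρ) ρ)

theorem measurable_offSpot (n : ℤ) (k : Fin d → ℤ) (a : E d) :
    Measurable (S.offSpot t n k a) :=
  (Finset.measurable_sum _ fun _ _ => S.measurable_spot a).add measurable_const

theorem sum_erase_pot [NeZero d] (hw : ∀ i, S.wt i ≠ ⊤) (n : ℤ) (k : Fin d → ℤ) :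
    (∑ b ∈ Finset.univ.erase (S.dom t n k), S.pot t (n - 1) (kid k b)) + S.leafW t n k
      = S.nondom t n k := by
  have e : (Finset.univ.sup fun b : Fin d → Fin 2 => S.pot t (n - 1) (kid k b))
      = S.pot t (n - 1) (kid k (S.dom t n k)) :=
    le_antisymm (Finset.sup_le fun b _ => S.pot_le_dom t n k b)
      (Finset.le_sup (f := fun b => S.pot t (n - 1) (kid k b)) (Finset.mem_univ _))
  rw [nondom, e, kidSum, ← Finset.add_sum_erase Finset.univ
    (fun b => S.pot t (n - 1) (kid k b)) (Finset.mem_univ (S.dom t n k)), add_assoc,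
    ENNReal.add_sub_cancel_left (pot_ne_top hw)]

theorem lintegral_offSpot_le [NeZero d] (hw : ∀ i, S.wt i ≠ ⊤) (n : ℤ) (k : Fin d → ℤ) (a : E d) :
    ∫⁻ z, S.offSpot t n k a z ∂annMeas d ≤ S.nondom t n k := by
  rw [← sum_erase_pot hw n k]
  simp only [offSpot]
  rw [lintegral_add_right _ measurable_const, lintegral_const, measure_univ, mul_one,
    lintegral_finsetSum _ fun b _ => S.measurable_spot a]
  refine add_le_add (Finset.sum_le_sum fun b _ => ?_) le_rfl
  exact (lintegral_le_nrm2 (S.measurable_spot a)).trans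
    (le_iSup (fun a => nrm2 (S.spot t (n - 1) (kid k b) a)) a)

/-- A sum over the items below a cube, without the dominant child. -/
def offSum (S : Sys d ι) (t : E d) (n : ℤ) (k : Fin d → ℤ) (f : ι → ℝ≥0∞) : ℝ≥0∞ :=
  (∑ b ∈ Finset.univ.erase (S.dom t n k), ∑ i ∈ S.below t (n - 1) (kid k b), f i)
    + ∑ i ∈ S.leaves t n k, f i

theorem offCut_eq (n : ℤ) (k : Fin d → ℤ) (x : E d) (ρ : ℝ) :
    S.offCut t n k x ρ = S.offSum t n k fun i => if S.cut x ρ i then S.wt i else 0 := rfl

theorem sum_below_eq_offSum (n : ℤ) (k : Fin d → ℤ) (f : ι → ℝ≥0∞) :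
    ∑ i ∈ S.below t n k, f i
      = S.offSum t n k f + ∑ i ∈ S.below t (n - 1) (kid k (S.dom t n k)), f i := by
  rw [S.sum_below t n k f, offSum, ← Finset.add_sum_erase Finset.univ
    (fun b => ∑ i ∈ S.below t (n - 1) (kid k b), f i) (Finset.mem_univ (S.dom t n k))]
  ring

theorem below_kid_subset {n : ℤ} {k : Fin d → ℤ} (b : Fin d → Fin 2) :
    S.below t (n - 1) (kid k b) ⊆ S.below t n k := fun i hi => by
  obtain ⟨h1, h2⟩ := mem_below.1 hi
  exact mem_below.2 ⟨(qidx_eq_kid_iff.1 h1).1, by omega⟩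

theorem offSum_le {n : ℤ} {k : Fin d → ℤ} {f g : ι → ℝ≥0∞} (c : ℝ≥0∞)
    (h : ∀ i ∈ S.below t n k, f i ≤ c * g i) : S.offSum t n k f ≤ c * S.offSum t n k g := by
  rw [offSum, offSum, mul_add, Finset.mul_sum, Finset.mul_sum]
  refine add_le_add (Finset.sum_le_sum fun b _ => ?_) (Finset.sum_le_sum fun i hi => h i ?_)
  · rw [Finset.mul_sum]
    exact Finset.sum_le_sum fun i hi => h i (below_kid_subset b hi)
  · obtain ⟨h1, h2⟩ := mem_leaves.1 hi
    exact mem_below.2 ⟨h1, h2.le⟩

/-- The sum below a chain cube is the sum of the off-chain sums below it. -/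
theorem sum_chain (hlev : ∀ i, Mb ≤ S.lev i) {b : Fin d → ℤ} {i : ℤ} (hi : Mb ≤ i)
    (h : S.InSeg t Mb b i) (f : ι → ℝ≥0∞) :
    ∑ e ∈ S.below t i (chain t Mb b i), f e
      = ∑ l ∈ Finset.Icc Mb i, S.offSum t l (chain t Mb b l) f := by
  induction i, hi using Int.leInduction with
  | base =>
    rw [Finset.Icc_self, Finset.sum_singleton, sum_below_eq_offSum]
    refine (congrArg _ (Finset.sum_eq_zero fun e he => ?_)).trans (add_zero _)
    have := (mem_below.1 he).2
    have := hlev e
    omega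
  | succ i hi ih =>
    obtain ⟨h1, h2⟩ := S.chain_pred t Mb (show Mb < i + 1 by omega) h
    rw [add_sub_cancel_right] at h1 h2
    rw [sum_below_eq_offSum, add_sub_cancel_right, ← h2, ih h1,
      show Finset.Icc Mb (i + 1) = insert (i + 1) (Finset.Icc Mb i) by
        ext m; simp only [Finset.mem_Icc, Finset.mem_insert]; omega,
      Finset.sum_insert (by simp)]

theorem pot_chain_le [NeZero d] (hL : 0 ≤ S.L0) (hw : ∀ i, S.wt i ≠ ⊤) {b : Fin d → ℤ} {l i : ℤ}
    (hl : Mb ≤ l) (hli : l ≤ i) (h : S.InSeg t Mb b i) :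
    S.pot t i (chain t Mb b i) ≤ S.pot t l (chain t Mb b l)
      + ∑ u ∈ Finset.Ioc l i, S.nondom t u (chain t Mb b u) := by
  induction i, hli using Int.leInduction with
  | base => simp
  | succ i hi ih =>
    obtain ⟨h1, h2⟩ := S.chain_pred t Mb (show Mb < i + 1 by omega) h
    rw [add_sub_cancel_right] at h1 h2
    have hk : S.kidSum t (i + 1) (chain t Mb b (i + 1))
        = S.pot t i (chain t Mb b i) + S.nondom t (i + 1) (chain t Mb b (i + 1)) := by
      rw [← sum_erase_pot hw, kidSum, ← Finset.add_sum_erase Finset.univ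
        (fun c => S.pot t (i + 1 - 1) (kid (chain t Mb b (i + 1)) c))
        (Finset.mem_univ (S.dom t (i + 1) (chain t Mb b (i + 1)))), add_sub_cancel_right, ← h2,
        add_assoc]
    rw [show Finset.Ioc l (i + 1) = insert (i + 1) (Finset.Ioc l i) by
        ext m; simp only [Finset.mem_Ioc, Finset.mem_insert]; omega,
      Finset.sum_insert (by simp)]
    refine ((pot_le_kidSum hL).trans_eq hk).trans ?_
    refine (add_le_add (ih h1) le_rfl).trans (le_of_eq ?_)
    ring

theorem tsum_pot_le_telescope [NeZero d] (hL : 0 ≤ S.L0) {l i : ℤ} (hli : l ≤ i) :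
    ∑' k, S.pot t l k ≤ ∑' k, S.pot t i k + ∑ u ∈ Finset.Ioc l i, ∑' k, S.loss t u k := by
  induction i, hli using Int.leInduction with
  | base => simp
  | succ i hi ih =>
    rw [show Finset.Ioc l (i + 1) = insert (i + 1) (Finset.Ioc l i) by
        ext m; simp only [Finset.mem_Ioc, Finset.mem_insert]; omega,
      Finset.sum_insert (by simp)]
    have := level_step (S := S) (t := t) (n := i + 1) hL
    rw [add_sub_cancel_right] at this
    refine ih.trans ?_
    rw [← add_assoc, add_comm (∑' k, S.pot t (i + 1) k), this]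
    exact add_le_add le_self_add le_rfl

/-- The cubes of a level outside the chains through it cost losses and non-dominant children. -/
theorem tsum_boxes_le [NeZero d] (hL : 0 ≤ S.L0) (hw : ∀ i, S.wt i ≠ ⊤) {l ν : ℤ} (hl : Mb ≤ l)
    (hlν : l ≤ ν) :
    ∑' k : Fin d → ℤ, (if k = chain t Mb (S.bot t Mb ν (anc (ν - l).toNat k)) l then 0
        else S.pot t l k)
      ≤ ∑ u ∈ Finset.Ioc l ν, (∑' k, S.loss t u k + ∑' k, S.nondom t u k) := by
  set j := (ν - l).toNat
  set P : (Fin d → ℤ) → (Fin d → ℤ) := fun W => chain t Mb (S.bot t Mb ν W) l with hP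
  have hancP : ∀ W, anc j (P W) = W := fun W => by
    have := S.chain_bot t Mb (hl.trans hlν) W
    rw [chain, qidx_of_le t hlν] at this
    exact this
  have hinj : Function.Injective P := fun a b hab => by rw [← hancP a, hab, hancP b]
  have hfix : ∀ k, (k = P (anc j k)) ↔ k ∈ range P := fun k =>
    ⟨fun h => ⟨_, h.symm⟩, by rintro ⟨W, rfl⟩; rw [hancP]⟩
  have hsplit : ∑' k, (if k = P (anc j k) then 0 else S.pot t l k) + ∑' W, S.pot t l (P W)
      = ∑' k, S.pot t l k := by
    have e : ∑' W, S.pot t l (P W) = ∑' k, if k = P (anc j k) then S.pot t l k else 0 := by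
      symm
      rw [← hinj.tsum_eq (f := fun k => if k = P (anc j k) then S.pot t l k else 0)]
      · exact tsum_congr fun W => if_pos (by rw [hancP])
      · intro k hk
        simp only [Function.mem_support, ne_eq, ite_eq_right_iff, Classical.not_imp] at hk
        exact (hfix k).1 hk.1
    rw [e, ← ENNReal.tsum_add]
    exact tsum_congr fun k => by split_ifs <;> simp
  have hfin : ∑' W, S.pot t l (P W) ≠ ⊤ :=
    ne_top_of_le_ne_top (ENNReal.sum_ne_top.2 fun i _ => hw i)
      ((ENNReal.tsum_comp_le_tsum_of_injective hinj _).trans S.tsum_pot_le_weight)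
  have hW : ∀ W, S.pot t ν W ≤ S.pot t l (P W)
      + ∑ u ∈ Finset.Ioc l ν, S.nondom t u (chain t Mb (S.bot t Mb ν W) u) := fun W => by
    have := pot_chain_le hL hw hl hlν (S.inSeg_bot t Mb (hl.trans hlν) W)
    rwa [S.chain_bot t Mb (hl.trans hlν)] at this
  have hnd : ∀ u ∈ Finset.Ioc l ν,
      ∑' W, S.nondom t u (chain t Mb (S.bot t Mb ν W) u) ≤ ∑' k, S.nondom t u k := fun u hu => by
    obtain ⟨hu1, hu2⟩ := Finset.mem_Ioc.1 hu
    refine ENNReal.tsum_comp_le_tsum_of_injective (fun a b hab => ?_) _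
    have h := fun W => S.chain_bot t Mb (hl.trans hlν) W
    rw [← h a, ← h b]
    simp only [chain] at hab ⊢
    rw [qidx_of_le t hu2, hab, ← qidx_of_le t hu2]
  refine ENNReal.le_of_add_le_add_right hfin ?_
  refine (hsplit.le.trans ((tsum_pot_le_telescope hL hlν).trans
    (add_le_add ((ENNReal.tsum_le_tsum hW).trans_eq ENNReal.tsum_add) le_rfl))).trans ?_
  rw [Summable.tsum_finsetSum fun u _ => ENNReal.summable, Finset.sum_add_distrib]
  refine le_trans (add_le_add (add_le_add le_rfl (Finset.sum_le_sum hnd)) le_rfl) (le_of_eq ?_)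
  ring

end Sys

/-! ## Margins -/

/-- Averaging over the shifts against the indicator of the middle part. -/
theorem le_avgShift_deep (Mb n : ℤ) (m : ℕ) (h1 : Mb + 4 ≤ n) (h2 : n ≤ Mb + m) (x : E d)
    (c : ℝ≥0∞) :
    c ≤ 4 ^ d * avgShift Mb m fun t => if deep t n x then c else 0 := by
  rw [avgShift, ← Finset.sum_filter, Finset.sum_const, nsmul_eq_mul, ← mul_div_assoc,
    ENNReal.le_div_iff_mul_le (Or.inl (by simp)) (Or.inl (ENNReal.natCast_ne_top _)),
    ← mul_assoc, mul_comm c]
  exact mul_le_mul' (by exact_mod_cast card_deep Mb n m h1 h2 x) le_rfl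

theorem avgShift_mono (Mb : ℤ) (m : ℕ) {F G : E d → ℝ≥0∞}
    (h : ∀ s : Fin d → Fin (2 ^ m), F (qlat 0 Mb s) ≤ G (qlat 0 Mb s)) :
    avgShift Mb m F ≤ avgShift Mb m G :=
  ENNReal.div_le_div_right (Finset.sum_le_sum fun s _ => h s) _

theorem avgShift_add (Mb : ℤ) (m : ℕ) (F G : E d → ℝ≥0∞) :
    avgShift Mb m (fun t => F t + G t) = avgShift Mb m F + avgShift Mb m G := by
  rw [avgShift, avgShift, avgShift, Finset.sum_add_distrib, ENNReal.add_div]

theorem avgShift_const (Mb : ℤ) (m : ℕ) (c : ℝ≥0∞) : avgShift (d := d) Mb m (fun _ => c) = c := by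
  rw [avgShift, Finset.sum_const, Finset.card_univ, Fintype.card_fun, Fintype.card_fin,
    Fintype.card_fin, nsmul_eq_mul]
  rw [mul_comm, mul_div_assoc, ENNReal.div_self (by simp) (ENNReal.natCast_ne_top _), mul_one]

theorem avgShift_const_mul (Mb : ℤ) (m : ℕ) (c : ℝ≥0∞) (F : E d → ℝ≥0∞) :
    avgShift Mb m (fun t => c * F t) = c * avgShift Mb m F := by
  rw [avgShift, avgShift, ← Finset.mul_sum, mul_div_assoc]

end

end Vale.Agent.P137.Cen
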