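import Vale.Agent.P137.Cen.Defs

/-!
# P137, centred operator: trees of good cubes (steps B2–B5)
-/

open MeasureTheory Metric Set
open scoped ENNReal RealInnerProductSpace

namespace Vale.Agent.P137.Cen

open Vale.Agent.P137.Unc (E qdec)

noncomputable section

attribute [local instance] Classical.propDecidable

variable {d : ℕ}

/-! ## Index arithmetic -/

theorem tree_par_kid (k : Fin d → ℤ) (b : Fin d → Fin 2) : par (kid k b) = k := by
  funext i
  have := (b i).isLt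
  simp only [par, kid]
  omega

theorem tree_kid_par (k : Fin d → ℤ) :
    ∃ b : Fin d → Fin 2, kid (par k) b = k :=
  ⟨fun i => ⟨(k i % 2).toNat, by omega⟩, funext fun i => by simp only [par, kid]; omega⟩

theorem tree_anc_zero (k : Fin d → ℤ) : anc 0 k = k := by
  funext i; simp [anc]

theorem tree_anc_succ (j : ℕ) (k : Fin d → ℤ) : anc (j + 1) k = anc j (par k) := by
  funext i
  simp only [anc, par]
  rw [Int.ediv_ediv_of_nonneg (by norm_num : (0 : ℤ) ≤ 2), pow_succ']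

theorem tree_anc_anc (j l : ℕ) (k : Fin d → ℤ) : anc j (anc l k) = anc (l + j) k := by
  funext i
  simp only [anc]
  rw [Int.ediv_ediv_of_nonneg (by positivity : (0 : ℤ) ≤ 2 ^ l), ← pow_add]

theorem tree_par_eq_anc (k : Fin d → ℤ) : par k = anc 1 k := by
  funext i; simp [par, anc]

theorem tree_anc_succ' (j : ℕ) (k : Fin d → ℤ) : anc (j + 1) k = par (anc j k) := by
  rw [tree_par_eq_anc, tree_anc_anc]

/-- `Q` is the cube `X` or lies below it. -/
def Below (X Q : Cb d) : Prop := Q.1 ≤ X.1 ∧ anc (X.1 - Q.1).toNat Q.2 = X.2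

theorem below_self (X : Cb d) : Below X X := ⟨le_rfl, by simp [tree_anc_zero]⟩

theorem below_trans {X Y Z : Cb d} (h1 : Below X Y) (h2 : Below Y Z) : Below X Z := by
  refine ⟨h2.1.trans h1.1, ?_⟩
  obtain ⟨hX, hXa⟩ := h1
  obtain ⟨hY, hYa⟩ := h2
  rw [show (X.1 - Z.1).toNat = (Y.1 - Z.1).toNat + (X.1 - Y.1).toNat by omega, ← tree_anc_anc,
    hYa, hXa]

theorem below_iff_kid {X Q : Cb d} :
    Below X Q ∧ Q ≠ X ↔ ∃ b : Fin d → Fin 2, Below (X.1 - 1, kid X.2 b) Q := by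
  constructor
  · rintro ⟨⟨h1, h2⟩, hne⟩
    have hlt : Q.1 < X.1 := by
      rcases eq_or_lt_of_le h1 with h | h
      · refine absurd (Prod.ext h ?_) hne
        rw [h, sub_self, Int.toNat_zero, tree_anc_zero] at h2
        exact h2
      · exact h
    set m := (X.1 - 1 - Q.1).toNat with hm
    rw [show (X.1 - Q.1).toNat = m + 1 by omega, tree_anc_succ'] at h2
    obtain ⟨b, hb⟩ := tree_kid_par (anc m Q.2)
    refine ⟨b, by show Q.1 ≤ X.1 - 1; omega, ?_⟩
    show anc m Q.2 = kid X.2 b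
    rw [← h2, hb]
  · rintro ⟨b, h1, h2⟩
    change Q.1 ≤ X.1 - 1 at h1
    change anc (X.1 - 1 - Q.1).toNat Q.2 = kid X.2 b at h2
    refine ⟨⟨by omega, ?_⟩, fun h => by rw [h] at h1; omega⟩
    rw [show (X.1 - Q.1).toNat = (X.1 - 1 - Q.1).toNat + 1 by omega, tree_anc_succ', h2,
      tree_par_kid]

theorem below_kid_unique {X Q : Cb d} {b b' : Fin d → Fin 2}
    (h : Below (X.1 - 1, kid X.2 b) Q) (h' : Below (X.1 - 1, kid X.2 b') Q) : b = b' := by
  have e : kid X.2 b = kid X.2 b' := h.2.symm.trans h'.2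
  funext i
  have := congrFun e i
  simp only [kid] at this
  exact Fin.ext (by omega)

theorem below_subset (t : E d) {X Q : Cb d} (h : Below X Q) :
    qcube t Q.1 Q.2 ⊆ qcube t X.1 X.2 := by
  intro y hy
  rw [mem_qcube_iff] at hy ⊢
  obtain ⟨h1, h2⟩ := h
  have key : ∀ j : ℕ, ∀ n : ℤ, qidx t (n + j) y = anc j (qidx t n y) := fun j => by
    induction j with
    | zero => intro n; simp [tree_anc_zero]
    | succ j ih =>
      intro n
      rw [tree_anc_succ', ← ih n]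
      funext i
      rw [par, qidx_pred t (n + ((j + 1 : ℕ) : ℤ)) y i]
      congr 2
      push_cast; ring
  have := key (X.1 - Q.1).toNat Q.1
  rw [show Q.1 + ((X.1 - Q.1).toNat : ℤ) = X.1 by omega] at this
  rw [this, hy, h2]

theorem tree_qctr_mem (t : E d) (n : ℤ) (k : Fin d → ℤ) : qctr t n k ∈ qcube t n k := by
  rw [mem_qcube_iff]
  funext i
  have h : (0 : ℝ) < 2 ^ n := zpow_pos two_pos n
  simp only [qidx, qctr, Int.floor_eq_iff, le_div_iff₀ h, div_lt_iff₀ h]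
  constructor <;> linarith

namespace Cfg

variable (c : Cfg d)

/-! ## Roots -/

theorem root_top (k : Fin d → ℤ) : c.root c.N0 k = (c.N0, k) := by
  simp [root, rootAux]

theorem root_succ {n : ℤ} (hn : n < c.N0) (k : Fin d → ℤ) :
    c.root n k = if Good c.g c.t (n + 1) (par k) ∧
        DirOK (c.edir (c.root (n + 1) (par k))) (qint c.g c.t n k)
      then c.root (n + 1) (par k) else (n, k) := by
  obtain ⟨m, hm⟩ : ∃ m : ℕ, (c.N0 - n).toNat = m + 1 := ⟨(c.N0 - n).toNat - 1, by omega⟩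
  have hm' : (c.N0 - (n + 1)).toNat = m := by omega
  have e1 : (c.N0 : ℤ) - ((m : ℕ) : ℤ) = n + 1 := by omega
  have e2 : (c.N0 : ℤ) - (((m + 1 : ℕ)) : ℤ) = n := by omega
  simp only [root, hm, hm', rootAux, edir, e1, e2]

theorem root_level {n : ℤ} {k : Fin d → ℤ} (hn : n ≤ c.N0) :
    n ≤ (c.root n k).1 ∧ (c.root n k).1 ≤ c.N0 := by
  obtain ⟨j, rfl⟩ : ∃ j : ℕ, n = c.N0 - j := ⟨(c.N0 - n).toNat, by omega⟩
  induction j generalizing k with
  | zero => simp [root_top]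
  | succ j ih =>
    rw [c.root_succ (by omega)]
    split
    · have h := ih (k := par k) (by omega)
      rw [show c.N0 - ((j + 1 : ℕ) : ℤ) + 1 = c.N0 - j by push_cast; ring]
      exact ⟨by omega, h.2⟩
    · exact ⟨le_rfl, by omega⟩

theorem root_eq_self {n : ℤ} {k : Fin d → ℤ} (hn : n < c.N0)
    (h : ¬ (Good c.g c.t (n + 1) (par k) ∧
      DirOK (c.edir (c.root (n + 1) (par k))) (qint c.g c.t n k))) :
    c.root n k = (n, k) := by
  rw [c.root_succ hn, if_neg h]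

theorem norm_edir_of_good {R : Cb d} (h : Good c.g c.t R.1 R.2) : ‖c.edir R‖ = 1 :=
  norm_smul_inv_norm h.1

theorem dirOK_self (n : ℤ) (k : Fin d → ℤ) : DirOK (c.edir (n, k)) (qint c.g c.t n k) := by
  simp only [DirOK, edir, dirv, real_inner_smul_left, real_inner_self_eq_norm_sq]
  have h := norm_nonneg (qint c.g c.t n k)
  rcases eq_or_lt_of_le h with h0 | h0
  · rw [← h0]; simp
  · rw [pow_two, ← mul_assoc, inv_mul_cancel₀ h0.ne', one_mul, sub_self]
    exact mul_nonneg (by norm_num [eta]) h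

theorem root_anc {n : ℤ} {k : Fin d → ℤ} (hn : n ≤ c.N0)
    (h : Good c.g c.t n k) (j : ℕ) (hj : n + j ≤ (c.root n k).1) :
    Good c.g c.t (n + j) (anc j k) ∧ c.root (n + j) (anc j k) = c.root n k := by
  induction j generalizing n k with
  | zero => simpa [tree_anc_zero] using h
  | succ j ih =>
    have hlv := c.root_level (k := k) hn
    have hlt : n < c.N0 := by omega
    by_cases hc : Good c.g c.t (n + 1) (par k) ∧
        DirOK (c.edir (c.root (n + 1) (par k))) (qint c.g c.t n k)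
    · have hr : c.root n k = c.root (n + 1) (par k) := by rw [c.root_succ hlt, if_pos hc]
      rw [hr] at hj ⊢
      have h2 := ih (n := n + 1) (k := par k) (by omega) hc.1 (by push_cast at hj; omega)
      rw [tree_anc_succ, show n + ((j + 1 : ℕ) : ℤ) = n + 1 + j by push_cast; ring]
      exact h2
    · rw [c.root_eq_self hlt hc] at hj
      simp only at hj
      omega

theorem root_spec {n : ℤ} {k : Fin d → ℤ} (hn : n ≤ c.N0)
    (h : Good c.g c.t n k) :
    n ≤ (c.root n k).1 ∧ (c.root n k).1 ≤ c.N0 ∧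
      anc ((c.root n k).1 - n).toNat k = (c.root n k).2 ∧
      c.IsRoot (c.root n k).1 (c.root n k).2 ∧
      DirOK (c.edir (c.root n k)) (qint c.g c.t n k) := by
  obtain ⟨j, rfl⟩ : ∃ j : ℕ, n = c.N0 - j := ⟨(c.N0 - n).toNat, by omega⟩
  induction j generalizing k with
  | zero =>
    simp only [Nat.cast_zero, sub_zero] at h ⊢
    rw [root_top]
    exact ⟨le_rfl, le_rfl, by simp [tree_anc_zero], ⟨h, root_top c k⟩, c.dirOK_self _ _⟩
  | succ j ih =>
    set n := c.N0 - ((j + 1 : ℕ) : ℤ) with hndef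
    have hlt : n < c.N0 := by omega
    by_cases hc : Good c.g c.t (n + 1) (par k) ∧
        DirOK (c.edir (c.root (n + 1) (par k))) (qint c.g c.t n k)
    · have hr : c.root n k = c.root (n + 1) (par k) := by rw [c.root_succ hlt, if_pos hc]
      have e : c.N0 - (j : ℤ) = n + 1 := by omega
      have h2 := ih (k := par k) (by omega) (by rw [e]; exact hc.1)
      rw [e] at h2
      obtain ⟨h21, h22, h23, h24, -⟩ := h2
      rw [hr]
      refine ⟨by omega, h22, ?_, h24, hc.2⟩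
      rw [show ((c.root (n + 1) (par k)).1 - n).toNat
        = ((c.root (n + 1) (par k)).1 - (n + 1)).toNat + 1 by omega, tree_anc_succ]
      exact h23
    · rw [c.root_eq_self hlt hc]
      exact ⟨le_rfl, by omega, by simp [tree_anc_zero], ⟨h, c.root_eq_self hlt hc⟩,
        c.dirOK_self _ _⟩

theorem good_root {n : ℤ} {k : Fin d → ℤ} (hn : n ≤ c.N0) (h : Good c.g c.t n k) :
    Good c.g c.t (c.root n k).1 (c.root n k).2 :=
  (c.root_spec hn h).2.2.2.1.1

theorem stop_le_iw {R : Cb d} {n : ℤ} {k : Fin d → ℤ} (hR : R.1 ≤ c.N0)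
    (h : c.IsStop R n k) : ‖qint c.g c.t n k‖ₑ ≤ c.iw n k := by
  obtain ⟨h1, h2, h3, h4⟩ := h
  rw [iw]
  refine le_trans ?_ le_self_add
  by_cases hg : Good c.g c.t n k
  · refine le_trans ?_ le_add_self
    have hlt : n < c.N0 := by omega
    have hr : c.root n k = (n, k) := by
      refine c.root_eq_self hlt fun hc => h4 ⟨hg, ?_⟩
      rw [c.root_succ hlt, if_pos hc, h3]
    rw [if_pos ⟨hlt, hg, hr⟩, rootW]
    exact le_self_add
  · refine le_trans ?_ le_self_add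
    rw [if_pos hg]
    exact le_self_add.trans le_self_add

/-! ## Neighbours have almost the same direction -/

theorem dir_sq_le {e a : E d} (he : ‖e‖ = 1) (ha : a ≠ 0) (h : DirOK e a) :
    ‖e - dirv a‖ ^ 2 ≤ 2 * eta := by
  have hn : (0 : ℝ) < ‖a‖ := norm_pos_iff.2 ha
  have h' : 1 - eta ≤ ⟪e, dirv a⟫ := by
    rw [dirv, inner_smul_right, inv_mul_eq_div, le_div_iff₀ hn]
    unfold DirOK at h
    linarith
  have hd : ‖dirv a‖ = 1 := norm_smul_inv_norm ha
  rw [norm_sub_sq_real, he, hd]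
  linarith

theorem pair_sq_le {n : ℤ} {k : Fin d → ℤ} {o : Fin d → Fin 9}
    (h : Good c.g c.t n k) (h' : Good c.g c.t n (nbr k o)) :
    ‖dirv (qint c.g c.t n k) - dirv (qint c.g c.t n (nbr k o))‖ ^ 2 ≤ 4 * eta := by
  set a := qint c.g c.t n k with ha
  set b := qint c.g c.t n (nbr k o) with hb
  have hna : (0 : ℝ) < ‖a‖ := norm_pos_iff.2 h.1
  have hnb : (0 : ℝ) < ‖b‖ := norm_pos_iff.2 h'.1
  have heta : (0 : ℝ) ≤ eta := by norm_num [eta]
  have hD : ∀ (k₁ k₂ : Fin d → ℤ) (o' : Fin d → Fin 9), Good c.g c.t n k₁ → nbr k₁ o' = k₂ →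
      pairD (qint c.g c.t n k₁) (qint c.g c.t n k₂) ≤ eta * ‖qint c.g c.t n k₁‖ := by
    intro k₁ k₂ o' hg he
    have h1 : ENNReal.ofReal (pairD (qint c.g c.t n k₁) (qint c.g c.t n k₂))
        ≤ qDst c.g c.t n k₁ := by
      have := Finset.single_le_sum (f := fun v : Fin d → Fin 9 =>
        ENNReal.ofReal (pairD (qint c.g c.t n k₁) (qint c.g c.t n (k₁ + noff v))))
        (fun _ _ => zero_le) (Finset.mem_univ o')
      rw [← he]
      exact this
    have h2 := h1.trans (le_add_self.trans hg.2)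
    rw [← ofReal_norm, ← ENNReal.ofReal_mul heta] at h2
    exact (ENNReal.ofReal_le_ofReal_iff (by positivity)).1 h2
  have d1 : pairD a b ≤ eta * ‖a‖ := hD k (nbr k o) o h rfl
  have d2 : pairD a b ≤ eta * ‖b‖ := by
    have hback : nbr (nbr k o) (fun i => ⟨8 - (o i : ℕ), by omega⟩) = k := by
      funext i
      have := (o i).isLt
      simp [nbr, noff]
      omega
    have := hD (nbr k o) k _ h' hback
    unfold pairD at this ⊢
    rwa [add_comm ‖b‖ ‖a‖, add_comm b a] at this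
  have hpair := pair_inner_ge a b
  have hcos : ‖a‖ * ‖b‖ - ⟪a, b⟫ ≤ 2 * eta * (‖a‖ * ‖b‖) := by
    have q1 := mul_le_mul_of_nonneg_right d2 hna.le
    have q2 := mul_le_mul_of_nonneg_right d1 hnb.le
    nlinarith [pairD_nonneg a b]
  have h' : 1 - 2 * eta ≤ ⟪dirv a, dirv b⟫ := by
    simp only [dirv, real_inner_smul_left, real_inner_smul_right]
    rw [← mul_assoc, ← mul_inv, inv_mul_eq_div, le_div_iff₀ (by positivity)]
    linarith
  have hda : ‖dirv a‖ = 1 := norm_smul_inv_norm (norm_pos_iff.1 hna)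
  have hdb : ‖dirv b‖ = 1 := norm_smul_inv_norm (norm_pos_iff.1 hnb)
  rw [norm_sub_sq_real, hda, hdb]
  linarith

theorem coherent {n m : ℤ} {k0 k1 k : Fin d → ℤ} {o : Fin d → Fin 9}
    (hn : n ≤ c.N0) (hm : m ≤ n) (h0 : Good c.g c.t n k0) (hk1 : k1 = nbr k0 o)
    (hk : anc (n - m).toNat k = k1) (h : Good c.g c.t m k) (hr : n ≤ (c.root m k).1) :
    (3 / 4 : ℝ) * ‖qint c.g c.t m k‖ ≤ ⟪c.edir (c.root n k0), qint c.g c.t m k⟫ := by
  have hj : m + ((n - m).toNat : ℤ) = n := by omega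
  obtain ⟨h1, h1r⟩ := c.root_anc (hm.trans hn) h (n - m).toNat (by omega)
  rw [hj, hk] at h1 h1r
  set e0 := c.edir (c.root n k0) with he0
  set e1 := c.edir (c.root m k) with he1
  set u := dirv (qint c.g c.t n k0)
  set v := dirv (qint c.g c.t n k1)
  set w := dirv (qint c.g c.t m k) with hw
  have a0 : ‖e0‖ = 1 := c.norm_edir_of_good (c.good_root hn h0)
  have a1 : ‖e1‖ = 1 := c.norm_edir_of_good (c.good_root (hm.trans hn) h)
  have s1 : ‖e0 - u‖ ≤ 1 / 10 := by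
    have := dir_sq_le a0 h0.1 (c.root_spec hn h0).2.2.2.2
    nlinarith [norm_nonneg (e0 - u), show eta = (1 / 200 : ℝ) from rfl]
  have s2 : ‖u - v‖ ≤ 3 / 20 := by
    subst hk1
    have := c.pair_sq_le (o := o) h0 h1
    nlinarith [norm_nonneg (u - v), show eta = (1 / 200 : ℝ) from rfl]
  have s3 : ‖v - e1‖ ≤ 1 / 10 := by
    have := dir_sq_le a1 h1.1 (by
      have := (c.root_spec hn h1).2.2.2.2
      rwa [h1r] at this)
    rw [norm_sub_rev] at this
    nlinarith [norm_nonneg (v - e1), show eta = (1 / 200 : ℝ) from rfl]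
  have s4 : ‖e1 - w‖ ≤ 1 / 10 := by
    have := dir_sq_le a1 h.1 (c.root_spec (hm.trans hn) h).2.2.2.2
    nlinarith [norm_nonneg (e1 - w), show eta = (1 / 200 : ℝ) from rfl]
  have s : ‖e0 - w‖ ≤ 9 / 20 := by
    have q1 := norm_sub_le_norm_sub_add_norm_sub e0 u w
    have q2 := norm_sub_le_norm_sub_add_norm_sub u v w
    have q3 := norm_sub_le_norm_sub_add_norm_sub v e1 w
    linarith
  have hw1 : ‖w‖ = 1 := norm_smul_inv_norm h.1
  have hin : 3 / 4 ≤ ⟪e0, w⟫ := by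
    have h2 : ‖e0 - w‖ ^ 2 ≤ (9 / 20) ^ 2 := pow_le_pow_left₀ (norm_nonneg _) s 2
    rw [norm_sub_sq_real, a0, hw1] at h2
    linarith
  rw [hw, dirv, inner_smul_right, inv_mul_eq_div,
    le_div_iff₀ (norm_pos_iff.2 h.1)] at hin
  exact hin

/-! ## Fronts -/

/-- `s` is a stop of `R` whose parent lies above a cube of `F`. -/
def StopHit (R : Cb d) (F : Finset (Cb d)) (s : Cb d) : Prop :=
  c.IsStop R s.1 s.2 ∧ ∃ Q ∈ F, Q.1 ≤ s.1 ∧ anc (s.1 + 1 - Q.1).toNat Q.2 = par s.2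

theorem exists_stopHit (R : Cb d) (F : Finset (Cb d)) (L : ℤ) :
    ∃ ST : Finset (Cb d), ∀ s, s ∈ ST ↔ c.StopHit R F s ∧ s.1 < L := by
  refine ⟨(F.biUnion fun Q => (Finset.Ico Q.1 L).biUnion fun n => Finset.univ.image fun b =>
    ((n, kid (anc (n + 1 - Q.1).toNat Q.2) b) : Cb d)).filter
      fun s => c.StopHit R F s ∧ s.1 < L, fun s => ?_⟩
  rw [Finset.mem_filter]
  refine ⟨fun h => h.2, fun h => ⟨?_, h⟩⟩
  obtain ⟨n, k⟩ := s
  obtain ⟨⟨-, Q, hQ, hQn, hQa⟩, hlt⟩ := h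
  obtain ⟨b, hb⟩ := tree_kid_par k
  exact Finset.mem_biUnion.2 ⟨Q, hQ, Finset.mem_biUnion.2 ⟨n, Finset.mem_Ico.2 ⟨hQn, hlt⟩,
    Finset.mem_image.2 ⟨b, Finset.mem_univ _, by rw [hQa, hb]⟩⟩⟩

theorem front_leaf {R X : Cb d} (hXR : X.1 ≤ c.N0) (hXg : Good c.g c.t X.1 X.2)
    (hXr : c.root X.1 X.2 = R) (F : Finset (Cb d)) (hsub : F.filter (Below X) ⊆ {X})
    {S : ℝ} (hS : 0 ≤ S) :
    (1 - eta) * ∑ Q ∈ F.filter (Below X), ‖qint c.g c.t Q.1 Q.2‖ ≤
      ⟪c.edir R, qint c.g c.t X.1 X.2⟫ + S := by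
  have hok := (c.root_spec hXR hXg).2.2.2.2
  rw [hXr, DirOK] at hok
  have h1 : ∑ Q ∈ F.filter (Below X), ‖qint c.g c.t Q.1 Q.2‖ ≤ ‖qint c.g c.t X.1 X.2‖ :=
    (Finset.sum_le_sum_of_subset_of_nonneg hsub fun _ _ _ => norm_nonneg _).trans
      (Finset.sum_singleton _ _).le
  have h3 : (0 : ℝ) ≤ 1 - eta := by norm_num [eta]
  linarith [mul_le_mul_of_nonneg_left h1 h3]

theorem sum_below_split {M : Type*} [AddCommMonoid M] (S : Finset (Cb d)) (X : Cb d)
    (f : Cb d → M) :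
    ∑ s ∈ S.filter (fun s => Below X s ∧ s ≠ X), f s =
      ∑ b : Fin d → Fin 2, ∑ s ∈ S.filter (Below (X.1 - 1, kid X.2 b)), f s := by
  have h : S.filter (fun s => Below X s ∧ s ≠ X)
      = Finset.univ.biUnion fun b => S.filter (Below (X.1 - 1, kid X.2 b)) := by
    ext s
    simp only [Finset.mem_filter, Finset.mem_biUnion, Finset.mem_univ, true_and]
    exact ⟨fun ⟨hs, hb⟩ => (below_iff_kid.1 hb).imp fun _ hb' => ⟨hs, hb'⟩,
      fun ⟨b, hs, hb⟩ => ⟨hs, below_iff_kid.2 ⟨b, hb⟩⟩⟩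
  rw [h, Finset.sum_biUnion]
  intro b _ b' _ hbb
  refine Finset.disjoint_left.2 fun Q h1 h2 => hbb ?_
  rw [Finset.mem_filter] at h1 h2
  exact below_kid_unique h1.2 h2.2

theorem single_le_below (ST : Finset (Cb d)) {X : Cb d} (h : X ∈ ST) (f : Cb d → ℝ)
    (hf : ∀ s, 0 ≤ f s) : f X ≤ ∑ s ∈ ST.filter (Below X), f s :=
  Finset.single_le_sum (fun s _ => hf s) (Finset.mem_filter.2 ⟨h, below_self X⟩)

/-- A child outside the tree is a stop and has no cube of the front below it. -/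
theorem front_child {R X : Cb d} (hR : R.1 ≤ c.N0) (hXR : X.1 ≤ R.1)
    (hXg : Good c.g c.t X.1 X.2) (hXr : c.root X.1 X.2 = R) (F : Finset (Cb d))
    (hF : ∀ Q ∈ F, Good c.g c.t Q.1 Q.2 ∧ c.root Q.1 Q.2 = R)
    (b : Fin d → Fin 2)
    (hout : ¬ (Good c.g c.t (X.1 - 1) (kid X.2 b) ∧ c.root (X.1 - 1) (kid X.2 b) = R))
    {Q0 : Cb d} (hQ0 : Q0 ∈ F) (hb0 : Below X Q0) (hne0 : Q0 ≠ X) :
    F.filter (Below (X.1 - 1, kid X.2 b)) = ∅ ∧ c.StopHit R F (X.1 - 1, kid X.2 b) := by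
  constructor
  · refine Finset.filter_eq_empty_iff.2 fun Q hQ hb => hout ?_
    obtain ⟨hQg, hQr⟩ := hF Q hQ
    have hb1 : Q.1 ≤ X.1 - 1 := hb.1
    have hb2 : anc (X.1 - 1 - Q.1).toNat Q.2 = kid X.2 b := hb.2
    have h := c.root_anc (show Q.1 ≤ c.N0 by omega) hQg (X.1 - 1 - Q.1).toNat
      (by rw [hQr]; omega)
    rw [show Q.1 + ((X.1 - 1 - Q.1).toNat : ℤ) = X.1 - 1 by omega, hb2, hQr] at h
    exact h
  · have e : X.1 - 1 + 1 = X.1 := by omega
    refine ⟨⟨show X.1 - 1 < R.1 by omega, ?_, ?_, hout⟩, Q0, hQ0, ?_, ?_⟩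
    · rw [e, tree_par_kid]; exact hXg
    · rw [e, tree_par_kid]; exact hXr
    · obtain ⟨b', hb'⟩ := below_iff_kid.1 ⟨hb0, hne0⟩
      exact hb'.1
    · rw [e, tree_par_kid]; exact hb0.2

theorem front_aux (hg : Integrable c.g) {R : Cb d} (hR : R.1 ≤ c.N0)
    (he : ‖c.edir R‖ = 1) (F : Finset (Cb d))
    (hF : ∀ Q ∈ F, Good c.g c.t Q.1 Q.2 ∧ c.root Q.1 Q.2 = R)
    (hdisj : (F : Set (Cb d)).Pairwise fun Q Q' =>
      Disjoint (qcube c.t Q.1 Q.2) (qcube c.t Q'.1 Q'.2))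
    (ST : Finset (Cb d)) (hST : ∀ s, c.StopHit R F s → s ∈ ST)
    (m : ℕ) : ∀ X : Cb d, X.1 ≤ R.1 → Good c.g c.t X.1 X.2 → c.root X.1 X.2 = R →
      (∀ Q ∈ F, Below X Q → X.1 - Q.1 ≤ m) →
      (1 - eta) * ∑ Q ∈ F.filter (Below X), ‖qint c.g c.t Q.1 Q.2‖ ≤
        ⟪c.edir R, qint c.g c.t X.1 X.2⟫ +
          ∑ s ∈ ST.filter (fun s => Below X s ∧ s ≠ X), ‖qint c.g c.t s.1 s.2‖ := by
  induction m with
  | zero =>
    intro X hXR hXg hXr hm
    refine c.front_leaf (hXR.trans hR) hXg hXr F (fun Q hQ => ?_)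
      (Finset.sum_nonneg fun _ _ => norm_nonneg _)
    rw [Finset.mem_filter] at hQ
    rw [Finset.mem_singleton]
    by_contra hne
    obtain ⟨b, hb⟩ := below_iff_kid.1 ⟨hQ.2, hne⟩
    have h1 : Q.1 ≤ X.1 - 1 := hb.1
    have h2 := hm Q hQ.1 hQ.2
    omega
  | succ m ih =>
    intro X hXR hXg hXr hm
    by_cases hsub : F.filter (Below X) ⊆ {X}
    · exact c.front_leaf (hXR.trans hR) hXg hXr F hsub
        (Finset.sum_nonneg fun _ _ => norm_nonneg _)
    obtain ⟨Q0, hQ0, hne0⟩ := Finset.not_subset.1 hsub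
    rw [Finset.mem_filter] at hQ0
    rw [Finset.mem_singleton] at hne0
    have hXF : X ∉ F := fun h => Set.disjoint_left.1 (hdisj hQ0.1 h hne0)
      (tree_qctr_mem c.t Q0.1 Q0.2) (below_subset c.t hQ0.2 (tree_qctr_mem c.t Q0.1 Q0.2))
    have hFe : F.filter (Below X) = F.filter (fun Q => Below X Q ∧ Q ≠ X) :=
      Finset.filter_congr fun Q hQ => (and_iff_left (fun h : Q = X => hXF (h ▸ hQ))).symm
    have hI : qint c.g c.t X.1 X.2
        = ∑ b : Fin d → Fin 2, qint c.g c.t (X.1 - 1) (kid X.2 b) := by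
      rw [qint_eq_sum_desc (t := c.t) hg X.1 X.2 1]
      exact Fintype.sum_congr _ _ fun b => by rw [desc_one, Nat.cast_one]
    rw [hFe, sum_below_split, sum_below_split, hI, inner_sum, Finset.mul_sum,
      ← Finset.sum_add_distrib]
    refine Finset.sum_le_sum fun b _ => ?_
    by_cases hin : Good c.g c.t (X.1 - 1) (kid X.2 b) ∧ c.root (X.1 - 1) (kid X.2 b) = R
    · have h1 := ih (X.1 - 1, kid X.2 b) (show X.1 - 1 ≤ R.1 by omega) hin.1 hin.2 fun Q hQ hb => by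
        have h2 := hm Q hQ (below_iff_kid.2 ⟨b, hb⟩).1
        show X.1 - 1 - Q.1 ≤ (m : ℤ)
        omega
      refine h1.trans (add_le_add le_rfl ?_)
      exact Finset.sum_le_sum_of_subset_of_nonneg
        (fun s hs => Finset.mem_filter.2
          ⟨(Finset.mem_filter.1 hs).1, (Finset.mem_filter.1 hs).2.1⟩)
        (fun _ _ _ => norm_nonneg _)
    · obtain ⟨hnone, hstop⟩ := c.front_child hR hXR hXg hXr F hF b hin hQ0.1 hQ0.2 hne0
      rw [hnone, Finset.sum_empty, mul_zero]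
      have h4 : ‖qint c.g c.t (X.1 - 1) (kid X.2 b)‖
          ≤ ∑ s ∈ ST.filter (Below (X.1 - 1, kid X.2 b)), ‖qint c.g c.t s.1 s.2‖ :=
        single_le_below ST (hST _ hstop) (fun s : Cb d => ‖qint c.g c.t s.1 s.2‖)
          fun _ => norm_nonneg _
      have h5 := (abs_le.1 (abs_real_inner_le_norm (c.edir R)
        (qint c.g c.t (X.1 - 1) (kid X.2 b)))).1
      rw [he, one_mul] at h5
      linarith

theorem front_real (hg : Integrable c.g) {R P : Cb d}
    (hP : P.1 ≤ c.N0) (hPg : Good c.g c.t P.1 P.2) (hPR : c.root P.1 P.2 = R) (F : Finset (Cb d))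
    (hF : ∀ Q ∈ F, c.Mb ≤ Q.1 ∧ Q.1 ≤ P.1 ∧ anc (P.1 - Q.1).toNat Q.2 = P.2 ∧
      Good c.g c.t Q.1 Q.2 ∧ c.root Q.1 Q.2 = R)
    (hdisj : (F : Set (Cb d)).Pairwise fun Q Q' =>
      Disjoint (qcube c.t Q.1 Q.2) (qcube c.t Q'.1 Q'.2))
    (ST : Finset (Cb d)) (hST : ∀ s, c.StopHit R F s → s.1 < P.1 → s ∈ ST) :
    ∑ Q ∈ F, ‖qint c.g c.t Q.1 Q.2‖ ≤
      2 * ‖qint c.g c.t P.1 P.2‖ + 2 * ∑ s ∈ ST, ‖qint c.g c.t s.1 s.2‖ := by
  have hlv := c.root_level (k := P.2) hP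
  rw [hPR] at hlv
  have he : ‖c.edir R‖ = 1 := by
    have h := c.norm_edir_of_good (c.good_root hP hPg)
    rwa [hPR] at h
  obtain ⟨S', hS'⟩ := c.exists_stopHit R F R.1
  have hm := c.front_aux hg hlv.2 he F (fun Q hQ => (hF Q hQ).2.2.2) hdisj S'
    (fun s hs => (hS' s).2 ⟨hs, hs.1.1⟩) (P.1 - c.Mb).toNat P hlv.1 hPg hPR fun Q hQ _ => by
      have := (hF Q hQ).1; omega
  rw [Finset.filter_true_of_mem fun Q hQ => ⟨(hF Q hQ).2.1, (hF Q hQ).2.2.1⟩] at hm
  have h2 : ∑ s ∈ S'.filter (fun s => Below P s ∧ s ≠ P), ‖qint c.g c.t s.1 s.2‖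
      ≤ ∑ s ∈ ST, ‖qint c.g c.t s.1 s.2‖ := by
    refine Finset.sum_le_sum_of_subset_of_nonneg (fun s hs => ?_) (fun _ _ _ => norm_nonneg _)
    rw [Finset.mem_filter, hS'] at hs
    refine hST s hs.1.1 ?_
    obtain ⟨b, hb⟩ := below_iff_kid.1 hs.2
    have h3 : s.1 ≤ P.1 - 1 := hb.1
    omega
  have h1 := (abs_le.1 (abs_real_inner_le_norm (c.edir R) (qint c.g c.t P.1 P.2))).2
  rw [he, one_mul] at h1
  have h0 : 0 ≤ ∑ Q ∈ F, ‖qint c.g c.t Q.1 Q.2‖ := Finset.sum_nonneg fun _ _ => norm_nonneg _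
  have hS0 : 0 ≤ ∑ s ∈ ST, ‖qint c.g c.t s.1 s.2‖ := Finset.sum_nonneg fun _ _ => norm_nonneg _
  have heq : eta = (1 / 200 : ℝ) := rfl
  rw [heq] at hm
  linarith [norm_nonneg (qint c.g c.t P.1 P.2)]

theorem tree_sum_le_tsum {α : Type*} (S : Finset (ℤ × α)) (I : Finset ℤ) (hI : ∀ s ∈ S, s.1 ∈ I)
    (φ : ℤ → α → ℝ≥0∞) : ∑ s ∈ S, φ s.1 s.2 ≤ ∑ n ∈ I, ∑' k, φ n k := by
  calc ∑ s ∈ S, φ s.1 s.2 ≤ ∑ s ∈ I ×ˢ S.image Prod.snd, φ s.1 s.2 :=
        Finset.sum_le_sum_of_subset fun s hs =>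
          Finset.mem_product.2 ⟨hI s hs, Finset.mem_image_of_mem _ hs⟩
    _ ≤ _ := by
        rw [Finset.sum_product]
        exact Finset.sum_le_sum fun n _ => ENNReal.sum_le_tsum _

/-- Disjoint cubes of one tree below a cube of it; the stops are children of strict ancestors. -/
theorem front (hg : Integrable c.g) {R P : Cb d}
    (hP : P.1 ≤ c.N0) (hPg : Good c.g c.t P.1 P.2) (hPR : c.root P.1 P.2 = R) (F : Finset (Cb d))
    (hF : ∀ Q ∈ F, c.Mb ≤ Q.1 ∧ Q.1 ≤ P.1 ∧ anc (P.1 - Q.1).toNat Q.2 = P.2 ∧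
      Good c.g c.t Q.1 Q.2 ∧ c.root Q.1 Q.2 = R)
    (hdisj : (F : Set (Cb d)).Pairwise fun Q Q' =>
      Disjoint (qcube c.t Q.1 Q.2) (qcube c.t Q'.1 Q'.2)) :
    ∑ Q ∈ F, ‖qint c.g c.t Q.1 Q.2‖ₑ ≤ 2 * ‖qint c.g c.t P.1 P.2‖ₑ +
      2 * ∑ n ∈ Finset.Ico c.Mb P.1, ∑' k : Fin d → ℤ,
        if c.IsStop R n k ∧ (∃ Q ∈ F, Q.1 ≤ n ∧ anc (n + 1 - Q.1).toNat Q.2 = par k)
        then ‖qint c.g c.t n k‖ₑ else 0 := by
  obtain ⟨ST, hST⟩ := c.exists_stopHit R F P.1
  have hreal := ENNReal.ofReal_le_ofReal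
    (c.front_real hg hP hPg hPR F hF hdisj ST fun s h1 h2 => (hST s).2 ⟨h1, h2⟩)
  rw [ENNReal.ofReal_sum_of_nonneg fun _ _ => norm_nonneg _, ENNReal.ofReal_add (by positivity)
      (by positivity), ENNReal.ofReal_mul zero_le_two, ENNReal.ofReal_mul zero_le_two,
    ENNReal.ofReal_sum_of_nonneg fun _ _ => norm_nonneg _, ENNReal.ofReal_ofNat] at hreal
  simp only [ofReal_norm] at hreal
  refine hreal.trans (add_le_add le_rfl (mul_le_mul_right ?_ _))
  refine le_trans (Finset.sum_le_sum fun s hs => ?_)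
    (tree_sum_le_tsum ST (Finset.Ico c.Mb P.1) (fun s hs => ?_) fun n k =>
      if c.IsStop R n k ∧ (∃ Q ∈ F, Q.1 ≤ n ∧ anc (n + 1 - Q.1).toNat Q.2 = par k)
      then ‖qint c.g c.t n k‖ₑ else 0)
  · exact (if_pos ((hST s).1 hs).1).ge
  · obtain ⟨⟨-, Q, hQ, hQs, -⟩, hlt⟩ := (hST s).1 hs
    exact Finset.mem_Ico.2 ⟨(hF Q hQ).1.trans hQs, hlt⟩

/-! ## Totals -/

/-- The oscillation of one level. -/
def oscLev (n : ℤ) : ℝ≥0∞ := ∑' k, (qPsi c.g c.t n k + qDst c.g c.t n k)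

/-- The roots of one level. -/
def rootLev (n : ℤ) : ℝ≥0∞ :=
  ∑' k, if c.IsRoot n k then ‖qint c.g c.t n k‖ₑ else 0

/-- The cubes of one level measured against the direction of their roots. -/
def defLev (n : ℤ) : ℝ≥0∞ :=
  ∑' k, if Good c.g c.t n k then
    ENNReal.ofReal (‖qint c.g c.t n k‖ - ⟪c.edir (c.root n k), qint c.g c.t n k⟫) else 0

theorem bad_le {n : ℤ} {k : Fin d → ℤ} (h : ¬ Good c.g c.t n k) :
    ‖qint c.g c.t n k‖ₑ + qPsi c.g c.t n k + qDst c.g c.t n k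
      ≤ 201 * (qPsi c.g c.t n k + qDst c.g c.t n k) := by
  have key : ‖qint c.g c.t n k‖ₑ ≤ 200 * (qPsi c.g c.t n k + qDst c.g c.t n k) := by
    by_cases h0 : qint c.g c.t n k = 0
    · simp [h0]
    · have h1 : ENNReal.ofReal eta * ‖qint c.g c.t n k‖ₑ ≤ qPsi c.g c.t n k + qDst c.g c.t n k :=
        (not_le.1 fun hle => h ⟨h0, hle⟩).le
      calc ‖qint c.g c.t n k‖ₑ = 200 * (ENNReal.ofReal eta * ‖qint c.g c.t n k‖ₑ) := by
            rw [← mul_assoc, ← ENNReal.ofReal_ofNat 200, ← ENNReal.ofReal_mul (by norm_num),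
              show (200 : ℝ) * eta = 1 by norm_num [eta], ENNReal.ofReal_one, one_mul]
        _ ≤ _ := mul_le_mul_right h1 _
  calc _ = ‖qint c.g c.t n k‖ₑ + (qPsi c.g c.t n k + qDst c.g c.t n k) := add_assoc _ _ _
    _ ≤ 200 * (qPsi c.g c.t n k + qDst c.g c.t n k) + (qPsi c.g c.t n k + qDst c.g c.t n k) :=
        add_le_add key le_rfl
    _ = _ := by ring

theorem eta_mul_le_of_not_dirOK {e a : E d} (h : ¬ DirOK e a) :
    ‖a‖ₑ ≤ 200 * ENNReal.ofReal (‖a‖ - ⟪e, a⟫) := by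
  unfold DirOK at h
  rw [← ofReal_norm, ← ENNReal.ofReal_ofNat 200, ← ENNReal.ofReal_mul (by norm_num)]
  refine ENNReal.ofReal_le_ofReal ?_
  have := norm_nonneg a
  nlinarith [show eta = (1 / 200 : ℝ) from rfl, not_le.1 h]

/-- The frontier identity of one level, as an inequality. -/
theorem level_step_le (hg : Integrable c.g) {n : ℤ} (hn : n < c.N0) :
    c.rootLev n + 200 * c.defLev n ≤ 600 * c.oscLev (n + 1) + 200 * c.defLev (n + 1) := by
  simp only [rootLev, defLev, oscLev]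
  rw [← Sys.tsum_kid (f := fun k => if c.IsRoot n k then ‖qint c.g c.t n k‖ₑ else 0),
    ← Sys.tsum_kid (f := fun k => if Good c.g c.t n k then ENNReal.ofReal
      (‖qint c.g c.t n k‖ - ⟪c.edir (c.root n k), qint c.g c.t n k⟫) else 0),
    ← ENNReal.tsum_mul_left, ← ENNReal.tsum_mul_left, ← ENNReal.tsum_mul_left, ← ENNReal.tsum_add,
    ← ENNReal.tsum_add]
  refine ENNReal.tsum_le_tsum fun p => ?_
  rw [Finset.mul_sum, ← Finset.sum_add_distrib]
  have hkids := sum_kid_enorm_le (t := c.t) hg (n + 1) p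
  rw [add_sub_cancel_right] at hkids
  have hself : ∀ b, ∀ (h : Good c.g c.t n (kid p b)), c.root n (kid p b) = (n, kid p b) →
      ENNReal.ofReal (‖qint c.g c.t n (kid p b)‖ -
        ⟪c.edir (c.root n (kid p b)), qint c.g c.t n (kid p b)⟫) = 0 := by
    intro b h hr
    rw [hr]
    refine ENNReal.ofReal_eq_zero.2 (le_of_eq ?_)
    simp only [edir, dirv, real_inner_smul_left, real_inner_self_eq_norm_sq]
    rw [pow_two, ← mul_assoc, inv_mul_cancel₀ (norm_pos_iff.2 h.1).ne', one_mul, sub_self]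
  by_cases hp : Good c.g c.t (n + 1) p
  · set e := c.edir (c.root (n + 1) p) with hedef
    have he : ‖e‖ = 1 := c.norm_edir_of_good (c.good_root (by omega) hp)
    have hnn : ∀ a : E d, 0 ≤ ‖a‖ - ⟪e, a⟫ := fun a => by
      have := real_inner_le_norm e a
      rw [he, one_mul] at this
      linarith
    have hterm : ∀ b : Fin d → Fin 2,
        ((if c.IsRoot n (kid p b) then ‖qint c.g c.t n (kid p b)‖ₑ else 0) +
          200 * (if Good c.g c.t n (kid p b) then ENNReal.ofReal (‖qint c.g c.t n (kid p b)‖ -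
            ⟪c.edir (c.root n (kid p b)), qint c.g c.t n (kid p b)⟫) else 0))
        ≤ 200 * ENNReal.ofReal (‖qint c.g c.t n (kid p b)‖ - ⟪e, qint c.g c.t n (kid p b)⟫) := by
      intro b
      by_cases hk : Good c.g c.t n (kid p b)
      · by_cases hdir : DirOK e (qint c.g c.t n (kid p b))
        · have hr : c.root n (kid p b) = c.root (n + 1) p := by
            rw [c.root_succ hn, tree_par_kid, if_pos ⟨hp, hdir⟩]
          have hnr : ¬ c.IsRoot n (kid p b) := fun h => by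
            have := (c.root_level (k := p) (show n + 1 ≤ c.N0 by omega)).1
            rw [← hr, h.2] at this
            simp only at this
            omega
          rw [if_neg hnr, if_pos hk, zero_add, hr]
        · have hr : c.root n (kid p b) = (n, kid p b) := by
            refine c.root_eq_self hn fun h => hdir ?_
            rw [tree_par_kid] at h
            exact h.2
          rw [if_pos hk, hself b hk hr, mul_zero, add_zero, if_pos ⟨hk, hr⟩]
          exact eta_mul_le_of_not_dirOK hdir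
      · rw [if_neg hk, if_neg fun h => hk h.1]
        simp
    have hsum : ∑ b : Fin d → Fin 2, (‖qint c.g c.t n (kid p b)‖ - ⟪e, qint c.g c.t n (kid p b)⟫)
        = (∑ b : Fin d → Fin 2, ‖qint c.g c.t n (kid p b)‖)
          - ⟪e, qint c.g c.t (n + 1) p⟫ := by
      rw [Finset.sum_sub_distrib, ← inner_sum]
      congr 2
      have h1 := qint_eq_sum_desc (t := c.t) hg (n + 1) p 1
      simp only [Nat.cast_one, add_sub_cancel_right] at h1
      rw [h1]
      exact Fintype.sum_congr _ _ fun b => by rw [desc_one]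
    refine (Finset.sum_le_sum fun b _ => hterm b).trans ?_
    rw [← Finset.mul_sum, ← ENNReal.ofReal_sum_of_nonneg (fun b _ => hnn _), hsum, if_pos hp,
      show (∑ b : Fin d → Fin 2, ‖qint c.g c.t n (kid p b)‖) - ⟪e, qint c.g c.t (n + 1) p⟫
        = ((∑ b : Fin d → Fin 2, ‖qint c.g c.t n (kid p b)‖) - ‖qint c.g c.t (n + 1) p‖)
          + (‖qint c.g c.t (n + 1) p‖ - ⟪e, qint c.g c.t (n + 1) p⟫) by ring]
    refine (mul_le_mul_right ENNReal.ofReal_add_le _).trans ?_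
    rw [mul_add]
    refine add_le_add ?_ le_rfl
    have h1 : ENNReal.ofReal ((∑ b : Fin d → Fin 2, ‖qint c.g c.t n (kid p b)‖)
        - ‖qint c.g c.t (n + 1) p‖) ≤ 2 * qPsi c.g c.t (n + 1) p := by
      rw [ENNReal.ofReal_sub _ (norm_nonneg _),
        ENNReal.ofReal_sum_of_nonneg (fun b _ => norm_nonneg _)]
      simp only [ofReal_norm]
      exact tsub_le_iff_left.2 hkids
    calc (200 : ℝ≥0∞) * ENNReal.ofReal ((∑ b : Fin d → Fin 2, ‖qint c.g c.t n (kid p b)‖)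
          - ‖qint c.g c.t (n + 1) p‖)
        ≤ 200 * (2 * qPsi c.g c.t (n + 1) p) := mul_le_mul_right h1 _
      _ ≤ 600 * (qPsi c.g c.t (n + 1) p + qDst c.g c.t (n + 1) p) := by
          rw [← mul_assoc]; exact mul_le_mul' (by norm_num) le_self_add
  · rw [if_neg hp, mul_zero, add_zero]
    calc ∑ b : Fin d → Fin 2, ((if c.IsRoot n (kid p b) then ‖qint c.g c.t n (kid p b)‖ₑ else 0) +
          200 * (if Good c.g c.t n (kid p b) then ENNReal.ofReal (‖qint c.g c.t n (kid p b)‖ -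
            ⟪c.edir (c.root n (kid p b)), qint c.g c.t n (kid p b)⟫) else 0))
        ≤ ∑ b : Fin d → Fin 2, ‖qint c.g c.t n (kid p b)‖ₑ := by
          refine Finset.sum_le_sum fun b _ => ?_
          by_cases hk : Good c.g c.t n (kid p b)
          · have hr : c.root n (kid p b) = (n, kid p b) := by
              refine c.root_eq_self hn fun h => hp ?_
              rw [tree_par_kid] at h
              exact h.1
            rw [if_pos hk, hself b hk hr, mul_zero, add_zero]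
            split <;> simp
          · rw [if_neg hk, if_neg fun h => hk h.1]
            simp
      _ ≤ ‖qint c.g c.t (n + 1) p‖ₑ + 2 * qPsi c.g c.t (n + 1) p := hkids
      _ ≤ 201 * (qPsi c.g c.t (n + 1) p + qDst c.g c.t (n + 1) p)
          + 2 * (qPsi c.g c.t (n + 1) p + qDst c.g c.t (n + 1) p) :=
          add_le_add (le_self_add.trans ((le_of_eq rfl).trans
            (le_self_add.trans (c.bad_le hp)))) (mul_le_mul_right le_self_add _)
      _ ≤ _ := by rw [← add_mul]; exact mul_le_mul_left (by norm_num) _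

theorem defLev_top : c.defLev c.N0 = 0 := by
  simp only [defLev, ENNReal.tsum_eq_zero]
  intro k
  split
  · rename_i h
    rw [root_top]
    refine ENNReal.ofReal_eq_zero.2 (le_of_eq ?_)
    simp only [edir, dirv, real_inner_smul_left, real_inner_self_eq_norm_sq]
    rw [pow_two, ← mul_assoc, inv_mul_cancel₀ (norm_pos_iff.2 h.1).ne', one_mul, sub_self]
  · rfl

theorem sum_rootLev_le (hg : Integrable c.g) (hM : c.Mb ≤ c.N0) :
    ∑ n ∈ Finset.Icc c.Mb c.N0, c.rootLev n ≤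
      gV c.g + 600 * ∑ n ∈ Finset.Icc c.Mb c.N0, c.oscLev n := by
  have htop : c.rootLev c.N0 ≤ gV c.g := by
    refine le_trans (ENNReal.tsum_le_tsum fun k => ?_) (gsum_le_gV (g := c.g) c.t c.N0)
    split <;> simp
  have key : ∀ j : ℕ, c.Mb + j ≤ c.N0 →
      (∑ n ∈ Finset.Ico (c.N0 - j) c.N0, c.rootLev n) + 200 * c.defLev (c.N0 - j)
        ≤ 600 * ∑ n ∈ Finset.Ico (c.N0 - j) c.N0, c.oscLev (n + 1) := by
    intro j
    induction j with
    | zero => intro _; simp [defLev_top]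
    | succ j ih =>
      intro hj
      have e : c.N0 - ((j + 1 : ℕ) : ℤ) + 1 = c.N0 - j := by push_cast; ring
      have hI : Finset.Ico (c.N0 - ((j + 1 : ℕ) : ℤ)) c.N0
          = insert (c.N0 - ((j + 1 : ℕ) : ℤ)) (Finset.Ico (c.N0 - j) c.N0) := by
        ext x; simp only [Finset.mem_Ico, Finset.mem_insert]; omega
      have hnot : c.N0 - ((j + 1 : ℕ) : ℤ) ∉ Finset.Ico (c.N0 - j) c.N0 := by
        simp only [Finset.mem_Ico]; omega
      have hstep := c.level_step_le hg (n := c.N0 - ((j + 1 : ℕ) : ℤ)) (by omega)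
      rw [e] at hstep
      rw [hI, Finset.sum_insert hnot, Finset.sum_insert hnot, e, mul_add]
      calc c.rootLev (c.N0 - ((j + 1 : ℕ) : ℤ)) + (∑ x ∈ Finset.Ico (c.N0 - ↑j) c.N0, c.rootLev x)
            + 200 * c.defLev (c.N0 - ((j + 1 : ℕ) : ℤ))
          = (c.rootLev (c.N0 - ((j + 1 : ℕ) : ℤ)) + 200 * c.defLev (c.N0 - ((j + 1 : ℕ) : ℤ)))
            + ∑ x ∈ Finset.Ico (c.N0 - ↑j) c.N0, c.rootLev x := by ring
        _ ≤ (600 * c.oscLev (c.N0 - ↑j) + 200 * c.defLev (c.N0 - ↑j))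
            + ∑ x ∈ Finset.Ico (c.N0 - ↑j) c.N0, c.rootLev x := add_le_add hstep le_rfl
        _ = 600 * c.oscLev (c.N0 - ↑j) + ((∑ x ∈ Finset.Ico (c.N0 - ↑j) c.N0, c.rootLev x)
            + 200 * c.defLev (c.N0 - ↑j)) := by ring
        _ ≤ _ := add_le_add le_rfl (ih (by push_cast at hj; omega))
  have hk := key (c.N0 - c.Mb).toNat (by omega)
  rw [show c.N0 - ((c.N0 - c.Mb).toNat : ℤ) = c.Mb by omega] at hk
  rw [← Finset.Ico_insert_right hM, Finset.sum_insert Finset.right_notMem_Ico]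
  refine add_le_add htop ((le_self_add.trans hk).trans (mul_le_mul_right ?_ _))
  rw [← Finset.sum_image (f := c.oscLev) (g := fun n : ℤ => n + 1)
    fun x _ y _ h => by simpa using h]
  refine Finset.sum_le_sum_of_subset fun x hx => ?_
  rw [Finset.mem_image] at hx
  obtain ⟨n, hn, rfl⟩ := hx
  rw [Finset.mem_Ico] at hn
  simp only [Finset.mem_insert, Finset.mem_Ico]
  omega

/-! ## The total weight -/

theorem tree_exchange {α β : Type*} (I J : Finset ℤ) (f : ℤ → α → ℤ → β → ℝ≥0∞) :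
    ∑ n ∈ I, ∑' k, ∑ m ∈ J, ∑' l, f n k m l = ∑ m ∈ J, ∑' l, ∑ n ∈ I, ∑' k, f n k m l :=
  calc ∑ n ∈ I, ∑' k, ∑ m ∈ J, ∑' l, f n k m l
      = ∑ n ∈ I, ∑ m ∈ J, ∑' k, ∑' l, f n k m l :=
        Finset.sum_congr rfl fun _ _ => Summable.tsum_finsetSum fun _ _ => ENNReal.summable
    _ = ∑ m ∈ J, ∑ n ∈ I, ∑' l, ∑' k, f n k m l := by
        rw [Finset.sum_comm]
        exact Finset.sum_congr rfl fun _ _ => Finset.sum_congr rfl fun _ _ => ENNReal.tsum_comm
    _ = _ :=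
        Finset.sum_congr rfl fun _ _ =>
          (Summable.tsum_finsetSum fun _ _ => ENNReal.summable).symm

/-- A cube is a stop of at most one tree, and then it is bad or a root. -/
theorem stop_owner_le (I : Finset ℤ) {m : ℤ} (hm : m < c.N0) (l : Fin d → ℤ) :
    ∑ n ∈ I, ∑' k, (if c.IsStop (n, k) m l then ‖qint c.g c.t m l‖ₑ else 0) ≤
      201 * (qPsi c.g c.t m l + qDst c.g c.t m l)
        + (if c.IsRoot m l then ‖qint c.g c.t m l‖ₑ else 0) := by
  set R0 := c.root (m + 1) (par l) with hR0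
  set B := 201 * (qPsi c.g c.t m l + qDst c.g c.t m l)
        + (if c.IsRoot m l then ‖qint c.g c.t m l‖ₑ else 0) with hB
  have hpt : ∀ p : Cb d,
      (if c.IsStop p m l then ‖qint c.g c.t m l‖ₑ else 0) ≤ if p = R0 then B else 0 := by
    intro p
    split_ifs with h1 h2
    · by_cases hg : Good c.g c.t m l
      · have hr : c.root m l = (m, l) := by
          refine c.root_eq_self hm fun hc => h1.2.2.2 ⟨hg, ?_⟩
          rw [c.root_succ hm, if_pos hc, h1.2.2.1]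
        rw [hB, if_pos ⟨hg, hr⟩]
        exact le_add_self
      · exact ((le_self_add.trans le_self_add).trans (c.bad_le hg)).trans le_self_add
    · exact absurd h1.2.2.1.symm h2
    · exact zero_le
    · exact le_rfl
  calc ∑ n ∈ I, ∑' k, (if c.IsStop (n, k) m l then ‖qint c.g c.t m l‖ₑ else 0)
      ≤ ∑ n ∈ I, ∑' k, (if ((n, k) : Cb d) = R0 then B else 0) :=
        Finset.sum_le_sum fun n _ => ENNReal.tsum_le_tsum fun k => hpt (n, k)
    _ ≤ ∑' (n : ℤ), ∑' k, (if ((n, k) : Cb d) = R0 then B else 0) := ENNReal.sum_le_tsum _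
    _ = ∑' p : Cb d, (if p = R0 then B else 0) :=
        (ENNReal.tsum_prod' (f := fun p : Cb d => if p = R0 then B else 0)).symm
    _ = B := by
        rw [tsum_eq_single R0 fun p hp => if_neg hp]
        exact if_pos rfl

theorem sum_rootW_le :
    ∑ n ∈ Finset.Icc c.Mb c.N0, ∑' k, (if c.IsRoot n k then c.rootW (n, k) else 0) ≤
      2 * (∑ n ∈ Finset.Icc c.Mb c.N0, c.rootLev n)
        + 201 * ∑ n ∈ Finset.Icc c.Mb c.N0, c.oscLev n := by
  have hsplit : ∀ n ∈ Finset.Icc c.Mb c.N0, ∀ k,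
      (if c.IsRoot n k then c.rootW (n, k) else 0) ≤
        (if c.IsRoot n k then ‖qint c.g c.t n k‖ₑ else 0) +
          ∑ m ∈ Finset.Ico c.Mb c.N0, ∑' l,
            if c.IsStop (n, k) m l then ‖qint c.g c.t m l‖ₑ else 0 := by
    intro n hn k
    split_ifs
    · exact add_le_add le_rfl (Finset.sum_le_sum_of_subset
        (Finset.Ico_subset_Ico le_rfl (Finset.mem_Icc.1 hn).2))
    · exact zero_le
  refine (Finset.sum_le_sum fun n hn => ENNReal.tsum_le_tsum (hsplit n hn)).trans ?_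
  simp only [ENNReal.tsum_add, Finset.sum_add_distrib]
  rw [tree_exchange (Finset.Icc c.Mb c.N0) (Finset.Ico c.Mb c.N0)
    fun n k m l => if c.IsStop (n, k) m l then ‖qint c.g c.t m l‖ₑ else 0]
  have h2 : ∑ m ∈ Finset.Ico c.Mb c.N0, ∑' l, ∑ n ∈ Finset.Icc c.Mb c.N0, ∑' k,
      (if c.IsStop (n, k) m l then ‖qint c.g c.t m l‖ₑ else 0) ≤
      ∑ m ∈ Finset.Icc c.Mb c.N0, (201 * c.oscLev m + c.rootLev m) := by
    refine le_trans (Finset.sum_le_sum fun m hm => ?_)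
      (Finset.sum_le_sum_of_subset Finset.Ico_subset_Icc_self)
    refine (ENNReal.tsum_le_tsum fun l => c.stop_owner_le _ (Finset.mem_Ico.1 hm).2 l).trans_eq ?_
    rw [ENNReal.tsum_add, ENNReal.tsum_mul_left]
    rfl
  refine (add_le_add (le_refl (∑ n ∈ Finset.Icc c.Mb c.N0, c.rootLev n)) h2).trans_eq ?_
  rw [Finset.sum_add_distrib, ← Finset.mul_sum]
  ring

theorem totW_le (hg : Integrable c.g) (hM : c.Mb ≤ c.N0) :
    c.totW ≤ 3 * gV c.g + 2000 * ∑ n ∈ Finset.Icc c.Mb c.N0, c.oscLev n := by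
  have hbad : ∑ n ∈ Finset.Icc c.Mb c.N0, ∑' k, (if ¬ Good c.g c.t n k then
      ‖qint c.g c.t n k‖ₑ + qPsi c.g c.t n k + qDst c.g c.t n k else 0) ≤
      201 * ∑ n ∈ Finset.Icc c.Mb c.N0, c.oscLev n := by
    rw [Finset.mul_sum]
    refine Finset.sum_le_sum fun n _ => ?_
    rw [oscLev, ← ENNReal.tsum_mul_left]
    refine ENNReal.tsum_le_tsum fun k => ?_
    split_ifs with h
    · exact zero_le
    · exact c.bad_le h
  have hbot : ∑ n ∈ Finset.Icc c.Mb c.N0, ∑' k,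
      (if n = c.Mb then ∫⁻ y in qcube c.t n k, ‖c.g y‖ₑ else 0) = gV c.g := by
    rw [Finset.sum_eq_single_of_mem c.Mb (Finset.mem_Icc.2 ⟨le_rfl, hM⟩)
      fun n _ hn => by simp [hn]]
    simp only [if_pos]
    exact tsum_setLIntegral_qcube c.t c.Mb _
  have hroot : (∑ n ∈ Finset.Icc c.Mb c.N0, ∑' k,
        (if n < c.N0 ∧ c.IsRoot n k then c.rootW (n, k) else 0))
      + ∑' k, (if c.IsRoot c.N0 k then c.rootW (c.N0, k) else 0)
      = ∑ n ∈ Finset.Icc c.Mb c.N0, ∑' k, (if c.IsRoot n k then c.rootW (n, k) else 0) := by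
    rw [← Finset.Ico_insert_right hM, Finset.sum_insert Finset.right_notMem_Ico,
      Finset.sum_insert Finset.right_notMem_Ico]
    simp only [lt_irrefl, false_and, if_false, tsum_zero, zero_add]
    rw [add_comm]
    refine congrArg₂ (· + ·) rfl (Finset.sum_congr rfl fun n hn => tsum_congr fun k => ?_)
    simp only [(Finset.mem_Ico.1 hn).2, true_and]
  have hR := c.sum_rootW_le.trans
    (add_le_add (mul_le_mul_right (c.sum_rootLev_le hg hM) 2) le_rfl)
  calc c.totW = (∑ n ∈ Finset.Icc c.Mb c.N0, ∑' k, (if ¬ Good c.g c.t n k then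
        ‖qint c.g c.t n k‖ₑ + qPsi c.g c.t n k + qDst c.g c.t n k else 0))
        + ((∑ n ∈ Finset.Icc c.Mb c.N0, ∑' k,
            (if n < c.N0 ∧ c.IsRoot n k then c.rootW (n, k) else 0))
          + ∑' k, (if c.IsRoot c.N0 k then c.rootW (c.N0, k) else 0))
        + ∑ n ∈ Finset.Icc c.Mb c.N0, ∑' k,
            (if n = c.Mb then ∫⁻ y in qcube c.t n k, ‖c.g y‖ₑ else 0) := by
        simp only [totW, iw, ENNReal.tsum_add, Finset.sum_add_distrib]
        ring
    _ ≤ 201 * (∑ n ∈ Finset.Icc c.Mb c.N0, c.oscLev n)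
        + (2 * (gV c.g + 600 * ∑ n ∈ Finset.Icc c.Mb c.N0, c.oscLev n)
          + 201 * ∑ n ∈ Finset.Icc c.Mb c.N0, c.oscLev n) + gV c.g := by
        rw [hroot, hbot]
        exact add_le_add (add_le_add hbad hR) le_rfl
    _ = 3 * gV c.g + 1602 * ∑ n ∈ Finset.Icc c.Mb c.N0, c.oscLev n := by ring
    _ ≤ _ := add_le_add le_rfl (mul_le_mul_left (by norm_num) _)

end Cfg

theorem sum_Icc_qPsi_le {g : E d → E d} (hg : Integrable g) (t : E d) (Mb N0 : ℤ) :
    ∑ n ∈ Finset.Icc Mb N0, ∑' k, qPsi g t n k ≤ cPsi * gV g := by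
  have h : Finset.Icc Mb N0
      = (Finset.range (N0 + 1 - Mb).toNat).image fun i : ℕ => N0 - (i : ℤ) := by
    ext x
    simp only [Finset.mem_Icc, Finset.mem_image, Finset.mem_range]
    exact ⟨fun hx => ⟨(N0 - x).toNat, by omega, by omega⟩, fun ⟨i, hi, e⟩ => by omega⟩
  rw [h, Finset.sum_image fun i _ j _ e => by simpa using e]
  exact ((ENNReal.sum_le_tsum _).trans (tsum_qPsi_le hg N0)).trans
    (mul_le_mul_right tsub_le_self _)

theorem sum_Icc_qDst_le {g : E d → E d} (hg : Integrable g) {Mb N0 : ℤ} {m : ℕ}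
    (hM : Mb ≤ N0) (hm : N0 + 4 ≤ Mb + m) :
    ∑ s : Fin d → Fin (2 ^ m), ∑ n ∈ Finset.Icc Mb N0, ∑' k, qDst g (qlat 0 Mb s) n k ≤
      (4 * 9 ^ d * 16 ^ d : ℕ) * (((2 ^ m) ^ d : ℕ) * gV g) := by
  have h : Finset.Icc Mb N0
      = (Finset.range ((N0 - Mb).toNat + 1)).image fun i : ℕ => Mb + (i : ℤ) := by
    ext x
    simp only [Finset.mem_Icc, Finset.mem_image, Finset.mem_range]
    exact ⟨fun hx => ⟨(x - Mb).toNat, by omega, by omega⟩, fun ⟨i, hi, e⟩ => by omega⟩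
  rw [h]
  refine (Finset.sum_congr rfl fun s _ => Finset.sum_image fun i _ j _ e => by
    simpa using e).trans_le ?_
  refine (sum_qDst_le hg 0 Mb m (N0 - Mb).toNat (by omega)).trans (mul_le_mul_right ?_ _)
  refine (Finset.sum_le_sum fun s _ => tsub_le_self).trans_eq ?_
  simp [Finset.sum_const, Fintype.card_fin]

/-- The averaged total of all items and trees is controlled by the mass. -/
theorem totW_avg (_hd : 2 ≤ d) : ∃ C : ℝ≥0∞, C ≠ ⊤ ∧
    ∀ (g : E d → E d) (Mb M N0 : ℤ) (m : ℕ), Integrable g → Mb ≤ M → M ≤ N0 →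
      N0 + 4 ≤ Mb + m →
      avgShift Mb m (fun t => (⟨g, t, Mb, M, N0⟩ : Cfg d).totW) ≤ C * ∫⁻ y, ‖g y‖ₑ := by
  refine ⟨3 + 2000 * cPsi + 2000 * (4 * 9 ^ d * 16 ^ d : ℕ), ?_, ?_⟩
  · exact ENNReal.add_ne_top.2 ⟨ENNReal.add_ne_top.2 ⟨ENNReal.ofNat_ne_top,
      ENNReal.mul_ne_top ENNReal.ofNat_ne_top cPsi_ne_top⟩,
      ENNReal.mul_ne_top ENNReal.ofNat_ne_top (ENNReal.natCast_ne_top _)⟩
  intro g Mb M N0 m hg hMb hM hm
  set P : ℝ≥0∞ := (((2 ^ m) ^ d : ℕ) : ℝ≥0∞) with hP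
  refine ENNReal.div_le_of_le_mul ?_
  change ∑ s : Fin d → Fin (2 ^ m), (⟨g, qlat 0 Mb s, Mb, M, N0⟩ : Cfg d).totW
    ≤ _ * gV g * P
  have h1 : ∀ s : Fin d → Fin (2 ^ m), (⟨g, qlat 0 Mb s, Mb, M, N0⟩ : Cfg d).totW ≤
      (3 + 2000 * cPsi) * gV g
        + 2000 * ∑ n ∈ Finset.Icc Mb N0, ∑' k, qDst g (qlat 0 Mb s) n k := by
    intro s
    refine ((⟨g, qlat 0 Mb s, Mb, M, N0⟩ : Cfg d).totW_le hg (hMb.trans hM)).trans ?_
    simp only [Cfg.oscLev, ENNReal.tsum_add, Finset.sum_add_distrib]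
    rw [add_mul, mul_add, mul_assoc, ← add_assoc]
    exact add_le_add (add_le_add le_rfl (mul_le_mul_right (sum_Icc_qPsi_le hg _ _ _) _)) le_rfl
  refine (Finset.sum_le_sum fun s _ => h1 s).trans ?_
  have hc : ∀ a : ℝ≥0∞, ∑ _s : Fin d → Fin (2 ^ m), a = P * a := fun a => by
    simp [hP, Finset.sum_const, Fintype.card_fin]
  rw [Finset.sum_add_distrib, hc, ← Finset.mul_sum]
  refine (add_le_add le_rfl
    (mul_le_mul_right (sum_Icc_qDst_le hg (hMb.trans hM) hm) _)).trans_eq ?_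
  rw [← hP]
  ring

end

end Vale.Agent.P137.Cen
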