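import Vale.Agent.P137.Cen.SegItems
import Vale.Agent.P137.Cen.Trees

/-!
# P137, centred operator: geometry of the records comparison, stops below members, fronts
-/

open MeasureTheory Metric Set
open scoped ENNReal RealInnerProductSpace

namespace Vale.Agent.P137.Cen

open Vale.Agent.P137.Unc (E)

noncomputable section

attribute [local instance] Classical.propDecidable

variable {d : ℕ}

/-! ## Real inequalities -/

/-- A cube deep inside a ball and far from the pole is deep inside the larger balls of the ray. -/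
theorem inside_push {q x c0 : E d} {r r1 D k lam : ℝ} (hlam : 2 ≤ lam) (hk : 0 ≤ k) (hD : 0 ≤ D)
    (hDa : 100 * D ≤ ‖x - q‖) (hr : r ≤ ‖x - q‖ + D) (hr1 : lam * ‖x - q‖ - D ≤ r1)
    (hin : ‖x - c0‖ + k ≤ r) (hfar : 10 * (‖x - q‖ * D) ≤ ‖c0 - q‖ ^ 2) :
    ‖q + lam • (x - q) - c0‖ + k / 3 ≤ r1 := by
  set a := ‖x - q‖ with ha
  set ρ := ‖c0 - q‖ with hρ
  have h1 : ‖x - c0‖ ≤ a + D - k := by linarith
  have hkD : k ≤ a + D := by linarith [norm_nonneg (x - c0)]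
  have hid : ‖q + lam • (x - q) - c0‖ ^ 2
      = lam * ‖x - c0‖ ^ 2 + (1 - lam) * ρ ^ 2 + (lam ^ 2 - lam) * a ^ 2 := by
    rw [show q + lam • (x - q) - c0 = lam • (x - q) - (c0 - q) by abel,
      show x - c0 = (x - q) - (c0 - q) by abel, ha, hρ, norm_sub_sq_real (lam • (x - q)),
      norm_sub_sq_real (x - q), norm_smul, Real.norm_of_nonneg (by linarith), real_inner_smul_left]
    ring
  have ha0 : 0 ≤ a := norm_nonneg _
  have hrhs : 0 ≤ lam * a - D - k / 3 := by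
    nlinarith [mul_le_mul_of_nonneg_right hlam ha0]
  have hsq : ‖q + lam • (x - q) - c0‖ ^ 2 ≤ (lam * a - D - k / 3) ^ 2 := by
    rw [hid]
    have h3 : ‖x - c0‖ ^ 2 ≤ (a + D - k) ^ 2 := pow_le_pow_left₀ (norm_nonneg _) h1 2
    have h4 : lam * ‖x - c0‖ ^ 2 ≤ lam * (a + D - k) ^ 2 :=
      mul_le_mul_of_nonneg_left h3 (by linarith)
    have h5 : (lam - 1) * (10 * (a * D)) ≤ (lam - 1) * ρ ^ 2 :=
      mul_le_mul_of_nonneg_left hfar (by linarith)
    have h6 : D * D ≤ a * D := by nlinarith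
    have h7 : k * k ≤ k * (a + D) := mul_le_mul_of_nonneg_left hkD hk
    have h8 : k * D ≤ k * (a / 3) := mul_le_mul_of_nonneg_left (by linarith) hk
    have h9 : (D - k) ^ 2 ≤ a * D + 4 / 3 * (a * k) := by
      nlinarith [mul_nonneg hD hk]
    have h10 : lam * (D - k) ^ 2 ≤ lam * (a * D + 4 / 3 * (a * k)) :=
      mul_le_mul_of_nonneg_left h9 (by linarith)
    have h11 : 0 ≤ (lam - 2) * (a * D) := mul_nonneg (by linarith) (mul_nonneg ha0 hD)
    nlinarith [sq_nonneg (D + k / 3)]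
  have h12 := (pow_le_pow_iff_left₀ (norm_nonneg _) hrhs two_ne_zero).1 hsq
  linarith

/-- Scales above a length, weighted by that length over the scale. -/
theorem sum_ratio_le {ρ : ℝ} (hρ : 0 ≤ ρ) (N : Finset ℤ) :
    ∑ n ∈ N, (if ρ ≤ 20 * (2 : ℝ) ^ n then ρ / 2 ^ n else 0) ≤ 160 := by
  rcases hρ.eq_or_lt with rfl | hpos
  · simp
  set n0 := Int.log 2 (ρ / 20)
  have h0 : (2 : ℝ) ^ n0 ≤ ρ / 20 := Int.zpow_log_le_self (b := 2) one_lt_two (by positivity)
  have h1 : ρ / 20 < (2 : ℝ) ^ (n0 + 1) := Int.lt_zpow_succ_log_self (b := 2) one_lt_two (ρ / 20)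
  rw [← Finset.sum_filter]
  have hge : ∀ n ∈ N.filter (fun n => ρ ≤ 20 * (2 : ℝ) ^ n), n0 ≤ n := fun n hn => by
    have h2 : (2 : ℝ) ^ n0 ≤ 2 ^ n := h0.trans (by
      rw [div_le_iff₀ (by norm_num : (0 : ℝ) < 20)]; linarith [(Finset.mem_filter.1 hn).2])
    exact (zpow_le_zpow_iff_right₀ one_lt_two).1 h2
  calc ∑ n ∈ N.filter (fun n => ρ ≤ 20 * (2 : ℝ) ^ n), ρ / 2 ^ n
      ≤ ∑ n ∈ N.filter (fun n => ρ ≤ 20 * (2 : ℝ) ^ n), 40 * geo n0 n := by
        refine Finset.sum_le_sum fun n hn => ?_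
        refine le_trans ?_ (mul_le_mul_of_nonneg_left (zpow_le_geo (hge n hn)) (by norm_num))
        rw [zpow_sub₀ two_ne_zero, div_le_iff₀ (by positivity), mul_assoc,
          div_mul_cancel₀ _ (by positivity)]
        rw [zpow_add_one₀ two_ne_zero] at h1
        linarith
    _ ≤ 40 * 4 := by
        rw [← Finset.mul_sum]
        exact mul_le_mul_of_nonneg_left (geo_sum_le n0 _ hge) (by norm_num)
    _ = 160 := by norm_num

/-! ## Nested cubes -/

theorem below_mono {X Y G : Cb d} (hX : Below X G) (hY : Below Y G) (h : Y.1 ≤ X.1) :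
    Below X Y := by
  refine ⟨h, ?_⟩
  obtain ⟨hX1, hX2⟩ := hX
  obtain ⟨hY1, hY2⟩ := hY
  rw [← hY2, tree_anc_anc, show (Y.1 - G.1).toNat + (X.1 - Y.1).toNat = (X.1 - G.1).toNat by omega,
    hX2]

theorem below_par {G : Cb d} : Below ((G.1 + 1, par G.2) : Cb d) G := by
  refine ⟨by show G.1 ≤ G.1 + 1; omega, ?_⟩
  show anc (G.1 + 1 - G.1).toNat G.2 = par G.2
  rw [show (G.1 + 1 - G.1).toNat = 1 by omega, tree_par_eq_anc]

theorem norm_qctr_below_le (t : E d) {X Y : Cb d} (h : Below X Y) :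
    ‖qctr t Y.1 Y.2 - qctr t X.1 X.2‖ ≤ Real.sqrt d * (2 : ℝ) ^ X.1 / 2 :=
  norm_sub_qctr_le (below_subset t h (tree_qctr_mem t Y.1 Y.2))

theorem below_of_mem {t : E d} {X Y : Cb d} {y : E d} (hX : y ∈ qcube t X.1 X.2)
    (hY : y ∈ qcube t Y.1 Y.2) (h : Y.1 ≤ X.1) : Below X Y := by
  refine ⟨h, ?_⟩
  rw [mem_qcube_iff] at hX hY
  rw [← hY, ← qidx_of_le t h, hX]

theorem desc_below (n : ℤ) (j : ℕ) (k : Fin d → ℤ) (b : Fin d → Fin (2 ^ j)) :
    Below ((n, k) : Cb d) ((n - (j : ℤ), desc j k b) : Cb d) := by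
  refine ⟨by show n - (j : ℤ) ≤ n; omega, ?_⟩
  show anc (n - (n - (j : ℤ))).toNat (desc j k b) = k
  rw [show (n - (n - (j : ℤ))).toNat = j by omega]
  funext i
  have h := (b i).isLt
  have h' : ((b i : ℕ) : ℤ) < (2 : ℤ) ^ j := by exact_mod_cast h
  simp only [anc, desc]
  rw [add_comm, Int.add_mul_ediv_left _ _ (by positivity : (2 : ℤ) ^ j ≠ 0),
    Int.ediv_eq_zero_of_lt (by positivity) h', zero_add]

theorem kid_below (n : ℤ) (k : Fin d → ℤ) (b : Fin d → Fin 2) :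
    Below ((n, k) : Cb d) ((n - 1, kid k b) : Cb d) := by
  refine ⟨by show n - 1 ≤ n; omega, ?_⟩
  show anc (n - (n - 1)).toNat (kid k b) = k
  rw [show (n - (n - 1)).toNat = 1 by omega, ← tree_par_eq_anc, tree_par_kid]

namespace Cfg

variable {c : Cfg d}

/-- A child of an ancestor-chain cube near a member is cut. -/
theorem cut_under (hd : 1 ≤ d) {x : E d} {r : ℝ} {n' : ℤ} {Q : Cb d}
    (hQ : c.NU x r n' Q.1 Q.2) {i : ℤ} {ks : Fin d → ℤ} {G : Cb d}
    (hGW : Below ((i + 1, par ks) : Cb d) G) (hGQ : Below Q G) (hG : Q.1 - 2 ≤ G.1)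
    (hGi : G.1 ≤ i) : c.cutK x r i ks := by
  set j := max (i + 1) (Q.1 + 1) with hj
  set Z : Cb d := (j, anc (j - G.1).toNat G.2) with hZ
  have hZG : Below Z G := ⟨by show G.1 ≤ j; omega, rfl⟩
  have hZW : Below Z ((i + 1, par ks) : Cb d) := below_mono hZG hGW (by show i + 1 ≤ j; omega)
  have hZQ : Below Z Q := below_mono hZG hGQ (by show Q.1 ≤ j; omega)
  have hZs : Below Z ((i, ks) : Cb d) := below_trans hZW (below_par (G := ((i, ks) : Cb d)))
  have hZP : Below Z ((Q.1 + 1, par Q.2) : Cb d) :=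
    below_mono hZQ below_par (by show Q.1 + 1 ≤ j; omega)
  have hnin : ¬ c.inside x r j Z.2 := fun h => hQ.2.1 (inside_of_anc hd
    (show Q.1 + 1 ≤ j by omega) (by rw [hZP.2]; exact h))
  have h1 := norm_qctr_below_le c.t hZs
  have h2 := norm_qctr_below_le c.t hZQ
  have hin := hQ.1
  simp only [Cfg.inside] at hnin hin
  have hK := Kd_ge hd
  have hl : (2 : ℝ) ^ j ≤ 8 * 2 ^ i := by
    rw [show (8 : ℝ) = 2 ^ (3 : ℤ) by norm_num, ← zpow_add₀ two_ne_zero]
    exact zpow_le_zpow_right₀ one_le_two (by omega)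
  have h3 : Kd d * (2 : ℝ) ^ j ≤ 8 * (Kd d * 2 ^ i) := by
    have := mul_le_mul_of_nonneg_left hl (show 0 ≤ Kd d by linarith [hK.1])
    linarith
  have h4 : Real.sqrt d * (2 : ℝ) ^ j ≤ 8 * (Real.sqrt d * 2 ^ i) := by
    have := mul_le_mul_of_nonneg_left hl (Real.sqrt_nonneg (d : ℝ))
    linarith
  have h5 : 100 * (Real.sqrt d * (2 : ℝ) ^ i) ≤ Kd d * 2 ^ i := by
    rw [← mul_assoc]
    exact mul_le_mul_of_nonneg_right hK.2 (by positivity)
  have h6 : 0 ≤ Real.sqrt d * (2 : ℝ) ^ i := by positivity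
  have h7 : 0 ≤ Kd d * (2 : ℝ) ^ Q.1 := mul_nonneg (by linarith [hK.1]) (by positivity)
  have t1 := norm_sub_le_norm_sub_add_norm_sub x (qctr c.t j Z.2) (qctr c.t i ks)
  have t2 := norm_sub_le_norm_sub_add_norm_sub x (qctr c.t i ks) (qctr c.t j Z.2)
  have t3 := norm_sub_le_norm_sub_add_norm_sub x (qctr c.t Q.1 Q.2) (qctr c.t j Z.2)
  change ‖qctr c.t i ks - qctr c.t j Z.2‖ ≤ Real.sqrt d * 2 ^ j / 2 at h1
  change ‖qctr c.t Q.1 Q.2 - qctr c.t j Z.2‖ ≤ Real.sqrt d * 2 ^ j / 2 at h2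
  rw [norm_sub_rev (qctr c.t j Z.2) (qctr c.t i ks)] at t1
  rw [Cfg.cutK, abs_le, show Kp d = 64 * Kd d from rfl]
  constructor <;> linarith [not_le.1 hnin]

/-- Cut items with centre in a cube, weighted from a point. -/
def cutIn (c : Cfg d) (P : Cb d) (x : E d) (r : ℝ) (n' : ℤ) (p : E d) : ℝ≥0∞ :=
  ∑ n ∈ Finset.Icc c.Mb n', ∑' k : Fin d → ℤ,
    if c.cutK x r n k ∧ qctr c.t n k ∈ qcube c.t P.1 P.2 then
      c.iw n k * ENNReal.ofReal ((‖qctr c.t n k - p‖ + (2 : ℝ) ^ n) / r) else 0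

theorem sum_cubes_le (f : ℤ → (Fin d → ℤ) → ℝ≥0∞) (S : Finset (Cb d)) (I : Finset ℤ)
    (hS : ∀ s ∈ S, s.1 ∈ I) : ∑ s ∈ S, f s.1 s.2 ≤ ∑ n ∈ I, ∑' k, f n k := by
  rw [← Finset.sum_fiberwise_of_maps_to hS]
  refine Finset.sum_le_sum fun n _ => ?_
  have hinj : Set.InjOn (fun s : Cb d => s.2) (S.filter fun s => s.1 = n) := fun a ha b hb h =>
    Prod.ext ((Finset.mem_filter.1 ha).2.trans (Finset.mem_filter.1 hb).2.symm) h
  refine le_trans (le_of_eq ?_)
    (ENNReal.sum_le_tsum ((S.filter fun s => s.1 = n).image fun s : Cb d => s.2))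
  rw [Finset.sum_image hinj]
  exact Finset.sum_congr rfl fun s hs => by rw [(Finset.mem_filter.1 hs).2]

theorem sum_cutIn_le (F : Finset (Cb d))
    (hdisj : (F : Set (Cb d)).Pairwise fun Q Q' =>
      Disjoint (qcube c.t Q.1 Q.2) (qcube c.t Q'.1 Q'.2))
    (x : E d) (r : ℝ) (n' : ℤ) (p : E d) :
    ∑ P ∈ F, c.cutIn P x r n' p ≤ c.cutG x r n' p := by
  simp only [Cfg.cutIn, Cfg.cutG]
  rw [Finset.sum_comm]
  refine Finset.sum_le_sum fun n _ => ?_
  rw [← Summable.tsum_finsetSum fun P _ => ENNReal.summable]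
  refine ENNReal.tsum_le_tsum fun k => ?_
  by_cases hcut : c.cutK x r n k
  · simp only [hcut, true_and, if_true]
    rw [← Finset.sum_filter, Finset.sum_const, nsmul_eq_mul]
    refine le_trans (mul_le_mul_left (?_ : ((_ : ℕ) : ℝ≥0∞) ≤ 1) _) (one_mul _).le
    have h1 : (F.filter fun P => qctr c.t n k ∈ qcube c.t P.1 P.2).card ≤ 1 := by
      refine Finset.card_le_one.2 fun P hP P' hP' => ?_
      by_contra hne
      exact Set.disjoint_left.1 (hdisj (Finset.mem_filter.1 hP).1 (Finset.mem_filter.1 hP').1 hne)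
        (Finset.mem_filter.1 hP).2 (Finset.mem_filter.1 hP').2
    exact_mod_cast h1
  · simp [hcut]

theorem iw_bottom_ge (k : Fin d → ℤ) : ‖qint c.g c.t c.Mb k‖ₑ ≤ c.iw c.Mb k := by
  rw [Cfg.iw, if_pos rfl]
  exact (enorm_integral_le_lintegral_enorm _).trans le_add_self

/-- A member is the sum of its grandchildren in its tree and of cut items inside it. -/
theorem member_split (hd : 1 ≤ d) (hg : Integrable c.g) {x : E d} {r : ℝ} {n' : ℤ}
    (hn' : n' ≤ c.N0) {Q : Cb d} (hl : c.Mb ≤ Q.1) (hln : Q.1 < n')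
    (hQ : c.NU x r n' Q.1 Q.2) {p : E d} {w : ℝ} {A : ℝ} (hA : 0 ≤ A)
    (hw : ∀ s : Cb d, Below Q s → w ≤ A * ((‖qctr c.t s.1 s.2 - p‖ + (2 : ℝ) ^ s.1) / r)) :
    ∃ G : Finset (Cb d),
      (∀ X ∈ G, X.1 = Q.1 - 2 ∧ c.Mb ≤ X.1 ∧ Below Q X ∧ Good c.g c.t X.1 X.2 ∧
        c.root X.1 X.2 = c.root Q.1 Q.2) ∧
      ‖qint c.g c.t Q.1 Q.2‖ₑ * ENNReal.ofReal w
        ≤ (∑ X ∈ G, ‖qint c.g c.t X.1 X.2‖ₑ) * ENNReal.ofReal w
          + 2 * ENNReal.ofReal A * c.cutIn Q x r n' p := by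
  obtain ⟨l, k⟩ := Q
  simp only at hl hln hQ hw ⊢
  set R := c.root l k with hR
  set f : ℤ → (Fin d → ℤ) → ℝ≥0∞ := fun n ks =>
    if c.cutK x r n ks ∧ qctr c.t n ks ∈ qcube c.t l k then
      c.iw n ks * ENNReal.ofReal ((‖qctr c.t n ks - p‖ + (2 : ℝ) ^ n) / r) else 0
  -- a cube with integral bounded by its item weight, near the member
  have item : ∀ (i : ℤ) (ks : Fin d → ℤ) (G : Cb d), ‖qint c.g c.t i ks‖ₑ ≤ c.iw i ks →
      Below ((l, k) : Cb d) ((i, ks) : Cb d) → Below ((i, ks) : Cb d) G → l - 2 ≤ G.1 →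
      ‖qint c.g c.t i ks‖ₑ * ENNReal.ofReal w ≤ ENNReal.ofReal A * f i ks := by
    intro i ks G hI hQs hsG hG
    have hcut : c.cutK x r i ks := cut_under hd (Q := (l, k)) hQ
      (below_trans below_par hsG) (below_trans hQs hsG) hG hsG.1
    simp only [f]
    rw [if_pos ⟨hcut, below_subset c.t hQs (tree_qctr_mem c.t i ks)⟩, mul_left_comm]
    refine mul_le_mul' hI ?_
    rw [← ENNReal.ofReal_mul hA]
    exact ENNReal.ofReal_le_ofReal (hw (i, ks) hQs)
  have fsum : ∀ S : Finset (Cb d), (∀ s ∈ S, s.1 ∈ Finset.Icc c.Mb n') →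
      ∑ s ∈ S, f s.1 s.2 ≤ c.cutIn ((l, k) : Cb d) x r n' p := fun S hS => sum_cubes_le f S _ hS
  rcases lt_or_ge l (c.Mb + 2) with hbot | hhigh
  · obtain ⟨j, hj⟩ : ∃ j : ℕ, (c.Mb : ℤ) = l - j := ⟨(l - c.Mb).toNat, by omega⟩
    refine ⟨∅, by simp, ?_⟩
    rw [qint_eq_sum_desc hg l k j]
    refine (mul_le_mul_left (enorm_sum_le _ _) _).trans (le_trans ?_ le_add_self)
    rw [Finset.sum_mul]
    refine (Finset.sum_le_sum fun b _ => item (l - j) (desc j k b) (l - j, desc j k b)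
      (by rw [← hj]; exact iw_bottom_ge _) (desc_below l j k b) (below_self _)
      (by show l - 2 ≤ l - (j : ℤ); omega)).trans ?_
    rw [← Finset.mul_sum, two_mul, add_mul]
    refine le_trans (mul_le_mul_right ?_ _) le_self_add
    have hinj : Function.Injective fun b : Fin d → Fin (2 ^ j) =>
        ((l - (j : ℤ), desc j k b) : Cb d) := fun a b h => by
      funext i
      have := congrFun (congrArg Prod.snd h) i
      simp only [desc, add_right_inj, Nat.cast_inj] at this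
      exact Fin.ext this
    refine le_trans (le_of_eq ?_)
      (fsum (Finset.univ.image fun b => ((l - (j : ℤ), desc j k b) : Cb d)) ?_)
    · rw [Finset.sum_image fun a _ b _ h => hinj h]
    · intro s hs
      obtain ⟨b, -, rfl⟩ := Finset.mem_image.1 hs
      simp only [Finset.mem_Icc]
      omega
  · -- two generations
    have hgood : Good c.g c.t l k := hQ.2.2.1
    have hlN : l ≤ c.N0 := by omega
    have hR1 : l ≤ R.1 := (c.root_spec hlN hgood).1
    have hR2 : R.1 ≤ c.N0 := (c.root_spec hlN hgood).2.1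
    set same := fun X : Cb d => Good c.g c.t X.1 X.2 ∧ c.root X.1 X.2 = R
    set K1 := (Finset.univ : Finset (Fin d → Fin 2)).image fun b => ((l - 1, kid k b) : Cb d)
    set K2 := fun X : Cb d => (Finset.univ : Finset (Fin d → Fin 2)).image fun b =>
      ((X.1 - 1, kid X.2 b) : Cb d)
    have hkid : ∀ (i : ℤ) (ks : Fin d → ℤ),
        ‖qint c.g c.t i ks‖ₑ ≤ ∑ s ∈ K2 (i, ks), ‖qint c.g c.t s.1 s.2‖ₑ := by
      intro i ks
      have hinj : Function.Injective fun b : Fin d → Fin 2 => ((i - 1, kid ks b) : Cb d) :=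
        fun a b h => by
          funext e
          have := congrFun (congrArg Prod.snd h) e
          simp only [kid] at this
          exact Fin.ext (by omega)
      simp only [K2]
      rw [Finset.sum_image fun a _ b _ h => hinj h, qint_eq_sum_desc hg i ks 1]
      refine (enorm_sum_le _ _).trans (le_of_eq ?_)
      simp only [Nat.cast_one]
      exact Fintype.sum_equiv (Equiv.refl _) _ _ fun b => by rw [desc_one]; rfl
    set G := (K1.filter same).biUnion fun X => (K2 X).filter same with hG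
    set S1 := K1.filter fun X => ¬ same X
    set S2 := (K1.filter same).biUnion fun X => (K2 X).filter fun Y => ¬ same Y
    have hK1 : ∀ X ∈ K1, X.1 = l - 1 ∧ Below ((l, k) : Cb d) X ∧ par X.2 = k := fun X hX => by
      obtain ⟨b, -, rfl⟩ := Finset.mem_image.1 hX
      exact ⟨rfl, kid_below l k b, tree_par_kid k b⟩
    have hK2 : ∀ X, ∀ Y ∈ K2 X, Y.1 = X.1 - 1 ∧ Below X Y ∧ par Y.2 = X.2 := fun X Y hY => by
      obtain ⟨b, -, rfl⟩ := Finset.mem_image.1 hY
      exact ⟨rfl, kid_below X.1 X.2 b, tree_par_kid X.2 b⟩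
    refine ⟨G, fun X hX => ?_, ?_⟩
    · obtain ⟨Y, hY, hX'⟩ := Finset.mem_biUnion.1 hX
      obtain ⟨hY1, -⟩ := Finset.mem_filter.1 hY
      obtain ⟨hX1, hXs⟩ := Finset.mem_filter.1 hX'
      obtain ⟨a1, a2, -⟩ := hK1 Y hY1
      obtain ⟨b1, b2, -⟩ := hK2 Y X hX1
      exact ⟨by omega, by omega, below_trans a2 b2, hXs.1, hXs.2⟩
    have hdisj2 : ∀ (P : Cb d → Prop) [DecidablePred P],
        ((K1.filter same : Finset (Cb d)) : Set (Cb d)).PairwiseDisjoint
          fun X => (K2 X).filter P := by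
      intro P _ X hX Y hY hne
      refine Finset.disjoint_left.2 fun Z hZX hZY => hne ?_
      obtain ⟨-, -, a⟩ := hK2 X Z (Finset.mem_filter.1 hZX).1
      obtain ⟨-, -, b⟩ := hK2 Y Z (Finset.mem_filter.1 hZY).1
      have e1 := (hK1 X (Finset.mem_filter.1 hX).1).1
      have e2 := (hK1 Y (Finset.mem_filter.1 hY).1).1
      exact Prod.ext (e1.trans e2.symm) (a.symm.trans b)
    have hstop : ∀ (X Y : Cb d), Good c.g c.t X.1 X.2 → c.root X.1 X.2 = R → X.1 ≤ R.1 →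
        Y.1 = X.1 - 1 → par Y.2 = X.2 → ¬ same Y →
        ‖qint c.g c.t Y.1 Y.2‖ₑ ≤ c.iw Y.1 Y.2 := by
      intro X Y hXg hXr hXR hY1 hY2 hns
      refine c.stop_le_iw (R := R) hR2 ⟨by omega, ?_, ?_, hns⟩
      · rw [show Y.1 + 1 = X.1 by omega, hY2]; exact hXg
      · rw [show Y.1 + 1 = X.1 by omega, hY2]; exact hXr
    have hsplit : ‖qint c.g c.t l k‖ₑ ≤ ∑ X ∈ G, ‖qint c.g c.t X.1 X.2‖ₑ
        + (∑ X ∈ S1, ‖qint c.g c.t X.1 X.2‖ₑ + ∑ X ∈ S2, ‖qint c.g c.t X.1 X.2‖ₑ) := by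
      refine (hkid l k).trans ?_
      show ∑ X ∈ K1, _ ≤ _
      rw [← Finset.sum_filter_add_sum_filter_not K1 same, Finset.sum_biUnion (hdisj2 same),
        Finset.sum_biUnion (hdisj2 fun Y => ¬ same Y),
        add_comm (∑ X ∈ S1, _), ← add_assoc, ← Finset.sum_add_distrib]
      refine add_le_add (Finset.sum_le_sum fun X _ => ?_) le_rfl
      rw [Finset.sum_filter_add_sum_filter_not (K2 X) same]
      exact hkid X.1 X.2
    refine (mul_le_mul_left hsplit _).trans ?_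
    rw [add_mul]
    refine add_le_add le_rfl ?_
    rw [add_mul, two_mul, add_mul, Finset.sum_mul, Finset.sum_mul]
    refine add_le_add ?_ ?_
    · refine (Finset.sum_le_sum fun X hX => ?_).trans
        (((Finset.mul_sum S1 (fun s => f s.1 s.2) (ENNReal.ofReal A)).symm.le).trans
          (mul_le_mul_right (fsum S1 fun X hX => ?_) _))
      · obtain ⟨hX1, hns⟩ := Finset.mem_filter.1 hX
        obtain ⟨a1, a2, a3⟩ := hK1 X hX1
        exact item X.1 X.2 X (hstop (l, k) X hgood rfl hR1 a1 a3 hns) a2 (below_self X)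
          (by omega)
      · obtain ⟨a1, -⟩ := hK1 X (Finset.mem_filter.1 hX).1
        simp only [Finset.mem_Icc]; omega
    · refine (Finset.sum_le_sum fun Y hY => ?_).trans
        (((Finset.mul_sum S2 (fun s => f s.1 s.2) (ENNReal.ofReal A)).symm.le).trans
          (mul_le_mul_right (fsum S2 fun Y hY => ?_) _))
      · obtain ⟨X, hX, hY'⟩ := Finset.mem_biUnion.1 hY
        obtain ⟨hX1, hXs⟩ := Finset.mem_filter.1 hX
        obtain ⟨hY1, hns⟩ := Finset.mem_filter.1 hY'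
        obtain ⟨a1, a2, -⟩ := hK1 X hX1
        obtain ⟨b1, b2, b3⟩ := hK2 X Y hY1
        exact item Y.1 Y.2 Y (hstop X Y hXs.1 hXs.2 (by omega) b1 b3 hns) (below_trans a2 b2)
          (below_self Y) (by omega)
      · obtain ⟨X, hX, hY'⟩ := Finset.mem_biUnion.1 hY
        obtain ⟨a1, -⟩ := hK1 X (Finset.mem_filter.1 hX).1
        obtain ⟨b1, -⟩ := hK2 X Y (Finset.mem_filter.1 hY').1
        simp only [Finset.mem_Icc]; omega

/-- Disjoint cubes of the tree of `P` below it, each near a member, cost `P` and cut items. -/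
theorem front_cut (hd : 1 ≤ d) (hg : Integrable c.g) {x : E d} {r : ℝ} {n' : ℤ} (hn' : n' ≤ c.N0)
    {P : Cb d} (hP : P.1 ≤ n') (hPg : Good c.g c.t P.1 P.2) (F : Finset (Cb d))
    (hF : ∀ G ∈ F, c.Mb ≤ G.1 ∧ Below P G ∧ Good c.g c.t G.1 G.2 ∧
      c.root G.1 G.2 = c.root P.1 P.2 ∧
      ∃ Q : Cb d, c.NU x r n' Q.1 Q.2 ∧ Below Q G ∧ Q.1 - 2 ≤ G.1)
    (hdisj : (F : Set (Cb d)).Pairwise fun Q Q' =>
      Disjoint (qcube c.t Q.1 Q.2) (qcube c.t Q'.1 Q'.2))
    {p : E d} {w A : ℝ} (hA : 0 ≤ A)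
    (hw : ∀ s : Cb d, Below P s → w ≤ A * ((‖qctr c.t s.1 s.2 - p‖ + (2 : ℝ) ^ s.1) / r)) :
    (∑ G ∈ F, ‖qint c.g c.t G.1 G.2‖ₑ) * ENNReal.ofReal w
      ≤ 2 * (‖qint c.g c.t P.1 P.2‖ₑ * ENNReal.ofReal w)
        + 2 * ENNReal.ofReal A * c.cutIn P x r n' p := by
  have hPN : P.1 ≤ c.N0 := hP.trans hn'
  have h := c.front hg (R := c.root P.1 P.2) hPN hPg rfl F (fun G hG => by
    obtain ⟨h1, h2, h3, h4, -⟩ := hF G hG
    exact ⟨h1, h2.1, h2.2, h3, h4⟩) hdisj
  refine (mul_le_mul_left h _).trans ?_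
  rw [add_mul, mul_assoc, mul_assoc, mul_assoc]
  refine add_le_add le_rfl (mul_le_mul_right ?_ 2)
  rw [Cfg.cutIn, Finset.sum_mul, Finset.mul_sum]
  refine (Finset.sum_le_sum fun n hn => ?_).trans
    (Finset.sum_le_sum_of_subset fun n hn => ?_)
  · rw [← ENNReal.tsum_mul_right, ← ENNReal.tsum_mul_left]
    refine ENNReal.tsum_le_tsum fun k => ?_
    by_cases hc' : c.IsStop (c.root P.1 P.2) n k ∧
        ∃ Q ∈ F, Q.1 ≤ n ∧ anc (n + 1 - Q.1).toNat Q.2 = par k
    · rw [if_pos hc']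
      obtain ⟨hst, G, hG, hGn, hGa⟩ := hc'
      obtain ⟨-, hPG, -, -, Q, hQ, hQG, hQl⟩ := hF G hG
      have hW : Below ((n + 1, par k) : Cb d) G := ⟨by show G.1 ≤ n + 1; omega, hGa⟩
      have hnP : n + 1 ≤ P.1 := by have := (Finset.mem_Ico.1 hn).2; omega
      have hPs : Below P ((n, k) : Cb d) :=
        below_trans (below_mono hPG hW hnP) (below_par (G := ((n, k) : Cb d)))
      have hcut : c.cutK x r n k := cut_under hd hQ hW hQG hQl hGn
      rw [if_pos ⟨hcut, below_subset c.t hPs (tree_qctr_mem c.t n k)⟩, mul_left_comm]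
      refine mul_le_mul' (c.stop_le_iw (c.root_spec hPN hPg).2.1 hst) ?_
      rw [← ENNReal.ofReal_mul hA]
      exact ENNReal.ofReal_le_ofReal (hw (n, k) hPs)
    · rw [if_neg hc', zero_mul]
      exact zero_le
  · simp only [Finset.mem_Ico, Finset.mem_Icc] at hn ⊢
    omega

end Cfg

end

end Vale.Agent.P137.Cen
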