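import Vale.Agent.P137.Cen.SegBase

/-!
# P137, centred operator: the items of a configuration as a clustering system; members of a ball
-/

open MeasureTheory Metric Set
open scoped ENNReal RealInnerProductSpace

namespace Vale.Agent.P137.Cen

open Vale.Agent.P137.Unc (E qdec)

noncomputable section

attribute [local instance] Classical.propDecidable

variable {d : ℕ}

/-! ## Constants -/

theorem sqrt_le_self_of_one_le (hd : 1 ≤ d) : Real.sqrt d ≤ d := by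
  have : (1 : ℝ) ≤ d := by exact_mod_cast hd
  rw [Real.sqrt_le_iff]
  exact ⟨by positivity, by nlinarith⟩

theorem Kd_ge (hd : 1 ≤ d) : 100 ≤ Kd d ∧ 100 * Real.sqrt d ≤ Kd d := by
  have : (1 : ℝ) ≤ d := by exact_mod_cast hd
  have := sqrt_le_self_of_one_le hd
  simp only [Kd]
  constructor <;> linarith

theorem two_pow_Ls (d : ℕ) : 16 * (2 : ℝ) ^ C0 d * (8 * d * L0 d) ≤ (2 : ℝ) ^ Ls d := by
  have h := Nat.le_pow_clog (one_lt_two) (8 * d * (100 * d * (64 * 100 * d)))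
  have h' : (8 * d * (100 * d * (64 * 100 * d)) : ℝ)
      ≤ (2 : ℝ) ^ Nat.clog 2 (8 * d * (100 * d * (64 * 100 * d))) := by exact_mod_cast h
  rw [Ls, pow_add, pow_add]
  simp only [L0, Kp, Kd]
  have h2 : (0 : ℝ) < 2 ^ C0 d := by positivity
  nlinarith [mul_le_mul_of_nonneg_right h' h2.le]

theorem C0_lt_Ls (d : ℕ) : C0 d + 4 ≤ Ls d := by rw [Ls]; omega

/-- Indices of the cubes of a level which meet a ball. -/
def kbox (t : E d) (x : E d) (ρ : ℝ) (n : ℤ) : Finset (Fin d → ℤ) :=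
  Fintype.piFinset fun i =>
    Finset.Icc ⌊(x i - ρ - t i) / (2 : ℝ) ^ n⌋ ⌊(x i + ρ - t i) / (2 : ℝ) ^ n⌋

theorem mem_kbox {t x y : E d} {ρ : ℝ} (n : ℤ) (h : ‖y - x‖ ≤ ρ) :
    qidx t n y ∈ kbox t x ρ n := by
  refine Fintype.mem_piFinset.2 fun i => Finset.mem_Icc.2 ?_
  have hi : |(y - x) i| ≤ ρ := le_trans (PiLp.norm_apply_le (y - x) i) h
  rw [PiLp.sub_apply, abs_le] at hi
  have hp : (0 : ℝ) < 2 ^ n := zpow_pos two_pos n
  constructor <;> refine Int.floor_le_floor ?_ <;>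
    exact div_le_div_of_nonneg_right (by linarith) hp.le

theorem qcube_subset_of_anc {t : E d} {n m : ℤ} (h : n ≤ m) (k : Fin d → ℤ) :
    qcube t n k ⊆ qcube t m (anc (m - n).toNat k) := fun y hy => by
  rw [mem_qcube_iff] at hy ⊢
  rw [qidx_of_le t h, hy]

namespace Cfg

variable (c : Cfg d)

/-! ## Items -/

theorem qint_eq_zero_of {n : ℤ} {k : Fin d → ℤ} (h : ∀ y ∈ qcube c.t n k, c.g y = 0) :
    qint c.g c.t n k = 0 := setIntegral_eq_zero_of_forall_eq_zero h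

theorem iw_eq_zero {n : ℤ} {k : Fin d → ℤ} (h : ∀ y ∈ qcube c.t n k, c.g y = 0) :
    c.iw n k = 0 := by
  have h0 := c.qint_eq_zero_of h
  have hP : qPsi c.g c.t n k = 0 := by
    refine ENNReal.tsum_eq_zero.2 fun j => mul_eq_zero_of_right _ ?_
    rw [qX, dsum, h0, enorm_zero, tsub_zero]
    refine Finset.sum_eq_zero fun b _ => ?_
    rw [c.qint_eq_zero_of, enorm_zero]
    intro y hy
    refine h y ?_
    rw [qcube_desc] at hy
    exact Unc.cube_subset_window (zpow_pos two_pos n) j b hy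
  have hD : qDst c.g c.t n k = 0 := by
    refine Finset.sum_eq_zero fun v _ => ?_
    rw [h0, pairD, norm_zero, zero_add, zero_add, sub_self, ENNReal.ofReal_zero]
  have hR : ¬ c.IsRoot n k := fun hh => hh.1.1 h0
  have hB : ∫⁻ y in qcube c.t n k, ‖c.g y‖ₑ = 0 :=
    setLIntegral_eq_zero (measurableSet_qcube _ _ _) fun y hy => by simp [h y hy]
  simp [Cfg.iw, h0, hP, hD, hB, hR]

/-- The cubes which may be items. -/
def itemBox (ρ : ℝ) : Finset (Cb d) :=
  (Finset.Icc c.Mb c.N0).biUnion fun n =>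
    (kbox c.t 0 ρ n).image fun k => ((n, k) : Cb d)

variable {c}

/-- A radius of the support. -/
def _root_.Vale.Agent.P137.Cen.Cfg.Ok.rad (hc : c.Ok) : ℝ := hc.supp.choose

theorem iw_eq_zero_of_not_mem (hc : c.Ok) {n : ℤ} {k : Fin d → ℤ}
    (hk : k ∉ kbox c.t 0 hc.rad n) : c.iw n k = 0 := by
  refine c.iw_eq_zero fun y hy => hc.supp.choose_spec y (lt_of_not_ge fun hle => hk ?_)
  rw [← mem_qcube_iff.1 hy]
  exact mem_kbox n (by simpa [Cfg.Ok.rad] using hle)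

variable (c)

/-- The items as a clustering system. -/
def isys (ρ : ℝ) : Sys d ↥(c.itemBox ρ) where
  pos i := qctr c.t i.1.1 i.1.2
  lev i := i.1.1
  wt i := c.iw i.1.1 i.1.2
  K := Kp d
  L0 := Cen.L0 d
  top := c.N0

variable {c}

theorem isys_lev {ρ : ℝ} (i : ↥(c.itemBox ρ)) :
    c.Mb ≤ (c.isys ρ).lev i ∧ (c.isys ρ).lev i ≤ c.N0 := by
  obtain ⟨⟨n, k⟩, hi⟩ := i
  simp only [itemBox, Finset.mem_biUnion, Finset.mem_image] at hi
  obtain ⟨m, hm, k', -, he⟩ := hi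
  have hmn : m = n := congrArg Prod.fst he
  subst hmn
  exact Finset.mem_Icc.1 hm

/-- Sums over the items of levels up to `n'`. -/
theorem sum_items (hc : c.Ok) (f : ℤ → (Fin d → ℤ) → ℝ≥0∞)
    (hf : ∀ n k, c.iw n k = 0 → f n k = 0) {n' : ℤ} (hn' : n' ≤ c.N0) :
    ∑ n ∈ Finset.Icc c.Mb n', ∑' k, f n k
      = ∑ i : ↥(c.itemBox hc.rad),
          if (c.isys hc.rad).lev i ≤ n' then f i.1.1 i.1.2 else 0 := by
  show _ = ∑ i : ↥(c.itemBox hc.rad), if i.1.1 ≤ n' then f i.1.1 i.1.2 else 0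
  rw [Finset.sum_coe_sort (c.itemBox hc.rad) (fun Q : Cb d => if Q.1 ≤ n' then f Q.1 Q.2 else 0),
    itemBox, Finset.sum_biUnion]
  · have e : ∀ n ∈ Finset.Icc c.Mb c.N0,
        ∑ Q ∈ (kbox c.t 0 hc.rad n).image (fun k => ((n, k) : Cb d)),
          (if Q.1 ≤ n' then f Q.1 Q.2 else 0) = if n ≤ n' then ∑' k, f n k else 0 := fun n _ => by
      rw [Finset.sum_image fun a _ b _ h => congrArg Prod.snd h]
      by_cases hn : n ≤ n'
      · simp only [if_pos hn]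
        exact (tsum_eq_sum fun k hk => hf n k (iw_eq_zero_of_not_mem hc hk)).symm
      · simp only [if_neg hn, Finset.sum_const_zero]
    rw [Finset.sum_congr rfl e, ← Finset.sum_filter]
    refine Finset.sum_congr ?_ fun _ _ => rfl
    ext n
    simp only [Finset.mem_filter, Finset.mem_Icc]
    omega
  · intro a _ b _ hab
    refine Finset.disjoint_left.2 fun Q hQa hQb => hab ?_
    obtain ⟨k, -, rfl⟩ := Finset.mem_image.1 hQa
    obtain ⟨k', -, he⟩ := Finset.mem_image.1 hQb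
    exact (congrArg Prod.fst he).symm

theorem sum_wt_le (hc : c.Ok) : ∑ i, (c.isys hc.rad).wt i ≤ c.totW := by
  refine le_trans (le_of_eq ?_) le_self_add
  rw [sum_items hc (fun n k => c.iw n k) (fun _ _ h => h) le_rfl]
  exact Finset.sum_congr rfl fun i _ => (if_pos (isys_lev i).2).symm

theorem wt_ne_top (hc : c.Ok) (hT : c.totW ≠ ⊤) (i : ↥(c.itemBox hc.rad)) :
    (c.isys hc.rad).wt i ≠ ⊤ :=
  ne_top_of_le_ne_top hT ((Finset.single_le_sum (fun j _ => zero_le) (Finset.mem_univ i)).trans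
    (sum_wt_le hc))

theorem cutS_eq (hc : c.Ok) (x : E d) (r : ℝ) {n' : ℤ} (hn' : n' ≤ c.N0) :
    c.cutS x r n' = ∑ i, if (c.isys hc.rad).lev i ≤ n' then
      (if (c.isys hc.rad).cut x r i then (c.isys hc.rad).wt i else 0) else 0 := by
  rw [Cfg.cutS, sum_items hc (fun n k => if c.cutK x r n k then c.iw n k else 0)
    (fun n k h => by simp [h]) hn']
  rfl

theorem cutG_eq (hc : c.Ok) (x : E d) (r : ℝ) {n' : ℤ} (hn' : n' ≤ c.N0) (p : E d) :
    c.cutG x r n' p = ∑ i, if (c.isys hc.rad).lev i ≤ n' then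
      (if (c.isys hc.rad).cut x r i then (c.isys hc.rad).wt i *
        ENNReal.ofReal ((‖(c.isys hc.rad).pos i - p‖ + (2 : ℝ) ^ (c.isys hc.rad).lev i) / r)
      else 0) else 0 := by
  rw [Cfg.cutG, sum_items hc (fun n k => if c.cutK x r n k then
    c.iw n k * ENNReal.ofReal ((‖qctr c.t n k - p‖ + (2 : ℝ) ^ n) / r) else 0)
    (fun n k h => by simp [h]) hn']
  rfl

/-! ## Members of a ball -/

theorem inside_of_anc (hd : 1 ≤ d) {x : E d} {r : ℝ} {n m : ℤ} {k : Fin d → ℤ} (h : n ≤ m)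
    (hi : c.inside x r m (anc (m - n).toNat k)) : c.inside x r n k := by
  rcases h.eq_or_lt with rfl | hlt
  · simpa [anc_zero] using hi
  have h1 := norm_qctr_sub_le c.t h (k := k) rfl
  have h2 := norm_sub_le_norm_sub_add_norm_sub x (qctr c.t m (anc (m - n).toNat k)) (qctr c.t n k)
  rw [norm_sub_rev (qctr c.t m _) (qctr c.t n k)] at h2
  have hK := (Kd_ge hd).2
  have hp : (2 : ℝ) ^ n ≤ 2 ^ m / 2 := by
    rw [le_div_iff₀ two_pos, ← zpow_add_one₀ two_ne_zero]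
    exact zpow_le_zpow_right₀ one_le_two (by omega)
  have hm : (0 : ℝ) < 2 ^ m := zpow_pos two_pos m
  have h3 : Kd d * 2 ^ n ≤ Kd d * (2 ^ m / 2) :=
    mul_le_mul_of_nonneg_left hp (by linarith [Real.sqrt_nonneg (d : ℝ)])
  have h4 : 100 * (Real.sqrt d * 2 ^ m) ≤ Kd d * 2 ^ m := by
    rw [← mul_assoc]
    exact mul_le_mul_of_nonneg_right hK hm.le
  have h5 : 0 ≤ Real.sqrt d * 2 ^ m := by positivity
  simp only [Cfg.inside] at hi ⊢
  linarith

theorem not_inside_of_le (hd : 1 ≤ d) {x : E d} {r : ℝ} {n' m : ℤ} (h2r : 2 * r ≤ (2 : ℝ) ^ n')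
    (hm : n' ≤ m) (k : Fin d → ℤ) : ¬ c.inside x r m k := by
  intro hi
  simp only [Cfg.inside] at hi
  have hK := (Kd_ge hd).1
  have h1 : (2 : ℝ) ^ n' ≤ 2 ^ m := zpow_le_zpow_right₀ one_le_two hm
  have h2 : (0 : ℝ) < 2 ^ n' := zpow_pos two_pos _
  nlinarith [norm_nonneg (x - qctr c.t m k)]

variable (c) in
/-- The members of a ball. -/
def memb (x : E d) (r : ℝ) (n' : ℤ) : Finset (Cb d) :=
  ((Finset.Ico c.Mb n').biUnion fun n => (kbox c.t x r n).image fun k => ((n, k) : Cb d)).filter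
    fun Q => c.NU x r n' Q.1 Q.2

theorem mem_memb (hd : 1 ≤ d) {x : E d} {r : ℝ} {n' : ℤ} {Q : Cb d} :
    Q ∈ c.memb x r n' ↔ c.Mb ≤ Q.1 ∧ Q.1 < n' ∧ c.NU x r n' Q.1 Q.2 := by
  obtain ⟨n, k⟩ := Q
  simp only [memb, Finset.mem_filter, Finset.mem_biUnion, Finset.mem_image, Finset.mem_Ico,
    Prod.mk.injEq]
  constructor
  · rintro ⟨⟨m, hm, k', -, rfl, rfl⟩, h⟩
    exact ⟨hm.1, hm.2, h⟩
  · rintro ⟨h1, h2, h⟩
    refine ⟨⟨n, ⟨h1, h2⟩, k, ?_, rfl, rfl⟩, h⟩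
    have hi := h.1
    simp only [Cfg.inside] at hi
    have hK : 0 ≤ Kd d * (2 : ℝ) ^ n := mul_nonneg (by linarith [(Kd_ge hd).1]) (by positivity)
    have := mem_kbox (t := c.t) (x := x) (y := qctr c.t n k) (ρ := r) n
      (by rw [norm_sub_rev]; linarith)
    rwa [qidx_qctr] at this

theorem tsum_NU_eq (hd : 1 ≤ d) (x : E d) (r : ℝ) (n' : ℤ) (f : ℤ → (Fin d → ℤ) → ℝ≥0∞) :
    ∑ n ∈ Finset.Ico c.Mb n', ∑' k, (if c.NU x r n' n k then f n k else 0)
      = ∑ Q ∈ c.memb x r n', f Q.1 Q.2 := by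
  have e : ∀ n ∈ Finset.Ico c.Mb n', ∑' k, (if c.NU x r n' n k then f n k else 0)
      = ∑ k ∈ kbox c.t x r n, if c.NU x r n' n k then f n k else 0 := fun n hn =>
    tsum_eq_sum fun k hk => if_neg fun h => hk (by
      have hi := h.1
      simp only [Cfg.inside] at hi
      have hK : 0 ≤ Kd d * (2 : ℝ) ^ n := mul_nonneg (by linarith [(Kd_ge hd).1]) (by positivity)
      have := mem_kbox (t := c.t) (x := x) (y := qctr c.t n k) (ρ := r) n
        (by rw [norm_sub_rev]; linarith)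
      rwa [qidx_qctr] at this)
  rw [Finset.sum_congr rfl e, memb, Finset.sum_filter, Finset.sum_biUnion]
  · exact Finset.sum_congr rfl fun n _ => by
      rw [Finset.sum_image fun a _ b _ h => congrArg Prod.snd h]
  · intro a _ b _ hab
    refine Finset.disjoint_left.2 fun Q hQa hQb => hab ?_
    obtain ⟨k, -, rfl⟩ := Finset.mem_image.1 hQa
    obtain ⟨k', -, he⟩ := Finset.mem_image.1 hQb
    exact (congrArg Prod.fst he).symm

theorem nu_eq (hd : 1 ≤ d) (x : E d) (r : ℝ) (n' : ℤ) :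
    c.nu x r n' = ∑ Q ∈ c.memb x r n', ‖qint c.g c.t Q.1 Q.2‖ₑ := tsum_NU_eq hd x r n' _

theorem wtp_eq (hd : 1 ≤ d) (x : E d) (r : ℝ) (n' : ℤ) (p : E d) :
    c.wtp x r n' p = ∑ Q ∈ c.memb x r n',
      ‖qint c.g c.t Q.1 Q.2‖ₑ * ENNReal.ofReal (‖qctr c.t Q.1 Q.2 - p‖ / r) :=
  tsum_NU_eq hd x r n' _

theorem memb_disjoint (hd : 1 ≤ d) {x : E d} {r : ℝ} {n' : ℤ} :
    (c.memb x r n' : Set (Cb d)).Pairwise fun Q Q' =>
      Disjoint (qcube c.t Q.1 Q.2) (qcube c.t Q'.1 Q'.2) := by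
  intro Q hQ Q' hQ' hne
  obtain ⟨-, -, hN⟩ := (mem_memb hd).1 hQ
  obtain ⟨-, -, hN'⟩ := (mem_memb hd).1 hQ'
  refine Set.disjoint_left.2 fun y hy hy' => ?_
  rw [mem_qcube_iff] at hy hy'
  have key : ∀ {A B : Cb d}, qidx c.t A.1 y = A.2 → qidx c.t B.1 y = B.2 →
      c.inside x r B.1 B.2 → ¬ c.inside x r (A.1 + 1) (par A.2) → A.1 < B.1 → False := by
    intro A B hA hB hiB hnA hlt
    refine hnA (inside_of_anc hd (m := B.1) (by omega) ?_)
    have : par A.2 = qidx c.t (A.1 + 1) y := by rw [qidx_par, hA]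
    rwa [this, ← qidx_of_le c.t (by omega), hB]
  rcases lt_trichotomy Q.1 Q'.1 with h | h | h
  · exact key hy hy' hN'.1 hN.2.1 h
  · exact hne (Prod.ext h (by rw [← hy, ← hy', h]))
  · exact key hy' hy hN.1 hN'.2.1 h

end Cfg

end

end Vale.Agent.P137.Cen
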