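import Vale.Agent.P137.Cen.SegItems

/-!
# P137, centred operator: the cut items at one scale split along the chain of a window
-/

open MeasureTheory Metric Set
open scoped ENNReal RealInnerProductSpace

namespace Vale.Agent.P137.Cen

open Vale.Agent.P137.Unc (E)

noncomputable section

attribute [local instance] Classical.propDecidable

variable {d : ℕ}

/-- Radius of the zone of the big items. -/
def bigR (d : ℕ) : ℝ := 2 * Kp d * 2 ^ C0 d

/-- The annulus of scale `n` around `a`. -/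
def ann (n : ℤ) (a x : E d) : Prop := (2 : ℝ) ^ n / 4 ≤ ‖x - a‖ ∧ ‖x - a‖ ≤ 8 * (2 : ℝ) ^ n

theorem measurableSet_ann (n : ℤ) (a : E d) : MeasurableSet {x | ann n a x} := by
  have hc : Continuous fun x : E d => ‖x - a‖ := by fun_prop
  exact (measurableSet_le measurable_const hc.measurable).inter
    (measurableSet_le hc.measurable measurable_const)

/-- The point of the sphere on the ray towards `q`. -/
def spoint (x q : E d) (r : ℝ) : E d := x + (r / ‖q - x‖) • (q - x)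

theorem spoint_mem {x q : E d} {r : ℝ} (hr : 0 ≤ r) (hq : q ≠ x) : spoint x q r ∈ sphere x r := by
  have h : 0 < ‖q - x‖ := norm_pos_iff.2 (sub_ne_zero.2 hq)
  rw [mem_sphere, dist_eq_norm, spoint, add_sub_cancel_left, norm_smul, Real.norm_eq_abs,
    abs_div, abs_norm, abs_of_nonneg hr, div_mul_cancel₀ _ h.ne']

theorem norm_spoint_sub {x q : E d} {r : ℝ} (hq : q ≠ x) :
    ‖spoint x q r - q‖ = |r - ‖q - x‖| := by
  have h : 0 < ‖q - x‖ := norm_pos_iff.2 (sub_ne_zero.2 hq)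
  rw [show spoint x q r - q = ((r - ‖q - x‖) / ‖q - x‖) • (q - x) by
    rw [spoint, sub_div, div_self h.ne', sub_smul, one_smul]; abel, norm_smul, Real.norm_eq_abs,
    abs_div, abs_norm, div_mul_cancel₀ _ h.ne']

theorem scale_small (hd : 1 ≤ d) {n l : ℤ} (hl : l + (Ls d : ℤ) ≤ n) :
    256 * L0 d * (2 : ℝ) ^ l ≤ (2 : ℝ) ^ n / 2 := by
  have h := two_pow_Ls d
  have hd' : (1 : ℝ) ≤ d := by exact_mod_cast hd
  have hL : (0 : ℝ) ≤ L0 d := by simp only [L0, Kp, Kd]; positivity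
  have hC : (16 : ℝ) ≤ (2 : ℝ) ^ C0 d := by
    calc (16 : ℝ) = 2 ^ 4 := by norm_num
      _ ≤ _ := pow_le_pow_right₀ one_le_two (by rw [C0]; omega)
  have h1 : (2 : ℝ) ^ Ls d * 2 ^ l ≤ 2 ^ n := by
    rw [← zpow_natCast, ← zpow_add₀ two_ne_zero]
    exact zpow_le_zpow_right₀ one_le_two (by omega)
  refine le_trans ?_ (div_le_div_of_nonneg_right h1 zero_le_two)
  have h2 : 16 * 16 * (8 * 1 * L0 d) ≤ (2 : ℝ) ^ Ls d := by
    refine le_trans ?_ h
    gcongr
  have h3 : (0 : ℝ) < 2 ^ l := by positivity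
  nlinarith

namespace Cfg

variable {c : Cfg d} (hc : c.Ok) (t : E d)

/-- The chain of the window of `x` at scale `n`. -/
def wbot (n : ℤ) (x : E d) : Fin d → ℤ :=
  (c.isys hc.rad).bot t c.Mb (n + (Ls d : ℤ)) (qidx t (n + (Ls d : ℤ)) x)

/-- Chain weights. -/
def chCut (b : Fin d → ℤ) (u : ℤ) (x : E d) (r : ℝ) : ℝ≥0∞ :=
  (c.isys hc.rad).offCut t u (Sys.chain t c.Mb b u) x r

/-- Big items near `x`. -/
def bigW (n : ℤ) (x : E d) : ℝ≥0∞ :=
  ∑ i, if n - (Ls d : ℤ) < (c.isys hc.rad).lev i ∧ (c.isys hc.rad).lev i ≤ n + (C0 d : ℤ) ∧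
      ‖x - (c.isys hc.rad).pos i‖ ≤ bigR d * (2 : ℝ) ^ n then (c.isys hc.rad).wt i else 0

/-- Boxes off the chains of their windows. -/
def boxW (n : ℤ) (x : E d) : ℝ≥0∞ :=
  ∑' k : Fin d → ℤ,
    if k = Sys.chain t c.Mb ((c.isys hc.rad).bot t c.Mb (n + (Ls d : ℤ))
        (anc (n + (Ls d : ℤ) - (n - (Ls d : ℤ))).toNat k)) (n - (Ls d : ℤ)) then 0
    else if ann n (qctr t (n - (Ls d : ℤ)) k) x then
      (c.isys hc.rad).spot t (n - (Ls d : ℤ)) k (qctr t (n - (Ls d : ℤ)) k)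
        (((2 : ℝ) ^ n)⁻¹ • (x - qctr t (n - (Ls d : ℤ)) k))
    else 0

/-- The part of the cut weight outside the chain. -/
def bigB (n : ℤ) (x : E d) : ℝ≥0∞ := bigW hc n x + boxW hc t n x

variable {hc t}

/-- A scale, a radius and a comparison level at a point in the middle of its window. -/
structure Pick (t : E d) (c : Cfg d) (n : ℤ) (x : E d) (r : ℝ) (n' : ℤ) : Prop where
  hn : c.M ≤ n ∧ n ≤ c.N0
  hr : r ∈ Icc ((2 : ℝ) ^ n) ((2 : ℝ) ^ (n + 1))
  hn' : n ≤ n' ∧ n' ≤ c.N0 ∧ n' ≤ n + (C0 d : ℤ)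
  h2r : 2 * r ≤ (2 : ℝ) ^ n'
  hdeep : deep t (n + (Ls d : ℤ)) x

theorem Pick.bot_level {n : ℤ} {x : E d} {r : ℝ} {n' : ℤ} (hc : c.Ok) (h : Pick t c n x r n') :
    c.Mb ≤ n - (Ls d : ℤ) ∧ c.Mb + 4 ≤ n := by
  have := hc.hMb
  have := h.hn.1
  simp only [botOff] at *
  omega

/-- The window of `x` contains all small cut items and their chain is that of the window. -/
theorem qidx_window (hd : 1 ≤ d) {n : ℤ} {x : E d} {r : ℝ} {n' : ℤ} (h : Pick t c n x r n')
    {y : E d} {m : ℤ} (hm : m + (Ls d : ℤ) ≤ n) (hy : |‖x - y‖ - r| ≤ Kp d * (2 : ℝ) ^ m) :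
    qidx t (n + (Ls d : ℤ)) y = qidx t (n + (Ls d : ℤ)) x := by
  refine mem_qcube_iff.1 (ball_subset_of_deep h.hdeep ?_)
  rw [mem_ball, dist_eq_norm, norm_sub_rev]
  have h1 := scale_small hd hm
  have hd' : (1 : ℝ) ≤ d := by exact_mod_cast hd
  have hKL : Kp d ≤ 256 * L0 d := by
    simp only [L0, Kp, Kd]
    nlinarith
  have h2 : Kp d * (2 : ℝ) ^ m ≤ 256 * L0 d * 2 ^ m :=
    mul_le_mul_of_nonneg_right hKL (by positivity)
  have h3 : r ≤ 2 * 2 ^ n := by
    have := h.hr.2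
    rwa [zpow_add_one₀ two_ne_zero, mul_comm] at this
  have h4 : (64 : ℝ) * 2 ^ n ≤ 2 ^ (n + (Ls d : ℤ)) := by
    rw [show (64 : ℝ) = 2 ^ (6 : ℤ) by norm_num, ← zpow_add₀ two_ne_zero]
    refine zpow_le_zpow_right₀ one_le_two ?_
    have := C0_lt_Ls d
    rw [C0] at this
    omega
  have h5 : (0 : ℝ) < 2 ^ n := by positivity
  linarith [(abs_le.1 hy).2]

theorem ann_of_cut (hd : 1 ≤ d) {n : ℤ} {x : E d} {r : ℝ} {n' : ℤ} (h : Pick t c n x r n')
    {q y : E d} {u m : ℤ} (hu : u + (Ls d : ℤ) ≤ n) (hm : m ≤ u)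
    (hq : ‖q - y‖ ≤ Real.sqrt d * (2 : ℝ) ^ u) (hy : |‖x - y‖ - r| ≤ Kp d * (2 : ℝ) ^ m) :
    ann n q x ∧ |r - ‖q - x‖| ≤ 2 * Kp d * (2 : ℝ) ^ u := by
  have hd' : (1 : ℝ) ≤ d := by exact_mod_cast hd
  have hs := sqrt_le_self_of_one_le hd
  have hK : Real.sqrt d ≤ Kp d := by simp only [Kp, Kd]; linarith
  have hKp : (0 : ℝ) ≤ Kp d := by simp only [Kp, Kd]; positivity
  have h1 := scale_small hd hu
  have hKL : Kp d ≤ L0 d := by simp only [L0, Kp, Kd]; nlinarith
  have h2 : 2 * Kp d * (2 : ℝ) ^ u ≤ 256 * L0 d * 2 ^ u :=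
    mul_le_mul_of_nonneg_right (by linarith) (by positivity)
  have h3 : Kp d * (2 : ℝ) ^ m ≤ Kp d * 2 ^ u :=
    mul_le_mul_of_nonneg_left (zpow_le_zpow_right₀ one_le_two hm) hKp
  have h4 : Real.sqrt d * (2 : ℝ) ^ u ≤ Kp d * 2 ^ u :=
    mul_le_mul_of_nonneg_right hK (by positivity)
  have h5 : |r - ‖q - x‖| ≤ 2 * Kp d * (2 : ℝ) ^ u := by
    have h6 : |‖x - y‖ - ‖x - q‖| ≤ ‖q - y‖ := by
      refine (abs_norm_sub_norm_le _ _).trans (le_of_eq ?_)
      congr 1
      abel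
    rw [norm_sub_rev q x]
    obtain ⟨a1, a2⟩ := abs_le.1 h6
    obtain ⟨b1, b2⟩ := abs_le.1 hy
    exact abs_le.2 ⟨by linarith, by linarith⟩
  obtain ⟨c1, c2⟩ := abs_le.1 h5
  obtain ⟨r1, r2⟩ := h.hr
  rw [zpow_add_one₀ two_ne_zero] at r2
  have h7 : (0 : ℝ) < 2 ^ n := by positivity
  refine ⟨⟨?_, ?_⟩, h5⟩ <;> rw [norm_sub_rev] <;> linarith

theorem mem_below_chain {b : Fin d → ℤ} {u : ℤ} {i : ↥(c.itemBox hc.rad)}
    (hi : i ∈ (c.isys hc.rad).below t u (Sys.chain t c.Mb b u)) :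
    ‖qctr t c.Mb b - (c.isys hc.rad).pos i‖ ≤ Real.sqrt d * (2 : ℝ) ^ u ∧
      (c.isys hc.rad).lev i ≤ u := by
  obtain ⟨h1, h2⟩ := Sys.mem_below.1 hi
  refine ⟨?_, h2⟩
  have a := norm_sub_qctr_le (mem_qcube_iff.2 h1)
  have b' := norm_sub_qctr_le (t := t) (n := u) (y := qctr t c.Mb b)
    (k := Sys.chain t c.Mb b u) (mem_qcube_iff.2 rfl)
  have := norm_sub_le_norm_sub_add_norm_sub (qctr t c.Mb b) (qctr t u (Sys.chain t c.Mb b u))
    ((c.isys hc.rad).pos i)
  rw [norm_sub_rev (qctr t u _) ((c.isys hc.rad).pos i)] at this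
  linarith

/-- A nonzero chain weight puts the bottom of the chain near the sphere. -/
theorem chCut_ne_zero (hd : 1 ≤ d) {n : ℤ} {x : E d} {r : ℝ} {n' : ℤ} (h : Pick t c n x r n')
    {b : Fin d → ℤ} {u : ℤ} (hu : u + (Ls d : ℤ) ≤ n) (hne : chCut hc t b u x r ≠ 0) :
    ann n (qctr t c.Mb b) x ∧ |r - ‖qctr t c.Mb b - x‖| ≤ 2 * Kp d * (2 : ℝ) ^ u := by
  obtain ⟨i, hi, hcut⟩ : ∃ i ∈ (c.isys hc.rad).below t u (Sys.chain t c.Mb b u),
      (c.isys hc.rad).cut x r i := by
    by_contra hcon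
    push Not at hcon
    refine hne (le_antisymm ((Sys.offSum_le (S := c.isys hc.rad) (t := t) 0
      (f := fun i => if (c.isys hc.rad).cut x r i then (c.isys hc.rad).wt i else 0)
      (g := fun _ => 1) fun i hi => ?_).trans (by simp)) zero_le)
    rw [if_neg (hcon i hi)]
    exact zero_le
  obtain ⟨h1, h2⟩ := mem_below_chain hi
  exact ann_of_cut hd h hu h2 h1 hcut

/-- Weighted cut items: the big ones, the boxes, and the chain. -/
theorem split_items (hd : 1 ≤ d) {n : ℤ} {x : E d} {r : ℝ} {n' : ℤ} (h : Pick t c n x r n')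
    (φ : ↥(c.itemBox hc.rad) → ℝ≥0∞) (c1 : ℝ≥0∞) (ψ : ℤ → ℝ≥0∞)
    (hφ : ∀ i, (c.isys hc.rad).lev i ≤ n' → (c.isys hc.rad).cut x r i → φ i ≤ c1)
    (hψ : ∀ u ∈ Finset.Icc c.Mb (n - (Ls d : ℤ)),
      ∀ i ∈ (c.isys hc.rad).below t u (Sys.chain t c.Mb (wbot hc t n x) u),
        (c.isys hc.rad).cut x r i → (c.isys hc.rad).wt i ≠ 0 → φ i ≤ ψ u) :
    (∑ i, if (c.isys hc.rad).lev i ≤ n' then
        (if (c.isys hc.rad).cut x r i then (c.isys hc.rad).wt i * φ i else 0) else 0)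
      ≤ c1 * bigB hc t n x
        + ∑ u ∈ Finset.Icc c.Mb (n - (Ls d : ℤ)), ψ u * chCut hc t (wbot hc t n x) u x r := by
  set S := c.isys hc.rad with hS
  set l := n - (Ls d : ℤ) with hl
  set ν := n + (Ls d : ℤ) with hν
  set F : ↥(c.itemBox hc.rad) → ℝ≥0∞ := fun i => if S.cut x r i then S.wt i * φ i else 0 with hF
  obtain ⟨hMl, -⟩ := h.bot_level hc
  have hbig : ∀ i, (if S.lev i ≤ n' then F i else 0) ≤
      c1 * (if l < S.lev i ∧ S.lev i ≤ n + (C0 d : ℤ) ∧ ‖x - S.pos i‖ ≤ bigR d * (2 : ℝ) ^ n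
        then S.wt i else 0) + (if S.lev i ≤ l then F i else 0) := by
    intro i
    by_cases hle : S.lev i ≤ n'
    · rw [if_pos hle]
      by_cases hsmall : S.lev i ≤ l
      · rw [if_pos hsmall]
        exact le_add_self
      · simp only [F]
        by_cases hcut : S.cut x r i
        · have h1 : S.lev i ≤ n + (C0 d : ℤ) := hle.trans h.hn'.2.2
          have h2 : ‖x - S.pos i‖ ≤ bigR d * (2 : ℝ) ^ n := by
            have hK : (1 : ℝ) * 1 ≤ Kp d := by
              simp only [Kp, Kd]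
              have : (1 : ℝ) ≤ d := by exact_mod_cast hd
              linarith
            have h3 : (2 : ℝ) ^ S.lev i ≤ 2 ^ n * 2 ^ C0 d := by
              rw [← zpow_natCast, ← zpow_add₀ two_ne_zero]
              exact zpow_le_zpow_right₀ one_le_two h1
            have h4 : Kp d * (2 : ℝ) ^ S.lev i ≤ Kp d * (2 ^ n * 2 ^ C0 d) :=
              mul_le_mul_of_nonneg_left h3 (by linarith)
            have h5 : r ≤ 2 * 2 ^ n := by
              have := h.hr.2
              rwa [zpow_add_one₀ two_ne_zero, mul_comm] at this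
            have h6 : (2 : ℝ) ≤ 2 ^ C0 d := le_self_pow₀ one_le_two (by rw [C0]; omega)
            have h7 : (2 : ℝ) * 2 ^ n ≤ Kp d * (2 ^ n * 2 ^ C0 d) := by
              have h8 : (0 : ℝ) < 2 ^ n := by positivity
              nlinarith [mul_le_mul_of_nonneg_left h6 h8.le,
                mul_le_mul_of_nonneg_right hK (show (0 : ℝ) ≤ 2 ^ n * 2 ^ C0 d by positivity)]
            have h9 : ‖x - S.pos i‖ ≤ r + Kp d * (2 : ℝ) ^ S.lev i := by
              have : ‖x - S.pos i‖ - r ≤ Kp d * (2 : ℝ) ^ S.lev i := (abs_le.1 hcut).2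
              linarith
            simp only [bigR]
            linarith
          rw [if_pos hcut, if_pos ⟨not_le.1 hsmall, h1, h2⟩, mul_comm]
          exact le_add_right (mul_le_mul_left (hφ i hle hcut) _)
        · rw [if_neg hcut]
          exact zero_le
    · rw [if_neg hle]
      exact zero_le
  refine (Finset.sum_le_sum fun i _ => hbig i).trans ?_
  rw [Finset.sum_add_distrib, ← Finset.mul_sum, bigB, mul_add, add_assoc]
  refine add_le_add le_rfl ?_
  -- the small items, box by box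
  set P := Sys.chain t c.Mb (wbot hc t n x) l
  set Ks := (Finset.univ.filter fun i => S.lev i ≤ l ∧ S.cut x r i).image
    fun i => qidx t l (S.pos i) with hKs
  have hsum : (∑ i, if S.lev i ≤ l then F i else 0) = ∑ k ∈ Ks, ∑ i ∈ S.below t l k, F i := by
    have e : ∀ i, (if S.lev i ≤ l then F i else 0)
        = ∑ k ∈ Ks, if qidx t l (S.pos i) = k ∧ S.lev i ≤ l then F i else 0 := fun i => by
      by_cases hle : S.lev i ≤ l
      · rw [if_pos hle]
        by_cases hcut : S.cut x r i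
        · rw [Finset.sum_eq_single (qidx t l (S.pos i))
            (fun k _ hk => if_neg fun hh => hk hh.1.symm)
            (fun hn => absurd (Finset.mem_image_of_mem _
              (Finset.mem_filter.2 ⟨Finset.mem_univ i, hle, hcut⟩)) hn), if_pos ⟨rfl, hle⟩]
        · simp [F, hcut]
      · simp [hle]
    simp only [e]
    rw [Finset.sum_comm]
    refine Finset.sum_congr rfl fun k _ => ?_
    rw [← Finset.sum_filter]
    exact Finset.sum_congr (by ext i; simp [Sys.mem_below]) fun _ _ => rfl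
  rw [hsum]
  have hbox : ∀ k ∈ Ks, ∑ i ∈ S.below t l k, F i ≤
      c1 * (if k = Sys.chain t c.Mb (S.bot t c.Mb ν (anc (ν - l).toNat k)) l then 0
          else if ann n (qctr t l k) x then
            S.spot t l k (qctr t l k) (((2 : ℝ) ^ n)⁻¹ • (x - qctr t l k)) else 0)
        + (if k = P then ∑ u ∈ Finset.Icc c.Mb l, ψ u * chCut hc t (wbot hc t n x) u x r
          else 0) := by
    intro k hk
    obtain ⟨i0, hi0, rfl⟩ := Finset.mem_image.1 hk
    obtain ⟨-, hle0, hcut0⟩ := Finset.mem_filter.1 hi0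
    set k := qidx t l (S.pos i0)
    have hW : anc (ν - l).toNat k = qidx t ν x := by
      rw [← qidx_of_le t (by omega)]
      exact qidx_window hd h (m := S.lev i0) (by omega) hcut0
    rw [hW]
    by_cases hP : k = P
    · refine le_trans ?_ le_add_self
      rw [if_pos hP, hP]
      refine le_trans (le_of_eq (Sys.sum_chain (S := S) (t := t) (b := wbot hc t n x)
        (fun i => (isys_lev i).1) hMl
        (Sys.inSeg_mono _ _ _ hMl (by omega) (Sys.inSeg_bot _ _ _ (show c.Mb ≤ ν by omega) _)) F)) ?_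
      refine Finset.sum_le_sum fun u hu => ?_
      rw [chCut, Sys.offCut_eq]
      refine Sys.offSum_le (ψ u) fun i hi => ?_
      simp only [F]
      split_ifs with hcut
      · rcases eq_or_ne (S.wt i) 0 with h0 | h0
        · simp [h0]
        · rw [mul_comm]
          exact mul_le_mul_left (hψ u hu i hi hcut h0) _
      · exact zero_le
    · refine le_trans ?_ le_self_add
      have hann : ann n (qctr t l k) x := by
        refine (ann_of_cut hd h (y := S.pos i0) (u := l) (m := S.lev i0) (by omega) hle0 ?_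
          hcut0).1
        rw [norm_sub_rev]
        refine (norm_sub_qctr_le (mem_qcube_iff.2 rfl)).trans ?_
        have : 0 ≤ Real.sqrt d * (2 : ℝ) ^ l := by positivity
        linarith
      have hk' : ¬ k = Sys.chain t c.Mb (S.bot t c.Mb ν (qidx t ν x)) l := hP
      rw [if_neg hk', if_pos hann]
      refine le_trans ?_ (mul_le_mul_right (le_iSup₂_of_le n ?_ (le_iSup_of_le r le_rfl)) _)
      · rw [smul_inv_smul₀ (by positivity), add_sub_cancel, Sys.cutw, Finset.mul_sum]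
        refine Finset.sum_le_sum fun i hi => ?_
        simp only [F]
        split_ifs with hcut
        · rw [mul_comm]
          refine mul_le_mul_left (hφ i ?_ hcut) _
          have := (Sys.mem_below.1 hi).2
          have := h.hn'.1
          omega
        · exact zero_le
      · refine ⟨h.hn.2, ?_⟩
        show L0 d * (Real.sqrt d * (2 : ℝ) ^ l + ‖qctr t l k - qctr t l k‖) ≤ _
        rw [sub_self, norm_zero, add_zero]
        have h1 := scale_small hd (show l + (Ls d : ℤ) ≤ n by omega)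
        have h2 := sqrt_le_self_of_one_le hd
        have h3 := two_pow_Ls d
        have h4 : (2 : ℝ) ^ Ls d * 2 ^ l = 2 ^ n := by
          rw [← zpow_natCast, ← zpow_add₀ two_ne_zero]
          congr 1
          omega
        have hL : (0 : ℝ) ≤ L0 d := by simp only [L0, Kp, Kd]; positivity
        have h5 : (1 : ℝ) ≤ 2 ^ C0 d := one_le_pow₀ one_le_two
        have h6 : L0 d * Real.sqrt d ≤ 2 ^ Ls d := by
          refine le_trans ?_ h3
          have h7 : L0 d * Real.sqrt d ≤ L0 d * d := mul_le_mul_of_nonneg_left h2 hL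
          have h8 : 0 ≤ L0 d * d := mul_nonneg hL (Nat.cast_nonneg d)
          nlinarith
        calc L0 d * (Real.sqrt d * (2 : ℝ) ^ l) = L0 d * Real.sqrt d * 2 ^ l := by ring
          _ ≤ 2 ^ Ls d * 2 ^ l := mul_le_mul_of_nonneg_right h6 (by positivity)
          _ = _ := h4
  refine (Finset.sum_le_sum hbox).trans ?_
  rw [Finset.sum_add_distrib, ← Finset.mul_sum]
  refine add_le_add (mul_le_mul_right (ENNReal.sum_le_tsum Ks) c1) ?_
  rw [Finset.sum_ite_eq']
  split_ifs <;> simp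

theorem cutS_le (hd : 1 ≤ d) {n : ℤ} {x : E d} {r : ℝ} {n' : ℤ} (h : Pick t c n x r n') :
    c.cutS x r n' ≤ bigB hc t n x
      + ∑ u ∈ Finset.Icc c.Mb (n - (Ls d : ℤ)), chCut hc t (wbot hc t n x) u x r := by
  have := split_items (hc := hc) hd h (fun _ => 1) 1 (fun _ => 1) (fun _ _ _ => le_rfl)
    (fun _ _ _ _ _ _ => le_rfl)
  simp only [one_mul, mul_one] at this
  rwa [cutS_eq hc x r h.hn'.2.1]

/-- Largest weight of a cut item, relative to the radius. -/
def gC (d : ℕ) : ℝ := bigR d + 2 ^ C0 d + 4 * Kp d + 3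

theorem cutG_le (hd : 1 ≤ d) {n : ℤ} {x : E d} {r : ℝ} {n' : ℤ} (h : Pick t c n x r n') {p : E d}
    (hp : p ∈ sphere x r)
    (hch : ∀ u ∈ Finset.Icc c.Mb (n - (Ls d : ℤ)), chCut hc t (wbot hc t n x) u x r ≠ 0 →
      p = spoint x (qctr t c.Mb (wbot hc t n x)) r) :
    c.cutG x r n' p ≤ ENNReal.ofReal (gC d) * (bigB hc t n x
      + ∑ u ∈ Finset.Icc c.Mb (n - (Ls d : ℤ)),
          ENNReal.ofReal (geo u n) * chCut hc t (wbot hc t n x) u x r) := by
  rw [cutG_eq hc x r h.hn'.2.1, mul_add, Finset.mul_sum]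
  simp only [← mul_assoc]
  set S := c.isys hc.rad
  set b := wbot hc t n x
  have hn0 : (0 : ℝ) < 2 ^ n := by positivity
  have hr0 : 0 < r := lt_of_lt_of_le hn0 h.hr.1
  have hd' : (1 : ℝ) ≤ d := by exact_mod_cast hd
  have hKp : (1 : ℝ) ≤ Kp d := by simp only [Kp, Kd]; linarith
  have hgC : 0 ≤ bigR d := by simp only [bigR]; positivity
  refine split_items hd h
    (fun i => ENNReal.ofReal ((‖S.pos i - p‖ + (2 : ℝ) ^ S.lev i) / r)) (ENNReal.ofReal (gC d))
    (fun u => ENNReal.ofReal (gC d) * ENNReal.ofReal (geo u n)) ?_ ?_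
  · intro i hle hcut
    refine ENNReal.ofReal_le_ofReal ?_
    rw [div_le_iff₀ hr0]
    rw [mem_sphere, dist_eq_norm] at hp
    have h1 := norm_sub_le_norm_sub_add_norm_sub (S.pos i) x p
    rw [norm_sub_rev x p, hp] at h1
    have h2 : ‖S.pos i - x‖ ≤ r + Kp d * (2 : ℝ) ^ S.lev i := by
      rw [norm_sub_rev]
      have := (abs_le.1 hcut).2
      show ‖x - S.pos i‖ ≤ r + S.K * _
      linarith
    have h3 : (2 : ℝ) ^ S.lev i ≤ r * 2 ^ C0 d := by
      refine le_trans ?_ (mul_le_mul_of_nonneg_right h.hr.1 (by positivity))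
      rw [← zpow_natCast, ← zpow_add₀ two_ne_zero]
      exact zpow_le_zpow_right₀ one_le_two (hle.trans h.hn'.2.2)
    have h4 : Kp d * (2 : ℝ) ^ S.lev i ≤ Kp d * (r * 2 ^ C0 d) :=
      mul_le_mul_of_nonneg_left h3 (by linarith)
    have h5 : 0 ≤ r * Kp d := by positivity
    have h6 : 0 ≤ r * (Kp d * 2 ^ C0 d) := by positivity
    simp only [gC, bigR]
    linarith
  · intro u hu i hi hcut hw
    obtain ⟨hd1, hd2⟩ := mem_below_chain hi
    obtain ⟨hu1, hu2⟩ := Finset.mem_Icc.1 hu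
    obtain ⟨hann, hdist⟩ := ann_of_cut hd h (y := S.pos i) (q := qctr t c.Mb b) (u := u)
      (m := S.lev i) (by omega) hd2 hd1 hcut
    obtain ⟨v, hv, hv0⟩ : ∃ v ∈ Finset.Icc c.Mb (n - (Ls d : ℤ)), chCut hc t b v x r ≠ 0 := by
      have hne : (∑ e ∈ S.below t u (Sys.chain t c.Mb b u),
          if S.cut x r e then S.wt e else 0) ≠ 0 := by
        intro h0
        have := Finset.sum_eq_zero_iff.1 h0 i hi
        rw [if_pos hcut] at this
        exact hw this
      rw [Sys.sum_chain (S := S) (t := t) (b := b) (fun i => (isys_lev i).1) hu1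
        (Sys.inSeg_mono _ _ _ hu1 (by omega)
          (Sys.inSeg_bot _ _ _ (show c.Mb ≤ n + (Ls d : ℤ) by omega) _))] at hne
      obtain ⟨v, hv, hv0⟩ := Finset.exists_ne_zero_of_sum_ne_zero hne
      rw [← Sys.offCut_eq] at hv0
      exact ⟨v, Finset.mem_Icc.2 ⟨(Finset.mem_Icc.1 hv).1, (Finset.mem_Icc.1 hv).2.trans hu2⟩, hv0⟩
    rw [← ENNReal.ofReal_mul (by simp only [gC]; positivity)]
    refine ENNReal.ofReal_le_ofReal ?_
    have hq : qctr t c.Mb b ≠ x := by
      intro e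
      have := hann.1
      rw [e, sub_self, norm_zero] at this
      linarith
    have h1 : ‖S.pos i - p‖ ≤ Real.sqrt d * 2 ^ u + 2 * Kp d * 2 ^ u := by
      rw [hch v hv hv0]
      have := norm_sub_le_norm_sub_add_norm_sub (S.pos i) (qctr t c.Mb b)
        (spoint x (qctr t c.Mb b) r)
      rw [norm_sub_rev (qctr t c.Mb b) (spoint _ _ _), norm_spoint_sub hq,
        norm_sub_rev (S.pos i) (qctr t c.Mb b)] at this
      have hd1' : ‖qctr t c.Mb b - S.pos i‖ ≤ Real.sqrt d * 2 ^ u := hd1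
      linarith
    have h2 : (2 : ℝ) ^ S.lev i ≤ 2 ^ u := zpow_le_zpow_right₀ one_le_two hd2
    have h3 := zpow_le_geo (show u ≤ n by omega)
    rw [zpow_sub₀ two_ne_zero, div_le_iff₀ hn0] at h3
    have hs := sqrt_le_self_of_one_le hd
    have hKd : (d : ℝ) ≤ Kp d := by simp only [Kp, Kd]; linarith
    have h4 : Real.sqrt d * (2 : ℝ) ^ u ≤ Kp d * 2 ^ u :=
      mul_le_mul_of_nonneg_right (hs.trans hKd) (by positivity)
    have h5 : (2 : ℝ) ^ u ≤ Kp d * 2 ^ u := le_mul_of_one_le_left (by positivity) hKp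
    rw [div_le_iff₀ hr0]
    calc ‖S.pos i - p‖ + (2 : ℝ) ^ S.lev i ≤ 4 * Kp d * 2 ^ u := by linarith
      _ ≤ gC d * (geo u n * 2 ^ n) := by
          refine mul_le_mul ?_ h3 (by positivity) (by simp only [gC]; positivity)
          simp only [gC]
          have : (0 : ℝ) ≤ 2 ^ C0 d := by positivity
          linarith
      _ ≤ gC d * geo u n * r := by
          rw [mul_assoc]
          exact mul_le_mul_of_nonneg_left (mul_le_mul_of_nonneg_left h.hr.1 (geo_nonneg u n))
            (by simp only [gC]; positivity)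

end Cfg

end

end Vale.Agent.P137.Cen
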