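import Vale.Agent.P137.Cen.SegPoint
import Vale.Agent.P137.Cen.SegGeom
import Vale.Agent.P137.Cen.Records

/-!
# P137, centred operator: the cost along one segment and one direction
-/

open MeasureTheory Metric Set
open scoped ENNReal RealInnerProductSpace

namespace Vale.Agent.P137.Cen

open Vale.Agent.P137.Unc (E)

noncomputable section

attribute [local instance] Classical.propDecidable

variable {d : ℕ}

/-- Factor of the comparison along a segment. -/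
def recA (d : ℕ) : ℝ := 200 * Kp d + 100

namespace Cfg

variable {c : Cfg d} (hc : c.Ok) (t : E d)

/-- The point of the chain `b`. -/
def qb (_hc : c.Ok) (b : Fin d → ℤ) : E d := qctr t c.Mb b

/-- The off-chain bound of a level of a segment. -/
def segSp (b : Fin d → ℤ) (z : E d) (u : ℤ) : ℝ≥0∞ :=
  if (c.isys hc.rad).InSeg t c.Mb b u then
    (c.isys hc.rad).offSpot t u (Sys.chain t c.Mb b u) (qb t hc b) z else 0

/-- The trees near a segment. -/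
def nearW (b : Fin d → ℤ) (R : Cb d) : ℝ≥0∞ :=
  if (c.Mb ≤ R.1 ∧ R.1 ≤ c.N0) ∧ c.IsRoot R.1 R.2 ∧ (c.isys hc.rad).InSeg t c.Mb b R.1 ∧
      ‖qctr c.t R.1 R.2 - qb t hc b‖ ≤ 12 * Kd d * (2 : ℝ) ^ R.1 then c.rootW R else 0

/-- Levels of the nonzero chain weights. -/
def chLev (b : Fin d → ℤ) (n : ℤ) (x : E d) (r : ℝ) : Finset ℤ :=
  (Finset.Icc c.Mb (n - (Ls d : ℤ))).filter fun u => chCut hc t b u x r ≠ 0

/-- The lowest of them. -/
def jlev (b : Fin d → ℤ) (n : ℤ) (x : E d) (r : ℝ) : ℤ :=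
  if h : (chLev hc t b n x r).Nonempty then (chLev hc t b n x r).min' h else n

/-- A scale at which the chain carries the cut weight. -/
structure Hard (κ : ℝ) (b : Fin d → ℤ) (n : ℤ) (x : E d) (r : ℝ) (n' : ℤ) : Prop where
  pick : Pick t c n x r n'
  hbot : wbot hc t n x = b
  hloud : c.Loud κ x r n'
  hbig : bigB hc t n x < ∑ u ∈ Finset.Icc c.Mb (n - (Ls d : ℤ)), chCut hc t b u x r

variable {hc t}

theorem Hard.inSeg {κ : ℝ} {b : Fin d → ℤ} {n : ℤ} {x : E d} {r : ℝ} {n' : ℤ}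
    (h : Hard hc t κ b n x r n') {u : ℤ} (hu : c.Mb ≤ u) (hun : u ≤ n + (Ls d : ℤ)) :
    (c.isys hc.rad).InSeg t c.Mb b u := by
  have h1 := (h.pick.bot_level hc).1
  refine Sys.inSeg_mono _ _ _ hu hun ?_
  rw [← h.hbot]
  exact Sys.inSeg_bot _ _ _ (by omega) _

/-- The basic facts at a hard scale. -/
theorem Hard.facts (hd : 1 ≤ d) {κ : ℝ} {b : Fin d → ℤ} {n : ℤ} {x : E d} {r : ℝ} {n' : ℤ}
    (h : Hard hc t κ b n x r n') :
    (c.Mb ≤ jlev hc t b n x r ∧ jlev hc t b n x r + (Ls d : ℤ) ≤ n) ∧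
      (∀ u ∈ Finset.Icc c.Mb (n - (Ls d : ℤ)), u < jlev hc t b n x r →
        chCut hc t b u x r = 0) ∧
      ann n (qb t hc b) x ∧ qb t hc b ≠ x ∧
      |r - ‖qb t hc b - x‖| ≤ 2 * Kp d * (2 : ℝ) ^ jlev hc t b n x r ∧
      ‖spoint x (qb t hc b) r - qb t hc b‖ ≤ 2 * Kp d * (2 : ℝ) ^ jlev hc t b n x r ∧
      ENNReal.ofReal κ * c.nu x r n'
        ≤ 2 * ∑ u ∈ Finset.Icc c.Mb (n - (Ls d : ℤ)), chCut hc t b u x r := by
  have hne : (chLev hc t b n x r).Nonempty := by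
    by_contra hempty
    rw [Finset.not_nonempty_iff_eq_empty, chLev, Finset.filter_eq_empty_iff] at hempty
    have h0 := h.hbig
    rw [Finset.sum_eq_zero fun u hu => not_not.1 (hempty hu)] at h0
    exact absurd h0 (not_lt.2 zero_le)
  have hJ : jlev hc t b n x r = (chLev hc t b n x r).min' hne := dif_pos hne
  obtain ⟨hJm, hJ0⟩ := Finset.mem_filter.1 ((chLev hc t b n x r).min'_mem hne)
  rw [← hJ] at hJm hJ0
  obtain ⟨hJ1, hJ2⟩ := Finset.mem_Icc.1 hJm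
  obtain ⟨hann, hdist⟩ := chCut_ne_zero hd h.pick (by omega) hJ0
  have hq : qb t hc b ≠ x := by
    intro e
    have := hann.1
    have hp : (0 : ℝ) < 2 ^ n := zpow_pos two_pos n
    rw [show qctr t c.Mb b = x from e, sub_self, norm_zero] at this
    linarith
  refine ⟨⟨hJ1, by omega⟩, fun u hu hlt => ?_, hann, hq, hdist, ?_, ?_⟩
  · by_contra hne'
    have := (chLev hc t b n x r).min'_le u (Finset.mem_filter.2 ⟨hu, hne'⟩)
    omega
  · rw [norm_spoint_sub hq]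
    exact hdist
  · refine le_trans h.hloud.le ((cutS_le (hc := hc) hd h.pick).trans ?_)
    rw [h.hbot, two_mul]
    exact add_le_add h.hbig.le le_rfl

theorem chCut_le_segSp (hd : 1 ≤ d) {κ : ℝ} {b : Fin d → ℤ} {n : ℤ} {x z : E d} {r : ℝ} {n' : ℤ}
    (h : Hard hc t κ b n x r n') (hx : x = qb t hc b + (2 : ℝ) ^ n • z) {u : ℤ}
    (hu : u ∈ Finset.Icc c.Mb (n - (Ls d : ℤ))) : chCut hc t b u x r ≤ segSp hc t b z u := by
  obtain ⟨hu1, hu2⟩ := Finset.mem_Icc.1 hu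
  rw [segSp, if_pos (h.inSeg hu1 (by omega))]
  refine Sys.offCut_le_offSpot (show (0 : ℝ) ≤ L0 d by simp only [L0, Kp, Kd]; positivity) r
    ⟨h.pick.hn.2, ?_⟩ hx
  show L0 d * (Real.sqrt d * (2 : ℝ) ^ u + ‖qb t hc b - qctr t u (Sys.chain t c.Mb b u)‖) ≤ 2 ^ n
  have h1 : ‖qb t hc b - qctr t u (Sys.chain t c.Mb b u)‖ ≤ Real.sqrt d * (2 : ℝ) ^ u / 2 :=
    norm_sub_qctr_le (mem_qcube_iff.2 rfl)
  have hL : (0 : ℝ) ≤ L0 d := by simp only [L0, Kp, Kd]; positivity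
  have hs := sqrt_le_self_of_one_le hd
  have h2 := two_pow_Ls d
  have h5 : (1 : ℝ) ≤ 2 ^ C0 d := one_le_pow₀ one_le_two
  have h6 : 2 * (L0 d * Real.sqrt d) ≤ (2 : ℝ) ^ Ls d := by
    refine le_trans ?_ h2
    have h7 : L0 d * Real.sqrt d ≤ L0 d * d := mul_le_mul_of_nonneg_left hs hL
    have h8 : 0 ≤ L0 d * d := mul_nonneg hL (Nat.cast_nonneg d)
    nlinarith
  have h9 : (2 : ℝ) ^ Ls d * 2 ^ u ≤ 2 ^ n := by
    rw [← zpow_natCast, ← zpow_add₀ two_ne_zero]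
    exact zpow_le_zpow_right₀ one_le_two (by omega)
  have h10 : 0 ≤ Real.sqrt d * (2 : ℝ) ^ u := by positivity
  calc L0 d * (Real.sqrt d * (2 : ℝ) ^ u + ‖qb t hc b - qctr t u (Sys.chain t c.Mb b u)‖)
      ≤ L0 d * (2 * (Real.sqrt d * 2 ^ u)) := mul_le_mul_of_nonneg_left (by linarith) hL
    _ = 2 * (L0 d * Real.sqrt d) * 2 ^ u := by ring
    _ ≤ 2 ^ Ls d * 2 ^ u := mul_le_mul_of_nonneg_right h6 (by positivity)
    _ ≤ _ := h9

/-- Geometry of a member at a hard scale. -/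
theorem member_geom (hd : 1 ≤ d) {κ : ℝ} {b : Fin d → ℤ} {n : ℤ} {x : E d} {r : ℝ} {n' : ℤ}
    (h : Hard hc t κ b n x r n') {Q : Cb d} (hQ : c.NU x r n' Q.1 Q.2) :
    Kd d * (2 : ℝ) ^ Q.1 ≤ ‖qctr c.t Q.1 Q.2 - spoint x (qb t hc b) r‖ ∧
      ‖qctr c.t Q.1 Q.2 - spoint x (qb t hc b) r‖ ≤ 2 * r ∧
      ‖qctr c.t Q.1 Q.2 - spoint x (qb t hc b) r‖
        ≤ ‖qctr c.t Q.1 Q.2 - qb t hc b‖ + 2 * Kp d * (2 : ℝ) ^ jlev hc t b n x r ∧
      ‖qctr c.t Q.1 Q.2 - qb t hc b‖ ≤ 10 * (2 : ℝ) ^ n := by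
  obtain ⟨-, -, hann, hq, -, hp, -⟩ := h.facts hd
  set p := spoint x (qb t hc b) r
  set cQ := qctr c.t Q.1 Q.2
  have hn0 : (0 : ℝ) < 2 ^ n := zpow_pos two_pos n
  have hr0 : 0 ≤ r := le_trans hn0.le h.pick.hr.1
  have hmem : ‖x - p‖ = r := by
    rw [← dist_eq_norm, dist_comm]
    exact mem_sphere.1 (spoint_mem hr0 hq)
  have hin := hQ.1
  simp only [Cfg.inside] at hin
  have hK : 0 ≤ Kd d * (2 : ℝ) ^ Q.1 := mul_nonneg (by linarith [(Kd_ge hd).1]) (by positivity)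
  have t1 := norm_sub_le_norm_sub_add_norm_sub x cQ p
  have t2 := norm_sub_le_norm_sub_add_norm_sub cQ x p
  have t3 := norm_sub_le_norm_sub_add_norm_sub cQ (qb t hc b) p
  have t4 := norm_sub_le_norm_sub_add_norm_sub cQ x (qb t hc b)
  rw [norm_sub_rev cQ x] at t2 t4
  rw [norm_sub_rev (qb t hc b) p] at t3
  refine ⟨by linarith, by linarith, by linarith, ?_⟩
  have h2 := h.pick.hr.2
  rw [zpow_add_one₀ two_ne_zero] at h2
  linarith [hann.2]

/-- Part of the weighted members whose trees reach above the segment. -/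
def wB (hc : c.Ok) (t : E d) (b : Fin d → ℤ) (x : E d) (r : ℝ) (n' : ℤ) : ℝ≥0∞ :=
  ∑ Q ∈ (c.memb x r n').filter
      (fun Q => ¬ (c.isys hc.rad).InSeg t c.Mb b (c.root Q.1 Q.2).1),
    ‖qint c.g c.t Q.1 Q.2‖ₑ * ENNReal.ofReal (‖qctr c.t Q.1 Q.2 - spoint x (qb t hc b) r‖ / r)

/-- The other part. -/
def wA (hc : c.Ok) (t : E d) (b : Fin d → ℤ) (x : E d) (r : ℝ) (n' : ℤ) : ℝ≥0∞ :=
  ∑ Q ∈ (c.memb x r n').filter
      (fun Q => (c.isys hc.rad).InSeg t c.Mb b (c.root Q.1 Q.2).1),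
    ‖qint c.g c.t Q.1 Q.2‖ₑ * ENNReal.ofReal (‖qctr c.t Q.1 Q.2 - spoint x (qb t hc b) r‖ / r)

theorem wB_le_nu (hd : 1 ≤ d) {κ : ℝ} {b : Fin d → ℤ} {n : ℤ} {x : E d} {r : ℝ} {n' : ℤ}
    (h : Hard hc t κ b n x r n') : wB hc t b x r n' ≤ 2 * c.nu x r n' := by
  rw [nu_eq hd, Finset.mul_sum]
  refine (Finset.sum_le_sum fun Q hQ => ?_).trans
    (Finset.sum_le_sum_of_subset (Finset.filter_subset _ _))
  rw [mul_comm (2 : ℝ≥0∞)]
  refine mul_le_mul_right ?_ _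
  have hr0 : 0 < r := lt_of_lt_of_le (zpow_pos two_pos n) h.pick.hr.1
  refine le_trans (ENNReal.ofReal_le_ofReal (q := 2) ?_) (ENNReal.ofReal_ofNat 2).le
  rw [div_le_iff₀ hr0]
  exact (member_geom hd h ((mem_memb hd).1 (Finset.mem_filter.1 hQ).1).2.2).2.1

/-- A grandchild of a far member lies in a member of the larger scale of the same ray. -/
theorem star_exists (hd : 1 ≤ d) {κ : ℝ} {b : Fin d → ℤ} {z : E d} {n n1 : ℤ} {x x1 : E d}
    {r r1 : ℝ} {n' n1' : ℤ} (hn : Hard hc t κ b n x r n') (hn1 : Hard hc t κ b n1 x1 r1 n1')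
    (hlt : n < n1) (hx : x = qb t hc b + (2 : ℝ) ^ n • z)
    (hx1 : x1 = qb t hc b + (2 : ℝ) ^ n1 • z)
    {m : ℤ} (hm : jlev hc t b n x r ≤ m ∧ jlev hc t b n1 x1 r1 ≤ m) (hmn : m + (Ls d : ℤ) ≤ n)
    {Q X : Cb d} (hQ : c.NU x r n' Q.1 Q.2) (hQl : Q.1 < n')
    (hQB : ¬ (c.isys hc.rad).InSeg t c.Mb b (c.root Q.1 Q.2).1)
    (hfar : 10 * (‖x - qb t hc b‖ * (2 * Kp d * (2 : ℝ) ^ m)) < ‖qctr c.t Q.1 Q.2 - qb t hc b‖ ^ 2)
    (hX : X.1 = Q.1 - 2 ∧ c.Mb ≤ X.1 ∧ Below Q X ∧ Good c.g c.t X.1 X.2 ∧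
      c.root X.1 X.2 = c.root Q.1 Q.2) :
    ∃ P : Cb d, P ∈ c.memb x1 r1 n1' ∧ Below P X ∧ Good c.g c.t P.1 P.2 ∧
      c.root P.1 P.2 = c.root X.1 X.2 ∧ P.1 ≤ n' ∧
      ‖qctr c.t P.1 P.2 - qb t hc b‖ ≤ 20 * (2 : ℝ) ^ n ∧
      11 / 10 * ‖qctr c.t Q.1 Q.2 - qb t hc b‖ ≤ 2 * ‖qctr c.t P.1 P.2 - qb t hc b‖ ∧
      (∀ s : Cb d, Below P s → ‖qctr c.t P.1 P.2 - qb t hc b‖
        ≤ 2 * (‖qctr c.t s.1 s.2 - spoint x (qb t hc b) r‖ + (2 : ℝ) ^ s.1)) := by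
  obtain ⟨hXl, hXMb, hXQ, hXg, hXr⟩ := hX
  set q := qb t hc b with hq
  set cQ := qctr c.t Q.1 Q.2 with hcQ
  set D := 2 * Kp d * (2 : ℝ) ^ m with hDdef
  obtain ⟨⟨hJ, -⟩, -, hann, -, hdist, hp, -⟩ := hn.facts hd
  obtain ⟨-, -, -, hq1, hdist1, hp1, -⟩ := hn1.facts hd
  obtain ⟨hK1, -, hK3, hρ10⟩ := member_geom hd hn hQ
  set ρ := ‖cQ - q‖ with hρdef
  have hKd := Kd_ge hd
  have hKp : 0 ≤ Kp d := by simp only [Kp, Kd]; positivity
  have hD0 : 0 ≤ D := by simp only [D]; positivity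
  have hn0 : (0 : ℝ) < 2 ^ n := zpow_pos two_pos n
  set a := ‖x - q‖ with hadef
  have ha1 : (2 : ℝ) ^ n / 4 ≤ a := hann.1
  have hDsmall : 100 * D ≤ a := by
    have h1 := scale_small hd hmn
    have hd' : (1 : ℝ) ≤ d := by exact_mod_cast hd
    have h2 : 800 * Kp d ≤ 256 * L0 d := by
      simp only [L0]; nlinarith
    have h3 := mul_le_mul_of_nonneg_right h2 (show (0 : ℝ) ≤ 2 ^ m by positivity)
    simp only [D]
    linarith
  have hmono : ∀ J : ℤ, J ≤ m → 2 * Kp d * (2 : ℝ) ^ J ≤ D := fun J hJm =>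
    mul_le_mul_of_nonneg_left (zpow_le_zpow_right₀ one_le_two hJm) (by positivity)
  have hD1 : |r - ‖q - x‖| ≤ D := hdist.trans (hmono _ hm.1)
  have hD2 : |r1 - ‖q - x1‖| ≤ D := hdist1.trans (hmono _ hm.2)
  have hDp : ‖spoint x q r - q‖ ≤ D := hp.trans (hmono _ hm.1)
  have hDp1 : ‖spoint x1 q r1 - q‖ ≤ D := hp1.trans (hmono _ hm.2)
  have hρD : 30 * D ≤ ρ := by
    have h1 : (30 * D) ^ 2 ≤ ρ ^ 2 := by nlinarith
    exact (pow_le_pow_iff_left₀ (by positivity) (norm_nonneg _) two_ne_zero).1 h1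
  set lam := (2 : ℝ) ^ (n1 - n) with hlam
  have hlam2 : 2 ≤ lam := by
    calc (2 : ℝ) = 2 ^ (1 : ℤ) := by norm_num
      _ ≤ _ := zpow_le_zpow_right₀ one_le_two (by omega)
  have hx1' : x1 = q + lam • (x - q) := by
    rw [hx, add_sub_cancel_left, smul_smul, hlam, ← zpow_add₀ two_ne_zero, sub_add_cancel]
    exact hx1
  have hpush : ‖q + lam • (x - q) - cQ‖ + Kd d * (2 : ℝ) ^ Q.1 / 3 ≤ r1 := by
    refine inside_push hlam2 (mul_nonneg (by linarith [hKd.1]) (by positivity)) hD0 hDsmall ?_ ?_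
      hQ.1 ?_
    · rw [norm_sub_rev q x] at hD1
      linarith [(abs_le.1 hD1).2]
    · have e : ‖q - x1‖ = lam * a := by
        rw [norm_sub_rev, hx1', add_sub_cancel_left, norm_smul,
          Real.norm_of_nonneg (by positivity)]
      rw [e] at hD2
      linarith [(abs_le.1 hD2).1]
    · exact hfar.le
  rw [← hx1'] at hpush
  have hXcQ : ‖qctr c.t X.1 X.2 - cQ‖ ≤ Real.sqrt d * (2 : ℝ) ^ Q.1 / 2 :=
    norm_qctr_below_le c.t hXQ
  have hinX : c.inside x1 r1 X.1 X.2 := by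
    have e : (2 : ℝ) ^ X.1 = 2 ^ Q.1 / 4 := by
      rw [hXl, zpow_sub₀ two_ne_zero]; norm_num
    have t1 := norm_sub_le_norm_sub_add_norm_sub x1 cQ (qctr c.t X.1 X.2)
    rw [norm_sub_rev cQ (qctr c.t X.1 X.2)] at t1
    have h1 : 100 * (Real.sqrt d * (2 : ℝ) ^ Q.1) ≤ Kd d * 2 ^ Q.1 := by
      rw [← mul_assoc]
      exact mul_le_mul_of_nonneg_right hKd.2 (by positivity)
    have h2 : 0 ≤ Real.sqrt d * (2 : ℝ) ^ Q.1 := by positivity
    simp only [Cfg.inside, e]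
    linarith
  have hN1 : n1' ≤ c.N0 := hn1.pick.hn'.2.1
  have hlt1 : X.1 < n1' := lt_of_not_ge fun hge => not_inside_of_le hd hn1.pick.h2r hge _ hinX
  have hXN : X.1 ≤ c.N0 := by omega
  have hQN : Q.1 ≤ c.N0 := le_trans hQl.le hn.pick.hn'.2.1
  have hroot : n1' ≤ (c.root X.1 X.2).1 := by
    rw [hXr]
    by_contra hcon
    have h1 := (c.root_spec hQN hQ.2.2.1).1
    refine hQB (hn1.inSeg (by omega) ?_)
    have h2 := hn1.pick.hn'.2.2
    have h3 := C0_lt_Ls d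
    omega
  set S := (Finset.Icc X.1 n1').filter fun j => c.inside x1 r1 j (anc (j - X.1).toNat X.2)
  have hS : S.Nonempty := ⟨X.1, Finset.mem_filter.2 ⟨Finset.mem_Icc.2 ⟨le_rfl, hlt1.le⟩, by
    simpa [tree_anc_zero] using hinX⟩⟩
  set j := S.max' hS
  obtain ⟨hjI, hjin⟩ := Finset.mem_filter.1 (S.max'_mem hS)
  obtain ⟨hj1, hj2⟩ := Finset.mem_Icc.1 hjI
  have hj3 : j < n1' := lt_of_not_ge fun hge => not_inside_of_le hd hn1.pick.h2r hge _ hjin
  set P : Cb d := (j, anc (j - X.1).toNat X.2) with hPdef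
  have hPX : Below P X := ⟨hj1, rfl⟩
  have hjr : X.1 + ((j - X.1).toNat : ℤ) = j := by omega
  obtain ⟨hPg, hPr⟩ := c.root_anc hXN hXg (j - X.1).toNat (by omega)
  rw [hjr] at hPg hPr
  have hnotpar : ¬ c.inside x1 r1 (j + 1) (par P.2) := by
    intro hin1
    have hmem : j + 1 ∈ S := Finset.mem_filter.2 ⟨Finset.mem_Icc.2 ⟨by omega, by omega⟩, by
      rw [show (j + 1 - X.1).toNat = (j - X.1).toNat + 1 by omega, tree_anc_succ']
      exact hin1⟩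
    have := S.le_max' _ hmem
    omega
  have hPm : P ∈ c.memb x1 r1 n1' := (mem_memb hd).2 ⟨by show c.Mb ≤ j; omega, hj3, hjin,
    hnotpar, hPg, by show n1' ≤ (c.root j _).1; rw [hPr]; exact hroot⟩
  set cP := qctr c.t P.1 P.2 with hcP
  set ρP := ‖cP - q‖ with hρP
  have hKP : Kd d * (2 : ℝ) ^ j ≤ ρP + D := by
    obtain ⟨h1, -, h3, -⟩ := member_geom hd hn1 ((mem_memb hd).1 hPm).2.2
    exact (h1.trans h3).trans (by linarith [hmono _ hm.2])
  have hsj : 100 * (Real.sqrt d * (2 : ℝ) ^ j) ≤ Kd d * 2 ^ j := by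
    rw [← mul_assoc]
    exact mul_le_mul_of_nonneg_right hKd.2 (by positivity)
  have hsQ : 100 * (Real.sqrt d * (2 : ℝ) ^ Q.1) ≤ Kd d * 2 ^ Q.1 := by
    rw [← mul_assoc]
    exact mul_le_mul_of_nonneg_right hKd.2 (by positivity)
  have hXP : ‖qctr c.t X.1 X.2 - cP‖ ≤ Real.sqrt d * (2 : ℝ) ^ j / 2 :=
    norm_qctr_below_le c.t hPX
  have hKQ : Kd d * (2 : ℝ) ^ Q.1 ≤ ρ + D := (hK1.trans hK3).trans (by linarith [hmono _ hm.1])
  have u1 := norm_sub_le_norm_sub_add_norm_sub cQ (qctr c.t X.1 X.2) q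
  rw [norm_sub_rev cQ (qctr c.t X.1 X.2)] at u1
  have u2 := norm_sub_le_norm_sub_add_norm_sub (qctr c.t X.1 X.2) cP q
  have u3 := norm_sub_le_norm_sub_add_norm_sub cP (qctr c.t X.1 X.2) q
  rw [norm_sub_rev cP (qctr c.t X.1 X.2)] at u3
  have u4 := norm_sub_le_norm_sub_add_norm_sub (qctr c.t X.1 X.2) cQ q
  have hρP20 : ρP ≤ 20 * (2 : ℝ) ^ n := by linarith
  have hPn : P.1 ≤ n' := by
    show j ≤ n'
    by_contra hcon
    have h1 : (2 : ℝ) ^ n ≤ 2 ^ j := zpow_le_zpow_right₀ one_le_two (by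
      have := hn.pick.hn'.1; omega)
    have h2 : 100 * (2 : ℝ) ^ n ≤ Kd d * 2 ^ j :=
      mul_le_mul hKd.1 h1 hn0.le (by linarith [hKd.1])
    linarith
  refine ⟨P, hPm, hPX, hPg, hPr, hPn, hρP20, by linarith, fun s hs => ?_⟩
  have v1 := norm_sub_le_norm_sub_add_norm_sub cP (qctr c.t s.1 s.2) q
  rw [norm_sub_rev cP (qctr c.t s.1 s.2)] at v1
  have v2 := norm_sub_le_norm_sub_add_norm_sub (qctr c.t s.1 s.2) (spoint x q r) q
  have v3 : ‖qctr c.t s.1 s.2 - cP‖ ≤ Real.sqrt d * (2 : ℝ) ^ j / 2 := norm_qctr_below_le c.t hs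
  have v4 : (0 : ℝ) < 2 ^ s.1 := zpow_pos two_pos _
  linarith

/-- The cost of a scale against the largest one. -/
theorem wB_step (hd : 1 ≤ d) {κ : ℝ} {b : Fin d → ℤ} {z : E d} {n n1 : ℤ} {x x1 : E d}
    {r r1 : ℝ} {n' n1' : ℤ} (hn : Hard hc t κ b n x r n') (hn1 : Hard hc t κ b n1 x1 r1 n1')
    (hlt : n < n1) (hx : x = qb t hc b + (2 : ℝ) ^ n • z)
    (hx1 : x1 = qb t hc b + (2 : ℝ) ^ n1 • z)
    (hm : max (jlev hc t b n1 x1 r1) (jlev hc t b n x r) ≤ n - (Ls d : ℤ)) :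
    wB hc t b x r n' ≤ ENNReal.ofReal (recA d) *
      (c.nu x r n' * ENNReal.ofReal (geo (max (jlev hc t b n1 x1 r1) (jlev hc t b n x r)) n)
        + c.cutG x r n' (spoint x (qb t hc b) r)
        + ∑ P ∈ c.memb x1 r1 n1', if ‖qctr c.t P.1 P.2 - qb t hc b‖ ≤ 20 * (2 : ℝ) ^ n then
            ‖qint c.g c.t P.1 P.2‖ₑ
              * ENNReal.ofReal (‖qctr c.t P.1 P.2 - qb t hc b‖ / (2 : ℝ) ^ n) else 0) := by
  set m := max (jlev hc t b n1 x1 r1) (jlev hc t b n x r) with hmdef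
  set q := qb t hc b with hq
  set p := spoint x q r with hpdef
  set D := 2 * Kp d * (2 : ℝ) ^ m with hDdef
  have hKp1 : (1 : ℝ) ≤ Kp d := by
    have h := (Kd_ge hd).1
    simp only [Kp]; linarith
  have hn0 : (0 : ℝ) < 2 ^ n := zpow_pos two_pos n
  have hr0 : 0 < r := lt_of_lt_of_le hn0 hn.pick.hr.1
  have hr2 : r ≤ 2 * 2 ^ n := by
    have := hn.pick.hr.2
    rwa [zpow_add_one₀ two_ne_zero, mul_comm] at this
  set B := (c.memb x r n').filter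
    (fun Q => ¬ (c.isys hc.rad).InSeg t c.Mb b (c.root Q.1 Q.2).1) with hB
  set far := fun Q : Cb d => 10 * (‖x - q‖ * D) < ‖qctr c.t Q.1 Q.2 - q‖ ^ 2
  set Wt := fun Q : Cb d =>
    ‖qint c.g c.t Q.1 Q.2‖ₑ * ENNReal.ofReal (‖qctr c.t Q.1 Q.2 - p‖ / r)
  have hA0 : 0 ≤ recA d := by simp only [recA]; linarith
  -- near members
  have hnear : ∑ Q ∈ B.filter (fun Q => ¬ far Q), Wt Q
      ≤ c.nu x r n' * ENNReal.ofReal (recA d) * ENNReal.ofReal (geo m n) := by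
    rw [nu_eq hd, Finset.sum_mul, Finset.sum_mul]
    refine (Finset.sum_le_sum fun Q hQ => ?_).trans (Finset.sum_le_sum_of_subset
      ((Finset.filter_subset _ _).trans (Finset.filter_subset _ _)))
    obtain ⟨hQB, hnf⟩ := Finset.mem_filter.1 hQ
    have hQN := ((mem_memb hd).1 (Finset.mem_filter.1 hQB).1).2.2
    simp only [Wt]
    rw [mul_assoc, ← ENNReal.ofReal_mul hA0]
    refine mul_le_mul_right (ENNReal.ofReal_le_ofReal ?_) _
    obtain ⟨-, -, h3, -⟩ := member_geom hd hn hQN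
    obtain ⟨-, -, hann, -⟩ := hn.facts hd
    have hnf' : ‖qctr c.t Q.1 Q.2 - q‖ ^ 2 ≤ 10 * (‖x - q‖ * D) := not_lt.1 hnf
    have hg : geo m n ^ 2 = (2 : ℝ) ^ (m - n) := Real.sq_sqrt (by positivity)
    have hD : 2 * Kp d * (2 : ℝ) ^ jlev hc t b n x r ≤ D :=
      mul_le_mul_of_nonneg_left (zpow_le_zpow_right₀ one_le_two (le_max_right _ _)) (by positivity)
    have hm2 : (2 : ℝ) ^ m = 2 ^ n * 2 ^ (m - n) := by
      rw [← zpow_add₀ two_ne_zero]; congr 1; ring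
    have hzg : (2 : ℝ) ^ (m - n) ≤ geo m n := zpow_le_geo (by omega)
    have h1 : ‖qctr c.t Q.1 Q.2 - q‖ ≤ 160 * Kp d * 2 ^ n * geo m n := by
      refine (pow_le_pow_iff_left₀ (norm_nonneg _) ?_ two_ne_zero).1 (hnf'.trans ?_)
      · exact mul_nonneg (by positivity) (geo_nonneg _ _)
      · have ha : ‖x - q‖ ≤ 8 * 2 ^ n := hann.2
        have hD0 : 0 ≤ D := by simp only [D]; positivity
        calc 10 * (‖x - q‖ * D) ≤ 10 * (8 * 2 ^ n * D) := by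
              gcongr
          _ = 160 * Kp d * (2 ^ n) ^ 2 * 2 ^ (m - n) := by rw [hDdef, hm2]; ring
          _ ≤ (160 * Kp d) ^ 2 * (2 ^ n) ^ 2 * 2 ^ (m - n) := by
              gcongr
              exact le_self_pow₀ (by linarith) two_ne_zero
          _ = _ := by rw [← hg]; ring
    have h2 : D ≤ 2 * Kp d * 2 ^ n * geo m n := by
      rw [hDdef, hm2, ← mul_assoc]
      exact mul_le_mul_of_nonneg_left hzg (by positivity)
    rw [div_le_iff₀ hr0]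
    calc ‖qctr c.t Q.1 Q.2 - p‖ ≤ 162 * Kp d * 2 ^ n * geo m n := by linarith
      _ ≤ recA d * 2 ^ n * geo m n := by
          gcongr
          · exact geo_nonneg _ _
          · simp only [recA]; linarith
      _ = recA d * geo m n * 2 ^ n := by ring
      _ ≤ recA d * geo m n * r := by
          gcongr
          · exact mul_nonneg hA0 (geo_nonneg _ _)
          · exact hn.pick.hr.1
  -- far members
  have hsp : ∀ Q ∈ B.filter far, ∃ G : Finset (Cb d),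
      (∀ X ∈ G, X.1 = Q.1 - 2 ∧ c.Mb ≤ X.1 ∧ Below Q X ∧ Good c.g c.t X.1 X.2 ∧
        c.root X.1 X.2 = c.root Q.1 Q.2) ∧
      Wt Q ≤ (∑ X ∈ G, ‖qint c.g c.t X.1 X.2‖ₑ)
          * ENNReal.ofReal (11 / 10 * ‖qctr c.t Q.1 Q.2 - q‖ / 2 ^ n)
        + 2 * ENNReal.ofReal 4 * c.cutIn Q x r n' p := by
    intro Q hQ
    obtain ⟨hQB, hf⟩ := Finset.mem_filter.1 hQ
    obtain ⟨hQ1, hQ2, hQN⟩ := (mem_memb hd).1 (Finset.mem_filter.1 hQB).1
    obtain ⟨hk1, -, hk3, -⟩ := member_geom hd hn hQN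
    obtain ⟨⟨-, hJn⟩, -, hann, -, -, hp, -⟩ := hn.facts hd
    have hD : 2 * Kp d * (2 : ℝ) ^ jlev hc t b n x r ≤ D :=
      mul_le_mul_of_nonneg_left (zpow_le_zpow_right₀ one_le_two (le_max_right _ _)) (by positivity)
    set ρ := ‖qctr c.t Q.1 Q.2 - q‖
    have hρD : 15 * D ≤ ρ := by
      have hD0 : 0 ≤ D := by simp only [D]; positivity
      have h1 := scale_small hd (show m + (Ls d : ℤ) ≤ n by omega)
      have hd' : (1 : ℝ) ≤ d := by exact_mod_cast hd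
      have h2 : 800 * Kp d ≤ 256 * L0 d := by simp only [L0]; nlinarith
      have h3 := mul_le_mul_of_nonneg_right h2 (show (0 : ℝ) ≤ 2 ^ m by positivity)
      have h4 : 100 * D ≤ ‖x - q‖ := by
        simp only [D]
        linarith [hann.1]
      have h5 : (15 * D) ^ 2 ≤ ρ ^ 2 := by
        have := mul_le_mul_of_nonneg_right h4 hD0
        have hf' : 10 * (‖x - q‖ * D) < ρ ^ 2 := hf
        nlinarith
      exact (pow_le_pow_iff_left₀ (by positivity) (norm_nonneg _) two_ne_zero).1 h5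
    have hρ0 : 0 ≤ ρ := norm_nonneg _
    have hp' : ‖p - q‖ ≤ D := hp.trans hD
    have hk1' : Kd d * (2 : ℝ) ^ Q.1 ≤ ρ + D := (hk1.trans hk3).trans (by linarith)
    have hk3' : ‖qctr c.t Q.1 Q.2 - p‖ ≤ ρ + D := hk3.trans (by linarith)
    obtain ⟨G, hG1, hG2⟩ := c.member_split hd hc.integrable hn.pick.hn'.2.1 hQ1 hQ2 hQN
      (p := p) (w := 11 / 10 * ρ / 2 ^ n) (A := 4) (by norm_num) (fun s hs => by
        have hs1 : ‖qctr c.t s.1 s.2 - qctr c.t Q.1 Q.2‖ ≤ Real.sqrt d * (2 : ℝ) ^ Q.1 / 2 :=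
          norm_qctr_below_le c.t hs
        have u1 := norm_sub_le_norm_sub_add_norm_sub (qctr c.t Q.1 Q.2) (qctr c.t s.1 s.2) q
        rw [norm_sub_rev (qctr c.t Q.1 Q.2) (qctr c.t s.1 s.2)] at u1
        have u2 := norm_sub_le_norm_sub_add_norm_sub (qctr c.t s.1 s.2) p q
        have h5 : 100 * (Real.sqrt d * (2 : ℝ) ^ Q.1) ≤ Kd d * 2 ^ Q.1 := by
          rw [← mul_assoc]
          exact mul_le_mul_of_nonneg_right (Kd_ge hd).2 (by positivity)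
        have h6 : (0 : ℝ) < 2 ^ s.1 := zpow_pos two_pos _
        set S := ‖qctr c.t s.1 s.2 - p‖ + (2 : ℝ) ^ s.1
        have u1' : ρ ≤ ‖qctr c.t s.1 s.2 - qctr c.t Q.1 Q.2‖ + ‖qctr c.t s.1 s.2 - q‖ := u1
        have h7 : 11 / 10 * ρ ≤ 2 * S := by
          simp only [S]; linarith
        have hS0 : 0 ≤ S := by positivity
        rw [mul_div_assoc', div_le_div_iff₀ hn0 hr0]
        calc 11 / 10 * ρ * r ≤ 2 * S * (2 * 2 ^ n) := by gcongr
          _ = 4 * S * 2 ^ n := by ring)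
    refine ⟨G, hG1, le_trans (mul_le_mul_right (ENNReal.ofReal_le_ofReal ?_) _) hG2⟩
    calc ‖qctr c.t Q.1 Q.2 - p‖ / r ≤ ‖qctr c.t Q.1 Q.2 - p‖ / 2 ^ n :=
          div_le_div_of_nonneg_left (norm_nonneg _) hn0 hn.pick.hr.1
      _ ≤ _ := div_le_div_of_nonneg_right (by
          show ‖qctr c.t Q.1 Q.2 - p‖ ≤ 11 / 10 * ρ
          linarith) hn0.le
  choose! G hG1 hG2 using hsp
  have hst : ∀ Q ∈ B.filter far, ∀ X ∈ G Q, _ := fun Q hQ X hX =>
    star_exists hd (m := m) hn hn1 hlt hx hx1 ⟨le_max_right _ _, le_max_left _ _⟩ (by omega)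
      ((mem_memb hd).1 (Finset.mem_filter.1 (Finset.mem_filter.1 hQ).1).1).2.2
      ((mem_memb hd).1 (Finset.mem_filter.1 (Finset.mem_filter.1 hQ).1).1).2.1
      (Finset.mem_filter.1 (Finset.mem_filter.1 hQ).1).2 (Finset.mem_filter.1 hQ).2
      (hG1 Q hQ X hX)
  choose! st hst1 hst2 hst3 hst4 hst5 hst6 hst7 hst8 using hst
  set T := (B.filter far).biUnion fun Q => (G Q).image fun X => ((Q, X) : Cb d × Cb d) with hT
  have hTm : ∀ QX ∈ T, QX.1 ∈ B.filter far ∧ QX.2 ∈ G QX.1 := fun QX h => by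
    obtain ⟨Q, hQ, h⟩ := Finset.mem_biUnion.1 h
    obtain ⟨X, hX, rfl⟩ := Finset.mem_image.1 h
    exact ⟨hQ, hX⟩
  set Ps := T.image fun QX => st QX.1 QX.2 with hPs
  have hPsm : Ps ⊆ c.memb x1 r1 n1' := fun P hP => by
    obtain ⟨QX, hQX, rfl⟩ := Finset.mem_image.1 hP
    obtain ⟨a, b'⟩ := hTm QX hQX
    exact hst1 _ a _ b'
  have hXdisj : ∀ QX ∈ T, ∀ QX' ∈ T, QX ≠ QX' →
      Disjoint (qcube c.t QX.2.1 QX.2.2) (qcube c.t QX'.2.1 QX'.2.2) := by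
    intro QX h QX' h' hne
    obtain ⟨a1, a2⟩ := hTm QX h
    obtain ⟨b1, b2⟩ := hTm QX' h'
    by_cases hQQ : QX.1 = QX'.1
    · have hl : QX.2.1 = QX'.2.1 := by
        rw [(hG1 _ a1 _ a2).1, (hG1 _ b1 _ b2).1, hQQ]
      rw [← hl]
      exact disjoint_qcube _ _ fun hk => hne (Prod.ext hQQ (Prod.ext hl hk))
    · exact ((memb_disjoint hd) (Finset.mem_filter.1 (Finset.mem_filter.1 a1).1).1
        (Finset.mem_filter.1 (Finset.mem_filter.1 b1).1).1 hQQ).mono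
        (below_subset _ (hG1 _ a1 _ a2).2.2.1) (below_subset _ (hG1 _ b1 _ b2).2.2.1)
  have hfar : ∑ Q ∈ B.filter far, Wt Q
      ≤ 24 * c.cutG x r n' p + 4 * ∑ P ∈ c.memb x1 r1 n1',
          (if ‖qctr c.t P.1 P.2 - q‖ ≤ 20 * (2 : ℝ) ^ n then
            ‖qint c.g c.t P.1 P.2‖ₑ * ENNReal.ofReal (‖qctr c.t P.1 P.2 - q‖ / (2 : ℝ) ^ n)
          else 0) := by
    refine (Finset.sum_le_sum fun Q hQ => hG2 Q hQ).trans ?_
    rw [Finset.sum_add_distrib, ← Finset.mul_sum]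
    have hcut : ∑ Q ∈ B.filter far, c.cutIn Q x r n' p ≤ c.cutG x r n' p :=
      sum_cutIn_le _ ((memb_disjoint hd).mono (Finset.coe_subset.2
        ((Finset.filter_subset _ _).trans (Finset.filter_subset _ _)))) _ _ _ _
    set wP := fun P : Cb d => ENNReal.ofReal (‖qctr c.t P.1 P.2 - q‖ / (2 : ℝ) ^ n)
    have hpair : ∑ Q ∈ B.filter far, (∑ X ∈ G Q, ‖qint c.g c.t X.1 X.2‖ₑ)
        * ENNReal.ofReal (11 / 10 * ‖qctr c.t Q.1 Q.2 - q‖ / 2 ^ n)
        ≤ 2 * ∑ P ∈ Ps, (∑ QX ∈ T.filter (fun QX => st QX.1 QX.2 = P),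
            ‖qint c.g c.t QX.2.1 QX.2.2‖ₑ) * wP P := by
      have e : ∀ P ∈ Ps, (∑ QX ∈ T.filter (fun QX => st QX.1 QX.2 = P),
          ‖qint c.g c.t QX.2.1 QX.2.2‖ₑ) * wP P
          = ∑ QX ∈ T.filter (fun QX => st QX.1 QX.2 = P),
              ‖qint c.g c.t QX.2.1 QX.2.2‖ₑ * wP (st QX.1 QX.2) := fun P _ => by
        rw [Finset.sum_mul]
        exact Finset.sum_congr rfl fun QX hQX => by rw [(Finset.mem_filter.1 hQX).2]
      rw [Finset.sum_congr rfl e,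
        Finset.sum_fiberwise_of_maps_to (fun QX hQX => Finset.mem_image_of_mem _ hQX),
        hT, Finset.sum_biUnion, Finset.mul_sum]
      · refine Finset.sum_le_sum fun Q hQ => ?_
        rw [Finset.sum_image (fun a _ b _ h => congrArg Prod.snd h), Finset.sum_mul,
          Finset.mul_sum]
        refine Finset.sum_le_sum fun X hX => ?_
        rw [mul_left_comm]
        refine mul_le_mul_right ?_ _
        simp only [wP]
        refine le_trans ?_ (mul_le_mul_left (ENNReal.ofReal_ofNat 2).le _)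
        rw [← ENNReal.ofReal_mul zero_le_two]
        refine ENNReal.ofReal_le_ofReal ?_
        rw [← mul_div_assoc]
        exact div_le_div_of_nonneg_right (hst7 Q hQ X hX) hn0.le
      · intro Q _ Q' _ hne
        refine Finset.disjoint_left.2 fun QX h h' => hne ?_
        obtain ⟨X, -, rfl⟩ := Finset.mem_image.1 h
        obtain ⟨X', -, he⟩ := Finset.mem_image.1 h'
        exact (congrArg Prod.fst he).symm
    refine (add_le_add hpair (mul_le_mul_right hcut _)).trans ?_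
    have hfront : ∀ P ∈ Ps, (∑ QX ∈ T.filter (fun QX => st QX.1 QX.2 = P),
        ‖qint c.g c.t QX.2.1 QX.2.2‖ₑ) * wP P
        ≤ 2 * (‖qint c.g c.t P.1 P.2‖ₑ * wP P) + 2 * ENNReal.ofReal 4 * c.cutIn P x r n' p := by
      intro P hP
      obtain ⟨QX0, hQX0, rfl⟩ := Finset.mem_image.1 hP
      obtain ⟨a0, b0⟩ := hTm QX0 hQX0
      set P := st QX0.1 QX0.2
      set Tp := T.filter fun QX => st QX.1 QX.2 = P
      have hinj : Set.InjOn (fun QX : Cb d × Cb d => QX.2) Tp := fun u hu v hv huv => by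
        by_contra hne
        have := hXdisj u (Finset.mem_filter.1 hu).1 v (Finset.mem_filter.1 hv).1 hne
        simp only at huv
        rw [huv] at this
        exact Set.disjoint_left.1 this (tree_qctr_mem c.t v.2.1 v.2.2) (tree_qctr_mem c.t v.2.1 v.2.2)
      rw [← Finset.sum_image (f := fun X : Cb d => ‖qint c.g c.t X.1 X.2‖ₑ) hinj]
      refine c.front_cut hd hc.integrable hn.pick.hn'.2.1 (hst5 _ a0 _ b0) (hst3 _ a0 _ b0) _
        (fun X hX => ?_) ?_ (by norm_num) fun s hs => ?_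
      · obtain ⟨QX, hQX, rfl⟩ := Finset.mem_image.1 hX
        obtain ⟨hQXT, he⟩ := Finset.mem_filter.1 hQX
        obtain ⟨a, b'⟩ := hTm QX hQXT
        obtain ⟨h1, h2, h3, h4, -⟩ := hG1 _ a _ b'
        refine ⟨h2, Eq.subst (motive := fun Y => Below Y QX.2) he (hst2 _ a _ b'), h4, ?_, QX.1,
          ((mem_memb hd).1 (Finset.mem_filter.1 (Finset.mem_filter.1 a).1).1).2.2, h3, by omega⟩
        rw [← hst4 _ a _ b', he]
      · intro u hu v hv hne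
        obtain ⟨QX, hQX, rfl⟩ := Finset.mem_image.1 (Finset.mem_coe.1 hu)
        obtain ⟨QX', hQX', rfl⟩ := Finset.mem_image.1 (Finset.mem_coe.1 hv)
        exact hXdisj _ (Finset.mem_filter.1 hQX).1 _ (Finset.mem_filter.1 hQX').1
          fun e => hne (e ▸ rfl)
      · set S := ‖qctr c.t s.1 s.2 - p‖ + (2 : ℝ) ^ s.1
        have h7 : ‖qctr c.t P.1 P.2 - q‖ ≤ 2 * S := hst8 _ a0 _ b0 s hs
        have hS0 : 0 ≤ S := by positivity
        rw [mul_div_assoc', div_le_div_iff₀ hn0 hr0]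
        calc ‖qctr c.t P.1 P.2 - q‖ * r ≤ 2 * S * (2 * 2 ^ n) := by gcongr
          _ = 4 * S * 2 ^ n := by ring
    refine (add_le_add (mul_le_mul_right (Finset.sum_le_sum hfront) 2) le_rfl).trans ?_
    rw [Finset.sum_add_distrib, ← Finset.mul_sum, ← Finset.mul_sum, mul_add]
    have hcut' : ∑ P ∈ Ps, c.cutIn P x r n' p ≤ c.cutG x r n' p :=
      sum_cutIn_le _ ((memb_disjoint hd).mono (Finset.coe_subset.2 hPsm)) _ _ _ _
    have hsum : ∑ P ∈ Ps, ‖qint c.g c.t P.1 P.2‖ₑ * wP P ≤ ∑ P ∈ c.memb x1 r1 n1',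
        (if ‖qctr c.t P.1 P.2 - q‖ ≤ 20 * (2 : ℝ) ^ n then
          ‖qint c.g c.t P.1 P.2‖ₑ * wP P else 0) := by
      refine (Finset.sum_le_sum fun P hP => ?_).trans (Finset.sum_le_sum_of_subset hPsm)
      obtain ⟨QX, hQX, rfl⟩ := Finset.mem_image.1 hP
      obtain ⟨a, b'⟩ := hTm QX hQX
      exact le_of_eq (if_pos (hst6 _ a _ b')).symm
    refine (add_le_add (add_le_add (mul_le_mul_right (mul_le_mul_right hsum 2) 2)
      (mul_le_mul_right (mul_le_mul_right hcut' _) 2)) le_rfl).trans (le_of_eq ?_)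
    rw [show ENNReal.ofReal 4 = (4 : ℝ≥0∞) by simp]
    ring
  have hA : (24 : ℝ≥0∞) ≤ ENNReal.ofReal (recA d) ∧ (4 : ℝ≥0∞) ≤ ENNReal.ofReal (recA d) := by
    constructor
    · rw [show (24 : ℝ≥0∞) = ENNReal.ofReal 24 by simp]
      exact ENNReal.ofReal_le_ofReal (by simp only [recA]; linarith)
    · rw [show (4 : ℝ≥0∞) = ENNReal.ofReal 4 by simp]
      exact ENNReal.ofReal_le_ofReal (by simp only [recA]; linarith)
  have hwB : wB hc t b x r n' = ∑ Q ∈ B.filter (fun Q => ¬ far Q), Wt Q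
      + ∑ Q ∈ B.filter far, Wt Q := by
    rw [add_comm, Finset.sum_filter_add_sum_filter_not]
    rfl
  rw [hwB, mul_add, mul_add, add_assoc]
  refine add_le_add (hnear.trans (le_of_eq (by ring))) (hfar.trans ?_)
  exact add_le_add (mul_le_mul_left hA.1 _) (mul_le_mul_left hA.2 _)

/-- The Whitney condition around the point of a segment. -/
def Wh (hc : c.Ok) (t : E d) (b : Fin d → ℤ) (P : Cb d) : Prop :=
  8 * d * (2 : ℝ) ^ P.1 ≤ ‖qctr c.t P.1 P.2 - qb t hc b‖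

theorem wh_below (hd : 1 ≤ d) {b : Fin d → ℤ} {X Y : Cb d} (hX : Wh hc t b X)
    (h : Below X Y) : Wh hc t b Y := by
  rcases h.1.eq_or_lt with he | hlt
  · have : Y = X := Prod.ext he (by
      have := h.2
      rwa [he, sub_self, Int.toNat_zero, tree_anc_zero] at this)
    rwa [this]
  simp only [Wh] at hX ⊢
  have h1 := norm_qctr_below_le c.t h
  have h2 := norm_sub_le_norm_sub_add_norm_sub (qctr c.t X.1 X.2) (qctr c.t Y.1 Y.2) (qb t hc b)
  rw [norm_sub_rev (qctr c.t X.1 X.2) (qctr c.t Y.1 Y.2)] at h2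
  have h3 : (2 : ℝ) ^ Y.1 ≤ 2 ^ X.1 / 2 := by
    rw [le_div_iff₀ two_pos, ← zpow_add_one₀ two_ne_zero]
    exact zpow_le_zpow_right₀ one_le_two (by omega)
  have h4 : Real.sqrt d * (2 : ℝ) ^ X.1 ≤ d * 2 ^ X.1 :=
    mul_le_mul_of_nonneg_right (sqrt_le_self_of_one_le hd) (by positivity)
  have h5 : (d : ℝ) * 2 ^ Y.1 ≤ d * (2 ^ X.1 / 2) :=
    mul_le_mul_of_nonneg_left h3 (Nat.cast_nonneg d)
  have h6 : (0 : ℝ) ≤ d * 2 ^ X.1 := by positivity
  linarith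

/-- A far member of a tree inside the segment lies in a Whitney cube of its tree. -/
theorem wan_exists (hd : 1 ≤ d) {κ : ℝ} {b : Fin d → ℤ} {n : ℤ} {x : E d} {r : ℝ} {n' : ℤ}
    (h : Hard hc t κ b n x r n') {Q : Cb d} (hQ : c.NU x r n' Q.1 Q.2) (hQ1 : c.Mb ≤ Q.1)
    (hQ2 : Q.1 < n') (hA : (c.isys hc.rad).InSeg t c.Mb b (c.root Q.1 Q.2).1)
    (hfar : 4 * (2 * Kp d * (2 : ℝ) ^ jlev hc t b n x r) < ‖qctr c.t Q.1 Q.2 - qb t hc b‖) :
    ∃ P : Cb d, Below P Q ∧ Wh hc t b P ∧ ¬ Wh hc t b (P.1 + 1, par P.2) ∧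
      Good c.g c.t P.1 P.2 ∧ c.root P.1 P.2 = c.root Q.1 Q.2 ∧ (c.Mb ≤ P.1 ∧ P.1 ≤ n') ∧
      nearW hc t b (c.root Q.1 Q.2) = c.rootW (c.root Q.1 Q.2) ∧
      ‖qctr c.t P.1 P.2 - qb t hc b‖ ≤ 20 * (2 : ℝ) ^ n ∧
      ‖qctr c.t Q.1 Q.2 - spoint x (qb t hc b) r‖ ≤ 2 * ‖qctr c.t P.1 P.2 - qb t hc b‖ ∧
      (∀ s : Cb d, Below P s → ‖qctr c.t P.1 P.2 - qb t hc b‖
        ≤ 2 * (‖qctr c.t s.1 s.2 - spoint x (qb t hc b) r‖ + (2 : ℝ) ^ s.1)) := by
  set q := qb t hc b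
  set cQ := qctr c.t Q.1 Q.2
  obtain ⟨hk1, -, hk3, hρ10⟩ := member_geom hd h hQ
  obtain ⟨-, -, -, -, -, hp, -⟩ := h.facts hd
  have hn0 : (0 : ℝ) < 2 ^ n := zpow_pos two_pos n
  have hN : Q.1 ≤ c.N0 := le_trans hQ2.le h.pick.hn'.2.1
  obtain ⟨hR1, hR2, hR3, hR4, -⟩ := c.root_spec hN hQ.2.2.1
  set R := c.root Q.1 Q.2
  have hd' : (1 : ℝ) ≤ d := by exact_mod_cast hd
  have hn'1 : n + 1 ≤ n' := by
    have h1 : (2 : ℝ) ^ (n + 1) ≤ 2 ^ n' := by
      rw [zpow_add_one₀ two_ne_zero]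
      linarith [h.pick.h2r, h.pick.hr.1]
    exact (zpow_le_zpow_iff_right₀ one_lt_two).1 h1
  have hsl : ∀ j : ℤ, Real.sqrt d * (2 : ℝ) ^ j ≤ d * 2 ^ j := fun j =>
    mul_le_mul_of_nonneg_right (sqrt_le_self_of_one_le hd) (by positivity)
  have hwQ : Wh hc t b Q := by
    simp only [Wh]
    have h0 : 0 ≤ (d : ℝ) * 2 ^ Q.1 := by positivity
    have h1 : Kd d * (2 : ℝ) ^ Q.1 = 100 * (d * 2 ^ Q.1) := by simp only [Kd]; ring
    rw [mul_assoc]
    linarith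
  set S := (Finset.Icc Q.1 R.1).filter fun j => Wh hc t b (j, anc (j - Q.1).toNat Q.2)
  have hS : S.Nonempty := ⟨Q.1, Finset.mem_filter.2 ⟨Finset.mem_Icc.2 ⟨le_rfl, hR1⟩, by
    simpa [tree_anc_zero] using hwQ⟩⟩
  set j := S.max' hS
  obtain ⟨hjI, hjw⟩ := Finset.mem_filter.1 (S.max'_mem hS)
  obtain ⟨hj1, hj2⟩ := Finset.mem_Icc.1 hjI
  set P : Cb d := (j, anc (j - Q.1).toNat Q.2)
  have hPQ : Below P Q := ⟨hj1, rfl⟩
  obtain ⟨hPg, hPr⟩ := c.root_anc hN hQ.2.2.1 (j - Q.1).toNat (by change _ ≤ R.1; omega)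
  rw [show Q.1 + ((j - Q.1).toNat : ℤ) = j by omega] at hPg hPr
  set ρP := ‖qctr c.t P.1 P.2 - q‖
  have e1 : ‖cQ - qctr c.t P.1 P.2‖ ≤ Real.sqrt d * (2 : ℝ) ^ j / 2 :=
    norm_qctr_below_le c.t hPQ
  have hPw : 8 * ((d : ℝ) * 2 ^ j) ≤ ρP := by
    rw [← mul_assoc]; exact hjw
  have v1 := norm_sub_le_norm_sub_add_norm_sub cQ (qctr c.t P.1 P.2) q
  have v2 := norm_sub_le_norm_sub_add_norm_sub (qctr c.t P.1 P.2) cQ q
  rw [norm_sub_rev (qctr c.t P.1 P.2) cQ] at v2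
  have hsj := hsl j
  have hjn : j ≤ n := by
    by_contra hcon
    have h1 : (2 : ℝ) ^ (n + 1) ≤ 2 ^ j := zpow_le_zpow_right₀ one_le_two (by omega)
    rw [zpow_add_one₀ two_ne_zero] at h1
    have h2 : 1 * (2 : ℝ) ^ j ≤ d * 2 ^ j := mul_le_mul_of_nonneg_right hd' (by positivity)
    linarith
  have hR' : n' ≤ R.1 := hQ.2.2.2
  have hjR : j < R.1 := by omega
  refine ⟨P, hPQ, hjw, fun hw => ?_, hPg, hPr, ⟨by show c.Mb ≤ j; omega, by show j ≤ n'; omega⟩,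
    ?_, by linarith, by linarith, fun s hs => ?_⟩
  · have hmem : j + 1 ∈ S := Finset.mem_filter.2 ⟨Finset.mem_Icc.2 ⟨by omega, by omega⟩, by
      rw [show (j + 1 - Q.1).toNat = (j - Q.1).toNat + 1 by omega, tree_anc_succ']
      exact hw⟩
    have := S.le_max' _ hmem
    omega
  · have hnr : ‖qctr c.t R.1 R.2 - q‖ ≤ 12 * Kd d * (2 : ℝ) ^ R.1 := by
      have h1 : ‖cQ - qctr c.t R.1 R.2‖ ≤ Real.sqrt d * (2 : ℝ) ^ R.1 / 2 :=
        norm_qctr_below_le c.t ⟨hR1, hR3⟩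
      have h2 := norm_sub_le_norm_sub_add_norm_sub (qctr c.t R.1 R.2) cQ q
      rw [norm_sub_rev (qctr c.t R.1 R.2) cQ] at h2
      have h3 : (2 : ℝ) ^ n ≤ 2 ^ R.1 := zpow_le_zpow_right₀ one_le_two (by omega)
      have h4 : 100 * (2 : ℝ) ^ R.1 ≤ Kd d * 2 ^ R.1 :=
        mul_le_mul_of_nonneg_right (Kd_ge hd).1 (by positivity)
      have h5 : Kd d * (2 : ℝ) ^ R.1 = 100 * (d * 2 ^ R.1) := by simp only [Kd]; ring
      have h6 := hsl R.1
      have h7 : 0 ≤ (d : ℝ) * 2 ^ R.1 := by positivity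
      linarith
    rw [nearW, if_pos ⟨⟨hQ1.trans hR1, hR2⟩, hR4, hA, hnr⟩]
  · have h1 : ‖qctr c.t s.1 s.2 - qctr c.t P.1 P.2‖ ≤ Real.sqrt d * (2 : ℝ) ^ j / 2 :=
      norm_qctr_below_le c.t hs
    have h2 := norm_sub_le_norm_sub_add_norm_sub (qctr c.t P.1 P.2) (qctr c.t s.1 s.2) q
    rw [norm_sub_rev (qctr c.t P.1 P.2) (qctr c.t s.1 s.2)] at h2
    have h3 := norm_sub_le_norm_sub_add_norm_sub (qctr c.t s.1 s.2) (spoint x q r) q
    have h4 : (0 : ℝ) < 2 ^ s.1 := zpow_pos two_pos _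
    linarith

/-- The trees inside a segment cost their weights once. -/
theorem sum_wA_le (hd : 1 ≤ d) {κ : ℝ} {b : Fin d → ℤ} {z : E d} {s : Finset ℤ} {r : ℤ → ℝ}
    {n' : ℤ → ℤ} (hs : ∀ n ∈ s, Hard hc t κ b n (qb t hc b + (2 : ℝ) ^ n • z) (r n) (n' n)) :
    ∑ n ∈ s, wA hc t b (qb t hc b + (2 : ℝ) ^ n • z) (r n) (n' n)
      ≤ ∑ n ∈ s, ENNReal.ofReal (10 * Kp d) * (c.nu (qb t hc b + (2 : ℝ) ^ n • z) (r n) (n' n)
            * ENNReal.ofReal (geo (jlev hc t b n (qb t hc b + (2 : ℝ) ^ n • z) (r n)) n))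
        + (16 * ∑ n ∈ s, c.cutG (qb t hc b + (2 : ℝ) ^ n • z) (r n) (n' n)
              (spoint (qb t hc b + (2 : ℝ) ^ n • z) (qb t hc b) (r n))
          + 1280 * ∑' R : Cb d, nearW hc t b R) := by
  set q := qb t hc b
  set x : ℤ → E d := fun n => q + (2 : ℝ) ^ n • z
  set p : ℤ → E d := fun n => spoint (x n) q (r n)
  set Wt := fun (n : ℤ) (Q : Cb d) =>
    ‖qint c.g c.t Q.1 Q.2‖ₑ * ENNReal.ofReal (‖qctr c.t Q.1 Q.2 - p n‖ / r n)
  set A := fun n => (c.memb (x n) (r n) (n' n)).filter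
    (fun Q => (c.isys hc.rad).InSeg t c.Mb b (c.root Q.1 Q.2).1)
  set far := fun (n : ℤ) (Q : Cb d) =>
    4 * (2 * Kp d * (2 : ℝ) ^ jlev hc t b n (x n) (r n)) < ‖qctr c.t Q.1 Q.2 - q‖
  have hKp : 0 ≤ Kp d := by simp only [Kp, Kd]; positivity
  have hnear : ∀ n ∈ s, ∑ Q ∈ (A n).filter (fun Q => ¬ far n Q), Wt n Q
      ≤ ENNReal.ofReal (10 * Kp d) * (c.nu (x n) (r n) (n' n)
          * ENNReal.ofReal (geo (jlev hc t b n (x n) (r n)) n)) := by
    intro n hn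
    have hH : Hard hc t κ b n (x n) (r n) (n' n) := hs n hn
    rw [nu_eq hd, Finset.sum_mul, Finset.mul_sum]
    refine (Finset.sum_le_sum fun Q hQ => ?_).trans (Finset.sum_le_sum_of_subset
      ((Finset.filter_subset _ _).trans (Finset.filter_subset _ _)))
    obtain ⟨hQA, hnf⟩ := Finset.mem_filter.1 hQ
    simp only [Wt]
    rw [mul_left_comm, ← ENNReal.ofReal_mul (by positivity)]
    refine mul_le_mul_right (ENNReal.ofReal_le_ofReal ?_) _
    obtain ⟨-, -, h3, -⟩ := member_geom hd hH ((mem_memb hd).1 (Finset.mem_filter.1 hQA).1).2.2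
    obtain ⟨⟨-, hJn⟩, -⟩ := hH.facts hd
    have hn0 : (0 : ℝ) < 2 ^ n := zpow_pos two_pos n
    rw [div_le_iff₀ (lt_of_lt_of_le hn0 hH.pick.hr.1)]
    set J := jlev hc t b n (x n) (r n)
    have hg := zpow_le_geo (show J ≤ n by omega)
    rw [zpow_sub₀ two_ne_zero, div_le_iff₀ hn0] at hg
    have hnf' : ‖qctr c.t Q.1 Q.2 - q‖ ≤ 4 * (2 * Kp d * (2 : ℝ) ^ J) := not_lt.1 hnf
    calc ‖qctr c.t Q.1 Q.2 - p n‖ ≤ 10 * Kp d * 2 ^ J := by
          change ‖qctr c.t Q.1 Q.2 - p n‖ ≤ ‖qctr c.t Q.1 Q.2 - q‖ + 2 * Kp d * 2 ^ J at h3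
          linarith
      _ ≤ 10 * Kp d * (geo J n * 2 ^ n) := by gcongr
      _ ≤ 10 * Kp d * (geo J n * r n) := by
          gcongr
          · exact geo_nonneg _ _
          · exact hH.pick.hr.1
      _ = _ := by ring
  have hw : ∀ n ∈ s, ∀ Q ∈ (A n).filter (far n), _ := fun n hn Q hQ =>
    wan_exists hd (hs n hn)
      ((mem_memb hd).1 (Finset.mem_filter.1 (Finset.mem_filter.1 hQ).1).1).2.2
      ((mem_memb hd).1 (Finset.mem_filter.1 (Finset.mem_filter.1 hQ).1).1).1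
      ((mem_memb hd).1 (Finset.mem_filter.1 (Finset.mem_filter.1 hQ).1).1).2.1
      (Finset.mem_filter.1 (Finset.mem_filter.1 hQ).1).2 (Finset.mem_filter.1 hQ).2
  choose! wan w1 w2 w3 w4 w5 w6 w7 w8 w9 w10 using hw
  set Ps := fun n => ((A n).filter (far n)).image (wan n)
  set U := s.biUnion Ps
  have hUfacts : ∀ P ∈ U, ∃ n ∈ s, ∃ Q ∈ (A n).filter (far n), wan n Q = P := fun P hP => by
    obtain ⟨n, hn, hP'⟩ := Finset.mem_biUnion.1 hP
    obtain ⟨Q, hQ, rfl⟩ := Finset.mem_image.1 hP'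
    exact ⟨n, hn, Q, hQ, rfl⟩
  have hUdisj : (U : Set (Cb d)).Pairwise fun P P' =>
      Disjoint (qcube c.t P.1 P.2) (qcube c.t P'.1 P'.2) := by
    intro P hP P' hP' hne
    obtain ⟨n, hn, Q, hQ, rfl⟩ := hUfacts P hP
    obtain ⟨m, hm, Q', hQ', rfl⟩ := hUfacts P' hP'
    refine Set.disjoint_left.2 fun y hy hy' => ?_
    have key : ∀ (X Y : Cb d), y ∈ qcube c.t X.1 X.2 → y ∈ qcube c.t Y.1 Y.2 → Wh hc t b Y →
        ¬ Wh hc t b (X.1 + 1, par X.2) → X.1 < Y.1 → False := fun X Y hX hY hw hn hlt =>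
      hn (wh_below hd hw (below_of_mem hY
        (below_subset c.t below_par hX) (by show X.1 + 1 ≤ Y.1; omega)))
    rcases lt_trichotomy (wan n Q).1 (wan m Q').1 with h | h | h
    · exact key _ _ hy hy' (w2 m hm Q' hQ') (w3 n hn Q hQ) h
    · refine hne (Prod.ext h ?_)
      rw [mem_qcube_iff] at hy hy'
      rw [← hy, ← hy', h]
    · exact key _ _ hy' hy (w2 n hn Q hQ) (w3 m hm Q' hQ') h
  set wP := fun (n : ℤ) (P : Cb d) => ENNReal.ofReal (‖qctr c.t P.1 P.2 - q‖ / (2 : ℝ) ^ n)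
  set X := fun (n : ℤ) (P : Cb d) => if ‖qctr c.t P.1 P.2 - q‖ ≤ 20 * (2 : ℝ) ^ n then
    ‖qint c.g c.t P.1 P.2‖ₑ * wP n P else 0
  have hfar : ∀ n ∈ s, ∑ Q ∈ (A n).filter (far n), Wt n Q
      ≤ 16 * c.cutG (x n) (r n) (n' n) (p n) + 4 * ∑ P ∈ U, X n P := by
    intro n hn
    have hH : Hard hc t κ b n (x n) (r n) (n' n) := hs n hn
    have hn0 : (0 : ℝ) < 2 ^ n := zpow_pos two_pos n
    have hr0 : 0 < r n := lt_of_lt_of_le hn0 hH.pick.hr.1
    have h1 : ∀ Q ∈ (A n).filter (far n), Wt n Q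
        ≤ 2 * (‖qint c.g c.t Q.1 Q.2‖ₑ * wP n (wan n Q)) := fun Q hQ => by
      simp only [Wt, wP]
      rw [mul_left_comm (2 : ℝ≥0∞)]
      refine mul_le_mul_right ?_ _
      refine le_trans ?_ (mul_le_mul_left (ENNReal.ofReal_ofNat 2).le _)
      rw [← ENNReal.ofReal_mul zero_le_two]
      refine ENNReal.ofReal_le_ofReal ?_
      rw [← mul_div_assoc]
      calc ‖qctr c.t Q.1 Q.2 - p n‖ / r n ≤ ‖qctr c.t Q.1 Q.2 - p n‖ / 2 ^ n :=
            div_le_div_of_nonneg_left (norm_nonneg _) hn0 hH.pick.hr.1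
        _ ≤ _ := div_le_div_of_nonneg_right (w9 n hn Q hQ) hn0.le
    refine (Finset.sum_le_sum h1).trans ?_
    rw [← Finset.mul_sum, ← Finset.sum_fiberwise_of_maps_to
      (t := Ps n) (g := wan n) (fun Q hQ => Finset.mem_image_of_mem _ hQ)]
    have h2 : ∀ P ∈ Ps n, ∑ Q ∈ ((A n).filter (far n)).filter (fun Q => wan n Q = P),
        ‖qint c.g c.t Q.1 Q.2‖ₑ * wP n (wan n Q)
        ≤ 2 * (‖qint c.g c.t P.1 P.2‖ₑ * wP n P)
          + 2 * ENNReal.ofReal 4 * c.cutIn P (x n) (r n) (n' n) (p n) := by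
      intro P hP
      obtain ⟨Q0, hQ0, rfl⟩ := Finset.mem_image.1 hP
      rw [Finset.sum_congr rfl (fun Q hQ => by rw [(Finset.mem_filter.1 hQ).2]), ← Finset.sum_mul]
      refine c.front_cut hd hc.integrable hH.pick.hn'.2.1 (w6 n hn Q0 hQ0).2 (w4 n hn Q0 hQ0) _
        (fun G hG => ?_) ?_ (by norm_num) fun e he => ?_
      · obtain ⟨hG1, hG2⟩ := Finset.mem_filter.1 hG
        obtain ⟨hm1, -, hmN⟩ := (mem_memb hd).1 (Finset.mem_filter.1 (Finset.mem_filter.1 hG1).1).1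
        refine ⟨hm1, hG2 ▸ w1 n hn G hG1, hmN.2.2.1, ?_, G, hmN, below_self G, by omega⟩
        rw [← w5 n hn G hG1, hG2]
      · exact (memb_disjoint hd).mono (Finset.coe_subset.2 ((Finset.filter_subset _ _).trans
          ((Finset.filter_subset _ _).trans (Finset.filter_subset _ _))))
      · set S := ‖qctr c.t e.1 e.2 - p n‖ + (2 : ℝ) ^ e.1
        have h7 : ‖qctr c.t (wan n Q0).1 (wan n Q0).2 - q‖ ≤ 2 * S := w10 n hn Q0 hQ0 e he
        have hS0 : 0 ≤ S := by positivity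
        have hr2 : r n ≤ 2 * 2 ^ n := by
          have := hH.pick.hr.2
          rwa [zpow_add_one₀ two_ne_zero, mul_comm] at this
        rw [mul_div_assoc', div_le_div_iff₀ hn0 hr0]
        calc ‖qctr c.t (wan n Q0).1 (wan n Q0).2 - q‖ * r n ≤ 2 * S * (2 * 2 ^ n) := by gcongr
          _ = 4 * S * 2 ^ n := by ring
    refine (mul_le_mul_right (Finset.sum_le_sum h2) 2).trans ?_
    rw [Finset.sum_add_distrib, ← Finset.mul_sum, ← Finset.mul_sum]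
    have hsub : Ps n ⊆ U := Finset.subset_biUnion_of_mem Ps hn
    have hc1 : ∑ P ∈ Ps n, c.cutIn P (x n) (r n) (n' n) (p n)
        ≤ c.cutG (x n) (r n) (n' n) (p n) :=
      sum_cutIn_le _ (hUdisj.mono (Finset.coe_subset.2 hsub)) _ _ _ _
    have hc2 : ∑ P ∈ Ps n, ‖qint c.g c.t P.1 P.2‖ₑ * wP n P ≤ ∑ P ∈ U, X n P := by
      refine (Finset.sum_le_sum fun P hP => ?_).trans (Finset.sum_le_sum_of_subset hsub)
      obtain ⟨Q, hQ, rfl⟩ := Finset.mem_image.1 hP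
      exact le_of_eq (if_pos (w8 n hn Q hQ)).symm
    refine (mul_le_mul_right (add_le_add (mul_le_mul_right hc2 2)
      (mul_le_mul_right hc1 _)) 2).trans (le_of_eq ?_)
    rw [show ENNReal.ofReal 4 = (4 : ℝ≥0∞) by simp]
    ring
  have hsplit : ∀ n ∈ s, wA hc t b (x n) (r n) (n' n)
      ≤ ENNReal.ofReal (10 * Kp d) * (c.nu (x n) (r n) (n' n)
          * ENNReal.ofReal (geo (jlev hc t b n (x n) (r n)) n))
        + (16 * c.cutG (x n) (r n) (n' n) (p n) + 4 * ∑ P ∈ U, X n P) := fun n hn => by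
    have e : wA hc t b (x n) (r n) (n' n) = ∑ Q ∈ (A n).filter (fun Q => ¬ far n Q), Wt n Q
        + ∑ Q ∈ (A n).filter (far n), Wt n Q := by
      rw [add_comm, Finset.sum_filter_add_sum_filter_not]
      rfl
    rw [e]
    exact add_le_add (hnear n hn) (hfar n hn)
  refine (Finset.sum_le_sum hsplit).trans ?_
  rw [Finset.sum_add_distrib, Finset.sum_add_distrib, ← Finset.mul_sum (s := s) (a := (4 : ℝ≥0∞)),
    ← Finset.mul_sum (s := s) (a := (16 : ℝ≥0∞)), Finset.sum_comm (s := s) (t := U)]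
  refine add_le_add le_rfl (add_le_add le_rfl ?_)
  have hXsum : ∀ P ∈ U, ∑ n ∈ s, X n P ≤ 160 * ‖qint c.g c.t P.1 P.2‖ₑ := fun P _ => by
    have e : ∀ n ∈ s, X n P = ‖qint c.g c.t P.1 P.2‖ₑ * ENNReal.ofReal
        (if ‖qctr c.t P.1 P.2 - q‖ ≤ 20 * (2 : ℝ) ^ n then
          ‖qctr c.t P.1 P.2 - q‖ / (2 : ℝ) ^ n else 0) := fun n _ => by
      simp only [X, wP]
      split_ifs <;> simp
    rw [Finset.sum_congr rfl e, ← Finset.mul_sum, mul_comm (160 : ℝ≥0∞),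
      ← ENNReal.ofReal_sum_of_nonneg fun n _ => by split_ifs <;> positivity]
    refine mul_le_mul_right ?_ _
    rw [show (160 : ℝ≥0∞) = ENNReal.ofReal 160 by simp]
    exact ENNReal.ofReal_le_ofReal (sum_ratio_le (norm_nonneg _) s)
  refine (mul_le_mul_right ((Finset.sum_le_sum hXsum).trans_eq
    (Finset.mul_sum _ _ _).symm) 4).trans ?_
  have hroots : ∑ P ∈ U, ‖qint c.g c.t P.1 P.2‖ₑ ≤ 2 * ∑' R : Cb d, nearW hc t b R := by
    set Rs := U.image fun P => c.root P.1 P.2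
    rw [← Finset.sum_fiberwise_of_maps_to (t := Rs) (g := fun P : Cb d => c.root P.1 P.2)
      (fun P hP => Finset.mem_image_of_mem _ hP)]
    refine le_trans (Finset.sum_le_sum fun R hR => ?_)
      ((Finset.mul_sum Rs _ _).symm.le.trans (mul_le_mul_right (ENNReal.sum_le_tsum Rs) 2))
    obtain ⟨P0, hP0, rfl⟩ := Finset.mem_image.1 hR
    obtain ⟨n, hn, Q, hQ, rfl⟩ := hUfacts P0 hP0
    obtain ⟨⟨hM, hle⟩, hN⟩ := And.intro (w6 n hn Q hQ) (hs n hn).pick.hn'.2.1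
    have hP0N : (wan n Q).1 ≤ c.N0 := hle.trans hN
    have hnearR := w7 n hn Q hQ
    rw [← w5 n hn Q hQ] at hnearR
    obtain ⟨-, hR2, -, hR4, -⟩ := c.root_spec hP0N (w4 n hn Q hQ)
    set R := c.root (wan n Q).1 (wan n Q).2
    rw [hnearR]
    refine (c.front hc.integrable (R := R) hR2 hR4.1 hR4.2 _ (fun P hP => ?_)
      (hUdisj.mono (Finset.coe_subset.2 (Finset.filter_subset _ _)))).trans ?_
    · obtain ⟨hPU, hPR⟩ := Finset.mem_filter.1 hP
      obtain ⟨m, hm, Q', hQ', rfl⟩ := hUfacts P hPU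
      have h6 := w6 m hm Q' hQ'
      obtain ⟨a1, -, a3, -, -⟩ := c.root_spec (h6.2.trans (hs m hm).pick.hn'.2.1) (w4 m hm Q' hQ')
      rw [hPR] at a1 a3
      exact ⟨h6.1, a1, a3, w4 m hm Q' hQ', hPR⟩
    · rw [← mul_add, rootW]
      refine mul_le_mul_right (add_le_add le_rfl (Finset.sum_le_sum fun u _ =>
        ENNReal.tsum_le_tsum fun k => ?_)) 2
      split_ifs with h1 h2
      · exact le_rfl
      · exact absurd h1.1 h2
      · exact zero_le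
      · exact zero_le
  refine (mul_le_mul_right (mul_le_mul_right hroots 160) 4).trans (le_of_eq ?_)
  ring

/-- The cost along one segment and one direction. -/
theorem segment_point (hd : 1 ≤ d) {κ : ℝ} (hκ : 0 < κ) : ∃ C : ℝ≥0∞, C ≠ ⊤ ∧
    ∀ (c : Cfg d) (hc : c.Ok) (t : E d) (b : Fin d → ℤ) (z : E d) (s : Finset ℤ) (r : ℤ → ℝ)
      (n' : ℤ → ℤ),
      (∀ n ∈ s, Hard hc t κ b n (qb t hc b + (2 : ℝ) ^ n • z) (r n) (n' n)) →
      ∑ n ∈ s, c.cost (qb t hc b + (2 : ℝ) ^ n • z) (r n) (n' n)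
        ≤ C * (∑ u ∈ Finset.Icc c.Mb c.N0, segSp hc t b z u + ∑' R : Cb d, nearW hc t b R
          + ∑ n ∈ s, bigB hc t n (qb t hc b + (2 : ℝ) ^ n • z)) := by
  set k : ℝ≥0∞ := ENNReal.ofReal (κ / 4) with hk
  set A : ℝ≥0∞ := ENNReal.ofReal (recA d) with hA
  set g : ℝ≥0∞ := ENNReal.ofReal (gC d) with hg
  set K1 : ℝ≥0∞ := ENNReal.ofReal (10 * Kp d)
  have hk0 : k ≠ 0 := by rw [hk, Ne, ENNReal.ofReal_eq_zero, not_le]; positivity
  have hki : k⁻¹ ≠ ⊤ := ENNReal.inv_ne_top.2 hk0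
  refine ⟨k⁻¹ * (5 * A + A * A) + k⁻¹ * K1 * 4 + (17 + A) * g * 5 + 1280, ?_, ?_⟩
  · have h1 : A ≠ ⊤ := ENNReal.ofReal_ne_top
    have h2 : g ≠ ⊤ := ENNReal.ofReal_ne_top
    have h3 : K1 ≠ ⊤ := ENNReal.ofReal_ne_top
    finiteness
  intro c hc t b z s r n' hs
  set q := qb t hc b
  set x : ℤ → E d := fun n => q + (2 : ℝ) ^ n • z
  set p : ℤ → E d := fun n => spoint (x n) q (r n)
  set sp := segSp hc t b z
  set Ssp := ∑ u ∈ Finset.Icc c.Mb c.N0, sp u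
  set E' : ℤ → ℝ≥0∞ := fun n => c.cutG (x n) (r n) (n' n) (p n)
  set W : ℤ → ℝ≥0∞ := fun n => wB hc t b (x n) (r n) (n' n)
  set ν : ℤ → ℝ≥0∞ := fun n => c.nu (x n) (r n) (n' n)
  set CH : ℤ → ℤ → ℝ≥0∞ := fun n u =>
    if u ∈ Finset.Icc c.Mb (n - (Ls d : ℤ)) then chCut hc t b u (x n) (r n) else 0
  set J : ℤ → ℤ := fun n => jlev hc t b n (x n) (r n)
  have hT : ∀ n ∈ s, n - (Ls d : ℤ) ≤ c.N0 := fun n hn => by
    have := (hs n hn).pick.hn.2; omega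
  have hlow : ∀ n ∈ s, 2 * (k * ν n) ≤ ∑ u ∈ Finset.Icc c.Mb (n - (Ls d : ℤ)), CH n u := by
    intro n hn
    have h := ((hs n hn).facts hd).2.2.2.2.2.2
    simp only [CH]
    rw [Finset.sum_congr rfl fun u hu => if_pos hu]
    have e : ENNReal.ofReal κ = 4 * k := by
      rw [hk, show (4 : ℝ≥0∞) = ENNReal.ofReal 4 by simp, ← ENNReal.ofReal_mul (by norm_num)]
      congr 1
      ring
    rw [e, show 4 * k * ν n = 2 * (2 * (k * ν n)) by ring] at h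
    exact (ENNReal.mul_le_mul_iff_right (by norm_num) (by simp)).1 h
  have hCH : ∀ n ∈ s, ∀ u ∈ Finset.Icc c.Mb (n - (Ls d : ℤ)), CH n u ≤ sp u := fun n hn u hu => by
    simp only [CH]
    rw [if_pos hu]
    exact chCut_le_segSp hd (hs n hn) rfl hu
  have hJ0 : ∀ n ∈ s, ∀ u < J n, CH n u = 0 := fun n hn u hu => by
    simp only [CH]
    split_ifs with h
    · exact ((hs n hn).facts hd).2.1 u h hu
    · rfl
  have hA1 : (2 : ℝ≥0∞) ≤ A ∧ (160 : ℝ≥0∞) ≤ A := by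
    have hKp : (1 : ℝ) ≤ Kp d := by
      have h := (Kd_ge hd).1
      simp only [Kp]; linarith
    constructor
    · rw [show (2 : ℝ≥0∞) = ENNReal.ofReal 2 by simp]
      exact ENNReal.ofReal_le_ofReal (by simp only [recA]; linarith)
    · rw [show (160 : ℝ≥0∞) = ENNReal.ofReal 160 by simp]
      exact ENNReal.ofReal_le_ofReal (by simp only [recA]; linarith)
  have hrec := records (L := Ls d) (T := c.N0) (A := A) hk0 J ν W E' CH
    (fun n1 n => ∑ P ∈ c.memb (x n1) (r n1) (n' n1),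
      if ‖qctr c.t P.1 P.2 - q‖ ≤ 20 * (2 : ℝ) ^ n then
        ‖qint c.g c.t P.1 P.2‖ₑ * ENNReal.ofReal (‖qctr c.t P.1 P.2 - q‖ / (2 : ℝ) ^ n) else 0)
    sp hT hCH hJ0 hlow
    (fun n hn => (wB_le_nu hd (hs n hn)).trans (mul_le_mul_left hA1.1 _))
    (fun n1 hn1 n hn hlt hm => wB_step hd (hs n hn) (hs n1 hn1) hlt rfl rfl hm)
    (fun n1 hn1 => by
      rw [Finset.sum_comm]
      simp only [ν]
      rw [nu_eq hd, Finset.mul_sum]
      refine Finset.sum_le_sum fun P _ => le_trans ?_ (mul_le_mul_left hA1.2 _)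
      have e : ∀ n ∈ s.filter (· < n1), (if ‖qctr c.t P.1 P.2 - q‖ ≤ 20 * (2 : ℝ) ^ n then
          ‖qint c.g c.t P.1 P.2‖ₑ * ENNReal.ofReal (‖qctr c.t P.1 P.2 - q‖ / (2 : ℝ) ^ n) else 0)
          = ‖qint c.g c.t P.1 P.2‖ₑ * ENNReal.ofReal (if ‖qctr c.t P.1 P.2 - q‖ ≤ 20 * (2 : ℝ) ^ n
            then ‖qctr c.t P.1 P.2 - q‖ / (2 : ℝ) ^ n else 0) := fun n _ => by
        split_ifs <;> simp
      rw [Finset.sum_congr rfl e, ← Finset.mul_sum, mul_comm (160 : ℝ≥0∞),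
        ← ENNReal.ofReal_sum_of_nonneg fun n _ => by split_ifs <;> positivity]
      refine mul_le_mul_right ?_ _
      rw [show (160 : ℝ≥0∞) = ENNReal.ofReal 160 by simp]
      exact ENNReal.ofReal_le_ofReal (sum_ratio_le (norm_nonneg _) _))
  -- sums of chain weights against the geometric weights
  have hswap : ∑ n ∈ s, ∑ u ∈ Finset.Icc c.Mb (n - (Ls d : ℤ)),
      ENNReal.ofReal (geo u n) * sp u ≤ 4 * Ssp := by
    have e : ∀ n ∈ s, ∑ u ∈ Finset.Icc c.Mb (n - (Ls d : ℤ)), ENNReal.ofReal (geo u n) * sp u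
        = ∑ u ∈ Finset.Icc c.Mb c.N0,
            if u ≤ n - (Ls d : ℤ) then ENNReal.ofReal (geo u n) * sp u else 0 := fun n hn => by
      rw [← Finset.sum_filter]
      refine Finset.sum_congr ?_ fun _ _ => rfl
      have := hT n hn
      ext u
      simp only [Finset.mem_filter, Finset.mem_Icc]
      omega
    rw [Finset.sum_congr rfl e, Finset.sum_comm, Finset.mul_sum]
    refine Finset.sum_le_sum fun u _ => ?_
    rw [← Finset.sum_filter, ← Finset.sum_mul,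
      ← ENNReal.ofReal_sum_of_nonneg fun n _ => geo_nonneg u n]
    refine mul_le_mul_left ?_ _
    rw [show (4 : ℝ≥0∞) = ENNReal.ofReal 4 by simp]
    exact ENNReal.ofReal_le_ofReal (geo_sum_le u _ fun n hn => by
      have := (Finset.mem_filter.1 hn).2; omega)
  have hE : ∑ n ∈ s, E' n ≤ g * (∑ n ∈ s, bigB hc t n (x n) + 4 * Ssp) := by
    refine le_trans (Finset.sum_le_sum fun n hn => ?_)
      (((Finset.mul_sum s (fun n => bigB hc t n (x n)
        + ∑ u ∈ Finset.Icc c.Mb (n - (Ls d : ℤ)), ENNReal.ofReal (geo u n) * sp u) g).symm.le).trans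
        (mul_le_mul_right (by rw [Finset.sum_add_distrib]; exact add_le_add le_rfl hswap) g))
    have hH : Hard hc t κ b n (x n) (r n) (n' n) := hs n hn
    have hq := (hH.facts hd).2.2.2.1
    have hr0 : 0 ≤ r n := le_trans (by positivity) hH.pick.hr.1
    refine (cutG_le (hc := hc) hd hH.pick (spoint_mem hr0 hq) fun u _ _ => ?_).trans
      (mul_le_mul_right (add_le_add le_rfl ?_) _)
    · rw [hH.hbot]
      rfl
    · rw [hH.hbot]
      exact Finset.sum_le_sum fun u hu => mul_le_mul_right (chCut_le_segSp hd hH rfl hu) _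
  have hgeo : k * ∑ n ∈ s, ν n * ENNReal.ofReal (geo (J n) n) ≤ 4 * Ssp := by
    refine le_trans ?_ hswap
    rw [Finset.mul_sum]
    refine Finset.sum_le_sum fun n hn => ?_
    rw [← mul_assoc]
    refine (mul_le_mul_left ((le_mul_of_one_le_left zero_le one_le_two).trans (hlow n hn)) _).trans ?_
    rw [Finset.sum_mul]
    refine Finset.sum_le_sum fun u hu => ?_
    rcases lt_or_ge u (J n) with h | h
    · rw [hJ0 n hn u h, zero_mul]
      exact zero_le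
    · rw [mul_comm]
      exact mul_le_mul' (ENNReal.ofReal_le_ofReal (geo_mono h)) (hCH n hn u hu)
  have hcost : ∀ n ∈ s, c.cost (x n) (r n) (n' n)
      ≤ wA hc t b (x n) (r n) (n' n) + W n + E' n := by
    intro n hn
    have hH : Hard hc t κ b n (x n) (r n) (n' n) := hs n hn
    have hq := (hH.facts hd).2.2.2.1
    have hr0 : 0 ≤ r n := le_trans (by positivity) hH.pick.hr.1
    refine (iInf₂_le (p n) (spoint_mem hr0 hq)).trans (add_le_add (le_of_eq ?_) le_rfl)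
    rw [wtp_eq hd]
    simp only [W, wA, wB]
    rw [Finset.sum_filter_add_sum_filter_not]
  have hW : ∑ n ∈ s, W n ≤ k⁻¹ * (5 * A + A * A) * Ssp + A * ∑ n ∈ s, E' n := by
    have := mul_le_mul_right hrec k⁻¹
    rw [← mul_assoc, ENNReal.inv_mul_cancel hk0 (by rw [hk]; exact ENNReal.ofReal_ne_top), one_mul,
      mul_add, ← mul_assoc] at this
    refine this.trans (add_le_add le_rfl (le_of_eq ?_))
    rw [show k⁻¹ * (A * k * ∑ n ∈ s, E' n) = k⁻¹ * k * (A * ∑ n ∈ s, E' n) by ring,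
      ENNReal.inv_mul_cancel hk0 (by rw [hk]; exact ENNReal.ofReal_ne_top), one_mul]
  have hgeo' : ∑ n ∈ s, ν n * ENNReal.ofReal (geo (J n) n) ≤ k⁻¹ * 4 * Ssp := by
    have := mul_le_mul_right hgeo k⁻¹
    rwa [← mul_assoc, ENNReal.inv_mul_cancel hk0 (by rw [hk]; exact ENNReal.ofReal_ne_top),
      one_mul, ← mul_assoc] at this
  refine (Finset.sum_le_sum hcost).trans ?_
  rw [Finset.sum_add_distrib, Finset.sum_add_distrib]
  refine (add_le_add (add_le_add ((sum_wA_le hd hs).trans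
    (add_le_add (le_of_eq (Finset.mul_sum _ _ _).symm) le_rfl)) hW) le_rfl).trans ?_
  set SB := ∑ n ∈ s, bigB hc t n (x n)
  set SR := ∑' R : Cb d, nearW hc t b R
  change K1 * (∑ n ∈ s, ν n * ENNReal.ofReal (geo (J n) n)) + (16 * ∑ n ∈ s, E' n + 1280 * SR)
    + (k⁻¹ * (5 * A + A * A) * Ssp + A * ∑ n ∈ s, E' n) + ∑ n ∈ s, E' n ≤ _
  calc K1 * (∑ n ∈ s, ν n * ENNReal.ofReal (geo (J n) n)) + (16 * ∑ n ∈ s, E' n + 1280 * SR)
        + (k⁻¹ * (5 * A + A * A) * Ssp + A * ∑ n ∈ s, E' n) + ∑ n ∈ s, E' n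
      = K1 * (∑ n ∈ s, ν n * ENNReal.ofReal (geo (J n) n)) + (17 + A) * ∑ n ∈ s, E' n
        + k⁻¹ * (5 * A + A * A) * Ssp + 1280 * SR := by ring
    _ ≤ K1 * (k⁻¹ * 4 * Ssp) + (17 + A) * (g * (5 * (SB + Ssp)))
        + k⁻¹ * (5 * A + A * A) * (Ssp + SR + SB) + 1280 * (Ssp + SR + SB) := by
        refine add_le_add (add_le_add (add_le_add (mul_le_mul_right hgeo' _)
          (mul_le_mul_right (hE.trans (mul_le_mul_right ?_ _)) _))
          (mul_le_mul_right (le_self_add.trans le_self_add) _))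
          (mul_le_mul_right (le_add_self.trans le_self_add) _)
        rw [mul_add]
        exact add_le_add (le_mul_of_one_le_left zero_le (by norm_num))
          (mul_le_mul_left (by norm_num) _)
    _ ≤ K1 * (k⁻¹ * 4 * (Ssp + SR + SB)) + (17 + A) * (g * (5 * (Ssp + SR + SB)))
        + k⁻¹ * (5 * A + A * A) * (Ssp + SR + SB) + 1280 * (Ssp + SR + SB) := by
        refine add_le_add (add_le_add (add_le_add (mul_le_mul_right (mul_le_mul_right
          (le_self_add.trans le_self_add) _) _) (mul_le_mul_right (mul_le_mul_right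
          (mul_le_mul_right ?_ _) _) _)) le_rfl) le_rfl
        rw [add_comm SB Ssp]
        exact add_le_add le_self_add le_rfl
    _ = _ := by ring

end Cfg

end

end Vale.Agent.P137.Cen
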