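import Vale.Agent.P137.Cen.TreeCells

/-!
# P137, centred operator: the cutoff of a tree on one cell
-/

open MeasureTheory Metric Set Filter
open scoped ENNReal NNReal RealInnerProductSpace Gradient Topology

namespace Vale.Agent.P137.Cen

open Vale.Agent.P137.Unc (E qdec ballAvg Smooth inner_grad)

noncomputable section

attribute [local instance] Classical.propDecidable

variable {d : ℕ}

/-- Oscillation over a block of neighbours: chains of adjacent cubes. -/
theorem enorm_sub_setIntegral_nbr_le {C : ℝ≥0∞} {g : E d → E d} {u : E d → ℝ} (t : E d) (n : ℤ)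
    (k : Fin d → ℤ)
    (hpair : ∀ (a a' : Fin d → ℤ) (i : Fin d), a' = Function.update a i (a i + 1) →
      (∃ o, a = nbr k o) → (∃ o, a' = nbr k o) →
      ‖(∫ z in qcube t n a', u z) - ∫ z in qcube t n a, u z‖ₑ
        ≤ C * (cW g t n a + cW g t n a'))
    (o : Fin d → Fin 9) :
    ‖(∫ z in qcube t n (nbr k o), u z) - ∫ z in qcube t n k, u z‖ₑ
      ≤ (4 * d : ℕ) * (2 * C * ∑ o' : Fin d → Fin 9, cW g t n (nbr k o')) := by
  set S := ∑ o' : Fin d → Fin 9, cW g t n (nbr k o')
  have hS : ∀ a, (∃ o', a = nbr k o') → cW g t n a ≤ S := by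
    rintro a ⟨o', rfl⟩
    exact Finset.single_le_sum (f := fun o' => cW g t n (nbr k o')) (fun _ _ => zero_le)
      (Finset.mem_univ o')
  have key : ∀ (N : ℕ) (o : Fin d → Fin 9),
      (∑ i, (((o i : ℕ) : ℤ) - 4).natAbs) ≤ N →
      ‖(∫ z in qcube t n (nbr k o), u z) - ∫ z in qcube t n k, u z‖ₑ ≤ N * (2 * C * S) := by
    intro N
    induction N with
    | zero =>
      intro o ho
      have : nbr k o = k := funext fun i => by
        have := (Finset.sum_eq_zero_iff.1 (Nat.le_zero.1 ho)) i (Finset.mem_univ i)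
        simp only [nbr, noff, Pi.add_apply]
        omega
      simp [this]
    | succ N ih =>
      intro o ho
      by_cases h0 : ∀ i, ((o i : ℕ) : ℤ) = 4
      · have : nbr k o = k := funext fun i => by simp [nbr, noff, h0 i]
        simp [this]
      obtain ⟨i, hi⟩ := not_forall.1 h0
      have h9 := (o i).isLt
      let v : Fin 9 := if (o i : ℕ) < 4 then ⟨min ((o i : ℕ) + 1) 8, by omega⟩
        else ⟨(o i : ℕ) - 1, by omega⟩
      have hv : ((v : ℕ) : ℤ) = if (o i : ℕ) < 4 then ((o i : ℕ) : ℤ) + 1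
          else ((o i : ℕ) : ℤ) - 1 := by
        simp only [v]
        split_ifs
        · show ((min ((o i : ℕ) + 1) 8 : ℕ) : ℤ) = _
          omega
        · show (((o i : ℕ) - 1 : ℕ) : ℤ) = _
          omega
      set o1 := Function.update o i v
      have hN : (∑ j, (((o1 j : ℕ) : ℤ) - 4).natAbs) ≤ N := by
        have hlt : (∑ j, (((o1 j : ℕ) : ℤ) - 4).natAbs) < ∑ j, (((o j : ℕ) : ℤ) - 4).natAbs := by
          refine Finset.sum_lt_sum (fun j _ => ?_) ⟨i, Finset.mem_univ i, ?_⟩
          · by_cases hj : j = i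
            · subst hj
              simp only [o1, Function.update_self, hv]
              split_ifs <;> omega
            · simp [o1, Function.update_of_ne hj]
          · simp only [o1, Function.update_self, hv]
            split_ifs <;> omega
        omega
      have hstep : ‖(∫ z in qcube t n (nbr k o), u z) - ∫ z in qcube t n (nbr k o1), u z‖ₑ
          ≤ 2 * C * S := by
        have e : ∀ (a a' : Fin d → ℤ), a' = Function.update a i (a i + 1) →
            (∃ o, a = nbr k o) → (∃ o, a' = nbr k o) →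
            ‖(∫ z in qcube t n a', u z) - ∫ z in qcube t n a, u z‖ₑ ≤ 2 * C * S :=
          fun a a' h1 h2 h3 => by
            refine (hpair a a' i h1 h2 h3).trans ?_
            rw [two_mul, add_mul, mul_add]
            exact add_le_add (mul_le_mul_right (hS a h2) _) (mul_le_mul_right (hS a' h3) _)
        by_cases hlt : (o i : ℕ) < 4
        · rw [enorm_sub_rev]
          refine e _ _ ?_ ⟨o, rfl⟩ ⟨o1, rfl⟩
          funext j
          by_cases hj : j = i
          · subst hj
            simp only [nbr, noff, Pi.add_apply, o1, Function.update_self, hv, if_pos hlt]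
            ring
          · simp [nbr, noff, o1, Function.update_of_ne hj]
        · refine e _ _ ?_ ⟨o1, rfl⟩ ⟨o, rfl⟩
          funext j
          by_cases hj : j = i
          · subst hj
            simp only [nbr, noff, Pi.add_apply, o1, Function.update_self, hv, if_neg hlt]
            ring
          · simp [nbr, noff, o1, Function.update_of_ne hj]
      rw [← sub_add_sub_cancel _ (∫ z in qcube t n (nbr k o1), u z), Nat.cast_succ, add_mul, one_mul,
        add_comm _ (2 * C * S)]
      exact (enorm_add_le _ _).trans (add_le_add hstep (ih o1 hN))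
  refine key _ o ?_
  calc (∑ i, (((o i : ℕ) : ℤ) - 4).natAbs) ≤ ∑ _i : Fin d, 4 :=
        Finset.sum_le_sum fun i _ => by have := (o i).isLt; omega
    _ = 4 * d := by simp [mul_comm]

namespace Cfg

variable {c : Cfg d}

theorem zCut_ge (hd : 1 ≤ d) : 2 ≤ zCut d := by
  have : (1 : ℝ) ≤ d := by exact_mod_cast hd
  unfold zCut
  linarith

/-- The cutoff varies on the scale of the marks. -/
theorem abs_zeta_sub_le (hd : 1 ≤ d) {R : Cb d} (hR : c.Tree R) {x y : E d} {m : ℝ} (hm : 0 < m)
    (hx : m ≤ c.lam0 R x) (hy : m ≤ c.lam0 R y) :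
    |c.zeta R x - c.zeta R y| ≤ 2 * zCut d / m * ‖x - y‖ := by
  have key : ∀ x y : E d, m ≤ c.lam0 R x →
      c.zeta R x - c.zeta R y ≤ 2 * zCut d / m * ‖x - y‖ := by
    intro x y hx
    have hz := zCut_ge hd
    have hB : (0 : ℝ) ≤ 2 * zCut d / m * ‖x - y‖ := by positivity
    set wx := zCut d * c.dOut R x / c.lam0 R x with hwx
    set wy := zCut d * c.dOut R y / c.lam0 R y with hwy
    have ex : c.zeta R x = max 0 (min 1 (wx - 1)) := rfl
    have ey : c.zeta R y = max 0 (min 1 (wy - 1)) := rfl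
    rcases le_or_gt 2 wy with h | h
    · have : c.zeta R y = 1 := by
        rw [ey, min_eq_left (by linarith), max_eq_right zero_le_one]
      linarith [zeta_le_one c R x]
    rcases le_or_gt wx wy with h' | h'
    · have : c.zeta R x ≤ c.zeta R y := by
        rw [ex, ey]
        exact max_le_max le_rfl (min_le_min le_rfl (by linarith))
      linarith
    have hw : c.zeta R x - c.zeta R y ≤ wx - wy := by
      rw [ex, ey]
      rcases max_cases (0 : ℝ) (min 1 (wx - 1)) with ⟨e, -⟩ | ⟨e, -⟩ <;> rw [e]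
      · linarith [le_max_left (0 : ℝ) (min 1 (wy - 1))]
      · rcases min_cases (1 : ℝ) (wy - 1) with ⟨e', h''⟩ | ⟨e', h''⟩
        · rw [e']
          linarith [min_le_left (1 : ℝ) (wx - 1), le_max_right (0 : ℝ) 1]
        · rw [e']
          linarith [min_le_right (1 : ℝ) (wx - 1), le_max_right (0 : ℝ) (wy - 1)]
    refine hw.trans ?_
    have hlx := lam0_pos hR x
    have hly := lam0_pos hR y
    have h1 := abs_le.1 (abs_lam0_sub_le hR x y)
    have h2 := (lipschitz_dOut c R).dist_le_mul x y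
    rw [Real.dist_eq, dist_eq_norm, NNReal.coe_one, one_mul] at h2
    have h2' := abs_le.1 h2
    have hwy0 : 0 ≤ wy := by
      rw [hwy]
      exact div_nonneg (mul_nonneg (by linarith) (dOut_nonneg c R y)) hly.le
    have e : (wx - wy) * c.lam0 R x = zCut d * (c.dOut R x - c.dOut R y)
        + wy * (c.lam0 R y - c.lam0 R x) := by
      rw [hwx, hwy]
      field_simp
      ring
    have h3 : (wx - wy) * c.lam0 R x ≤ 2 * zCut d * ‖x - y‖ := by
      rw [e]
      have b1 := mul_le_mul_of_nonneg_left h2'.2 (show 0 ≤ zCut d by linarith)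
      have b2 := mul_le_mul_of_nonneg_left
        (show c.lam0 R y - c.lam0 R x ≤ ‖x - y‖ by linarith [h1.1]) hwy0
      have b3 := mul_le_mul_of_nonneg_right (show wy ≤ zCut d by linarith) (norm_nonneg (x - y))
      linarith
    rw [div_mul_eq_mul_div, le_div_iff₀ hm]
    exact (mul_le_mul_of_nonneg_left hx (by linarith)).trans h3
  rw [abs_le]
  have h1 := key x y hx
  have h2 := key y x hy
  rw [norm_sub_rev] at h2
  constructor <;> linarith

theorem lipschitz_zeta (hd : 1 ≤ d) {R : Cb d} (hR : c.Tree R) :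
    LipschitzWith (2 * zCut d / (2 : ℝ) ^ c.M).toNNReal (c.zeta R) := by
  refine LipschitzWith.of_dist_le_mul fun x y => ?_
  have hz := zCut_ge hd
  rw [Real.coe_toNNReal _ (by positivity), Real.dist_eq, dist_eq_norm]
  exact abs_zeta_sub_le hd hR (zpow_pos two_pos _) (lam0_ge hR x) (lam0_ge hR y)

theorem fderiv_zeta_eq_zero {R : Cb d} (hR : c.Tree R) {x : E d}
    (h : zCut d * c.dOut R x ≤ c.lam0 R x ∨ 2 * c.lam0 R x ≤ zCut d * c.dOut R x) :
    fderiv ℝ (c.zeta R) x = 0 := by
  have hl := lam0_pos hR x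
  rcases h with h | h
  · refine IsLocalMin.fderiv_eq_zero (Eventually.of_forall fun y => le_trans (le_of_eq ?_)
      (zeta_nonneg c R y))
    refine max_eq_left ((min_le_right _ _).trans ?_)
    rw [sub_nonpos, div_le_one hl]
    exact h
  · refine IsLocalMax.fderiv_eq_zero (Eventually.of_forall fun y =>
      (zeta_le_one c R y).trans (le_of_eq ?_))
    have : (1 : ℝ) ≤ zCut d * c.dOut R x / c.lam0 R x - 1 := by
      rw [le_sub_iff_add_le, le_div_iff₀ hl]
      linarith
    show (1 : ℝ) = max 0 (min 1 _)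
    rw [min_eq_left this, max_eq_right zero_le_one]

theorem norm_fderiv_zeta_le (hd : 1 ≤ d) {R : Cb d} (hR : c.Tree R) (x : E d) :
    ‖fderiv ℝ (c.zeta R) x‖ ≤ 4 * zCut d / c.lam0 R x := by
  have hz := zCut_ge hd
  have hl := lam0_pos hR x
  refine norm_fderiv_le_of_lip' ℝ (by positivity) ?_
  filter_upwards [ball_mem_nhds x (half_pos hl)] with y hy
  rw [mem_ball, dist_eq_norm] at hy
  have h1 := abs_le.1 (abs_lam0_sub_le hR y x)
  rw [Real.norm_eq_abs]
  refine (abs_zeta_sub_le hd hR (half_pos hl) (by linarith) (by linarith)).trans (le_of_eq ?_)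
  field_simp
  ring

theorem zeta_eq_zero_of_notMem (hd : 1 ≤ d) {R : Cb d} (hR : c.Tree R) {x : E d}
    (hx : x ∉ qcube c.t R.1 R.2) : c.zeta R x = 0 :=
  le_antisymm (not_lt.1 fun h => hx (mem_of_zeta_pos hd hR h)) (zeta_nonneg c R x)

theorem fderiv_zeta_eq_zero_of_notMem (hd : 1 ≤ d) {R : Cb d} (hR : c.Tree R) {x : E d}
    (hx : x ∉ qcube c.t R.1 R.2) : fderiv ℝ (c.zeta R) x = 0 :=
  IsLocalMin.fderiv_eq_zero (Eventually.of_forall fun y =>
    (zeta_eq_zero_of_notMem hd hR hx).trans_le (zeta_nonneg c R y))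

/-- The field against the cutoff on one cell. -/
theorem enorm_main_cell_le (hd : 1 ≤ d) (hg : Integrable c.g) {R Q : Cb d} (hR : c.Tree R)
    (hQ : Q ∈ c.cells R) :
    ‖∫ y in qcube c.t Q.1 Q.2, c.zeta R y * ⟪c.edir R, c.g y⟫‖ₑ ≤ 2 * cW c.g c.t Q.1 Q.2 := by
  set p := Q.1
  set k := Q.2
  set e := c.edir R
  have hp : (0 : ℝ) < 2 ^ p := zpow_pos two_pos p
  have hd1 : (1 : ℝ) ≤ d := by exact_mod_cast hd
  have hz := zCut_ge hd
  set m : ℝ := (2 : ℝ) ^ p * (319 * d * d)
  have hm : 0 < m := by positivity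
  set K : ℝ≥0 := (2 * zCut d / m).toNNReal
  have hK : (K : ℝ) = 2 * zCut d / m := Real.coe_toNNReal _ (by positivity)
  have hon : LipschitzOnWith K (c.zeta R) (qcube c.t p k) := by
    refine LipschitzOnWith.of_dist_le_mul fun x hx y hy => ?_
    rw [Real.dist_eq, dist_eq_norm, hK]
    exact abs_zeta_sub_le hd hR hm (lam0_cell_pt hd hR hQ hx).1 (lam0_cell_pt hd hR hQ hy).1
  obtain ⟨f, hf, hfe⟩ := hon.extend_real
  set φ : E d → E d := fun y => f y • e
  have hne : ‖e‖ = 1 := norm_edir hR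
  have hφ : LipschitzWith K φ := LipschitzWith.of_dist_le_mul fun x y => by
    rw [dist_eq_norm, ← sub_smul, norm_smul, hne, mul_one, Real.norm_eq_abs, ← Real.dist_eq]
    exact hf.dist_le_mul x y
  set q := qctr c.t p k
  have hq : q ∈ qcube c.t p k := qctr_mem _ _ _
  have hmom := enorm_moment_le (t := c.t) hg hφ p k
  have hint := integrable_inner_lip (t := c.t) hg hφ q p k
  have e1 : ∫ y in qcube c.t p k, c.zeta R y * ⟪e, c.g y⟫
      = (∫ y in qcube c.t p k, ⟪c.g y, φ y - φ q⟫) + ⟪φ q, qint c.g c.t p k⟫ := by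
    rw [qint, ← integral_inner hg.integrableOn (φ q),
      ← integral_add hint (hg.integrableOn.const_inner (φ q))]
    refine setIntegral_congr_fun (measurableSet_qcube _ _ _) fun y hy => ?_
    rw [real_inner_comm (φ y - φ q) (c.g y), ← inner_add_left, sub_add_cancel]
    simp only [φ, real_inner_smul_left, hfe hy]
  rw [e1]
  refine (enorm_add_le _ _).trans ?_
  have hb : ‖⟪φ q, qint c.g c.t p k⟫‖ₑ ≤ cW c.g c.t p k := by
    refine le_trans ?_ le_self_add
    rw [← ofReal_norm, ← ofReal_norm]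
    refine ENNReal.ofReal_le_ofReal ?_
    rw [Real.norm_eq_abs]
    refine (abs_real_inner_le_norm _ _).trans (mul_le_of_le_one_left (norm_nonneg _) ?_)
    simp only [φ, norm_smul, hne, mul_one, ← hfe hq, Real.norm_eq_abs,
      abs_of_nonneg (zeta_nonneg c R q)]
    exact zeta_le_one c R q
  have hc1 : ENNReal.ofReal ((K : ℝ) * (Real.sqrt d * (2 : ℝ) ^ p)) ≤ 1 := by
    rw [← ENNReal.ofReal_one]
    refine ENNReal.ofReal_le_ofReal ?_
    rw [hK, div_mul_eq_mul_div, div_le_one hm]
    calc 2 * zCut d * (Real.sqrt d * (2 : ℝ) ^ p) ≤ 2 * zCut d * (d * (2 : ℝ) ^ p) := by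
          gcongr
          exact sqrt_dim_le d
      _ ≤ m := by
          simp only [zCut, m]
          have hdd := mul_pos (mul_pos (zero_lt_one.trans_le hd1) (zero_lt_one.trans_le hd1)) hp
          linarith
  rw [two_mul]
  exact add_le_add (hmom.trans (mul_le_of_le_one_left zero_le hc1)) hb

/-- The constant of the band. -/
def bandC (d : ℕ) (Cp Cq : ℝ≥0∞) : ℝ≥0∞ :=
  ENNReal.ofReal (4 * zCut d) *
    ((1 + ENNReal.ofReal ((theta' d ^ d * volume.real (ball (0 : E d) 1))⁻¹)) *
      ((9 ^ d : ℕ) * (Cp + (4 * d : ℕ) * (2 * Cq))))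

/-- The maximal function of a tree against the slope of the cutoff on one cell. -/
theorem lintegral_band_le (hd : 2 ≤ d) {Cp Cq : ℝ≥0∞}
    (hcube : ∀ (g : E d → E d) (u : E d → ℝ) (t : E d) (n : ℤ) (k : Fin d → ℤ),
      Smooth u → Integrable g → (∀ y ∈ qcube t n k, g y = ∇ u y) →
      ∫⁻ y in qcube t n k, ‖u y - (volume.real (qcube t n k))⁻¹ * ∫ z in qcube t n k, u z‖ₑ
        ≤ Cp * ENNReal.ofReal ((2 : ℝ) ^ n) * (‖qint g t n k‖ₑ + qPsi g t n k))
    (hpair : ∀ (g : E d → E d) (u : E d → ℝ) (t : E d) (n : ℤ) (k k' : Fin d → ℤ) (i : Fin d),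
      Smooth u → Integrable g → (k' = Function.update k i (k i + 1)) →
      (∀ y ∈ qcube t n k ∪ qcube t n k', g y = ∇ u y) →
      ‖(∫ z in qcube t n k', u z) - ∫ z in qcube t n k, u z‖ₑ
        ≤ Cq * ENNReal.ofReal ((2 : ℝ) ^ n) *
          ((‖qint g t n k‖ₑ + qPsi g t n k) + (‖qint g t n k'‖ₑ + qPsi g t n k')))
    {u : E d → ℝ} (hu : Smooth u) (hg : Integrable c.g) {R Q : Cb d} (hR : c.Tree R)
    (hgu : ∀ y ∈ qcube c.t R.1 R.2, c.g y = ∇ u y) (hQ : Q ∈ c.cells R) :
    ∫⁻ x in qcube c.t Q.1 Q.2, ‖(c.UR u R x - u x) * fderiv ℝ (c.zeta R) x (c.edir R)‖ₑ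
      ≤ bandC d Cp Cq * ∑ o : Fin d → Fin 9,
          (c.iw Q.1 (nbr Q.2 o) + 2 * c.vC R Q.1 (nbr Q.2 o)) := by
  have hd1 : 1 ≤ d := by omega
  have hdR : (2 : ℝ) ≤ d := by exact_mod_cast hd
  set p := Q.1
  set k := Q.2
  set e := c.edir R
  have hp : (0 : ℝ) < 2 ^ p := zpow_pos two_pos p
  have hz := zCut_ge hd1
  set F : E d → ℝ≥0∞ := fun x => ‖(c.UR u R x - u x) * fderiv ℝ (c.zeta R) x e‖ₑ
  show ∫⁻ x in qcube c.t p k, F x ≤ _
  by_cases hall : ∀ x ∈ qcube c.t p k, fderiv ℝ (c.zeta R) x = 0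
  · refine (le_of_eq ?_).trans zero_le
    rw [setLIntegral_congr_fun (measurableSet_qcube _ _ _)
      (g := fun _ => (0 : ℝ≥0∞)) fun x hx => by simp [F, hall x hx]]
    simp
  obtain ⟨x0, hx0, hne⟩ : ∃ x ∈ qcube c.t p k, fderiv ℝ (c.zeta R) x ≠ 0 := by
    by_contra hc
    exact hall fun x hx => by_contra fun h => hc ⟨x, hx, h⟩
  have hband : ∀ x ∈ qcube c.t p k, fderiv ℝ (c.zeta R) x ≠ 0 →
      c.lam0 R x < zCut d * c.dOut R x ∧ zCut d * c.dOut R x < 2 * c.lam0 R x := fun x _ h => by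
    constructor <;> by_contra hc <;> apply h <;> apply fderiv_zeta_eq_zero hR
    · exact Or.inl (not_lt.1 hc)
    · exact Or.inr (not_lt.1 hc)
  have hblock : ∀ o, qcube c.t p (nbr k o) ⊆ qcube c.t R.1 R.2 := fun o y hy => by
    have h1 := (hband x0 hx0 hne).1
    have h2 := (lam0_cell_pt hd1 hR hQ hx0).1
    have h3 := norm_sub_le_of_nbr hx0 hy
    have h4 : Real.sqrt d ≤ 3 / 4 * d := by
      rw [Real.sqrt_le_iff]
      exact ⟨by positivity, by nlinarith⟩
    refine ball_subset_of_le_dOut le_rfl (x := x0) ?_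
    rw [mem_ball, dist_eq_norm, norm_sub_rev]
    refine h3.trans_lt (lt_of_mul_lt_mul_left ?_ (by linarith : (0 : ℝ) ≤ zCut d))
    refine lt_of_le_of_lt ?_ h1
    refine le_trans ?_ h2
    have h5 : zCut d * (5 * Real.sqrt d * (2 : ℝ) ^ p) ≤ zCut d * (5 * (3 / 4 * d) * 2 ^ p) :=
      mul_le_mul_of_nonneg_left (by gcongr) (by linarith)
    refine h5.trans ?_
    have hpos : (0 : ℝ) < d * d * 2 ^ p := by positivity
    simp only [zCut]
    linarith
  have hgb : ∀ o, ∀ y ∈ qcube c.t p (nbr k o), c.g y = ∇ u y := fun o y hy => hgu y (hblock o hy)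
  set S := ∑ o : Fin d → Fin 9, cW c.g c.t p (nbr k o)
  set vol : ℝ := ((2 : ℝ) ^ p) ^ d
  have hvol : ∀ a, volume.real (qcube c.t p a) = vol := fun a => by
    rw [measureReal_def, poin_volume_qcube, ENNReal.toReal_ofReal (by positivity)]
  have hvp : 0 < vol := by positivity
  set mean : ℝ := vol⁻¹ * ∫ z in qcube c.t p k, u z
  set X := ENNReal.ofReal ((2 : ℝ) ^ p)
  have hJ : ∀ o, ∫⁻ y in qcube c.t p (nbr k o), ‖u y - mean‖ₑ
      ≤ (Cp + (4 * d : ℕ) * (2 * Cq)) * X * S := by
    intro o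
    set mo : ℝ := vol⁻¹ * ∫ z in qcube c.t p (nbr k o), u z
    calc ∫⁻ y in qcube c.t p (nbr k o), ‖u y - mean‖ₑ
        ≤ ∫⁻ y in qcube c.t p (nbr k o), (‖u y - mo‖ₑ + ‖mo - mean‖ₑ) :=
          lintegral_mono fun y => by
            rw [← sub_add_sub_cancel (u y) mo mean]; exact enorm_add_le _ _
      _ = (∫⁻ y in qcube c.t p (nbr k o), ‖u y - mo‖ₑ)
          + ‖(∫ z in qcube c.t p (nbr k o), u z) - ∫ z in qcube c.t p k, u z‖ₑ := by
          rw [lintegral_add_right' _ aemeasurable_const, setLIntegral_const, poin_volume_qcube,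
            ← ofReal_norm, ← ofReal_norm, ← ENNReal.ofReal_mul (norm_nonneg _)]
          congr 2
          simp only [mo, mean, ← mul_sub, norm_mul, norm_inv, Real.norm_of_nonneg hvp.le]
          change vol⁻¹ * _ * vol = _
          field_simp
      _ ≤ Cp * X * S + (4 * d : ℕ) * (2 * (Cq * X) * S) := by
          refine add_le_add ?_ ?_
          · have h := hcube c.g u c.t p (nbr k o) hu hg (hgb o)
            rw [hvol] at h
            exact h.trans (mul_le_mul_right (Finset.single_le_sum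
              (f := fun o => cW c.g c.t p (nbr k o)) (fun _ _ => zero_le) (Finset.mem_univ o)) _)
          · refine enorm_sub_setIntegral_nbr_le c.t p k (fun a a' i h1 ⟨o1, h2⟩ ⟨o2, h3⟩ => ?_) o
            refine hpair c.g u c.t p a a' i hu hg h1 fun y hy => ?_
            subst h2 h3
            exact hy.elim (hgb o1 y) (hgb o2 y)
      _ = _ := by ring
  set T := ∑ o : Fin d → Fin 9, ∫⁻ y in qcube c.t p (nbr k o), ‖u y - mean‖ₑ
  set v1 := volume.real (ball (0 : E d) 1)
  have hv1 : 0 < v1 := Unc.unitVol_pos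
  have ht' := theta'_pos hd1
  set κ : ℝ := theta' d * 2 ^ p
  set K := ENNReal.ofReal ((κ ^ d * v1)⁻¹)
  have hpt : ∀ x ∈ qcube c.t p k,
      F x ≤ ENNReal.ofReal (4 * zCut d / 2 ^ p) * (‖u x - mean‖ₑ + K * T) := by
    intro x hx
    by_cases hfx : fderiv ℝ (c.zeta R) x = 0
    · simp [F, hfx]
    obtain ⟨b1, b2⟩ := hband x hx hfx
    obtain ⟨l1, l2⟩ := lam0_cell_pt hd1 hR hQ hx
    have hd11 : (1 : ℝ) ≤ 319 * d * d := by nlinarith
    obtain ⟨r, hr, hU, -⟩ := exists_UR hu hd1 hR x
    have hκr : κ ≤ r := by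
      refine le_trans ?_ hr.1
      exact mul_le_mul_of_nonneg_left ((le_mul_of_one_le_right hp.le hd11).trans l1) ht'.le
    have hr2 : r ≤ (2 : ℝ) ^ p := by
      refine hr.2.trans ?_
      have hdo := dOut_nonneg c R x
      have h1 : theta d * c.dOut R x ≤ (2 : ℝ) ^ p := by
        have h := b2.le.trans (mul_le_mul_of_nonneg_left l2 zero_le_two)
        simp only [zCut] at h
        unfold theta
        rw [div_mul_eq_mul_div, one_mul, div_le_iff₀ (by positivity)]
        have h' : 64 * c.dOut R x ≤ 2600 * d * 2 ^ p := by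
          refine le_of_mul_le_mul_left ?_ (show (0 : ℝ) < d by linarith)
          linarith
        have hdp : (0 : ℝ) < d * 2 ^ p := by positivity
        linarith
      refine max_le ?_ h1
      refine le_trans (le_trans (mul_le_mul_of_nonneg_left b1.le ht'.le) ?_) h1
      rw [← mul_assoc]
      exact mul_le_mul_of_nonneg_right (theta'_mul_zCut_le hd1) hdo
    have hr0 : 0 < r := lt_of_lt_of_le (by positivity) hκr
    set V := volume.real (ball x r)
    have hV : κ ^ d * v1 ≤ V := by
      simp only [V, Unc.volume_real_ball x hr0]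
      gcongr
    have hV0 : 0 < V := lt_of_lt_of_le (by positivity) hV
    have hui : IntegrableOn u (ball x r) := hu.integrable.integrableOn
    have hA : ‖ballAvg u x r - mean‖ₑ ≤ K * T := by
      have e : ballAvg u x r - mean = V⁻¹ * ∫ y in ball x r, (u y - mean) := by
        rw [integral_sub hui (integrableOn_const measure_ball_lt_top.ne), setIntegral_const,
          smul_eq_mul, ballAvg, mul_sub, ← mul_assoc, inv_mul_cancel₀ hV0.ne', one_mul]
      rw [e, enorm_mul]
      refine mul_le_mul' ?_ ((enorm_integral_le_lintegral_enorm _).trans ?_)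
      · rw [Real.enorm_eq_ofReal (inv_nonneg.2 hV0.le)]
        exact ENNReal.ofReal_le_ofReal (inv_anti₀ (by positivity) hV)
      · refine (lintegral_mono_set (t := ⋃ o, qcube c.t p (nbr k o)) fun y hy => ?_).trans
          ((lintegral_iUnion_le _ _).trans (tsum_fintype _).le)
        rw [mem_ball, dist_comm, dist_eq_norm] at hy
        obtain ⟨o, ho⟩ := exists_nbr c.t p x y (by linarith)
        exact mem_iUnion.2 ⟨o, mem_qcube_iff.2 (by rw [ho, mem_qcube_iff.1 hx])⟩
    show ‖(c.UR u R x - u x) * fderiv ℝ (c.zeta R) x e‖ₑ ≤ _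
    rw [enorm_mul, mul_comm]
    refine mul_le_mul' ?_ ?_
    · rw [← ofReal_norm]
      refine ENNReal.ofReal_le_ofReal (((fderiv ℝ (c.zeta R) x).le_opNorm e).trans ?_)
      rw [norm_edir hR, mul_one]
      refine (norm_fderiv_zeta_le hd1 hR x).trans ?_
      exact div_le_div_of_nonneg_left (by linarith) hp ((le_mul_of_one_le_right hp.le hd11).trans l1)
    · rw [hU, ← sub_add_sub_cancel _ mean, add_comm ‖u x - mean‖ₑ]
      refine (enorm_add_le _ _).trans (add_le_add hA ?_)
      rw [enorm_sub_rev]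
  obtain ⟨o0, ho0⟩ := exists_nbr_self k
  have hT : ∫⁻ y in qcube c.t p k, ‖u y - mean‖ₑ ≤ T := by
    refine le_trans (le_of_eq ?_) (Finset.single_le_sum
      (f := fun o => ∫⁻ y in qcube c.t p (nbr k o), ‖u y - mean‖ₑ) (fun _ _ => zero_le)
      (Finset.mem_univ o0))
    rw [ho0]
  have hTS : T ≤ (9 ^ d : ℕ) * ((Cp + (4 * d : ℕ) * (2 * Cq)) * X * S) := by
    refine (Finset.sum_le_sum fun o _ => hJ o).trans (le_of_eq ?_)
    simp
  calc ∫⁻ x in qcube c.t p k, F x
      ≤ ∫⁻ x in qcube c.t p k, ENNReal.ofReal (4 * zCut d / 2 ^ p) * (‖u x - mean‖ₑ + K * T) :=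
        setLIntegral_mono' (measurableSet_qcube _ _ _) hpt
    _ = ENNReal.ofReal (4 * zCut d / 2 ^ p) *
        ((∫⁻ x in qcube c.t p k, ‖u x - mean‖ₑ) + K * T * ENNReal.ofReal vol) := by
        rw [lintegral_const_mul' _ _ ENNReal.ofReal_ne_top,
          lintegral_add_right' _ aemeasurable_const, setLIntegral_const, poin_volume_qcube]
    _ ≤ ENNReal.ofReal (4 * zCut d / 2 ^ p) *
        ((1 + ENNReal.ofReal ((theta' d ^ d * v1)⁻¹)) * T) := by
        refine mul_le_mul_right ?_ _
        rw [add_mul, one_mul, mul_right_comm K, ← ENNReal.ofReal_mul (by positivity)]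
        refine add_le_add hT (le_of_eq ?_)
        congr 2
        simp only [κ, vol, mul_pow]
        field_simp
    _ ≤ ENNReal.ofReal (4 * zCut d / 2 ^ p) * ((1 + ENNReal.ofReal ((theta' d ^ d * v1)⁻¹)) *
        ((9 ^ d : ℕ) * ((Cp + (4 * d : ℕ) * (2 * Cq)) * X * S))) := by gcongr
    _ = bandC d Cp Cq * S := by
        rw [bandC, show ENNReal.ofReal (4 * zCut d)
            = ENNReal.ofReal (4 * zCut d / 2 ^ p) * X by
          rw [← ENNReal.ofReal_mul (by positivity), div_mul_cancel₀ _ hp.ne']]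
        ring
    _ ≤ _ := by
        refine mul_le_mul_right (Finset.sum_le_sum fun o _ => ?_) _
        exact (cW_le_iw p (nbr k o)).trans
          (add_le_add le_rfl (mul_le_mul_right (qint_nbr_le hd1 hg hR hQ o (hblock o)) _))

end Cfg

end

end Vale.Agent.P137.Cen
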