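import Vale.Agent.P137.Cen.CoreCover

/-!
# P137, centred operator: the local bound at small radii
-/

open MeasureTheory Metric Set Filter
open scoped ENNReal NNReal RealInnerProductSpace Gradient Topology

namespace Vale.Agent.P137.Cen

open Vale.Agent.P137.Unc (E ballAvg Smooth)

noncomputable section

attribute [local instance] Classical.propDecidable

variable {d : ℕ}

/-- The part of the ball where an optimal radius has scale in `[M, N]`. -/
theorem local_scales (hd : 2 ≤ d) : ∃ C : ℝ≥0∞, C ≠ ⊤ ∧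
    ∀ (u : E d → ℝ), Smooth u → ∀ (z : E d) (N M : ℤ), M ≤ N →
      ∫⁻ x in ball z ((2 : ℝ) ^ N) ∩ ⋃ n ∈ Icc M N, optC u n, ‖∇ (cmax u) x‖ₑ
        ≤ C * ∫⁻ x in ball z (Rloc d * (2 : ℝ) ^ N), ‖∇ u x‖ₑ := by
  have hd1 : 1 ≤ d := le_trans one_le_two hd
  obtain ⟨C1, hC1, hcov⟩ := cover_shift hd
  obtain ⟨C2, hC2, htot⟩ := totW_avg hd
  refine ⟨(4 ^ d : ℕ) * (C1 * C2), ENNReal.mul_ne_top (ENNReal.natCast_ne_top _)
    (ENNReal.mul_ne_top hC1 hC2), ?_⟩
  intro u hu z N M hMN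
  set B := ball z (Rloc d * (2 : ℝ) ^ N)
  set g : E d → E d := B.indicator fun y => ∇ u y
  have hg : Integrable g := hu.integrable_grad.indicator measurableSet_ball
  set w : ℤ := (winOff d : ℤ) with hw
  set Mb : ℤ := M - (botOff d : ℤ) - C0 d with hMb
  set N0 : ℤ := N + w with hN0
  set m : ℕ := (N0 + 4 - Mb).toNat with hm
  have hbot : 4 ≤ botOff d := by unfold botOff; omega
  have hm' : N0 + 4 ≤ Mb + m := by omega
  set G : E d → ℝ≥0∞ := fun x => ‖∇ (cmax u) x‖ₑ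
  have hGm : Measurable G := (Unc.measurable_gradient' _).enorm
  set cfg : (Fin d → Fin (2 ^ m)) → Cfg d := fun s => ⟨g, qlat 0 Mb s, Mb, M, N0⟩
  have hok : ∀ s, (cfg s).Ok := fun s =>
    { integrable := hg
      supp := ⟨‖z‖ + Rloc d * (2 : ℝ) ^ N, fun y hy => indicator_of_notMem (fun h => by
        rw [mem_ball_iff_norm] at h
        have := norm_le_norm_add_norm_sub' y z
        linarith) _⟩
      hMb := show Mb + (botOff d : ℤ) ≤ M by omega
      hM := show M ≤ N0 by omega }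
  set T : ℤ → Set (E d) := fun n => ball z ((2 : ℝ) ^ N) ∩ scaleAt u M n
  have hTm : ∀ n, MeasurableSet (T n) := fun n =>
    measurableSet_ball.inter (measurableSet_scaleAt hu hd1 _ _)
  have hcover : ball z ((2 : ℝ) ^ N) ∩ ⋃ n ∈ Icc M N, optC u n ⊆ ⋃ n ∈ Finset.Icc M N, T n := by
    rintro x ⟨hxb, hx⟩
    obtain ⟨n, hn, hxn⟩ := mem_iUnion₂.1 hx
    obtain ⟨k, hk, hxk⟩ := optC_subset_scaleAt hn.1 hn.2 hxn
    exact mem_iUnion₂.2 ⟨k, hk, hxb, hxk⟩
  have hshift : ∀ n ∈ Finset.Icc M N,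
      ((2 ^ m) ^ d : ℕ) * ∫⁻ x in T n, G x
        ≤ (4 ^ d : ℕ) * ∑ s : Fin d → Fin (2 ^ m),
            ∫⁻ x in T n ∩ {x | deep (cfg s).t (n + w) x}, G x := by
    intro n hn
    rw [Finset.mem_Icc] at hn
    set f : (Fin d → Fin (2 ^ m)) → E d → ℝ≥0∞ := fun s =>
      (T n ∩ {x | deep (cfg s).t (n + w) x}).indicator G with hf
    have hfm : ∀ s, Measurable (f s) := fun s =>
      hGm.indicator ((hTm n).inter (measurableSet_deep _ _))
    have hpt : ∀ x ∈ T n, (((2 ^ m) ^ d : ℕ) : ℝ≥0∞) * G x ≤ (4 ^ d : ℕ) * ∑ s, f s x := by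
      intro x hx
      have hcard := card_deep Mb (n + w) m (by omega) (by omega) x
      set S := Finset.univ.filter fun s : Fin d → Fin (2 ^ m) => deep (qlat 0 Mb s) (n + w) x
      calc (((2 ^ m) ^ d : ℕ) : ℝ≥0∞) * G x ≤ ((4 ^ d * S.card : ℕ) : ℝ≥0∞) * G x :=
            mul_le_mul' (Nat.cast_le.2 hcard) le_rfl
        _ = (4 ^ d : ℕ) * ∑ s ∈ S, f s x := by
            rw [Nat.cast_mul, mul_assoc, Finset.sum_congr rfl (g := fun _ => G x) fun s hs => ?_,
              Finset.sum_const, nsmul_eq_mul]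
            exact indicator_of_mem
              (show x ∈ T n ∩ {x | deep (cfg s).t (n + w) x} from ⟨hx, (Finset.mem_filter.1 hs).2⟩) G
        _ ≤ _ := mul_le_mul' le_rfl (Finset.sum_le_sum_of_subset (Finset.subset_univ S))
    rw [← lintegral_const_mul _ hGm]
    refine (setLIntegral_mono ((Finset.measurable_sum _ fun s _ => hfm s).const_mul _) hpt).trans
      ((setLIntegral_le_lintegral _ _).trans (le_of_eq ?_))
    rw [lintegral_const_mul _ (Finset.measurable_sum _ fun s _ => hfm s),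
      lintegral_finsetSum _ fun s _ => hfm s]
    simp only [hf, lintegral_indicator ((hTm n).inter (measurableSet_deep _ _))]
  have hone : ∀ s, ∑ n ∈ Finset.Icc M N, ∫⁻ x in T n ∩ {x | deep (cfg s).t (n + w) x}, G x
      ≤ C1 * (cfg s).totW := fun s =>
    hcov (cfg s) u z N (hok s) hu rfl hMN (show Mb + (botOff d : ℤ) + C0 d ≤ M by omega)
      fun y hy => indicator_of_mem hy _
  have hK0 : (((2 ^ m) ^ d : ℕ) : ℝ≥0∞) ≠ 0 := by positivity
  have hKt : (((2 ^ m) ^ d : ℕ) : ℝ≥0∞) ≠ ⊤ := ENNReal.natCast_ne_top _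
  have havg : ∑ s, (cfg s).totW ≤ (((2 ^ m) ^ d : ℕ) : ℝ≥0∞) * (C2 * ∫⁻ y in B, ‖∇ u y‖ₑ) := by
    have h := htot g Mb M N0 m hg (by omega) (by omega) hm'
    rw [avgShift, ENNReal.div_le_iff hK0 hKt, mul_comm] at h
    refine h.trans (le_of_eq ?_)
    congr 2
    rw [← lintegral_indicator measurableSet_ball]
    exact lintegral_congr fun y => enorm_indicator_eq_indicator_enorm _ _
  calc ∫⁻ x in ball z ((2 : ℝ) ^ N) ∩ ⋃ n ∈ Icc M N, optC u n, G x
      ≤ ∑ n ∈ Finset.Icc M N, ∫⁻ x in T n, G x :=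
        by
        refine (lintegral_mono_set hcover).trans ?_
        have e : (⋃ n ∈ Finset.Icc M N, T n) = ⋃ n : ↥(Finset.Icc M N), T n.1 := by
          ext y
          simp
        rw [e]
        refine (lintegral_iUnion_le _ _).trans (le_of_eq ?_)
        exact Finset.tsum_subtype (Finset.Icc M N) fun n => ∫⁻ x in T n, G x
    _ ≤ _ := by
        rw [← ENNReal.mul_le_mul_iff_right hK0 hKt, Finset.mul_sum]
        refine (Finset.sum_le_sum hshift).trans ?_
        rw [← Finset.mul_sum, Finset.sum_comm]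
        refine (mul_le_mul' le_rfl ((Finset.sum_le_sum fun s _ => hone s).trans ?_)).trans
          (le_of_eq (show ((4 ^ d : ℕ) : ℝ≥0∞) *
              (C1 * ((((2 ^ m) ^ d : ℕ) : ℝ≥0∞) * (C2 * ∫⁻ y in B, ‖∇ u y‖ₑ))) = _ by ring))
        rw [← Finset.mul_sum]
        exact mul_le_mul' le_rfl havg

/-- The bound at small radii. -/
theorem local_bound (hd : 2 ≤ d) : ∃ C : ℝ≥0∞, ∃ R : ℝ, C ≠ ⊤ ∧ 0 < R ∧
    ∀ (u : E d → ℝ), Smooth u → ∀ (z : E d) (N : ℤ),
      ∫⁻ x in ball z ((2 : ℝ) ^ N) ∩ ({x | cmax u x = u x} ∪ ⋃ n ∈ Iic N, optC u n),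
          ‖∇ (cmax u) x‖ₑ
        ≤ C * ∫⁻ x in ball z (R * (2 : ℝ) ^ N), ‖∇ u x‖ₑ := by
  have hd1 : 1 ≤ d := le_trans one_le_two hd
  obtain ⟨C, hC, hloc⟩ := local_scales hd
  have hR : (1 : ℝ) ≤ Rloc d := by
    have : (0 : ℝ) ≤ 2 * d * 2 ^ winOff d := by positivity
    unfold Rloc; linarith
  refine ⟨1 + C, Rloc d, ENNReal.add_ne_top.2 ⟨ENNReal.one_ne_top, hC⟩, by linarith, ?_⟩
  intro u hu z N
  set b := ball z ((2 : ℝ) ^ N)
  have hsub : b ⊆ ball z (Rloc d * (2 : ℝ) ^ N) :=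
    ball_subset_ball (le_mul_of_one_le_left (zpow_nonneg zero_le_two N) hR)
  rw [inter_union_distrib_left]
  refine (lintegral_union_le _ _ _).trans ?_
  rw [add_mul, one_mul]
  refine add_le_add ?_ ?_
  · have hE : MeasurableSet (b ∩ {x | cmax u x = u x}) := measurableSet_ball.inter
      (measurableSet_eq_fun (locallyLipschitz_cmax hu).continuous.measurable
        hu.contDiff.continuous.measurable)
    refine le_trans (setLIntegral_mono_ae' hE ?_) (lintegral_mono_set (inter_subset_left.trans hsub))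
    filter_upwards [ae_differentiableAt_cmax hu] with x hx hxE
    rw [grad_cmax_eq hu hd1 hx hxE.2]
  · have hU : b ∩ ⋃ n ∈ Iic N, optC u n
        = ⋃ j : ℕ, b ∩ ⋃ n ∈ Icc (N - j) N, optC u n := by
      ext x
      simp only [mem_inter_iff, mem_iUnion, mem_Iic, mem_Icc]
      constructor
      · rintro ⟨hb, n, hn, hx⟩
        exact ⟨(N - n).toNat, hb, n, ⟨by omega, hn⟩, hx⟩
      · rintro ⟨j, hb, n, ⟨-, hn⟩, hx⟩
        exact ⟨hb, n, hn, hx⟩
    have hmono : Monotone fun j : ℕ => b ∩ ⋃ n ∈ Icc (N - j) N, optC u n := fun i j hij =>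
      inter_subset_inter le_rfl (biUnion_mono (Icc_subset_Icc (by omega) le_rfl) fun _ _ => le_rfl)
    rw [hU, setLIntegral_iUnion_of_directed _ hmono.directed_le]
    exact iSup_le fun j => hloc u hu z N (N - j) (by omega)

end

end Vale.Agent.P137.Cen
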