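import Vale.Agent.P137.Cen.CoreGeom
import Vale.Agent.P137.Cen.Trees
import Vale.Agent.P137.Cen.Max

/-!
# P137, centred operator: marks, cutoff, radius range and maximal function of one tree
-/

open MeasureTheory Metric Set Filter
open scoped ENNReal NNReal RealInnerProductSpace Gradient Topology

namespace Vale.Agent.P137.Cen

open Vale.Agent.P137.Unc (E ballAvg Smooth gnorm)

noncomputable section

attribute [local instance] Classical.propDecidable

variable {d : ℕ}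

/-! ## Constants -/

theorem winOff_ge (d : ℕ) : 10000 * (d : ℝ) * d ≤ 2 ^ winOff d := by
  exact_mod_cast Nat.le_pow_clog one_lt_two (10000 * d * d)

theorem C0_ge (d : ℕ) : 6400 * (d : ℝ) * 2 ^ winOff d ≤ 2 ^ C0 d := by
  have h : (100 * 4 * d * 2 ^ winOff d : ℕ) * 2 ^ 4 ≤ 2 ^ C0 d := by
    rw [C0, pow_add]
    exact Nat.mul_le_mul_right _ (Nat.le_pow_clog one_lt_two _)
  have h' : ((100 * 4 * d * 2 ^ winOff d : ℕ) : ℝ) * (2 : ℝ) ^ 4 ≤ (2 : ℝ) ^ C0 d := by
    exact_mod_cast h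
  refine le_trans (le_of_eq ?_) h'
  push_cast
  ring

theorem winOff_le_C0 (d : ℕ) (hd : 1 ≤ d) : winOff d < C0 d := by
  refine (Nat.pow_lt_pow_iff_right one_lt_two).1 ?_
  have h : ((2 ^ winOff d : ℕ) : ℝ) < ((2 ^ C0 d : ℕ) : ℝ) := by
    push_cast
    refine lt_of_lt_of_le ?_ (C0_ge d)
    have : (1 : ℝ) ≤ d := by exact_mod_cast hd
    nlinarith [pow_pos (two_pos (α := ℝ)) (winOff d)]
  exact_mod_cast h

theorem theta'_pos (hd : 1 ≤ d) : 0 < theta' d := by
  have : (1 : ℝ) ≤ d := by exact_mod_cast hd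
  unfold theta'; positivity

theorem theta_pos (hd : 1 ≤ d) : 0 < theta d := by
  have : (1 : ℝ) ≤ d := by exact_mod_cast hd
  unfold theta; positivity

theorem theta_le (hd : 1 ≤ d) : theta d ≤ 1 / 100 := by
  have : (1 : ℝ) ≤ d := by exact_mod_cast hd
  unfold theta
  gcongr
  linarith

theorem theta'_mul_zCut_le (hd : 1 ≤ d) : theta' d * zCut d ≤ theta d := by
  have h1 : (1 : ℝ) ≤ d := by exact_mod_cast hd
  have h2 := winOff_ge d
  unfold theta' zCut theta
  rw [div_mul_eq_mul_div, div_le_div_iff₀ (by positivity) (by positivity)]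
  nlinarith [pow_pos (two_pos (α := ℝ)) (winOff d)]

theorem theta'_le (hd : 1 ≤ d) : theta' d ≤ theta d := by
  refine le_trans ?_ (theta'_mul_zCut_le hd)
  have h1 : (1 : ℝ) ≤ d := by exact_mod_cast hd
  have : (1 : ℝ) ≤ zCut d := by unfold zCut; linarith
  exact le_mul_of_one_le_right (theta'_pos hd).le this

namespace Cfg

variable {c : Cfg d}

/-- A tree whose root is at least at the finest scale. -/
structure Tree (c : Cfg d) (R : Cb d) : Prop where
  root : c.IsRoot R.1 R.2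
  lo : c.M ≤ R.1
  hi : R.1 ≤ c.N0

/-- The direction of a tree is a unit vector. -/
theorem norm_edir {R : Cb d} (hR : c.Tree R) : ‖c.edir R‖ = 1 := by
  have h := hR.root.1.1
  rw [edir, dirv, norm_smul, norm_inv, norm_norm, inv_mul_cancel₀ (norm_ne_zero_iff.2 h)]

/-! ## Marks -/

theorem mark_spec {R Q : Cb d} (hR : c.Tree R) (hQ : c.IsMark R Q) :
    c.M ≤ Q.1 ∧ Q.1 ≤ R.1 ∧ anc (R.1 - Q.1).toNat Q.2 = R.2 ∧
      ∀ n', Q.1 < n' → n' ≤ R.1 →
        Good c.g c.t n' (anc (n' - Q.1).toNat Q.2) ∧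
          c.root n' (anc (n' - Q.1).toNat Q.2) = R := by
  rcases hQ with ⟨hM, hlt, hg, hroot, -⟩ | ⟨hM, hg, hroot⟩
  · have hn : Q.1 + 1 ≤ c.N0 := by have := hR.hi; omega
    obtain ⟨-, -, ha, -, -⟩ := c.root_spec hn hg
    rw [hroot] at ha
    have e : ∀ n', Q.1 < n' →
        anc (n' - (Q.1 + 1)).toNat (par Q.2) = anc (n' - Q.1).toNat Q.2 := fun n' h => by
      rw [← anc_one, anc_add]
      congr 1
      omega
    refine ⟨hM, hlt.le, (e R.1 hlt) ▸ ha, fun n' h1 h2 => ?_⟩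
    have := c.root_anc hn hg (n' - (Q.1 + 1)).toNat (by rw [hroot]; omega)
    rw [show Q.1 + 1 + ((n' - (Q.1 + 1)).toNat : ℤ) = n' by omega, e n' h1, hroot] at this
    exact this
  · have hn : Q.1 ≤ c.N0 := by have := hR.lo; have := hR.hi; omega
    obtain ⟨h0, -, ha, -, -⟩ := c.root_spec hn hg
    rw [hroot] at ha h0
    refine ⟨hM.ge, h0, ha, fun n' h1 h2 => ?_⟩
    have := c.root_anc hn hg (n' - Q.1).toNat (by rw [hroot]; omega)
    rw [show Q.1 + ((n' - Q.1).toNat : ℤ) = n' by omega, hroot] at this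
    exact this

theorem mark_subset {R Q : Cb d} (hR : c.Tree R) (hQ : c.IsMark R Q) :
    qcube c.t Q.1 Q.2 ⊆ qcube c.t R.1 R.2 := by
  obtain ⟨-, h, ha, -⟩ := mark_spec hR hQ
  have := qcube_subset_anc c.t Q.1 (R.1 - Q.1).toNat Q.2
  rwa [ha, show Q.1 + ((R.1 - Q.1).toNat : ℤ) = R.1 by omega] at this

theorem marks_finite {R : Cb d} (hR : c.Tree R) : {Q | c.IsMark R Q}.Finite := by
  refine ((Finset.Icc c.M R.1).finite_toSet.biUnion fun n _ =>
    ((Set.finite_range fun b : Fin d → Fin (2 ^ (R.1 - n).toNat) =>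
      desc (R.1 - n).toNat R.2 b).image fun k => ((n, k) : Cb d))).subset fun Q hQ => ?_
  obtain ⟨h1, h2, ha, -⟩ := mark_spec hR hQ
  refine mem_iUnion₂.2 ⟨Q.1, by simp [h1, h2], Q.2, ?_, rfl⟩
  set j := (R.1 - Q.1).toNat
  obtain ⟨⟨k', b⟩, hb⟩ := (descEquiv d j).surjective Q.2
  rw [descEquiv_apply] at hb
  have hk : k' = R.2 := by
    funext i
    rw [← ha, ← hb]
    simp only [anc, desc]
    rw [add_comm, Int.add_mul_ediv_left _ _ (by positivity),
      Int.ediv_eq_zero_of_lt (by positivity) (by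
        have : ((b i : ℕ) : ℤ) < ((2 ^ j : ℕ) : ℤ) := by exact_mod_cast (b i).isLt
        simpa using this), zero_add]
  exact ⟨b, by rw [← hk]; exact hb⟩

theorem mark_cover {R : Cb d} (hR : c.Tree R) {x : E d} (hx : x ∈ qcube c.t R.1 R.2) :
    ∃ Q, c.IsMark R Q ∧ x ∈ qcube c.t Q.1 Q.2 := by
  have key : ∀ j : ℕ, c.M ≤ R.1 - j → (∃ Q, c.IsMark R Q ∧ x ∈ qcube c.t Q.1 Q.2) ∨
      (Good c.g c.t (R.1 - j) (qidx c.t (R.1 - j) x) ∧
        c.root (R.1 - j) (qidx c.t (R.1 - j) x) = R) := by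
    intro j
    induction j with
    | zero =>
      intro _
      right
      simp only [Nat.cast_zero, sub_zero]
      rw [mem_qcube_iff.1 hx]
      exact hR.root
    | succ j ih =>
      intro hj
      rcases ih (by push_cast at hj; omega) with h | ⟨hg, hr⟩
      · exact Or.inl h
      · set n := R.1 - ((j + 1 : ℕ) : ℤ) with hn
        by_cases hin : Good c.g c.t n (qidx c.t n x) ∧ c.root n (qidx c.t n x) = R
        · exact Or.inr hin
        · refine Or.inl ⟨(n, qidx c.t n x), Or.inl ⟨hj, by omega, ?_, ?_, hin⟩,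
            mem_qcube_iff.2 rfl⟩
          · rw [← qidx_par, show n + 1 = R.1 - (j : ℤ) by omega]; exact hg
          · rw [← qidx_par, show n + 1 = R.1 - (j : ℤ) by omega]; exact hr
  have hlo := hR.lo
  rcases key (R.1 - c.M).toNat (by omega) with h | ⟨hg, hr⟩
  · exact h
  · rw [show R.1 - ((R.1 - c.M).toNat : ℤ) = c.M by omega] at hg hr
    exact ⟨(c.M, qidx c.t c.M x), Or.inr ⟨rfl, hg, hr⟩, mem_qcube_iff.2 rfl⟩

theorem marks_nonempty {R : Cb d} (hR : c.Tree R) : {Q | c.IsMark R Q}.Nonempty :=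
  let ⟨Q, hQ, _⟩ := mark_cover hR (mem_qcube_iff.2 (qidx_qctr c.t R.1 R.2))
  ⟨Q, hQ⟩

theorem exists_lam0 {R : Cb d} (hR : c.Tree R) (x : E d) :
    ∃ Q, c.IsMark R Q ∧ c.lam0 R x = (2 : ℝ) ^ Q.1 + infDist x (qcube c.t Q.1 Q.2) := by
  obtain ⟨Q, hQ, e⟩ := ((marks_nonempty hR).image _).csInf_mem ((marks_finite hR).image _)
    (s := (fun Q : Cb d => (2 : ℝ) ^ Q.1 + infDist x (qcube c.t Q.1 Q.2)) '' {Q | c.IsMark R Q})
  exact ⟨Q, hQ, e.symm⟩

theorem lam0_le {R Q : Cb d} (hR : c.Tree R) (hQ : c.IsMark R Q) (x : E d) :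
    c.lam0 R x ≤ (2 : ℝ) ^ Q.1 + infDist x (qcube c.t Q.1 Q.2) :=
  csInf_le ((marks_finite hR).image _).bddBelow (mem_image_of_mem _ hQ)

theorem lam0_ge {R : Cb d} (hR : c.Tree R) (x : E d) : (2 : ℝ) ^ c.M ≤ c.lam0 R x := by
  obtain ⟨Q, hQ, e⟩ := exists_lam0 hR x
  rw [e]
  have := zpow_le_zpow_right₀ (a := (2 : ℝ)) one_le_two (mark_spec hR hQ).1
  have := infDist_nonneg (x := x) (s := qcube c.t Q.1 Q.2)
  linarith

theorem lam0_pos {R : Cb d} (hR : c.Tree R) (x : E d) : 0 < c.lam0 R x :=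
  lt_of_lt_of_le (zpow_pos two_pos _) (lam0_ge hR x)

theorem lipschitz_lam0 {R : Cb d} (hR : c.Tree R) : LipschitzWith 1 (c.lam0 R) := by
  refine LipschitzWith.of_le_add fun x y => ?_
  obtain ⟨Q, hQ, e⟩ := exists_lam0 hR y
  have h := lam0_le hR hQ x
  have := infDist_le_infDist_add_dist (x := x) (y := y) (s := qcube c.t Q.1 Q.2)
  linarith

theorem lipschitz_dOut (c : Cfg d) (R : Cb d) : LipschitzWith 1 (c.dOut R) :=
  lipschitz_infDist_pt _

theorem dOut_nonneg (c : Cfg d) (R : Cb d) (x : E d) : 0 ≤ c.dOut R x := infDist_nonneg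

theorem mem_of_dOut_pos {R : Cb d} {x : E d} (h : 0 < c.dOut R x) : x ∈ qcube c.t R.1 R.2 := by
  by_contra hx
  rw [dOut, infDist_zero_of_mem (show x ∈ (qcube c.t R.1 R.2)ᶜ from hx)] at h
  exact lt_irrefl _ h

theorem ball_subset_of_le_dOut {R : Cb d} {x : E d} {r : ℝ} (hr : r ≤ c.dOut R x) :
    ball x r ⊆ qcube c.t R.1 R.2 := by
  intro y hy
  by_contra hc
  have h1 := infDist_le_dist_of_mem (show y ∈ (qcube c.t R.1 R.2)ᶜ from hc) (x := x)
  rw [mem_ball, dist_comm] at hy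
  have : c.dOut R x = infDist x (qcube c.t R.1 R.2)ᶜ := rfl
  linarith

theorem dOut_le (hd : 1 ≤ d) (c : Cfg d) (R : Cb d) (x : E d) :
    c.dOut R x ≤ 2 * d * (2 : ℝ) ^ R.1 := by
  have hp : (0 : ℝ) < 2 ^ R.1 := zpow_pos two_pos _
  have hd1 : (1 : ℝ) ≤ d := by exact_mod_cast hd
  by_cases hx : x ∈ qcube c.t R.1 R.2
  · set i0 : Fin d := ⟨0, hd⟩
    set y : E d := x + (2 : ℝ) ^ R.1 • EuclideanSpace.single i0 (1 : ℝ)
    have hy : y ∈ (qcube c.t R.1 R.2)ᶜ := fun hy => by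
      have h1 := (hy i0).2
      have h2 := (hx i0).1
      simp only [y, PiLp.add_apply, PiLp.smul_apply, PiLp.single_apply, if_true, smul_eq_mul,
        mul_one] at h1
      linarith
    refine (infDist_le_dist_of_mem hy).trans ?_
    simp only [y, dist_self_add_right, norm_smul, EuclideanSpace.norm_single, norm_one, mul_one,
      Real.norm_eq_abs, abs_of_pos hp]
    nlinarith
  · rw [dOut, infDist_zero_of_mem (show x ∈ (qcube c.t R.1 R.2)ᶜ from hx)]
    positivity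

/-! ## The cutoff -/

theorem zeta_nonneg (c : Cfg d) (R : Cb d) (x : E d) : 0 ≤ c.zeta R x := le_max_left _ _

theorem zeta_le_one (c : Cfg d) (R : Cb d) (x : E d) : c.zeta R x ≤ 1 :=
  max_le zero_le_one (min_le_left _ _)

theorem continuous_zeta {R : Cb d} (hR : c.Tree R) : Continuous (c.zeta R) := by
  have h1 := (lipschitz_lam0 hR).continuous
  have h2 := (lipschitz_dOut c R).continuous
  unfold zeta
  exact continuous_const.max (continuous_const.min
    (((continuous_const.mul h2).div h1 fun x => (lam0_pos hR x).ne').sub continuous_const))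

theorem lt_of_zeta_pos {R : Cb d} (hR : c.Tree R) {x : E d} (h : 0 < c.zeta R x) :
    c.lam0 R x < zCut d * c.dOut R x := by
  by_contra hc
  rw [not_lt] at hc
  have h1 : zCut d * c.dOut R x / c.lam0 R x - 1 ≤ 0 := by
    rw [sub_nonpos, div_le_one (lam0_pos hR x)]; exact hc
  exact absurd h (not_lt.2 (max_le le_rfl ((min_le_right _ _).trans h1)))

theorem mem_of_zeta_pos (hd : 1 ≤ d) {R : Cb d} (hR : c.Tree R) {x : E d}
    (h : 0 < c.zeta R x) : x ∈ qcube c.t R.1 R.2 := by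
  have h1 := lt_of_zeta_pos hR h
  have h2 := lam0_pos hR x
  have h3 : 0 < zCut d := by
    have : (1 : ℝ) ≤ d := by exact_mod_cast hd
    unfold zCut; linarith
  exact mem_of_dOut_pos (pos_of_mul_pos_right (h2.trans h1) h3.le)

/-! ## The radius range -/

theorem rlo_ge {R : Cb d} (hd : 1 ≤ d) (hR : c.Tree R) (x : E d) :
    theta' d * (2 : ℝ) ^ c.M ≤ c.rlo R x :=
  mul_le_mul_of_nonneg_left (lam0_ge hR x) (theta'_pos hd).le

theorem rlo_pos {R : Cb d} (hd : 1 ≤ d) (hR : c.Tree R) (x : E d) : 0 < c.rlo R x :=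
  mul_pos (theta'_pos hd) (lam0_pos hR x)

theorem rlo_le_rhi (c : Cfg d) (R : Cb d) (x : E d) : c.rlo R x ≤ c.rhi R x := le_max_left _ _

theorem abs_rlo_sub_le {R : Cb d} (hd : 1 ≤ d) (hR : c.Tree R) (x y : E d) :
    |c.rlo R x - c.rlo R y| ≤ theta d * ‖x - y‖ := by
  have h := (lipschitz_lam0 hR).dist_le_mul x y
  rw [Real.dist_eq, dist_eq_norm, NNReal.coe_one, one_mul] at h
  rw [rlo, rlo, ← mul_sub, abs_mul, abs_of_pos (theta'_pos hd)]
  exact mul_le_mul (theta'_le hd) h (abs_nonneg _) (theta_pos hd).le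

theorem abs_rhi_sub_le {R : Cb d} (hd : 1 ≤ d) (hR : c.Tree R) (x y : E d) :
    |c.rhi R x - c.rhi R y| ≤ theta d * ‖x - y‖ := by
  refine (abs_max_sub_max_le_max _ _ _ _).trans (max_le (abs_rlo_sub_le hd hR x y) ?_)
  have h := (lipschitz_dOut c R).dist_le_mul x y
  rw [Real.dist_eq, dist_eq_norm, NNReal.coe_one, one_mul] at h
  rw [← mul_sub, abs_mul, abs_of_pos (theta_pos hd)]
  exact mul_le_mul_of_nonneg_left h (theta_pos hd).le

theorem rhi_eq_of_zeta_pos {R : Cb d} (hd : 1 ≤ d) (hR : c.Tree R) {x : E d}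
    (h : 0 < c.zeta R x) : c.rhi R x = theta d * c.dOut R x := by
  refine max_eq_right ?_
  calc theta' d * c.lam0 R x ≤ theta' d * (zCut d * c.dOut R x) :=
        mul_le_mul_of_nonneg_left (lt_of_zeta_pos hR h).le (theta'_pos hd).le
    _ = (theta' d * zCut d) * c.dOut R x := (mul_assoc _ _ _).symm
    _ ≤ _ := mul_le_mul_of_nonneg_right (theta'_mul_zCut_le hd) (dOut_nonneg c R x)

/-! ## The maximal function of a tree -/

theorem abs_ballAvg_sub_le {u : E d → ℝ} (hu : Smooth u) (hd : 1 ≤ d) {a : ℝ} (ha : 0 < a)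
    (x y : E d) {r s : ℝ} (hr : a ≤ r) (hs : a ≤ s) :
    |ballAvg u x r - ballAvg u y s| ≤
      gnorm u / volume.real (ball (0 : E d) a) * (‖x - y‖ + |r - s|) := by
  set C := gnorm u / volume.real (ball (0 : E d) a)
  have hVa : 0 < volume.real (ball (0 : E d) a) :=
    ENNReal.toReal_pos (measure_ball_pos volume _ ha).ne' measure_ball_lt_top.ne
  have hg : Integrable fun z => ∇ u z := hu.integrable_grad
  have hCn : 0 ≤ C := div_nonneg (integral_nonneg fun _ => norm_nonneg _) hVa.le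
  set γ : ℝ → E d × ℝ := fun τ => (y + τ • (x - y), s + τ * (r - s))
  have hγ : ∀ τ, HasDerivAt γ (x - y, r - s) τ := fun τ => by
    have h1 : HasDerivAt (fun τ : ℝ => y + τ • (x - y)) (x - y) τ := by
      simpa using ((hasDerivAt_id τ).smul_const (x - y)).const_add y
    have h2 : HasDerivAt (fun τ : ℝ => s + τ * (r - s)) (r - s) τ := by
      simpa using ((hasDerivAt_id τ).mul_const (r - s)).const_add s
    exact h1.prodMk h2
  have hbound : ∀ τ ∈ Icc (0 : ℝ) 1, ∃ D, HasDerivWithinAt (fun τ => ballAvg u (γ τ).1 (γ τ).2) D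
      (Icc 0 1) τ ∧ ‖D‖ ≤ C * (‖x - y‖ + |r - s|) := by
    intro τ hτ
    set ρ := s + τ * (r - s)
    set p := y + τ • (x - y)
    have hρ : a ≤ ρ := by simp only [ρ]; nlinarith [hτ.1, hτ.2]
    obtain ⟨L, hL, hLe⟩ := hasFDerivAt_ballAvg hu hd p (lt_of_lt_of_le ha hρ)
    refine ⟨L (x - y, r - s), ((HasFDerivAt.comp_hasDerivAt (f := γ) τ hL (hγ τ))).hasDerivWithinAt, ?_⟩
    rw [hLe, Real.norm_eq_abs, abs_mul]
    have hV : volume.real (ball (0 : E d) a) ≤ volume.real (ball p ρ) := by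
      rw [measureReal_def, measureReal_def, Measure.addHaar_ball_center volume p ρ]
      exact ENNReal.toReal_mono measure_ball_lt_top.ne (measure_mono (ball_subset_ball hρ))
    have hint : ∀ (F : E d → E d) (B : ℝ), 0 ≤ B → (∀ z ∈ ball p ρ, ‖F z‖ ≤ B) →
        |∫ z in ball p ρ, ⟪∇ u z, F z⟫| ≤ B * gnorm u := fun F B hB hF => by
      rw [← Real.norm_eq_abs]
      refine (norm_integral_le_integral_norm (μ := volume.restrict (ball p ρ)) _).trans ?_
      calc ∫ z in ball p ρ, ‖⟪∇ u z, F z⟫‖ ≤ ∫ z in ball p ρ, B * ‖∇ u z‖ := by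
            refine integral_mono_of_nonneg (Eventually.of_forall fun _ => norm_nonneg _)
              ((hg.norm.const_mul B).integrableOn) ?_
            filter_upwards [ae_restrict_mem measurableSet_ball] with z hz
            rw [Real.norm_eq_abs, mul_comm]
            exact (abs_real_inner_le_norm _ _).trans
              (mul_le_mul_of_nonneg_left (hF z hz) (norm_nonneg _))
        _ ≤ ∫ z, B * ‖∇ u z‖ := setIntegral_le_integral (hg.norm.const_mul B)
            (Eventually.of_forall fun _ => mul_nonneg hB (norm_nonneg _))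
        _ = _ := by rw [integral_const_mul]; rfl
    have i1 := hint (fun _ => x - y) ‖x - y‖ (norm_nonneg _) (fun _ _ => le_rfl)
    have i2 := hint (fun z => z - p) ρ (by linarith) (fun z hz => by
      rw [mem_ball, dist_eq_norm] at hz; exact hz.le)
    have hρ0 : 0 < ρ := lt_of_lt_of_le ha hρ
    calc |(volume.real (ball p ρ))⁻¹| * |(∫ z in ball p ρ, ⟪∇ u z, x - y⟫)
          + (r - s) / ρ * ∫ z in ball p ρ, ⟪∇ u z, z - p⟫|
        ≤ (volume.real (ball (0 : E d) a))⁻¹ * ((‖x - y‖ + |r - s|) * gnorm u) := by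
          rw [abs_of_nonneg (inv_nonneg.2 measureReal_nonneg)]
          refine mul_le_mul (inv_anti₀ hVa hV) ?_ (abs_nonneg _) (inv_nonneg.2 hVa.le)
          refine (abs_add_le _ _).trans ?_
          rw [abs_mul, abs_div, abs_of_pos hρ0, add_mul]
          refine add_le_add i1 ?_
          refine (mul_le_mul_of_nonneg_left i2 (by positivity)).trans (le_of_eq ?_)
          field_simp
      _ = _ := by simp only [C]; ring
  choose! D hD hDb using hbound
  have := norm_image_sub_le_of_norm_deriv_le_segment_01' hD fun τ hτ => hDb τ (Ico_subset_Icc_self hτ)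
  simp only [γ, one_smul, one_mul, zero_smul, zero_mul, add_zero, Real.norm_eq_abs] at this
  rw [show y + (x - y) = x by abel, show s + (r - s) = r by ring] at this
  exact this

theorem exists_UR {u : E d → ℝ} (hu : Smooth u) (hd : 1 ≤ d) {R : Cb d} (hR : c.Tree R)
    (x : E d) : ∃ r ∈ Icc (c.rlo R x) (c.rhi R x), c.UR u R x = ballAvg u x r ∧
      ∀ s ∈ Icc (c.rlo R x) (c.rhi R x), ballAvg u x s ≤ c.UR u R x := by
  have hlo := rlo_pos hd hR x
  have hc : ContinuousOn (fun r => ballAvg u x r) (Icc (c.rlo R x) (c.rhi R x)) := fun r hr => by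
    obtain ⟨L, hL, -⟩ := hasFDerivAt_ballAvg hu hd x (lt_of_lt_of_le hlo hr.1)
    exact (hL.continuousAt.comp (f := fun r : ℝ => (x, r))
      (Continuous.prodMk continuous_const continuous_id).continuousAt).continuousWithinAt
  obtain ⟨r, hr, hmax⟩ := isCompact_Icc.exists_isMaxOn (nonempty_Icc.2 (rlo_le_rhi c R x)) hc
  have e : c.UR u R x = ballAvg u x r := by
    refine le_antisymm (csSup_le ⟨_, mem_image_of_mem _ hr⟩ ?_)
      (le_csSup (isCompact_Icc.image_of_continuousOn hc).bddAbove (mem_image_of_mem _ hr))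
    rintro _ ⟨s, hs, rfl⟩
    exact hmax hs
  exact ⟨r, hr, e, fun s hs => e ▸ hmax hs⟩

theorem le_UR {u : E d → ℝ} (hu : Smooth u) (hd : 1 ≤ d) {R : Cb d} (hR : c.Tree R) {x : E d}
    {s : ℝ} (hs : s ∈ Icc (c.rlo R x) (c.rhi R x)) : ballAvg u x s ≤ c.UR u R x :=
  let ⟨_, _, _, h⟩ := exists_UR hu hd hR x
  h s hs

theorem UR_le_cmax {u : E d → ℝ} (hu : Smooth u) (hd : 1 ≤ d) {R : Cb d} (hR : c.Tree R)
    (x : E d) : c.UR u R x ≤ cmax u x := by
  obtain ⟨r, hr, e, -⟩ := exists_UR hu hd hR x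
  rw [e]
  exact le_cmax hu x (lt_of_lt_of_le (rlo_pos hd hR x) hr.1)

theorem lipschitz_UR {u : E d → ℝ} (hu : Smooth u) (hd : 1 ≤ d) {R : Cb d} (hR : c.Tree R) :
    ∃ K : ℝ≥0, LipschitzWith K (c.UR u R) := by
  set a := theta' d * (2 : ℝ) ^ c.M
  have ha : 0 < a := mul_pos (theta'_pos hd) (zpow_pos two_pos _)
  set C := gnorm u / volume.real (ball (0 : E d) a)
  have hC : 0 ≤ C := div_nonneg (integral_nonneg fun _ => norm_nonneg _) measureReal_nonneg
  refine ⟨(2 * C).toNNReal, LipschitzWith.of_le_add_mul _ fun x y => ?_⟩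
  rw [Real.coe_toNNReal _ (by positivity), dist_eq_norm]
  obtain ⟨r, hr, e, -⟩ := exists_UR hu hd hR x
  set r' := max (c.rlo R y) (min (c.rhi R y) r)
  have hr' : r' ∈ Icc (c.rlo R y) (c.rhi R y) :=
    ⟨le_max_left _ _, max_le (rlo_le_rhi c R y) (min_le_left _ _)⟩
  have h1 : |r - r'| ≤ ‖x - y‖ := by
    have e1 := abs_le.1 (abs_rlo_sub_le hd hR x y)
    have e2 := abs_le.1 (abs_rhi_sub_le hd hR x y)
    have ht : theta d * ‖x - y‖ ≤ ‖x - y‖ :=
      mul_le_of_le_one_left (norm_nonneg _) (by linarith [theta_le hd])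
    rw [abs_le]
    simp only [r']
    constructor
    · rcases le_total (c.rlo R y) (min (c.rhi R y) r) with h | h
      · rw [max_eq_right h]; linarith [min_le_right (c.rhi R y) r, norm_nonneg (x - y)]
      · rw [max_eq_left h]; linarith [hr.1]
    · rcases le_total (c.rhi R y) r with h | h
      · rw [min_eq_left h, max_eq_right (rlo_le_rhi c R y)]; linarith [hr.2]
      · rw [min_eq_right h]; linarith [le_max_right (c.rlo R y) r, norm_nonneg (x - y)]
  have h2 := abs_le.1 (abs_ballAvg_sub_le hu hd ha x y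
    ((rlo_ge hd hR x).trans hr.1) ((rlo_ge hd hR y).trans hr'.1))
  have h3 := le_UR hu hd hR hr'
  have h4 : C * (‖x - y‖ + |r - r'|) ≤ 2 * C * ‖x - y‖ := by
    have := mul_le_mul_of_nonneg_left h1 hC
    linarith
  rw [e]
  linarith

/-! ## The comparison cube of an admissible radius -/

theorem comparator (hd : 1 ≤ d) {R : Cb d} (hR : c.Tree R) {x : E d} (hz : 0 < c.zeta R x)
    {r : ℝ} (hr : r ∈ Icc (c.rlo R x) (c.rhi R x)) {n : ℤ} (hn : (2 : ℝ) ^ n ≤ r)
    (hn' : r ≤ (2 : ℝ) ^ (n + 1)) :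
    let n' := min (n + (C0 d : ℤ)) R.1
    n < n' ∧ 2 * r ≤ (2 : ℝ) ^ n' ∧ (2 : ℝ) ^ n' ≤ (2 : ℝ) ^ (C0 d + 1) * r ∧
      c.M ≤ n + (C0 d : ℤ) ∧ ball x r ⊆ qcube c.t R.1 R.2 ∧
      ∃ k0, Good c.g c.t n' k0 ∧ c.root n' k0 = R ∧
        (∃ o, k0 = nbr (qidx c.t n' x) o) ∧
        ∀ y ∈ ball x r, ∃ o, qidx c.t n' y = nbr k0 o := by
  intro n'
  have hd1 : (1 : ℝ) ≤ d := by exact_mod_cast hd
  have hp : (0 : ℝ) < 2 ^ n := zpow_pos two_pos n
  have hrp : 0 < r := lt_of_lt_of_le hp hn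
  have hrhi : r ≤ theta d * c.dOut R x := (rhi_eq_of_zeta_pos hd hR hz) ▸ hr.2
  have hdo := dOut_le hd c R x
  have hsub : ball x r ⊆ qcube c.t R.1 R.2 := ball_subset_of_le_dOut
    (hrhi.trans (mul_le_of_le_one_left (dOut_nonneg c R x) (by linarith [theta_le hd])))
  have h50 : 50 * r ≤ (2 : ℝ) ^ R.1 := by
    have h := hrhi.trans (mul_le_mul_of_nonneg_left hdo (theta_pos hd).le)
    have e : theta d * (2 * d * (2 : ℝ) ^ R.1) = (2 : ℝ) ^ R.1 / 50 := by
      unfold theta; field_simp; ring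
    linarith
  have hnR : n < R.1 := (zpow_lt_zpow_iff_right₀ (one_lt_two (α := ℝ))).1 (by linarith)
  have hC : 0 < C0 d := by unfold C0; omega
  have hn1 : n < n' := lt_min (by omega) hnR
  have e1 : (2 : ℝ) ^ (n + (C0 d : ℤ)) = 2 ^ n * 2 ^ C0 d := by
    rw [zpow_add₀ two_ne_zero, zpow_natCast]
  have e2 : (2 : ℝ) ^ (n + 1) = 2 * 2 ^ n := by rw [zpow_add_one₀ two_ne_zero]; ring
  have hC1 := C0_ge d
  have hw : (1 : ℝ) ≤ 2 ^ winOff d := one_le_pow₀ one_le_two
  have h4 : (6400 : ℝ) ≤ 2 ^ C0 d := by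
    nlinarith [mul_le_mul hd1 hw zero_le_one (by linarith)]
  have h2r : 2 * r ≤ (2 : ℝ) ^ n' := by
    rcases min_choice (n + (C0 d : ℤ)) R.1 with h | h
    · rw [show n' = n + (C0 d : ℤ) from h, e1]
      nlinarith
    · rw [show n' = R.1 from h]; linarith
  have hup : (2 : ℝ) ^ n' ≤ (2 : ℝ) ^ (C0 d + 1) * r := by
    calc (2 : ℝ) ^ n' ≤ 2 ^ (n + (C0 d : ℤ)) := zpow_le_zpow_right₀ one_le_two (min_le_left _ _)
      _ = 2 ^ n * 2 ^ C0 d := e1
      _ ≤ _ := by rw [pow_succ]; nlinarith [pow_pos (two_pos (α := ℝ)) (C0 d)]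
  obtain ⟨Q, hQ, hl⟩ := exists_lam0 hR x
  obtain ⟨hQM, hQR, hQa, hQg⟩ := mark_spec hR hQ
  have hlam : theta' d * c.lam0 R x ≤ r := hr.1
  have hlam' : c.lam0 R x ≤ 8 * d * 2 ^ winOff d * 2 ^ n := by
    have h : c.lam0 R x ≤ r / theta' d := by rw [le_div_iff₀ (theta'_pos hd)]; linarith
    refine h.trans ?_
    rw [div_le_iff₀ (theta'_pos hd)]
    calc r ≤ 2 ^ (n + 1) := hn'
      _ = _ := by rw [e2]; unfold theta'; field_simp; ring
  have hlamC : 100 * c.lam0 R x ≤ (2 : ℝ) ^ (n + (C0 d : ℤ)) := by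
    rw [e1]
    nlinarith [mul_le_mul_of_nonneg_left hC1 hp.le]
  have hQpos := infDist_nonneg (x := x) (s := qcube c.t Q.1 Q.2)
  have hQlam : (2 : ℝ) ^ Q.1 ≤ c.lam0 R x := by rw [hl]; linarith
  have hMn : c.M ≤ n + (C0 d : ℤ) :=
    (zpow_le_zpow_iff_right₀ (one_lt_two (α := ℝ))).1
      (by linarith [lam0_ge hR x, lam0_pos hR x])
  refine ⟨hn1, h2r, hup, hMn, hsub, ?_⟩
  have hzR := mem_of_zeta_pos hd hR hz
  rcases min_choice (n + (C0 d : ℤ)) R.1 with h | h
  · have hn'' : n' = n + (C0 d : ℤ) := h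
    have hlt : Q.1 < n' :=
      (zpow_lt_zpow_iff_right₀ (one_lt_two (α := ℝ))).1 (by
        rw [hn'']; linarith [lam0_pos hR x])
    obtain ⟨hg, hroot⟩ := hQg n' hlt (min_le_right _ _)
    obtain ⟨y0, hy0, hd0⟩ := (infDist_lt_iff (x := x)
      (show (qcube c.t Q.1 Q.2).Nonempty from ⟨_, mem_qcube_iff.2 (qidx_qctr c.t Q.1 Q.2)⟩)).1
      (lt_add_of_pos_right (infDist x (qcube c.t Q.1 Q.2)) hp)
    have hk0 : qidx c.t n' y0 = anc (n' - Q.1).toNat Q.2 := by
      have := qidx_add c.t Q.1 (n' - Q.1).toNat y0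
      rwa [show Q.1 + ((n' - Q.1).toNat : ℤ) = n' by omega, mem_qcube_iff.1 hy0] at this
    have hbig : dist x y0 + r ≤ 3 * (2 : ℝ) ^ n' := by
      have : dist x y0 < c.lam0 R x + 2 ^ n := by
        have := zpow_pos (two_pos (α := ℝ)) Q.1
        linarith
      rw [hn''] at h2r ⊢
      linarith [lam0_pos hR x]
    refine ⟨anc (n' - Q.1).toNat Q.2, hg, hroot, ?_, fun y hy => ?_⟩
    · obtain ⟨o, ho⟩ := exists_nbr c.t n' x y0 (by
        rw [← dist_eq_norm]; linarith)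
      exact ⟨o, hk0 ▸ ho⟩
    · rw [mem_ball] at hy
      obtain ⟨o, ho⟩ := exists_nbr c.t n' y0 y (by
        rw [← dist_eq_norm]
        linarith [dist_triangle_right y0 y x, dist_comm y0 x])
      exact ⟨o, hk0 ▸ ho⟩
  · have hn'' : n' = R.1 := h
    have hx' : qidx c.t n' x = R.2 := by rw [hn'']; exact mem_qcube_iff.1 hzR
    obtain ⟨o0, ho0⟩ := exists_nbr c.t n' x x (by
      rw [sub_self, norm_zero]; positivity)
    refine ⟨R.2, by rw [hn'']; exact hR.root.1, by rw [hn'']; exact hR.root.2,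
      ⟨o0, by rw [← ho0, hx']⟩, fun y hy => ⟨o0, ?_⟩⟩
    have hy' : qidx c.t n' y = R.2 := by rw [hn'']; exact mem_qcube_iff.1 (hsub hy)
    rw [hy', ← hx', ← ho0]

end Cfg

end

end Vale.Agent.P137.Cen
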