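import Vale.Agent.P137.Cen.IdentityBasic
import Vale.Agent.P137.Cen.TreeFacts

/-!
# P137, centred operator: the cells of a tree

A cell is a maximal cube inside the root whose side is small against the size of the marks seen
from its centre.
-/

open MeasureTheory Metric Set Filter
open scoped ENNReal NNReal RealInnerProductSpace Gradient Topology

namespace Vale.Agent.P137.Cen

open Vale.Agent.P137.Unc (E qdec ballAvg Smooth inner_grad)

noncomputable section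

attribute [local instance] Classical.propDecidable

variable {d : ℕ}

/-! ## Constants -/

/-- Levels between a cell and the size of the marks seen from it. -/
def aId (d : ℕ) : ℕ := Nat.clog 2 (320 * d * d)

theorem aId_ge (d : ℕ) : 320 * (d : ℝ) * d ≤ 2 ^ aId d := by
  exact_mod_cast Nat.le_pow_clog one_lt_two (320 * d * d)

theorem aId_le (hd : 1 ≤ d) : (2 : ℝ) ^ aId d ≤ 640 * d * d := by
  have h1 : 1 < 320 * d * d := by nlinarith
  have h2 := Nat.pow_pred_clog_lt_self one_lt_two h1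
  have h3 : 0 < aId d := Nat.clog_pos one_lt_two h1
  have h4 : 2 ^ aId d ≤ 640 * d * d := by
    have e : 2 ^ aId d = 2 ^ (Nat.clog 2 (320 * d * d)).pred * 2 := by
      rw [← pow_succ]
      congr 1
      unfold aId at h3 ⊢
      simp only [Nat.pred_eq_sub_one]
      omega
    have e2 : 640 * d * d = 320 * d * d * 2 := by ring
    rw [e, e2]
    omega
  exact_mod_cast h4

theorem aId_le_botOff (hd : 1 ≤ d) : aId d + 3 ≤ botOff d := by
  have h1 : aId d ≤ winOff d := Nat.clog_mono_right 2 (by nlinarith)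
  have h2 := winOff_le_C0 d hd
  unfold botOff
  omega

namespace Cfg

variable {c : Cfg d}

/-- The side of the cube is small against the marks seen from its centre. -/
def Small (c : Cfg d) (R : Cb d) (p : ℤ) (k : Fin d → ℤ) : Prop :=
  (2 : ℝ) ^ (p + (aId d : ℤ)) ≤ c.lam0 R (qctr c.t p k)

/-- The cells of a tree. -/
def cells (c : Cfg d) (R : Cb d) : Set (Cb d) :=
  {Q | Q.1 < R.1 ∧ anc (R.1 - Q.1).toNat Q.2 = R.2 ∧ c.Small R Q.1 Q.2 ∧
    ¬ c.Small R (Q.1 + 1) (par Q.2)}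

theorem two_zpow_add (p : ℤ) (a : ℕ) : (2 : ℝ) ^ (p + (a : ℤ)) = 2 ^ p * 2 ^ a := by
  rw [zpow_add₀ two_ne_zero, zpow_natCast]

theorem norm_sub_ctr_le {p : ℤ} {k : Fin d → ℤ} {x : E d} (hx : x ∈ qcube c.t p k) :
    ‖x - qctr c.t p k‖ ≤ d * (2 : ℝ) ^ p := by
  have h := norm_sub_qctr_le hx
  have hp : (0 : ℝ) < 2 ^ p := zpow_pos two_pos p
  nlinarith [sqrt_dim_le d, Real.sqrt_nonneg (d : ℝ)]

theorem abs_lam0_sub_le {R : Cb d} (hR : c.Tree R) (x y : E d) :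
    |c.lam0 R x - c.lam0 R y| ≤ ‖x - y‖ := by
  have h := (lipschitz_lam0 hR).dist_le_mul x y
  rwa [Real.dist_eq, dist_eq_norm, NNReal.coe_one, one_mul] at h

theorem small_down (hd : 1 ≤ d) {R : Cb d} (hR : c.Tree R) {p : ℤ} {k : Fin d → ℤ}
    (h : c.Small R (p + 1) (par k)) : c.Small R p k := by
  have hx : qctr c.t p k ∈ qcube c.t (p + 1) (par k) := by
    rw [mem_qcube_iff, qidx_par, qidx_qctr]
  have h1 := norm_sub_ctr_le hx
  have h2 := abs_le.1 (abs_lam0_sub_le hR (qctr c.t p k) (qctr c.t (p + 1) (par k)))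
  have hp : (0 : ℝ) < 2 ^ p := zpow_pos two_pos p
  have hd1 : (1 : ℝ) ≤ d := by exact_mod_cast hd
  have e : (2 : ℝ) ^ (p + 1) = 2 * 2 ^ p := by rw [zpow_add_one₀ two_ne_zero]; ring
  simp only [Small, two_zpow_add] at h ⊢
  rw [e] at h h1
  nlinarith [aId_ge d, mul_le_mul_of_nonneg_left hd1 (by linarith : (0 : ℝ) ≤ d)]

theorem small_anc (hd : 1 ≤ d) {R : Cb d} (hR : c.Tree R) {p : ℤ} {k : Fin d → ℤ} (j : ℕ)
    (h : c.Small R (p + j) (anc j k)) : c.Small R p k := by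
  induction j with
  | zero => simpa [anc_zero] using h
  | succ j ih =>
    refine ih (small_down hd hR ?_)
    rw [← anc_one, anc_add, Nat.add_comm 1 j]
    rw [show p + (j : ℤ) + 1 = p + ((j + 1 : ℕ) : ℤ) by push_cast; ring]
    exact h

theorem cell_subset {R Q : Cb d} (hQ : Q ∈ c.cells R) :
    qcube c.t Q.1 Q.2 ⊆ qcube c.t R.1 R.2 := by
  obtain ⟨h1, h2, -, -⟩ := hQ
  have := qcube_subset_anc c.t Q.1 (R.1 - Q.1).toNat Q.2
  rwa [h2, show Q.1 + ((R.1 - Q.1).toNat : ℤ) = R.1 by omega] at this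

theorem exists_cell (hd : 1 ≤ d) {R : Cb d} (hR : c.Tree R) {x : E d}
    (hx : x ∈ qcube c.t R.1 R.2) : ∃ p, (p, qidx c.t p x) ∈ c.cells R := by
  have ha : (1 : ℝ) ≤ 2 ^ aId d := one_le_pow₀ one_le_two
  have hlo := hR.lo
  have hw : ∃ p, p < R.1 ∧ c.Small R p (qidx c.t p x) := by
    refine ⟨c.M - (aId d : ℤ) - 1, by omega, ?_⟩
    unfold Small
    refine le_trans ?_ (lam0_ge hR _)
    exact zpow_le_zpow_right₀ one_le_two (by omega)
  obtain ⟨p, ⟨hp, hS⟩, hmax⟩ := Int.exists_greatest_of_bdd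
    (P := fun p => p < R.1 ∧ c.Small R p (qidx c.t p x)) ⟨R.1, fun z hz => hz.1.le⟩ hw
  refine ⟨p, hp, ?_, hS, fun hS' => ?_⟩
  · have := qidx_add c.t p (R.1 - p).toNat x
    rwa [show p + ((R.1 - p).toNat : ℤ) = R.1 by omega, mem_qcube_iff.1 hx, eq_comm] at this
  · rw [← qidx_par] at hS'
    by_cases h : p + 1 < R.1
    · have := hmax (p + 1) ⟨h, hS'⟩
      omega
    · rw [show p + 1 = R.1 by omega, mem_qcube_iff.1 hx] at hS'
      obtain ⟨Q, hQ, hxQ⟩ := mark_cover hR (qctr_mem c.t R.1 R.2)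
      have h1 := lam0_le hR hQ (qctr c.t R.1 R.2)
      rw [infDist_zero_of_mem hxQ, add_zero] at h1
      have h2 := zpow_le_zpow_right₀ (one_le_two (α := ℝ)) (mark_spec hR hQ).2.1
      have hR' : (0 : ℝ) < 2 ^ R.1 := zpow_pos two_pos _
      simp only [Small, two_zpow_add] at hS'
      have h3 : (2 : ℝ) ≤ 2 ^ aId d := by
        have : (1 : ℝ) ≤ d := by exact_mod_cast hd
        nlinarith [aId_ge d]
      nlinarith

theorem cell_unique (hd : 1 ≤ d) {R Q Q' : Cb d} (hR : c.Tree R) (hQ : Q ∈ c.cells R)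
    (hQ' : Q' ∈ c.cells R) {x : E d} (hx : x ∈ qcube c.t Q.1 Q.2)
    (hx' : x ∈ qcube c.t Q'.1 Q'.2) : Q = Q' := by
  rw [mem_qcube_iff] at hx hx'
  have key : ∀ P P' : Cb d, P ∈ c.cells R → P' ∈ c.cells R → qidx c.t P.1 x = P.2 →
      qidx c.t P'.1 x = P'.2 → ¬ P.1 < P'.1 := by
    intro P P' hP hP' e e' hlt
    refine hP.2.2.2 (small_anc hd hR (P'.1 - (P.1 + 1)).toNat ?_)
    rw [← e, ← qidx_par, ← qidx_add, show P.1 + 1 + ((P'.1 - (P.1 + 1)).toNat : ℤ) = P'.1 by omega,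
      e']
    exact hP'.2.2.1
  have h1 := key Q Q' hQ hQ' hx hx'
  have h2 := key Q' Q hQ' hQ hx' hx
  have e : Q.1 = Q'.1 := by omega
  exact Prod.ext e (by rw [← hx, e, hx'])

theorem iUnion_cells (hd : 1 ≤ d) {R : Cb d} (hR : c.Tree R) :
    ⋃ Q : c.cells R, qcube c.t Q.1.1 Q.1.2 = qcube c.t R.1 R.2 := by
  refine Subset.antisymm (iUnion_subset fun Q => cell_subset Q.2) fun x hx => ?_
  obtain ⟨p, hp⟩ := exists_cell hd hR hx
  exact mem_iUnion.2 ⟨⟨_, hp⟩, mem_qcube_iff.2 rfl⟩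

theorem disjoint_cells (hd : 1 ≤ d) {R : Cb d} (hR : c.Tree R) :
    Pairwise (Function.onFun Disjoint fun Q : c.cells R => qcube c.t Q.1.1 Q.1.2) :=
  fun Q Q' hne => Set.disjoint_left.2 fun _ hx hx' =>
    hne (Subtype.ext (cell_unique hd hR Q.2 Q'.2 hx hx'))

theorem setLIntegral_cells (hd : 1 ≤ d) {R : Cb d} (hR : c.Tree R) (F : E d → ℝ≥0∞) :
    ∫⁻ x in qcube c.t R.1 R.2, F x = ∑' Q : c.cells R, ∫⁻ x in qcube c.t Q.1.1 Q.1.2, F x := by
  rw [← iUnion_cells hd hR]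
  exact lintegral_iUnion (fun Q => measurableSet_qcube _ _ _) (disjoint_cells hd hR) F

theorem hasSum_cells (hd : 1 ≤ d) {R : Cb d} (hR : c.Tree R) {F : E d → ℝ}
    (hF : IntegrableOn F (qcube c.t R.1 R.2)) :
    HasSum (fun Q : c.cells R => ∫ x in qcube c.t Q.1.1 Q.1.2, F x)
      (∫ x in qcube c.t R.1 R.2, F x) := by
  rw [← iUnion_cells hd hR] at hF ⊢
  exact hasSum_integral_iUnion (fun Q => measurableSet_qcube _ _ _) (disjoint_cells hd hR) hF

theorem enorm_setIntegral_cells_le (hd : 1 ≤ d) {R : Cb d} (hR : c.Tree R) {F : E d → ℝ}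
    (hF : IntegrableOn F (qcube c.t R.1 R.2)) :
    ‖∫ x in qcube c.t R.1 R.2, F x‖ₑ
      ≤ ∑' Q : c.cells R, ‖∫ x in qcube c.t Q.1.1 Q.1.2, F x‖ₑ := by
  have h := hasSum_cells hd hR hF
  exact le_of_tendsto_of_tendsto (h.enorm) ENNReal.summable.hasSum
    (Eventually.of_forall fun s => enorm_sum_le s _)

/-- The size of the marks seen from the points of a cell. -/
theorem lam0_cell (hd : 1 ≤ d) {R Q : Cb d} (hR : c.Tree R) (hQ : Q ∈ c.cells R) :
    (2 : ℝ) ^ Q.1 * 2 ^ aId d ≤ c.lam0 R (qctr c.t Q.1 Q.2) ∧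
      c.lam0 R (qctr c.t Q.1 Q.2) ≤ (2 : ℝ) ^ Q.1 * (2 * 2 ^ aId d + 2 * d) := by
  obtain ⟨-, -, h3, h4⟩ := hQ
  refine ⟨by simpa [Small, two_zpow_add] using h3, ?_⟩
  have hx : qctr c.t Q.1 Q.2 ∈ qcube c.t (Q.1 + 1) (par Q.2) := by
    rw [mem_qcube_iff, qidx_par, qidx_qctr]
  have h1 := norm_sub_ctr_le hx
  have h2 := abs_le.1 (abs_lam0_sub_le hR (qctr c.t Q.1 Q.2) (qctr c.t (Q.1 + 1) (par Q.2)))
  have e : (2 : ℝ) ^ (Q.1 + 1) = 2 * 2 ^ Q.1 := by rw [zpow_add_one₀ two_ne_zero]; ring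
  simp only [Small, two_zpow_add, not_le, e] at h4
  rw [e] at h1
  linarith

theorem lam0_cell_pt (hd : 1 ≤ d) {R Q : Cb d} (hR : c.Tree R) (hQ : Q ∈ c.cells R) {x : E d}
    (hx : x ∈ qcube c.t Q.1 Q.2) :
    (2 : ℝ) ^ Q.1 * (319 * d * d) ≤ c.lam0 R x ∧
      c.lam0 R x ≤ (2 : ℝ) ^ Q.1 * (1300 * d * d) := by
  obtain ⟨h1, h2⟩ := lam0_cell hd hR hQ
  have h3 := norm_sub_ctr_le hx
  have h4 := abs_le.1 (abs_lam0_sub_le hR x (qctr c.t Q.1 Q.2))
  have hp : (0 : ℝ) < 2 ^ Q.1 := zpow_pos two_pos _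
  have hd1 : (1 : ℝ) ≤ d := by exact_mod_cast hd
  have hdd : (d : ℝ) ≤ d * d := le_mul_of_one_le_left (by linarith) hd1
  have a1 := mul_le_mul_of_nonneg_left (aId_ge d) hp.le
  have a2 := mul_le_mul_of_nonneg_left (aId_le hd) hp.le
  have a3 := mul_le_mul_of_nonneg_left hdd hp.le
  constructor <;> nlinarith

theorem cell_level (hd : 1 ≤ d) (hc : c.Ok) {R Q : Cb d} (hR : c.Tree R) (hQ : Q ∈ c.cells R) :
    c.Mb ≤ Q.1 ∧ Q.1 < R.1 ∧ Q.1 ≤ c.N0 := by
  refine ⟨?_, hQ.1, hQ.1.le.trans hR.hi⟩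
  have h1 := (lam0_ge hR _).trans (lam0_cell hd hR hQ).2
  have hp : (0 : ℝ) < 2 ^ Q.1 := zpow_pos two_pos _
  have hd1 : (1 : ℝ) ≤ d := by exact_mod_cast hd
  have h2 : (2 : ℝ) ^ c.M ≤ 2 ^ (Q.1 + ((aId d + 2 : ℕ) : ℤ)) := by
    refine h1.trans ?_
    rw [two_zpow_add, pow_add]
    refine mul_le_mul_of_nonneg_left ?_ hp.le
    nlinarith [aId_ge d, mul_le_mul_of_nonneg_left hd1 (by linarith : (0 : ℝ) ≤ d)]
  have h3 := (zpow_le_zpow_iff_right₀ (one_lt_two (α := ℝ))).1 h2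
  have h4 := hc.hMb
  have h5 := aId_le_botOff hd
  omega

/-! ## Neighbours of a cell -/

/-- The weight of a cube as a cell. -/
def wC (c : Cfg d) (R : Cb d) : Cb d → ℝ≥0∞ :=
  (c.cells R).indicator fun Q => cW c.g c.t Q.1 Q.2

/-- The cells covering a cube of nearly the same size as the cells around it. -/
def vC (c : Cfg d) (R : Cb d) (p : ℤ) (k : Fin d → ℤ) : ℝ≥0∞ :=
  2 * c.wC R (p + 1, par k) + c.wC R (p, k) + ∑ b : Fin d → Fin 2, c.wC R (p - 1, kid k b)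

theorem wC_eq {R Q : Cb d} (hQ : Q ∈ c.cells R) : c.wC R Q = cW c.g c.t Q.1 Q.2 :=
  indicator_of_mem hQ _

theorem qint_nbr_le (hd : 1 ≤ d) (hg : Integrable c.g) {R Q : Cb d} (hR : c.Tree R)
    (hQ : Q ∈ c.cells R) (o : Fin d → Fin 9)
    (hsub : qcube c.t Q.1 (nbr Q.2 o) ⊆ qcube c.t R.1 R.2) :
    ‖qint c.g c.t Q.1 (nbr Q.2 o)‖ₑ ≤ c.vC R Q.1 (nbr Q.2 o) := by
  set p := Q.1
  set k' := nbr Q.2 o
  have hd1 : (1 : ℝ) ≤ d := by exact_mod_cast hd
  have hdd : (d : ℝ) ≤ d * d := le_mul_of_one_le_left (by linarith) hd1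
  obtain ⟨A1, A2⟩ := lam0_cell hd hR hQ
  have hp : (0 : ℝ) < 2 ^ p := zpow_pos two_pos p
  have ha := aId_ge d
  have key : ∀ y ∈ qcube c.t p k', ∀ p', (p', qidx c.t p' y) ∈ c.cells R →
      p' = p + 1 ∨ p' = p ∨ p' = p - 1 := by
    intro y hy p' hp'
    obtain ⟨B1, B2⟩ := lam0_cell hd hR hp'
    have hy' : y ∈ qcube c.t p' (qidx c.t p' y) := mem_qcube_iff.2 rfl
    have u1 := norm_sub_le_of_nbr (qctr_mem c.t p Q.2) hy
    have u2 := norm_sub_ctr_le hy'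
    have u3 := abs_le.1 (abs_lam0_sub_le hR (qctr c.t p Q.2) y)
    have u4 := abs_le.1 (abs_lam0_sub_le hR y (qctr c.t p' (qidx c.t p' y)))
    have u5 : 5 * Real.sqrt d * (2 : ℝ) ^ p ≤ 2 ^ p * (5 * d) := by
      nlinarith [sqrt_dim_le d]
    have hp' : (0 : ℝ) < 2 ^ p' := zpow_pos two_pos p'
    rcases le_or_gt (p + 2) p' with h | h
    · exfalso
      have h4 : 4 * (2 : ℝ) ^ p ≤ 2 ^ p' := by
        calc 4 * (2 : ℝ) ^ p = 2 ^ (p + 2) := by rw [zpow_add₀ two_ne_zero]; norm_num; ring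
          _ ≤ _ := zpow_le_zpow_right₀ one_le_two h
      have h5 := mul_le_mul_of_nonneg_right h4 (show (0 : ℝ) ≤ 2 ^ aId d - d by nlinarith)
      have h7 := mul_le_mul_of_nonneg_left (show (11 : ℝ) * d ≤ 2 * 2 ^ aId d - 1 by nlinarith) hp.le
      linarith
    · rcases le_or_gt p' (p - 2) with h | h
      · exfalso
        have h4 : 4 * (2 : ℝ) ^ p' ≤ 2 ^ p := by
          calc 4 * (2 : ℝ) ^ p' = 2 ^ (p' + 2) := by rw [zpow_add₀ two_ne_zero]; norm_num; ring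
            _ ≤ _ := zpow_le_zpow_right₀ one_le_two (by omega)
        have h5 := mul_le_mul_of_nonneg_right h4
          (show (0 : ℝ) ≤ 2 * 2 ^ aId d + 3 * d by positivity)
        have h7 := mul_le_mul_of_nonneg_left (show (23 : ℝ) * d ≤ 2 * 2 ^ aId d - 1 by nlinarith)
          hp.le
        linarith
      · omega
  by_cases hA : (p + 1, par k') ∈ c.cells R
  · refine (enorm_qint_desc_le hg c.t p k' 1).trans (le_trans ?_ (le_add_right (le_add_right le_rfl)))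
    rw [wC_eq hA, anc_one, pow_one, Nat.cast_one]
  by_cases hB : (p, k') ∈ c.cells R
  · refine le_trans (le_of_eq_of_le rfl le_self_add) (le_trans (le_of_eq (wC_eq hB).symm)
      (le_add_right le_add_self))
  refine le_trans ?_ le_add_self
  have hkid : ∀ b : Fin d → Fin 2, (p - 1, kid k' b) ∈ c.cells R := fun b => by
    set y := qctr c.t (p - 1) (kid k' b)
    have hy : qidx c.t (p - 1) y = kid k' b := qidx_qctr _ _ _
    have hyk : y ∈ qcube c.t p k' := mem_qcube_iff.2 (qidx_eq_kid_iff.1 hy).1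
    obtain ⟨p', hp'⟩ := exists_cell hd hR (hsub hyk)
    rcases key y hyk p' hp' with rfl | rfl | rfl
    · refine absurd hp' ?_
      rwa [qidx_par, mem_qcube_iff.1 hyk]
    · refine absurd hp' ?_
      rwa [mem_qcube_iff.1 hyk]
    · rwa [hy] at hp'
  calc ‖qint c.g c.t p k'‖ₑ = ‖∑ b : Fin d → Fin 2, qint c.g c.t (p - 1) (kid k' b)‖ₑ := by
        congr 1
        rw [qint_eq_sum_desc hg p k' 1]
        simp [desc_one]
    _ ≤ ∑ b, ‖qint c.g c.t (p - 1) (kid k' b)‖ₑ := enorm_sum_le _ _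
    _ ≤ _ := Finset.sum_le_sum fun b _ => by rw [wC_eq (hkid b)]; exact le_self_add

theorem cW_le_iw (n : ℤ) (k : Fin d → ℤ) :
    cW c.g c.t n k ≤ c.iw n k + 2 * ‖qint c.g c.t n k‖ₑ := by
  by_cases h : Good c.g c.t n k
  · refine le_trans ?_ le_add_self
    rw [cW, two_mul]
    gcongr
    refine (le_self_add.trans h.2).trans (mul_le_of_le_one_left zero_le ?_)
    rw [← ENNReal.ofReal_one]
    exact ENNReal.ofReal_le_ofReal (by unfold eta; norm_num)
  · refine le_trans ?_ le_self_add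
    rw [iw, if_pos h]
    exact le_add_right (le_add_right le_self_add)

end Cfg

end

end Vale.Agent.P137.Cen
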