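import Vale.Agent.P137.Unc.Defs

/-!
# P137, centred operator: two points are rarely cut by one sphere at any scale
-/

open MeasureTheory Metric Set Module
open scoped ENNReal RealInnerProductSpace

namespace Vale.Agent.P137.Cen

open Unc

noncomputable section

variable {d : ℕ}

/-- The annulus of normalised centres. -/
def Ann (d : ℕ) : Set (E d) := {z | (1 / 4 : ℝ) ≤ ‖z‖ ∧ ‖z‖ ≤ 8}

/-- Normalised volume on the annulus. -/
def annMeas (d : ℕ) : Measure (E d) := (volume (Ann d))⁻¹ • volume.restrict (Ann d)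

theorem measurableSet_Ann : MeasurableSet (Ann d) :=
  (measurableSet_le measurable_const continuous_norm.measurable).inter
    (measurableSet_le continuous_norm.measurable measurable_const)

theorem volume_Ann_ne_top : volume (Ann d) ≠ ⊤ := by
  refine ne_top_of_le_ne_top (measure_closedBall_lt_top (x := (0 : E d)) (r := 8)).ne
    (measure_mono fun z hz => ?_)
  simpa [mem_closedBall, dist_zero_right] using hz.2

theorem volume_Ann_pos (hd : 0 < d) : 0 < volume (Ann d) := by
  refine lt_of_lt_of_le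
    (measure_ball_pos volume (EuclideanSpace.single (⟨0, hd⟩ : Fin d) (1 : ℝ)) (r := 1 / 2)
      (by norm_num)) (measure_mono fun z hz => ?_)
  rw [mem_ball, dist_eq_norm] at hz
  have h1 : ‖EuclideanSpace.single (⟨0, hd⟩ : Fin d) (1 : ℝ)‖ = 1 := by simp
  have h2 := norm_sub_norm_le (EuclideanSpace.single (⟨0, hd⟩ : Fin d) (1 : ℝ)) z
  have h3 := norm_sub_norm_le z (EuclideanSpace.single (⟨0, hd⟩ : Fin d) (1 : ℝ))
  rw [norm_sub_rev] at h2
  constructor <;> linarith

instance annMeas_prob [NeZero d] : IsProbabilityMeasure (annMeas d) := by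
  constructor
  rw [annMeas, Measure.smul_apply, Measure.restrict_apply_univ, smul_eq_mul,
    ENNReal.inv_mul_cancel (volume_Ann_pos (NeZero.pos d)).ne' volume_Ann_ne_top]

/-- The part of a ball of radius `8` in a slab. -/
theorem slab_bound {v : E d} (hv : v ≠ 0) (c : ℝ) {w : ℝ} (hw : 0 ≤ w) :
    volume {z : E d | ‖z‖ ≤ 8 ∧ |⟪z, v⟫ - c| ≤ w}
      ≤ ENNReal.ofReal (16 ^ (d - 1) * 2 * (w / ‖v‖)) := by
  have hn : 0 < ‖v‖ := norm_pos_iff.2 hv
  have hd : 0 < d := by
    refine Nat.pos_of_ne_zero fun h => hv ?_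
    subst h
    exact Subsingleton.elim _ _
  set i0 : Fin d := ⟨0, hd⟩
  set e : E d := ‖v‖⁻¹ • v
  have he : ‖e‖ = 1 := by rw [norm_smul, norm_inv, norm_norm, inv_mul_cancel₀ hn.ne']
  have hon : Orthonormal ℝ (({i0} : Set (Fin d)).domRestrict fun _ => e) := by
    constructor
    · intro i; exact he
    · intro i j hij; exact absurd (Subsingleton.elim i j) hij
  obtain ⟨b, hb⟩ := hon.exists_orthonormalBasis_extension_of_card_eq
    (by rw [finrank_euclideanSpace])
  have hb0 : b i0 = e := hb i0 rfl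
  set φ : E d → (Fin d → ℝ) := fun z => WithLp.ofLp (b.repr z)
  have hφ : MeasurePreserving φ volume volume :=
    (PiLp.volume_preserving_ofLp (Fin d)).comp b.measurePreserving_repr
  set box : Set (Fin d → ℝ) := univ.pi fun i =>
    if i = i0 then Icc (c / ‖v‖ - w / ‖v‖) (c / ‖v‖ + w / ‖v‖) else Icc (-8) 8
  have hbox : MeasurableSet box := MeasurableSet.univ_pi fun i => by
    split_ifs <;> exact measurableSet_Icc
  refine (measure_mono (t := φ ⁻¹' box) fun z hz => ?_).trans ?_
  · intro i _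
    obtain ⟨hz8, hzs⟩ := hz
    have hr : φ z i = ⟪b i, z⟫ := b.repr_apply_apply z i
    by_cases hi : i = i0
    · subst hi
      simp only [↓reduceIte]
      rw [hr, hb0, inner_smul_left, real_inner_comm]
      simp only [conj_trivial, mem_Icc]
      rw [abs_le] at hzs
      constructor
      · calc c / ‖v‖ - w / ‖v‖ = (c - w) / ‖v‖ := by ring
          _ ≤ ⟪z, v⟫ / ‖v‖ := div_le_div_of_nonneg_right (by linarith [hzs.1]) hn.le
          _ = _ := div_eq_inv_mul _ _
      · calc ‖v‖⁻¹ * ⟪z, v⟫ = ⟪z, v⟫ / ‖v‖ := (div_eq_inv_mul _ _).symm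
          _ ≤ (c + w) / ‖v‖ := div_le_div_of_nonneg_right (by linarith [hzs.2]) hn.le
          _ = _ := by ring
    · simp only [hi, ↓reduceIte, mem_Icc]
      rw [hr]
      have h := abs_real_inner_le_norm (b i) z
      rw [b.norm_eq_one i, one_mul] at h
      exact abs_le.1 (h.trans hz8)
  · rw [hφ.measure_preimage hbox.nullMeasurableSet, volume_pi_pi]
    rw [Finset.prod_eq_mul_prod_sdiff_singleton_of_mem (Finset.mem_univ i0)]
    rw [if_pos rfl, Real.volume_Icc,
      Finset.prod_congr rfl (g := fun _ => ENNReal.ofReal 16) fun i hi => ?_]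
    · rw [Finset.prod_const, Finset.card_sdiff]
      simp only [Finset.inter_univ, Finset.card_univ, Fintype.card_fin, Finset.card_singleton]
      rw [← ENNReal.ofReal_pow (by norm_num), ← ENNReal.ofReal_mul (by
        have : 0 ≤ w / ‖v‖ := div_nonneg hw hn.le
        linarith)]
      exact ENNReal.ofReal_le_ofReal (le_of_eq (by ring))
    · rw [if_neg (by simpa using hi), Real.volume_Icc]
      norm_num

/-- Two points at distance `h` are both within `δ` of one sphere, at some admissible scale, only on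
a set of centres of measure `δ/h` up to a logarithm. -/
theorem two_point (d : ℕ) : ∃ C : ℝ≥0∞, C ≠ ⊤ ∧ ∀ (a y y' : E d) (δ D : ℝ), 0 < δ →
    δ ≤ ‖y - y'‖ → ‖y - a‖ ≤ D → ‖y' - a‖ ≤ D →
    annMeas d {z | ∃ j : ℤ, D ≤ (2 : ℝ) ^ j ∧
        |‖a + (2 : ℝ) ^ j • z - y‖ - ‖a + (2 : ℝ) ^ j • z - y'‖| ≤ δ}
      ≤ C * ENNReal.ofReal (δ / ‖y - y'‖ * (1 + Real.log (‖y - y'‖ / δ))) := by
  rcases Nat.eq_zero_or_pos d with hd | hd
  · subst hd
    refine ⟨0, ENNReal.zero_ne_top, fun a y y' δ D hδ h => absurd h ?_⟩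
    rw [Subsingleton.elim y y', sub_self, norm_zero]
    linarith
  refine ⟨(volume (Ann d))⁻¹ * ENNReal.ofReal (16 ^ (d - 1) * 2 * 40),
    ENNReal.mul_ne_top (ENNReal.inv_ne_top.2 (volume_Ann_pos hd).ne') ENNReal.ofReal_ne_top, ?_⟩
  intro a y y' δ D hδ hh hy hy'
  set h := ‖y - y'‖ with hhd
  have hh0 : 0 < h := hδ.trans_le hh
  have hD : 0 < D := by
    have := (norm_sub_le_norm_sub_add_norm_sub y a y')
    rw [norm_sub_rev a y'] at this
    linarith
  set v : E d := y' - y with hv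
  have hvn : ‖v‖ = h := norm_sub_rev _ _
  have hv0 : v ≠ 0 := norm_pos_iff.1 (hvn ▸ hh0)
  set α := y - a
  set β := y' - a
  set q := ‖α‖ ^ 2 - ‖β‖ ^ 2
  have hq : |q| ≤ 2 * D * h := by
    simp only [q, sq_sub_sq, abs_mul]
    have h1 : |‖α‖ + ‖β‖| ≤ 2 * D := by
      rw [abs_of_nonneg (by positivity)]; linarith
    have h2 : |‖α‖ - ‖β‖| ≤ h := by
      refine (abs_norm_sub_norm_le α β).trans (le_of_eq ?_)
      simp only [α, β, sub_sub_sub_cancel_right, hhd]
    exact mul_le_mul h1 h2 (abs_nonneg _) (by linarith)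
  set n0 := Int.clog 2 D
  set J : ℕ := ⌈Real.log (2 * h / δ) / Real.log 2⌉₊
  have hJ : 2 * h / δ ≤ (2 : ℝ) ^ J := by
    have hl : 0 < Real.log 2 := Real.log_pos one_lt_two
    have := Nat.le_ceil (Real.log (2 * h / δ) / Real.log 2)
    rw [div_le_iff₀ hl] at this
    rw [← Real.log_le_log_iff (by positivity) (by positivity), Real.log_pow]
    exact this
  set S : ℕ → Set (E d) := fun i => {z | ‖z‖ ≤ 8 ∧
    |⟪z, v⟫ - (-(q / (2 : ℝ) ^ (n0 + (i : ℤ)) / 2))| ≤ 10 * δ}
  set S' : Set (E d) := {z | ‖z‖ ≤ 8 ∧ |⟪z, v⟫ - 0| ≤ 10 * δ}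
  set B : ℝ≥0∞ := ENNReal.ofReal (16 ^ (d - 1) * 2 * (10 * δ / h))
  have hB : ∀ c, volume {z : E d | ‖z‖ ≤ 8 ∧ |⟪z, v⟫ - c| ≤ 10 * δ} ≤ B := fun c => by
    have := slab_bound hv0 c (w := 10 * δ) (by linarith)
    rwa [hvn] at this
  have hsub : {z | ∃ j : ℤ, D ≤ (2 : ℝ) ^ j ∧
      |‖a + (2 : ℝ) ^ j • z - y‖ - ‖a + (2 : ℝ) ^ j • z - y'‖| ≤ δ} ∩ Ann d
      ⊆ S' ∪ ⋃ i ∈ Finset.range J, S i := by
    rintro z ⟨⟨j, hj, hz⟩, hzA⟩
    set s : ℝ := (2 : ℝ) ^ j with hsd
    have hs : 0 < s := zpow_pos two_pos j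
    have e1 : a + s • z - y = s • z - α := by simp only [α]; abel
    have e2 : a + s • z - y' = s • z - β := by simp only [β]; abel
    rw [e1, e2] at hz
    have hid : (‖s • z - α‖ - ‖s • z - β‖) * (‖s • z - α‖ + ‖s • z - β‖)
        = s * (2 * ⟪z, v⟫ + q / s) := by
      have hvab : v = β - α := by simp only [α, β, hv]; abel
      simp only [← sq_sub_sq, mul_comm (‖s • z - α‖ - ‖s • z - β‖), norm_sub_sq_real,
        inner_smul_left, hvab, inner_sub_right, conj_trivial, q]
      field_simp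
      ring
    have hsum : ‖s • z - α‖ + ‖s • z - β‖ ≤ 18 * s := by
      have hsz : ‖s • z‖ ≤ s * 8 := by
        rw [norm_smul, Real.norm_eq_abs, abs_of_pos hs]
        exact mul_le_mul_of_nonneg_left hzA.2 hs.le
      linarith [norm_sub_le (s • z) α, norm_sub_le (s • z) β]
    have hmain : |2 * ⟪z, v⟫ + q / s| ≤ 18 * δ := by
      have := congrArg (fun r => |r|) hid
      simp only [abs_mul, abs_of_pos hs] at this
      have h2 := mul_le_mul hz ((le_of_eq (abs_of_nonneg (show (0:ℝ) ≤ _ by positivity))).trans hsum)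
        (abs_nonneg _) hδ.le
      rw [this, mul_comm δ, mul_assoc, mul_comm s, mul_comm (18:ℝ), mul_comm (_ * δ)] at h2
      by_contra hcon
      rw [not_le] at hcon
      have := mul_lt_mul_of_pos_left hcon hs
      linarith
    have hn0 : n0 ≤ j := (Int.le_zpow_iff_clog_le one_lt_two hD).1 (by exact_mod_cast hj)
    by_cases hcase : j < n0 + J
    · right
      refine mem_iUnion₂.2 ⟨(j - n0).toNat, Finset.mem_range.2 (by omega), hzA.2, ?_⟩
      rw [Int.toNat_of_nonneg (by omega), add_sub_cancel, ← hsd]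
      obtain ⟨m1, m2⟩ := abs_le.1 hmain
      rw [abs_le]
      constructor <;> linarith
    · left
      refine ⟨hzA.2, ?_⟩
      have hbig : (2 : ℝ) ^ J * D ≤ s := by
        calc (2 : ℝ) ^ J * D ≤ (2 : ℝ) ^ J * (2 : ℝ) ^ n0 :=
              mul_le_mul_of_nonneg_left (by exact_mod_cast Int.self_le_zpow_clog one_lt_two D)
                (by positivity)
          _ = (2 : ℝ) ^ (n0 + (J : ℤ)) := by rw [zpow_add₀ two_ne_zero, zpow_natCast]; ring
          _ ≤ s := zpow_le_zpow_right₀ one_le_two (by omega)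
      have hsm : |q / s| ≤ δ := by
        rw [abs_div, abs_of_pos hs, div_le_iff₀ hs]
        calc |q| ≤ 2 * D * h := hq
          _ = δ * (2 * h / δ) * D := by field_simp
          _ ≤ δ * (2 : ℝ) ^ J * D := by gcongr
          _ = δ * ((2 : ℝ) ^ J * D) := by ring
          _ ≤ δ * s := mul_le_mul_of_nonneg_left hbig hδ.le
      obtain ⟨m1, m2⟩ := abs_le.1 hmain
      obtain ⟨m3, m4⟩ := abs_le.1 hsm
      rw [sub_zero, abs_le]
      constructor <;> linarith
  have hlog : (J : ℝ) + 1 ≤ 4 * (1 + Real.log (h / δ)) := by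
    have hr : 1 ≤ h / δ := (one_le_div hδ).2 hh
    have hl := Real.log_nonneg hr
    have hl2 : (1 : ℝ) / 3 < Real.log 2 := by linarith [Real.log_two_gt_d9]
    have e : Real.log (2 * h / δ) = Real.log 2 + Real.log (h / δ) := by
      rw [← Real.log_mul two_ne_zero (by positivity)]; ring_nf
    have hc := (Nat.ceil_lt_add_one (a := Real.log (2 * h / δ) / Real.log 2)
      (div_nonneg (by rw [e]; linarith) (by linarith))).le
    have e2 : Real.log (2 * h / δ) / Real.log 2 = 1 + Real.log (h / δ) / Real.log 2 := by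
      rw [e, add_div, div_self (by linarith)]
    have h3 : Real.log (h / δ) / Real.log 2 ≤ 3 * Real.log (h / δ) := by
      rw [div_le_iff₀ (by linarith)]; nlinarith
    simp only [J] at *
    linarith
  calc annMeas d {z | ∃ j : ℤ, D ≤ (2 : ℝ) ^ j ∧
        |‖a + (2 : ℝ) ^ j • z - y‖ - ‖a + (2 : ℝ) ^ j • z - y'‖| ≤ δ}
      ≤ (volume (Ann d))⁻¹ * volume (S' ∪ ⋃ i ∈ Finset.range J, S i) := by
        rw [annMeas, Measure.smul_apply, Measure.restrict_apply' measurableSet_Ann, smul_eq_mul]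
        exact mul_le_mul_of_nonneg_left (measure_mono hsub) zero_le
    _ ≤ (volume (Ann d))⁻¹ * (B + ∑ _i ∈ Finset.range J, B) := by
        refine mul_le_mul_of_nonneg_left ?_ zero_le
        exact (measure_union_le _ _).trans (add_le_add (hB 0)
          ((measure_biUnion_finset_le _ _).trans (Finset.sum_le_sum fun i _ => hB _)))
    _ ≤ _ := by
        rw [Finset.sum_const, Finset.card_range, nsmul_eq_mul, mul_assoc]
        refine mul_le_mul_of_nonneg_left ?_ zero_le
        rw [← ENNReal.ofReal_natCast J, ← ENNReal.ofReal_mul (Nat.cast_nonneg J),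
          ← ENNReal.ofReal_add (by positivity) (by positivity), ← ENNReal.ofReal_mul (by positivity)]
        refine ENNReal.ofReal_le_ofReal ?_
        calc _ = 16 ^ (d - 1) * 2 * 10 * (δ / h) * ((J : ℝ) + 1) := by ring
          _ ≤ 16 ^ (d - 1) * 2 * 10 * (δ / h) * (4 * (1 + Real.log (h / δ))) :=
            mul_le_mul_of_nonneg_left hlog (by positivity)
          _ = _ := by ring

end

end Vale.Agent.P137.Cen
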